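import Mathlib
import Crest.Prelude.Def_KServer

/-!
R314, block F1: deterministic online policies and Kuhn's theorem (mixed -> behaviour).
-/

set_option autoImplicit false

namespace Crest.Agent.R314

open Crest.LogicCS.KServer

variable {X : Type*} {k : ℕ}

/-- A deterministic online policy: the server used for the last request of the revealed prefix. -/
abbrev DPol (X : Type*) (k : ℕ) := List X → Fin k

/-- The list of (request, server) pairs produced by `d` on the further requests `σ`, after the
requests `pre`. -/
def run (d : DPol X k) : List X → List X → List (X × Fin k)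
  | _, [] => []
  | pre, r :: rest => (r, d (pre ++ [r])) :: run d (pre ++ [r]) rest

@[simp] theorem run_nil (d : DPol X k) (pre : List X) : run d pre [] = [] := rfl

@[simp] theorem run_cons (d : DPol X k) (pre : List X) (r : X) (rest : List X) :
    run d pre (r :: rest) = (r, d (pre ++ [r])) :: run d (pre ++ [r]) rest := rfl

@[simp] theorem run_map_fst (d : DPol X k) (pre σ : List X) :
    (run d pre σ).map Prod.fst = σ := by
  induction σ generalizing pre with
  | nil => rfl
  | cons r rest ih => simp [ih]

@[simp] theorem run_length (d : DPol X k) (pre σ : List X) : (run d pre σ).length = σ.length := by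
  induction σ generalizing pre with
  | nil => rfl
  | cons r rest ih => simp [ih]

theorem run_append (d : DPol X k) (pre σ τ : List X) :
    run d pre (σ ++ τ) = run d pre σ ++ run d (pre ++ σ) τ := by
  induction σ generalizing pre with
  | nil => simp
  | cons r rest ih => simp [ih]

/-- The policy `d` shifted by a prefix. -/
def shift (d : DPol X k) (pre : List X) : DPol X k := fun l => d (pre ++ l)

theorem run_shift (d : DPol X k) (pre pre' σ : List X) :
    run (shift d pre) pre' σ = run d (pre ++ pre') σ := by
  induction σ generalizing pre' with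
  | nil => rfl
  | cons r rest ih => simp [ih, shift]

theorem run_shift_nil (d : DPol X k) (pre σ : List X) :
    run (shift d pre) [] σ = run d pre σ := by
  simpa using run_shift d pre [] σ

/-- choices of servers -/
def choices (d : DPol X k) (pre σ : List X) : List (Fin k) := (run d pre σ).map Prod.snd

@[simp] theorem choices_nil (d : DPol X k) (pre : List X) : choices d pre [] = [] := rfl

@[simp] theorem choices_cons (d : DPol X k) (pre : List X) (r : X) (rest : List X) :
    choices d pre (r :: rest) = d (pre ++ [r]) :: choices d (pre ++ [r]) rest := rfl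

@[simp] theorem choices_length (d : DPol X k) (pre σ : List X) :
    (choices d pre σ).length = σ.length := by simp [choices]

theorem choices_append (d : DPol X k) (pre σ τ : List X) :
    choices d pre (σ ++ τ) = choices d pre σ ++ choices d (pre ++ σ) τ := by
  simp [choices, run_append]

theorem zip_choices (d : DPol X k) (pre σ : List X) :
    σ.zip (choices d pre σ) = run d pre σ := by
  induction σ generalizing pre with
  | nil => rfl
  | cons r rest ih => simp [ih]

section Kuhn

variable {ι : Type*} [Fintype ι]

open Classical in
/-- total weight of the deterministic policies whose choices on `reqs` are `past`. -/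
noncomputable def wt (ν : ι → ℝ) (d : ι → DPol X k) (reqs : List X) (past : List (Fin k)) : ℝ :=
  ∑ i, if choices (d i) [] reqs = past then ν i else 0

theorem wt_nonneg (ν : ι → ℝ) (hν : ∀ i, 0 ≤ ν i) (d : ι → DPol X k) (reqs : List X)
    (past : List (Fin k)) : 0 ≤ wt ν d reqs past := by
  unfold wt
  refine Finset.sum_nonneg fun i _ => ?_
  split_ifs
  · exact hν i
  · exact le_rfl

theorem wt_nil (ν : ι → ℝ) (d : ι → DPol X k) : wt ν d [] [] = ∑ i, ν i := by
  simp [wt]

/-- extension: the weight of a history is the sum of the weights of its one-step extensions. -/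
theorem sum_wt_succ (ν : ι → ℝ) (d : ι → DPol X k) (reqs : List X) (r : X)
    (past : List (Fin k)) (hl : past.length = reqs.length) :
    ∑ i, wt ν d (reqs ++ [r]) (past ++ [i]) = wt ν d reqs past := by
  classical
  unfold wt
  rw [Finset.sum_comm]
  refine Finset.sum_congr rfl fun a _ => ?_
  have key : ∀ i : Fin k, (choices (d a) [] (reqs ++ [r]) = past ++ [i]) ↔
      (choices (d a) [] reqs = past ∧ d a (reqs ++ [r]) = i) := by
    intro i
    rw [choices_append]
    constructor
    · intro h
      have := List.append_inj h (by simp [hl])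
      refine ⟨this.1, ?_⟩
      simpa using this.2
    · rintro ⟨h1, h2⟩
      simp [h1, h2]
  by_cases h : choices (d a) [] reqs = past
  · simp only [key, h, true_and]
    simp
  · simp [key, h]

theorem wt_succ_le (ν : ι → ℝ) (hν : ∀ i, 0 ≤ ν i) (d : ι → DPol X k) (reqs : List X) (r : X)
    (past : List (Fin k)) (hl : past.length = reqs.length) (i : Fin k) :
    wt ν d (reqs ++ [r]) (past ++ [i]) ≤ wt ν d reqs past := by
  rw [← sum_wt_succ ν d reqs r past hl]
  exact Finset.single_le_sum (f := fun i => wt ν d (reqs ++ [r]) (past ++ [i]))
    (fun i _ => wt_nonneg ν hν d _ _) (Finset.mem_univ i)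

open Classical in
/-- Kuhn's behaviour policy. -/
noncomputable def kuhnProb (ν : ι → ℝ) (d : ι → DPol X k) (reqs : List X) (past : List (Fin k))
    (i : Fin k) : ℝ :=
  if past.length + 1 = reqs.length ∧ wt ν d reqs.dropLast past ≠ 0 then
    wt ν d reqs (past ++ [i]) / wt ν d reqs.dropLast past
  else 1 / k

variable [NeZero k]

omit [NeZero k] in
theorem kuhnProb_nonneg (ν : ι → ℝ) (hν : ∀ i, 0 ≤ ν i) (d : ι → DPol X k) (reqs : List X)
    (past : List (Fin k)) (i : Fin k) : 0 ≤ kuhnProb ν d reqs past i := by
  unfold kuhnProb
  split_ifs with h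
  · exact div_nonneg (wt_nonneg ν hν d _ _) (wt_nonneg ν hν d _ _)
  · positivity

theorem kuhnProb_sum (ν : ι → ℝ) (d : ι → DPol X k) (reqs : List X)
    (past : List (Fin k)) : ∑ i, kuhnProb ν d reqs past i = 1 := by
  unfold kuhnProb
  by_cases h : past.length + 1 = reqs.length ∧ wt ν d reqs.dropLast past ≠ 0
  · simp only [if_pos h]
    rw [← Finset.sum_div]
    have hne : reqs ≠ [] := by
      rintro rfl
      simp at h
    have e : reqs = reqs.dropLast ++ [reqs.getLast hne] := (List.dropLast_append_getLast hne).symm
    have hl : past.length = reqs.dropLast.length := by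
      have := h.1
      simp
      omega
    have h2 : ∑ i, wt ν d reqs (past ++ [i]) = wt ν d reqs.dropLast past := by
      conv_lhs => rw [e]
      exact sum_wt_succ ν d _ _ past hl
    rw [h2]
    exact div_self h.2
  · simp only [if_neg h]
    have : (k : ℝ) ≠ 0 := by exact_mod_cast NeZero.ne k
    simp [this]

/-- the behaviour policy attached to a mixed strategy -/
noncomputable def kuhn (ν : ι → ℝ) (hν : ∀ i, 0 ≤ ν i) (d : ι → DPol X k) : Policy X k where
  prob := kuhnProb ν d
  prob_nonneg := kuhnProb_nonneg ν hν d
  prob_sum := kuhnProb_sum ν d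

theorem kuhn_pathProb (ν : ι → ℝ) (hν : ∀ i, 0 ≤ ν i) (d : ι → DPol X k)
    (rest : List (X × Fin k)) :
    ∀ (reqs : List X) (past : List (Fin k)), past.length = reqs.length →
      wt ν d reqs past * pathProb (kuhn ν hν d) reqs past rest =
        wt ν d (reqs ++ rest.map Prod.fst) (past ++ rest.map Prod.snd) := by
  induction rest with
  | nil => intro reqs past _; simp [pathProb]
  | cons a rest ih =>
    obtain ⟨r, i⟩ := a
    intro reqs past hl
    have hl' : (past ++ [i]).length = (reqs ++ [r]).length := by simp [hl]
    have := ih (reqs ++ [r]) (past ++ [i]) hl'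
    simp only [pathProb, List.map_cons]
    have e1 : reqs ++ r :: rest.map Prod.fst = (reqs ++ [r]) ++ rest.map Prod.fst := by simp
    have e2 : past ++ i :: rest.map Prod.snd = (past ++ [i]) ++ rest.map Prod.snd := by simp
    rw [e1, e2, ← this]
    have hp : (kuhn ν hν d).prob (reqs ++ [r]) past i = kuhnProb ν d (reqs ++ [r]) past i := rfl
    rw [hp]
    unfold kuhnProb
    have hdl : (reqs ++ [r]).dropLast = reqs := by simp
    rw [hdl]
    by_cases h0 : wt ν d reqs past = 0
    · have h1 : wt ν d (reqs ++ [r]) (past ++ [i]) = 0 := by
        refine le_antisymm ?_ (wt_nonneg ν hν d _ _)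
        rw [← h0]
        exact wt_succ_le ν hν d reqs r past hl i
      rw [h0, h1]
      ring
    · have hc : past.length + 1 = (reqs ++ [r]).length ∧ wt ν d reqs past ≠ 0 := by
        refine ⟨by simp [hl], h0⟩
      rw [if_pos hc]
      field_simp

theorem kuhn_expCost [MetricSpace X] (ν : ι → ℝ) (hν : ∀ i, 0 ≤ ν i) (h1 : ∑ i, ν i = 1)
    (d : ι → DPol X k) (s : Fin k → X) (σ : List X) :
    expCost (kuhn ν hν d) s σ = ∑ a, ν a * pathCost s (run (d a) [] σ) := by
  classical
  unfold expCost
  have hstep : ∀ j : Fin σ.length → Fin k,
      pathProb (kuhn ν hν d) [] [] (σ.zip (List.ofFn j)) = wt ν d σ (List.ofFn j) := by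
    intro j
    have := kuhn_pathProb ν hν d (σ.zip (List.ofFn j)) [] [] rfl
    rw [wt_nil, h1, one_mul] at this
    rw [this]
    have e1 : (σ.zip (List.ofFn j)).map Prod.fst = σ := by
      rw [List.map_fst_zip]; simp
    have e2 : (σ.zip (List.ofFn j)).map Prod.snd = List.ofFn j := by
      rw [List.map_snd_zip]; simp
    rw [e1, e2]
    simp
  simp only [hstep]
  unfold wt
  simp only [Finset.sum_mul]
  rw [Finset.sum_comm]
  refine Finset.sum_congr rfl fun a _ => ?_
  -- the unique j
  have hlen : (choices (d a) [] σ).length = σ.length := choices_length _ _ _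
  let j0 : Fin σ.length → Fin k := fun t => (choices (d a) [] σ).get (Fin.cast hlen.symm t)
  have hj0 : List.ofFn j0 = choices (d a) [] σ := by
    apply List.ext_get
    · simp
    · intro n h1 h2
      simp [j0]
  rw [Finset.sum_eq_single j0]
  · rw [if_pos hj0.symm, hj0, zip_choices]
  · intro j _ hj
    rw [if_neg, zero_mul]
    intro h
    apply hj
    rw [← hj0] at h
    exact (List.ofFn_injective h).symm
  · intro h
    exact absurd (Finset.mem_univ _) h

end Kuhn

end Crest.Agent.R314
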