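import Mathlib
import Crest.Agent.R314.Frame1

/-!
R314, block F2: minimax (finite zero-sum game) for online policies.
-/

set_option autoImplicit false

namespace Crest.Agent.R314

open Crest.LogicCS.KServer

/-- Finite minimax, one-sided form: if every mixture `w` of the rows has a pure column `d` with
nonpositive payoff, then some mixture of columns has nonpositive payoff in every row. -/
theorem exists_mix {Q : Type*} [Fintype Q] {D : Type*} [Nonempty D] (v : D → Q → ℝ)
    (hfin : (Set.range v).Finite)
    (H : ∀ w : Q → ℝ, (∀ q, 0 ≤ w q) → ∑ q, w q = 1 → ∃ d, ∑ q, w q * v d q ≤ 0) :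
    ∃ (ι : Type) (_ : Fintype ι) (ν : ι → ℝ) (d : ι → D), (∀ i, 0 ≤ ν i) ∧ ∑ i, ν i = 1 ∧
      ∀ q, ∑ i, ν i * v (d i) q ≤ 0 := by
  classical
  let K : Set (Q → ℝ) := convexHull ℝ (Set.range v)
  let C : Set (Q → ℝ) := {x | ∀ q, x q ≤ 0}
  have hKc : Convex ℝ K := convex_convexHull ℝ _
  have hKcomp : IsCompact K := hfin.isCompact_convexHull ℝ
  have hCconv : Convex ℝ C := by
    intro x hx y hy a b ha hb _ q
    have h1 := hx q
    have h2 := hy q
    simp only [Pi.add_apply, Pi.smul_apply, smul_eq_mul]
    nlinarith [mul_nonpos_of_nonneg_of_nonpos ha h1, mul_nonpos_of_nonneg_of_nonpos hb h2]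
  have hCclosed : IsClosed C := by
    have : C = ⋂ q, {x : Q → ℝ | x q ≤ 0} := by
      ext x; simp [C]
    rw [this]
    exact isClosed_iInter fun q => isClosed_le (continuous_apply q) continuous_const
  by_cases hdisj : Disjoint K C
  · exfalso
    obtain ⟨f, u, t, hK, hut, hC⟩ :=
      geometric_hahn_banach_compact_closed hKc hKcomp hCconv hCclosed hdisj
    -- coefficients
    let c : Q → ℝ := fun q => f (Pi.single q 1)
    have hf : ∀ x : Q → ℝ, f x = ∑ q, x q * c q := by
      intro x
      have hx : x = ∑ q, x q • (Pi.single q (1 : ℝ) : Q → ℝ) := by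
        ext p
        simp [Finset.sum_apply, Pi.single_apply]
      conv_lhs => rw [hx]
      simp [map_sum, c]
    have h0 : t < 0 := by
      have := hC 0 (by intro q; simp)
      simpa using this
    have hc : ∀ q, c q ≤ 0 := by
      intro q
      by_contra hq
      push Not at hq
      -- take b = -(−t / c q + 1) e_q
      have hpos : 0 < (-t) / c q + 1 := by
        have : 0 < (-t) / c q := div_pos (by linarith) hq
        linarith
      have := hC (-(((-t) / c q + 1)) • (Pi.single q (1 : ℝ) : Q → ℝ)) (by
        intro p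
        simp only [Pi.smul_apply, smul_eq_mul, Pi.single_apply]
        split_ifs
        · linarith
        · simp)
      rw [map_smul, smul_eq_mul] at this
      change t < -((-t) / c q + 1) * c q at this
      have h3 : -((-t) / c q + 1) * c q = t - c q := by
        field_simp
        ring
      rw [h3] at this
      linarith
    obtain ⟨d0⟩ := (inferInstance : Nonempty D)
    let S : ℝ := ∑ q, -(c q)
    have hS0 : 0 ≤ S := Finset.sum_nonneg fun q _ => by have := hc q; linarith
    have hS : 0 < S := by
      rcases hS0.lt_or_eq with h | h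
      · exact h
      · exfalso
        have hz : ∀ q ∈ Finset.univ, -(c q) = 0 :=
          (Finset.sum_eq_zero_iff_of_nonneg (fun q _ => by have := hc q; linarith)).1 h.symm
        have h1 := hK (v d0) (subset_convexHull ℝ _ ⟨d0, rfl⟩)
        rw [hf] at h1
        have h2 : ∑ q, v d0 q * c q = 0 := by
          refine Finset.sum_eq_zero fun q hq => ?_
          have := hz q hq
          have : c q = 0 := by linarith
          rw [this]; ring
        rw [h2] at h1
        linarith
    obtain ⟨d, hd⟩ := H (fun q => -(c q) / S)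
      (fun q => div_nonneg (by have := hc q; linarith) hS.le)
      (by rw [← Finset.sum_div]; exact div_self hS.ne')
    have h1 := hK (v d) (subset_convexHull ℝ _ ⟨d, rfl⟩)
    rw [hf] at h1
    have h2 : ∑ q, -(c q) / S * v d q = -(∑ q, v d q * c q) / S := by
      rw [← Finset.sum_neg_distrib, Finset.sum_div]
      refine Finset.sum_congr rfl fun q _ => ?_
      ring
    rw [h2] at hd
    have h3 : 0 < -(∑ q, v d q * c q) / S := div_pos (by linarith) hS
    linarith
  · rw [Set.not_disjoint_iff] at hdisj
    obtain ⟨x, hxK, hxC⟩ := hdisj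
    obtain ⟨ι, inst, w, z, hw0, hw1, hz, hx⟩ := mem_convexHull_iff_exists_fintype.1 hxK
    choose d hd using hz
    refine ⟨ι, inst, w, d, hw0, hw1, fun q => ?_⟩
    have := hxC q
    rw [← hx] at this
    simpa [Finset.sum_apply, hd] using this

variable {X : Type*} [MetricSpace X] {k : ℕ}

/-- cost of a deterministic policy -/
noncomputable def dcost (d : DPol X k) (s : Fin k → X) (σ : List X) : ℝ :=
  pathCost s (run d [] σ)

theorem dcost_finite_range (s : Fin k → X) (Q : Finset (List (X × Fin k))) (R B : ℝ) :
    (Set.range fun (d : DPol X k) (q : Q) =>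
      dcost d s (q.1.map Prod.fst) - R * pathCost s q.1 - B).Finite := by
  classical
  -- factor through the choices
  let g : (Q → List (Fin k)) → (Q → ℝ) := fun c q =>
    pathCost s ((q.1.map Prod.fst).zip (c q)) - R * pathCost s q.1 - B
  have hfin : {f : Q → List (Fin k) | ∀ q : Q, f q ∈
      {l : List (Fin k) | l.length = q.1.length}}.Finite :=
    Set.Finite.pi' fun q : Q => List.finite_length_eq (Fin k) q.1.length
  refine (hfin.image g).subset ?_
  rintro _ ⟨d, rfl⟩
  refine ⟨fun q => choices d [] (q.1.map Prod.fst), ?_, ?_⟩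
  · intro q
    simp
  · funext q
    simp only [g, dcost, zip_choices]

/-- **Minimax for `k`-server.** -/
theorem exists_policy_of_bayes [NeZero k] (s : Fin k → X) (R B : ℝ)
    (Q : Finset (List (X × Fin k)))
    (H : ∀ w : List (X × Fin k) → ℝ, (∀ q, 0 ≤ w q) → ∑ q ∈ Q, w q = 1 →
      ∃ d : DPol X k, ∑ q ∈ Q, w q * dcost d s (q.map Prod.fst) ≤
        R * ∑ q ∈ Q, w q * pathCost s q + B) :
    ∃ A : Policy X k, ∀ q ∈ Q, expCost A s (q.map Prod.fst) ≤ R * pathCost s q + B := by
  classical
  let v : DPol X k → Q → ℝ := fun d q => dcost d s (q.1.map Prod.fst) - R * pathCost s q.1 - B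
  have hne : Nonempty (DPol X k) := ⟨fun _ => 0⟩
  obtain ⟨ι, inst, ν, d, hν0, hν1, hv⟩ := exists_mix v (dcost_finite_range s Q R B) (by
    intro w hw0 hw1
    obtain ⟨d, hd⟩ := H (fun q => if h : q ∈ Q then w ⟨q, h⟩ else 0)
      (by intro q; split_ifs with h; exacts [hw0 _, le_rfl])
      (by
        rw [← Finset.sum_attach, ← hw1]
        exact Finset.sum_congr rfl fun q _ => by simp)
    refine ⟨d, ?_⟩
    have e1 : ∑ q ∈ Q, (if h : q ∈ Q then w ⟨q, h⟩ else 0) * dcost d s (q.map Prod.fst)
        = ∑ q : Q, w q * dcost d s (q.1.map Prod.fst) := by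
      rw [← Finset.sum_attach]
      exact Finset.sum_congr rfl fun q _ => by simp
    have e2 : ∑ q ∈ Q, (if h : q ∈ Q then w ⟨q, h⟩ else 0) * pathCost s q
        = ∑ q : Q, w q * pathCost s q.1 := by
      rw [← Finset.sum_attach]
      exact Finset.sum_congr rfl fun q _ => by simp
    rw [e1, e2] at hd
    have e3 : ∑ q : Q, w q * v d q = ∑ q : Q, w q * dcost d s (q.1.map Prod.fst)
        - R * ∑ q : Q, w q * pathCost s q.1 - B := by
      simp only [v]
      have : B = ∑ q : Q, w q * B := by rw [← Finset.sum_mul, hw1, one_mul]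
      conv_rhs => rw [this]
      rw [Finset.mul_sum, ← Finset.sum_sub_distrib, ← Finset.sum_sub_distrib]
      exact Finset.sum_congr rfl fun q _ => by ring
    rw [e3]
    linarith)
  refine ⟨kuhn ν hν0 d, fun q hq => ?_⟩
  rw [kuhn_expCost ν hν0 hν1]
  have := hv ⟨q, hq⟩
  simp only [v] at this
  have e : ∑ i, ν i * (dcost (d i) s (q.map Prod.fst) - R * pathCost s q - B)
      = ∑ i, ν i * pathCost s (run (d i) [] (q.map Prod.fst)) - (R * pathCost s q + B) := by
    have : R * pathCost s q + B = ∑ i, ν i * (R * pathCost s q + B) := by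
      rw [← Finset.sum_mul, hν1, one_mul]
    conv_rhs => rw [this]
    rw [← Finset.sum_sub_distrib]
    exact Finset.sum_congr rfl fun i _ => by simp only [dcost]; ring
  rw [e] at this
  linarith

end Crest.Agent.R314
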