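import Mathlib
import Crest.Agent.R314.Frame2

/-!
R314, block F3: compactness of the space of behaviour policies.
-/

set_option autoImplicit false

namespace Crest.Agent.R314

open Crest.LogicCS.KServer

variable {X : Type*} {k : ℕ}

/-- `pathProb` for an arbitrary function. -/
def pp (f : List X → List (Fin k) → Fin k → ℝ) : List X → List (Fin k) → List (X × Fin k) → ℝ
  | _, _, [] => 1
  | reqs, past, (r, i) :: rest =>
      f (reqs ++ [r]) past i * pp f (reqs ++ [r]) (past ++ [i]) rest

theorem pathProb_eq_pp (A : Policy X k) (rest : List (X × Fin k)) :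
    ∀ reqs past, pathProb A reqs past rest = pp A.prob reqs past rest := by
  induction rest with
  | nil => intro _ _; rfl
  | cons a rest ih => intro reqs past; obtain ⟨r, i⟩ := a; simp [pathProb, pp, ih]

theorem continuous_pp (rest : List (X × Fin k)) :
    ∀ reqs past, Continuous fun f : List X → List (Fin k) → Fin k → ℝ => pp f reqs past rest := by
  induction rest with
  | nil => intro _ _; exact continuous_const
  | cons a rest ih =>
    intro reqs past
    obtain ⟨r, i⟩ := a
    simp only [pp]
    refine Continuous.mul ?_ (ih _ _)
    exact (continuous_apply i).comp ((continuous_apply past).comp (continuous_apply (reqs ++ [r])))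

variable [MetricSpace X]

/-- **Compactness**: a policy good against every finite set of comparator paths gives a policy
good against all comparator paths. -/
theorem exists_policy_of_finite (s : Fin k → X) (g : List (X × Fin k) → ℝ)
    (H : ∀ Q : Finset (List (X × Fin k)), ∃ A : Policy X k, ∀ q ∈ Q,
      expCost A s (q.map Prod.fst) ≤ g q) :
    ∃ A : Policy X k, ∀ q : List (X × Fin k), expCost A s (q.map Prod.fst) ≤ g q := by
  classical
  let P : Set (List X → List (Fin k) → Fin k → ℝ) :=
    Set.pi Set.univ fun _ => Set.pi Set.univ fun _ => stdSimplex ℝ (Fin k)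
  have hP : IsCompact P := isCompact_univ_pi fun _ => isCompact_univ_pi fun _ =>
    isCompact_stdSimplex ℝ (Fin k)
  let F : List X → (List X → List (Fin k) → Fin k → ℝ) → ℝ := fun σ f =>
    ∑ j : Fin σ.length → Fin k,
      pp f [] [] (σ.zip (List.ofFn j)) * pathCost s (σ.zip (List.ofFn j))
  have hF : ∀ σ, Continuous (F σ) := by
    intro σ
    exact continuous_finsetSum _ fun j _ => (continuous_pp _ _ _).mul continuous_const
  have hFA : ∀ (A : Policy X k) σ, F σ A.prob = expCost A s σ := by
    intro A σ
    simp only [F, expCost, pathProb_eq_pp]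
  obtain ⟨f, hfP, hf⟩ := hP.inter_iInter_nonempty
    (fun q : List (X × Fin k) => {f | F (q.map Prod.fst) f ≤ g q})
    (fun q => isClosed_le (hF _) continuous_const) (by
      intro Q
      obtain ⟨A, hA⟩ := H Q
      refine ⟨A.prob, ?_, ?_⟩
      · intro reqs _ past _
        exact ⟨A.prob_nonneg reqs past, A.prob_sum reqs past⟩
      · simp only [Set.mem_iInter]
        intro q hq
        change F _ _ ≤ _
        rw [hFA]
        exact hA q hq)
  have hs : ∀ reqs past, f reqs past ∈ stdSimplex ℝ (Fin k) := fun reqs past =>
    hfP reqs (Set.mem_univ _) past (Set.mem_univ _)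
  let A : Policy X k :=
    { prob := f
      prob_nonneg := fun reqs past => (hs reqs past).1
      prob_sum := fun reqs past => (hs reqs past).2 }
  refine ⟨A, fun q => ?_⟩
  have := Set.mem_iInter.1 hf q
  rw [← hFA A]
  exact this

end Crest.Agent.R314
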