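import Mathlib
import Crest.Agent.R314.Frame3

/-!
R314, block F4: configurations, path costs, and the "return to start" trick which removes the
additive constant at the price of a factor 2 in the ratio.
-/

set_option autoImplicit false
set_option linter.unusedSectionVars false

namespace Crest.Agent.R314

open Crest.LogicCS.KServer

variable {X : Type*} [MetricSpace X] {k : ℕ}

/-- final configuration of a path -/
def endConf : (Fin k → X) → List (X × Fin k) → (Fin k → X)
  | c, [] => c
  | c, (r, i) :: rest => endConf (Function.update c i r) rest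

@[simp] theorem endConf_nil (c : Fin k → X) : endConf c [] = c := rfl
@[simp] theorem endConf_cons (c : Fin k → X) (a : X × Fin k) (rest : List (X × Fin k)) :
    endConf c (a :: rest) = endConf (Function.update c a.2 a.1) rest := rfl
@[simp] theorem pathCost_nil (c : Fin k → X) : pathCost c [] = 0 := rfl
@[simp] theorem pathCost_cons (c : Fin k → X) (a : X × Fin k) (rest : List (X × Fin k)) :
    pathCost c (a :: rest) = dist (c a.2) a.1 + pathCost (Function.update c a.2 a.1) rest := rfl

theorem endConf_append (p q : List (X × Fin k)) : ∀ c : Fin k → X,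
    endConf c (p ++ q) = endConf (endConf c p) q := by
  induction p with
  | nil => intro c; rfl
  | cons a p ih => intro c; simp [ih]

theorem pathCost_append (p q : List (X × Fin k)) : ∀ c : Fin k → X,
    pathCost c (p ++ q) = pathCost c p + pathCost (endConf c p) q := by
  induction p with
  | nil => intro c; simp
  | cons a p ih => intro c; simp [ih]; ring

theorem pathCost_nonneg (p : List (X × Fin k)) : ∀ c : Fin k → X, 0 ≤ pathCost c p := by
  induction p with
  | nil => intro c; simp
  | cons a p ih => intro c; simp only [pathCost_cons]; have := ih (Function.update c a.2 a.1)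
                   positivity

/-- labelled distance of two configurations -/
noncomputable def cdist (c c' : Fin k → X) : ℝ := ∑ i, dist (c i) (c' i)

theorem cdist_nonneg (c c' : Fin k → X) : 0 ≤ cdist c c' :=
  Finset.sum_nonneg fun _ _ => dist_nonneg

theorem cdist_self (c : Fin k → X) : cdist c c = 0 := by simp [cdist]

theorem cdist_comm (c c' : Fin k → X) : cdist c c' = cdist c' c := by
  simp [cdist, dist_comm]

theorem cdist_triangle (a b c : Fin k → X) : cdist a c ≤ cdist a b + cdist b c := by
  unfold cdist
  rw [← Finset.sum_add_distrib]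
  exact Finset.sum_le_sum fun i _ => dist_triangle _ _ _

theorem cdist_update_update (c c' : Fin k → X) (i : Fin k) (r : X) :
    cdist (Function.update c i r) (Function.update c' i r) + dist (c i) (c' i) = cdist c c' := by
  classical
  unfold cdist
  rw [← Finset.add_sum_erase _ _ (Finset.mem_univ i)]
  rw [← Finset.add_sum_erase (a := i) Finset.univ (fun j => dist (c j) (c' j)) (Finset.mem_univ i)]
  have : ∑ x ∈ Finset.univ.erase i, dist (Function.update c i r x) (Function.update c' i r x)
      = ∑ x ∈ Finset.univ.erase i, dist (c x) (c' x) := by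
    refine Finset.sum_congr rfl fun x hx => ?_
    have hx : x ≠ i := (Finset.mem_erase.1 hx).1
    simp [Function.update_of_ne hx]
  rw [this]
  simp

theorem cdist_update_self (c : Fin k → X) (i : Fin k) (r : X) :
    cdist c (Function.update c i r) = dist (c i) r := by
  classical
  unfold cdist
  rw [Finset.sum_eq_single i]
  · simp
  · intro j _ hj
    simp [Function.update_of_ne hj]
  · simp

/-- changing the start configuration -/
theorem pathCost_start_le (p : List (X × Fin k)) : ∀ c c' : Fin k → X,
    pathCost c p + cdist (endConf c p) (endConf c' p) ≤ pathCost c' p + cdist c c' := by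
  induction p with
  | nil => intro c c'; simp
  | cons a p ih =>
    intro c c'
    simp only [pathCost_cons, endConf_cons]
    have h1 := ih (Function.update c a.2 a.1) (Function.update c' a.2 a.1)
    have h2 := cdist_update_update c c' a.2 a.1
    have h3 : dist (c a.2) a.1 ≤ dist (c a.2) (c' a.2) + dist (c' a.2) a.1 := dist_triangle _ _ _
    linarith

theorem pathCost_le_start (p : List (X × Fin k)) (c c' : Fin k → X) :
    pathCost c p ≤ pathCost c' p + cdist c c' := by
  have := pathCost_start_le p c c'
  have := cdist_nonneg (endConf c p) (endConf c' p)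
  linarith

/-- displacement is at most the cost -/
theorem cdist_endConf_le (p : List (X × Fin k)) : ∀ c : Fin k → X,
    cdist c (endConf c p) ≤ pathCost c p := by
  induction p with
  | nil => intro c; simp [cdist_self]
  | cons a p ih =>
    intro c
    simp only [pathCost_cons, endConf_cons]
    have h1 := ih (Function.update c a.2 a.1)
    have h2 := cdist_triangle c (Function.update c a.2 a.1) (endConf (Function.update c a.2 a.1) p)
    rw [cdist_update_self] at h2
    linarith

/-- relabelling the servers -/
theorem pathCost_perm (π : Equiv.Perm (Fin k)) (p : List (X × Fin k)) : ∀ c : Fin k → X,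
    pathCost (c ∘ π) (p.map fun a => (a.1, π.symm a.2)) = pathCost c p := by
  induction p with
  | nil => intro c; simp
  | cons a p ih =>
    intro c
    simp only [List.map_cons, pathCost_cons, Function.comp_apply, Equiv.apply_symm_apply]
    rw [← ih (Function.update c a.2 a.1)]
    congr 2
    funext j
    simp only [Function.comp_apply]
    by_cases h : j = π.symm a.2
    · subst h; simp
    · rw [Function.update_of_ne h, Function.update_of_ne]
      · rfl
      · intro h'
        apply h
        rw [← h']
        simp

theorem run_perm (π : Equiv.Perm (Fin k)) (d : DPol X k) (σ : List X) : ∀ pre : List X,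
    run (fun l => π.symm (d l)) pre σ = (run d pre σ).map fun a => (a.1, π.symm a.2) := by
  induction σ with
  | nil => intro pre; rfl
  | cons r σ ih => intro pre; simp [ih]

/-- matching distance to `s` -/
noncomputable def mdist (s c : Fin k → X) : ℝ :=
  Finset.univ.inf' (Finset.univ_nonempty (α := Equiv.Perm (Fin k))) fun π => cdist s (c ∘ π)

theorem mdist_nonneg (s c : Fin k → X) : 0 ≤ mdist s c := by
  unfold mdist
  refine Finset.le_inf' _ _ ?_
  intro π _
  exact cdist_nonneg _ _

theorem mdist_le (s c : Fin k → X) (π : Equiv.Perm (Fin k)) : mdist s c ≤ cdist s (c ∘ π) :=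
  Finset.inf'_le _ (Finset.mem_univ π)

theorem exists_mdist (s c : Fin k → X) : ∃ π : Equiv.Perm (Fin k), mdist s c = cdist s (c ∘ π) := by
  obtain ⟨π, _, h⟩ := Finset.exists_mem_eq_inf' (Finset.univ_nonempty (α := Equiv.Perm (Fin k)))
    fun π : Equiv.Perm (Fin k) => cdist s (c ∘ π)
  exact ⟨π, h⟩

theorem mdist_self (s : Fin k → X) : mdist s s = 0 := by
  refine le_antisymm ?_ (mdist_nonneg _ _)
  have := mdist_le s s 1
  simpa [cdist_self] using this

theorem mdist_le_add (s c c' : Fin k → X) : mdist s c' ≤ mdist s c + cdist c c' := by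
  obtain ⟨π, h⟩ := exists_mdist s c
  have h1 := mdist_le s c' π
  have h2 := cdist_triangle s (c ∘ π) (c' ∘ π)
  have h3 : cdist (c ∘ π) (c' ∘ π) = cdist c c' := by
    unfold cdist
    exact Equiv.sum_comp π fun i => dist (c i) (c' i)
  linarith

/-- the cycle of requests at the start configuration, served by the own server -/
def cyc (s : Fin k → X) : List (X × Fin k) := List.ofFn fun j => (s j, j)

/-- `N` cycles -/
def cycN (s : Fin k → X) : ℕ → List (X × Fin k)
  | 0 => []
  | N + 1 => cyc s ++ cycN s N

theorem endConf_eq_of_forall (p : List (X × Fin k)) : ∀ (c s : Fin k → X),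
    (∀ a ∈ p, a.1 = s a.2) → (∀ j, c j = s j ∨ (s j, j) ∈ p) → endConf c p = s := by
  induction p with
  | nil =>
    intro c s _ h
    funext j
    rcases h j with h | h
    · exact h
    · simp at h
  | cons a p ih =>
    intro c s h1 h2
    simp only [endConf_cons]
    refine ih _ _ (fun b hb => h1 b (List.mem_cons_of_mem _ hb)) fun j => ?_
    by_cases hj : j = a.2
    · left
      subst hj
      simp [h1 a (List.mem_cons_self)]
    · rcases h2 j with h | h
      · left; rw [Function.update_of_ne hj]; exact h
      · rcases List.mem_cons.1 h with h | h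
        · exfalso; apply hj; rw [← h]
        · right; exact h

theorem mem_cyc (s : Fin k → X) (a : X × Fin k) : a ∈ cyc s ↔ a.1 = s a.2 := by
  unfold cyc
  rw [List.mem_ofFn]
  constructor
  · rintro ⟨j, rfl⟩; rfl
  · intro h; exact ⟨a.2, by rw [← h]⟩

theorem endConf_cyc (s c : Fin k → X) : endConf c (cyc s) = s :=
  endConf_eq_of_forall _ _ _ (fun a ha => (mem_cyc s a).1 ha)
    (fun j => Or.inr ((mem_cyc s (s j, j)).2 rfl))

theorem pathCost_eq_zero_of_forall (p : List (X × Fin k)) (s : Fin k → X)
    (h : ∀ a ∈ p, a.1 = s a.2) : pathCost s p = 0 ∧ endConf s p = s := by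
  induction p with
  | nil => simp
  | cons a p ih =>
    have h1 := ih fun b hb => h b (List.mem_cons_of_mem _ hb)
    have h2 : a.1 = s a.2 := h a List.mem_cons_self
    have h3 : Function.update s a.2 a.1 = s := by rw [h2]; simp
    simp only [pathCost_cons, endConf_cons, h3, h1]
    simp [h2]

theorem mem_cycN (s : Fin k → X) (N : ℕ) (a : X × Fin k) (h : a ∈ cycN s N) : a.1 = s a.2 := by
  induction N with
  | zero => simp [cycN] at h
  | succ N ih =>
    simp only [cycN, List.mem_append] at h
    rcases h with h | h
    · exact (mem_cyc s a).1 h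
    · exact ih h

/-- serving the cycle from `c`, each point by its own server, costs at most the distance -/
theorem pathCost_cycN_le (s c : Fin k → X) (N : ℕ) : pathCost c (cycN s N) ≤ cdist c s := by
  have h := pathCost_le_start (cycN s N) c s
  rw [(pathCost_eq_zero_of_forall _ s (mem_cycN s N)).1] at h
  linarith

theorem endConf_cycN_succ (s c : Fin k → X) (N : ℕ) : endConf c (cycN s (N + 1)) = s := by
  simp only [cycN, endConf_append, endConf_cyc]
  exact (pathCost_eq_zero_of_forall _ s (mem_cycN s N)).2

/-- all entries of a configuration / list are in `F` -/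
def InF (F : Finset X) (c : Fin k → X) : Prop := ∀ i, c i ∈ F

theorem InF.update {F : Finset X} {c : Fin k → X} (hc : InF F c) (i : Fin k) {r : X} (hr : r ∈ F) :
    InF F (Function.update c i r) := by
  intro j
  by_cases h : j = i
  · subst h; simpa using hr
  · rw [Function.update_of_ne h]; exact hc j

theorem InF.endConf {F : Finset X} (p : List (X × Fin k)) : ∀ {c : Fin k → X}, InF F c →
    (∀ a ∈ p, a.1 ∈ F) → InF F (endConf c p) := by
  induction p with
  | nil => intro c hc _; exact hc
  | cons a p ih =>
    intro c hc h
    exact ih (hc.update a.2 (h a List.mem_cons_self)) fun b hb => h b (List.mem_cons_of_mem _ hb)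

theorem exists_min_dist (F : Finset X) : ∃ ε : ℝ, 0 < ε ∧ ∀ x ∈ F, ∀ y ∈ F, x ≠ y → ε ≤ dist x y := by
  classical
  let G : Finset (X × X) := (F ×ˢ F).filter fun p => p.1 ≠ p.2
  by_cases hG : G.Nonempty
  · refine ⟨G.inf' hG fun p => dist p.1 p.2, ?_, ?_⟩
    · rw [Finset.lt_inf'_iff]
      intro p hp
      exact dist_pos.2 (Finset.mem_filter.1 hp).2
    · intro x hx y hy hxy
      exact Finset.inf'_le (s := G) (f := fun p : X × X => dist p.1 p.2) (b := (x, y))
        (Finset.mem_filter.2 ⟨Finset.mk_mem_product hx hy, hxy⟩)
  · refine ⟨1, one_pos, fun x hx y hy hxy => ?_⟩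
    exact absurd ⟨(x, y), Finset.mem_filter.2 ⟨Finset.mk_mem_product hx hy, hxy⟩⟩ hG

theorem exists_max_dist (F : Finset X) : ∃ Δ : ℝ, 0 ≤ Δ ∧ ∀ x ∈ F, ∀ y ∈ F, dist x y ≤ Δ := by
  classical
  refine ⟨∑ p ∈ F ×ˢ F, dist p.1 p.2, Finset.sum_nonneg fun _ _ => dist_nonneg, ?_⟩
  intro x hx y hy
  exact Finset.single_le_sum (f := fun p : X × X => dist p.1 p.2) (fun _ _ => dist_nonneg)
    (Finset.mk_mem_product hx hy)

/-- a path all of whose steps are free does not move anything and only visits occupied points -/
theorem free_path {F : Finset X} {ε : ℝ} (hε : ∀ x ∈ F, ∀ y ∈ F, x ≠ y → ε ≤ dist x y)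
    (p : List (X × Fin k)) : ∀ c : Fin k → X, InF F c → (∀ a ∈ p, a.1 ∈ F) → pathCost c p < ε →
      endConf c p = c ∧ ∀ a ∈ p, a.1 = c a.2 := by
  induction p with
  | nil => intro c _ _ _; simp
  | cons a p ih =>
    intro c hc hp hlt
    simp only [pathCost_cons] at hlt
    have h0 := pathCost_nonneg p (Function.update c a.2 a.1)
    have h1 : c a.2 = a.1 := by
      by_contra hne
      have := hε _ (hc a.2) _ (hp a List.mem_cons_self) hne
      linarith
    have h2 : Function.update c a.2 a.1 = c := by rw [← h1]; simp
    rw [h2] at hlt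
    have h3 := ih c hc (fun b hb => hp b (List.mem_cons_of_mem _ hb)) (by
      have := dist_nonneg (x := c a.2) (y := a.1)
      linarith)
    simp only [endConf_cons, h2]
    refine ⟨h3.1, fun b hb => ?_⟩
    rcases List.mem_cons.1 hb with h | h
    · rw [h]; exact h1.symm
    · exact h3.2 b h

theorem mdist_eq_zero_of_cover {s c : Fin k → X} (hs : Function.Injective s)
    (h : ∀ j, ∃ i, c i = s j) : mdist s c = 0 := by
  choose f hf using h
  have hinj : Function.Injective f := by
    intro i j hij
    apply hs
    rw [← hf i, ← hf j, hij]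
  let π : Equiv.Perm (Fin k) := Equiv.ofBijective f (Finite.injective_iff_bijective.1 hinj)
  refine le_antisymm ?_ (mdist_nonneg _ _)
  have h1 := mdist_le s c π
  have h2 : c ∘ π = s := by
    funext j
    simp [π, hf]
  rw [h2, cdist_self] at h1
  exact h1

/-- Phase lemma: serving `N` cycles costs at least `min (mdist s c') (N * ε)`. -/
theorem phase {F : Finset X} {ε : ℝ} (hε0 : 0 ≤ ε)
    (hε : ∀ x ∈ F, ∀ y ∈ F, x ≠ y → ε ≤ dist x y)
    {s : Fin k → X} (hs : Function.Injective s) (hsF : InF F s) (N : ℕ) :
    ∀ (c : Fin k → X) (p : List (X × Fin k)), InF F c →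
      p.map Prod.fst = (cycN s N).map Prod.fst →
      min (mdist s (endConf c p)) (N * ε) ≤ pathCost c p := by
  induction N with
  | zero =>
    intro c p _ hp
    simp [cycN] at hp
    subst hp
    simp [mdist_nonneg]
  | succ N ih =>
    intro c p hc hp
    -- split `p`
    obtain ⟨p1, p2, rfl, h1, h2⟩ : ∃ p1 p2, p = p1 ++ p2 ∧ p1.map Prod.fst = (cyc s).map Prod.fst ∧
        p2.map Prod.fst = (cycN s N).map Prod.fst := by
      simp only [cycN, List.map_append] at hp
      obtain ⟨p1, p2, e, h1, h2⟩ := List.map_eq_append_iff.1 hp
      exact ⟨p1, p2, e, h1, h2⟩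
    have hp1 : ∀ a ∈ p1, a.1 ∈ F := by
      intro a ha
      have : a.1 ∈ (cyc s).map Prod.fst := h1 ▸ List.mem_map_of_mem ha
      obtain ⟨b, hb, hb'⟩ := List.mem_map.1 this
      rw [← hb', (mem_cyc s b).1 hb]
      exact hsF _
    rw [endConf_append, pathCost_append]
    have hc1 : InF F (endConf c p1) := hc.endConf p1 hp1
    rcases lt_or_ge (pathCost c p1) ε with hlt | hge
    · obtain ⟨e1, e2⟩ := free_path hε p1 c hc hp1 hlt
      have hz : mdist s c = 0 := by
        refine mdist_eq_zero_of_cover hs fun j => ?_
        have : s j ∈ p1.map Prod.fst := by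
          rw [h1]
          exact List.mem_map.2 ⟨(s j, j), (mem_cyc s _).2 rfl, rfl⟩
        obtain ⟨a, ha, ha'⟩ := List.mem_map.1 this
        exact ⟨a.2, by rw [← e2 a ha, ha']⟩
      rw [e1]
      have h3 := mdist_le_add s c (endConf c p2)
      have h4 := cdist_endConf_le p2 c
      have h5 := pathCost_nonneg p1 c
      have h6 := min_le_left (mdist s (endConf c p2)) ((N + 1 : ℕ) * ε)
      linarith
    · have h3 := ih (endConf c p1) p2 hc1 h2
      rcases le_total (mdist s (endConf (endConf c p1) p2)) (N * ε) with h | h
      · rw [min_eq_left h] at h3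
        have h6 := min_le_left (mdist s (endConf (endConf c p1) p2)) ((N + 1 : ℕ) * ε)
        have h5 := pathCost_nonneg p1 c
        linarith
      · rw [min_eq_right h] at h3
        have h6 := min_le_right (mdist s (endConf (endConf c p1) p2)) ((N + 1 : ℕ) * ε)
        refine h6.trans ?_
        push_cast
        rw [add_mul]
        linarith

end Crest.Agent.R314
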