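import Mathlib
import Crest.Agent.R314.Frame4

/-!
R314, block F5: `BayesOn` and the removal of the additive constant (factor 2).
-/

set_option autoImplicit false

namespace Crest.Agent.R314

open Crest.LogicCS.KServer

variable {X : Type*} [MetricSpace X] {k : ℕ}

/-- Bayes property with ratio `R` and a horizon-independent additive constant `B`, for requests
in the finite set `F`: for every finitely supported law on comparator paths there is a
deterministic online policy (`dcost`) whose expected cost is at most
`R * (expected comparator cost) + B`. -/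
def BayesOn (s : Fin k → X) (R B : ℝ) (F : Finset X) : Prop :=
  ∀ (ι : Type) [Fintype ι] (p : ι → ℝ) (q : ι → List (X × Fin k)),
    (∀ i, 0 ≤ p i) → ∑ i, p i = 1 → (∀ i, ∀ a ∈ q i, a.1 ∈ F) →
      ∃ d : DPol X k, ∑ i, p i * dcost d s ((q i).map Prod.fst) ≤
        R * ∑ i, p i * pathCost s (q i) + B

/-- the expected cost has a minimiser over the deterministic policies -/
theorem exists_min_policy [NeZero k] {ι : Type} [Fintype ι] (p : ι → ℝ) (σ : ι → List X)
    (s : Fin k → X) : ∃ d : DPol X k, ∀ d' : DPol X k,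
      ∑ i, p i * dcost d s (σ i) ≤ ∑ i, p i * dcost d' s (σ i) := by
  classical
  let f : DPol X k → ℝ := fun d => ∑ i, p i * dcost d s (σ i)
  have hfin : (Set.range f).Finite := by
    let g : (ι → List (Fin k)) → ℝ := fun c => ∑ i, p i * pathCost s ((σ i).zip (c i))
    have h1 : {c : ι → List (Fin k) | ∀ i, c i ∈
        {l : List (Fin k) | l.length = (σ i).length}}.Finite :=
      Set.Finite.pi' fun i => List.finite_length_eq (Fin k) (σ i).length
    refine (h1.image g).subset ?_
    rintro _ ⟨d, rfl⟩
    refine ⟨fun i => choices d [] (σ i), fun i => by simp, ?_⟩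
    simp only [g, f, dcost, zip_choices]
  have hne : (Set.range f).Nonempty := ⟨f fun _ => 0, ⟨_, rfl⟩⟩
  obtain ⟨x, hx, hmin⟩ := hfin.exists_minimal hne
  obtain ⟨d, rfl⟩ := hx
  refine ⟨d, fun d' => ?_⟩
  by_contra h
  push Not at h
  have := hmin ⟨d', rfl⟩ h.le
  exact absurd (lt_of_lt_of_le h this) (lt_irrefl _)

theorem cost_ge_sub_mdist {ι : Type} [Fintype ι] (p : ι → ℝ) (hp : ∀ i, 0 ≤ p i)
    (hp1 : ∑ i, p i = 1) (σ : ι → List X) (s : Fin k → X) (v : ℝ)
    (hv : ∀ d : DPol X k, v ≤ ∑ i, p i * dcost d s (σ i)) (c : Fin k → X) (d : DPol X k) :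
    v - mdist s c ≤ ∑ i, p i * pathCost c (run d [] (σ i)) := by
  obtain ⟨π, hπ⟩ := exists_mdist s c
  have h1 := hv fun l => π.symm (d l)
  have h2 : ∀ i, dcost (fun l => π.symm (d l)) s (σ i) ≤
      pathCost c (run d [] (σ i)) + mdist s c := by
    intro i
    unfold dcost
    rw [run_perm, hπ]
    refine (pathCost_le_start _ s (c ∘ π)).trans ?_
    rw [pathCost_perm]
  have h3 : ∑ i, p i * dcost (fun l => π.symm (d l)) s (σ i) ≤
      ∑ i, (p i * pathCost c (run d [] (σ i)) + p i * mdist s c) := by
    refine Finset.sum_le_sum fun i _ => ?_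
    rw [← mul_add]
    exact mul_le_mul_of_nonneg_left (h2 i) (hp i)
  rw [Finset.sum_add_distrib, ← Finset.sum_mul, hp1, one_mul] at h3
  linarith

theorem run_map_fst_mem {F : Finset X} (d : DPol X k) (pre σ : List X) (h : ∀ x ∈ σ, x ∈ F) :
    ∀ a ∈ run d pre σ, a.1 ∈ F := by
  intro a ha
  apply h
  rw [← run_map_fst d pre σ]
  exact List.mem_map_of_mem ha

/-- the `M`-fold repetition of the game -/
theorem amplify {ι : Type} [Fintype ι] (p : ι → ℝ) (hp : ∀ i, 0 ≤ p i) (hp1 : ∑ i, p i = 1)
    (q : ι → List (X × Fin k)) {F : Finset X} (hq : ∀ i, ∀ a ∈ q i, a.1 ∈ F) {s : Fin k → X}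
    (hs : Function.Injective s) (hsF : InF F s) (v : ℝ)
    (hv : ∀ d : DPol X k, v ≤ ∑ i, p i * dcost d s ((q i).map Prod.fst)) (M : ℕ) :
    ∃ (κ : Type) (_ : Fintype κ) (P : κ → ℝ) (Q : κ → List (X × Fin k)),
      (∀ i, 0 ≤ P i) ∧ ∑ i, P i = 1 ∧ (∀ i, ∀ a ∈ Q i, a.1 ∈ F) ∧
      (∑ i, P i * pathCost s (Q i) ≤ 2 * M * ∑ i, p i * pathCost s (q i)) ∧
      ∀ (d : DPol X k) (c : Fin k → X), InF F c →
        M * v - mdist s c ≤ ∑ i, P i * pathCost c (run d [] ((Q i).map Prod.fst)) := by
  obtain ⟨ε, hε0, hε⟩ := exists_min_dist F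
  obtain ⟨Δ, hΔ0, hΔ⟩ := exists_max_dist F
  obtain ⟨N, hN⟩ : ∃ N : ℕ, (k : ℝ) * Δ ≤ (N + 1 : ℕ) * ε := by
    obtain ⟨N, hN⟩ := exists_nat_ge ((k : ℝ) * Δ / ε)
    refine ⟨N, ?_⟩
    rw [div_le_iff₀ hε0] at hN
    push_cast
    nlinarith
  have hmd : ∀ c : Fin k → X, InF F c → mdist s c ≤ (N + 1 : ℕ) * ε := by
    intro c hc
    refine le_trans ?_ hN
    have h1 := mdist_le s c 1
    refine h1.trans ?_
    unfold cdist
    refine (Finset.sum_le_sum (g := fun _ => Δ) fun i _ => hΔ _ (hsF i) _ (hc _)).trans ?_
    simp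
  induction M with
  | zero =>
    refine ⟨Unit, inferInstance, fun _ => 1, fun _ => [], by simp, by simp, by simp, by simp, ?_⟩
    intro d c _
    simpa using mdist_nonneg s c
  | succ M ih =>
    obtain ⟨κ, inst, P, Q, hP0, hP1, hQF, hQc, hQd⟩ := ih
    refine ⟨ι × κ, inferInstance, fun x => p x.1 * P x.2,
      fun x => (q x.1 ++ cycN s (N + 1)) ++ Q x.2, ?_, ?_, ?_, ?_, ?_⟩
    · intro x
      exact mul_nonneg (hp _) (hP0 _)
    · rw [Fintype.sum_prod_type]
      simp [← Finset.mul_sum, hP1, hp1]
    · rintro ⟨i, j⟩ a ha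
      simp only [List.mem_append] at ha
      rcases ha with (ha | ha) | ha
      · exact hq i a ha
      · rw [mem_cycN s _ a ha]; exact hsF _
      · exact hQF j a ha
    · have h1 : ∀ x : ι × κ, p x.1 * P x.2 * pathCost s ((q x.1 ++ cycN s (N + 1)) ++ Q x.2) ≤
          P x.2 * (2 * (p x.1 * pathCost s (q x.1))) + p x.1 * (P x.2 * pathCost s (Q x.2)) := by
        intro x
        rw [pathCost_append, endConf_append, endConf_cycN_succ, pathCost_append]
        have h2 := pathCost_cycN_le s (endConf s (q x.1)) (N + 1)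
        have h3 := cdist_endConf_le (q x.1) s
        rw [cdist_comm] at h3
        have h4 : 0 ≤ p x.1 * P x.2 := mul_nonneg (hp _) (hP0 _)
        nlinarith
      refine (Finset.sum_le_sum fun x _ => h1 x).trans ?_
      rw [Finset.sum_add_distrib, Fintype.sum_prod_type, Fintype.sum_prod_type]
      simp only [← Finset.mul_sum, ← Finset.sum_mul, hP1, hp1, one_mul]
      push_cast
      linarith
    · intro d c hc
      rw [Fintype.sum_prod_type]
      -- block of the first round
      let blk : ι → List X := fun i => (q i ++ cycN s (N + 1)).map Prod.fst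
      let c' : ι → (Fin k → X) := fun i => endConf c (run d [] (blk i))
      have hblkF : ∀ i, ∀ x ∈ blk i, x ∈ F := by
        intro i x hx
        obtain ⟨a, ha, rfl⟩ := List.mem_map.1 hx
        rcases List.mem_append.1 ha with ha | ha
        · exact hq i a ha
        · rw [mem_cycN s _ a ha]; exact hsF _
      have hc' : ∀ i, InF F (c' i) := fun i =>
        hc.endConf _ (run_map_fst_mem d [] (blk i) (hblkF i))
      have hsum : ∀ i, p i * (pathCost c (run d [] (blk i)) + (M * v - mdist s (c' i))) ≤
          ∑ j, p i * P j * pathCost c (run d [] (((q i ++ cycN s (N + 1)) ++ Q j).map Prod.fst)) := by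
        intro i
        have h1 := hQd (shift d (blk i)) (c' i) (hc' i)
        have h2 : ∀ j, p i * P j *
            pathCost c (run d [] (((q i ++ cycN s (N + 1)) ++ Q j).map Prod.fst)) =
            p i * (P j * pathCost c (run d [] (blk i))) +
            p i * (P j * pathCost (c' i) (run (shift d (blk i)) [] ((Q j).map Prod.fst))) := by
          intro j
          rw [List.map_append (f := Prod.fst) (l₁ := q i ++ cycN s (N + 1)), run_append,
            pathCost_append, run_shift]
          simp only [List.append_nil, List.nil_append]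
          change p i * P j * (pathCost c (run d [] (blk i)) +
            pathCost (c' i) (run d (blk i) ((Q j).map Prod.fst))) = _
          ring
        simp only [h2]
        rw [Finset.sum_add_distrib, ← Finset.mul_sum, ← Finset.mul_sum, ← Finset.sum_mul, hP1,
          one_mul, ← mul_add]
        exact mul_le_mul_of_nonneg_left (by linarith) (hp i)
      refine le_trans ?_ (Finset.sum_le_sum fun i _ => hsum i)
      -- one block
      have hblock : ∀ i, p i * pathCost c (run d [] ((q i).map Prod.fst)) + p i * (M * v) ≤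
          p i * (pathCost c (run d [] (blk i)) + (M * v - mdist s (c' i))) := by
        intro i
        rw [← mul_add]
        refine mul_le_mul_of_nonneg_left ?_ (hp i)
        have e1 : run d [] (blk i) = run d [] ((q i).map Prod.fst) ++
            run d ((q i).map Prod.fst) ((cycN s (N + 1)).map Prod.fst) := by
          simp only [blk, List.map_append, run_append, List.nil_append]
        have h0 : InF F (endConf c (run d [] ((q i).map Prod.fst))) :=
          hc.endConf _ (run_map_fst_mem d [] _ (by
            intro x hx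
            obtain ⟨a, ha, rfl⟩ := List.mem_map.1 hx
            exact hq i a ha))
        have h1 := phase hε0.le hε hs hsF (N + 1) (endConf c (run d [] ((q i).map Prod.fst)))
          (run d ((q i).map Prod.fst) ((cycN s (N + 1)).map Prod.fst)) h0 (by simp)
        have e2 : c' i = endConf (endConf c (run d [] ((q i).map Prod.fst)))
          (run d ((q i).map Prod.fst) ((cycN s (N + 1)).map Prod.fst)) := by
          simp only [c', e1, endConf_append]
        rw [← e2, min_eq_left (hmd _ (hc' i))] at h1
        rw [e1, pathCost_append]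
        linarith
      refine le_trans ?_ (Finset.sum_le_sum fun i _ => hblock i)
      rw [Finset.sum_add_distrib, ← Finset.sum_mul, hp1, one_mul]
      have := cost_ge_sub_mdist p hp hp1 (fun i => (q i).map Prod.fst) s v hv c d
      push_cast
      linarith

/-- **Removal of the additive constant** at the price of a factor 2. -/
theorem BayesOn.double [NeZero k] {s : Fin k → X} (hs : Function.Injective s) {F : Finset X}
    (hsF : InF F s) {R B : ℝ} (hR : 0 ≤ R) (h : BayesOn s R B F) : BayesOn s (2 * R) 0 F := by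
  intro ι inst p q hp hp1 hq
  by_contra hcon
  push Not at hcon
  obtain ⟨d0, hd0⟩ := exists_min_policy p (fun i => (q i).map Prod.fst) s
  set v := ∑ i, p i * dcost d0 s ((q i).map Prod.fst) with hv
  set P0 := ∑ i, p i * pathCost s (q i) with hP0
  have hgap : 2 * R * P0 < v := by
    have := hcon d0
    simpa using this
  obtain ⟨M, hM⟩ := exists_nat_gt (B / (v - 2 * R * P0))
  have hgap' : 0 < v - 2 * R * P0 := by linarith
  rw [div_lt_iff₀ hgap'] at hM
  obtain ⟨κ, inst', P, Q, hP0', hP1', hQF, hQc, hQd⟩ := amplify p hp hp1 q hq hs hsF v hd0 M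
  obtain ⟨d, hd⟩ := h κ P Q hP0' hP1' hQF
  have h1 := hQd d s hsF
  rw [mdist_self] at h1
  have h2 : R * ∑ i, P i * pathCost s (Q i) ≤ R * (2 * M * P0) :=
    mul_le_mul_of_nonneg_left hQc hR
  unfold dcost at hd
  nlinarith

end Crest.Agent.R314
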