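import Mathlib

/-!
R314, Theorem A, part 1: work functions in the token model.

Tokens: `Sum.inl i` are the `k` initial tokens, `Sum.inr t` is the token created by request number `t`.
`m t a` is the price of moving a server from token `a` to the new token `inr t` at step `t`.
`UR m t x c`: the (labelled) configuration `x` can be reached after `t` steps at total price `c`,
up to relabelling of the servers.
-/

set_option autoImplicit false

namespace Crest.Agent.R314.Tk

open Function

/-- Tokens. -/
abbrev Tok (k : ℕ) := Fin k ⊕ ℕ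

variable {k : ℕ}

/-- Reachability (up to relabelling) with total price. -/
inductive UR (m : ℕ → Tok k → ℝ) : ℕ → (Fin k → Tok k) → ℝ → Prop
  | zero (σ : Equiv.Perm (Fin k)) : UR m 0 (fun i => Sum.inl (σ i)) 0
  | step {t : ℕ} {x : Fin k → Tok k} {c : ℝ} (i : Fin k) :
      UR m t x c → UR m (t + 1) (update x i (Sum.inr t)) (c + m t (x i))

theorem UR.perm {m : ℕ → Tok k → ℝ} {t : ℕ} {x : Fin k → Tok k} {c : ℝ} (h : UR m t x c)
    (σ : Equiv.Perm (Fin k)) : UR m t (fun i => x (σ i)) c := by
  induction h generalizing σ with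
  | zero τ => exact UR.zero (σ.trans τ)
  | @step t x c i hx ih =>
    have h1 := UR.step (σ.symm i) (ih σ)
    have h2 : update (fun j => x (σ j)) (σ.symm i) (Sum.inr t) =
        fun j => update x i (Sum.inr t : Tok k) (σ j) := by
      funext j
      by_cases hj : σ j = i
      · have : j = σ.symm i := by rw [← hj]; simp
        rw [this]; simp
      · have : j ≠ σ.symm i := by
          rintro rfl; exact hj (by simp)
        rw [update_of_ne this, update_of_ne hj]
    have h3 : c + m t (x (σ (σ.symm i))) = c + m t (x i) := by simp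
    simp only [Equiv.apply_symm_apply] at h1
    rw [h2] at h1
    exact h1

theorem UR.start {m : ℕ → Tok k → ℝ} : UR m 0 Sum.inl 0 := UR.zero (Equiv.refl _)

/-- Inversion at time `0`. -/
theorem UR.zero_inv {m : ℕ → Tok k → ℝ} {x : Fin k → Tok k} {c : ℝ} (h : UR m 0 x c) :
    (∃ σ : Equiv.Perm (Fin k), x = fun i => Sum.inl (σ i)) ∧ c = 0 := by
  cases h with
  | zero σ => exact ⟨⟨σ, rfl⟩, rfl⟩

/-- Inversion at a positive time. -/
theorem UR.succ_inv {m : ℕ → Tok k → ℝ} {t : ℕ} {x : Fin k → Tok k} {c : ℝ}
    (h : UR m (t + 1) x c) :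
    ∃ (y : Fin k → Tok k) (d : ℝ) (i : Fin k), UR m t y d ∧ x = update y i (Sum.inr t) ∧
      c = d + m t (y i) := by
  cases h with
  | step i hy => exact ⟨_, _, i, hy, rfl, rfl⟩

/-- The strong exchange property (Koutsoupias-Papadimitriou quasi-convexity). -/
theorem UR.exchange (m : ℕ → Tok k → ℝ) (t : ℕ) :
    ∀ (x y : Fin k → Tok k) (c d : ℝ), UR m t x c → UR m t y d →
      ∃ σ : Equiv.Perm (Fin k), ∀ P : Finset (Fin k), ∃ c' d' : ℝ,
        UR m t (fun l => if l ∈ P then x l else y (σ l)) c' ∧
        UR m t (fun l => if l ∈ P then y (σ l) else x l) d' ∧ c' + d' ≤ c + d := by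
  induction t with
  | zero =>
    intro x y c d hx hy
    obtain ⟨⟨σ, rfl⟩, rfl⟩ := hx.zero_inv
    obtain ⟨⟨τ, rfl⟩, rfl⟩ := hy.zero_inv
    refine ⟨σ.trans τ.symm, fun P => ⟨0, 0, ?_, ?_, le_rfl⟩⟩
    · convert UR.zero (m := m) σ using 2 with l
      simp
    · convert UR.zero (m := m) σ using 2 with l
      simp
  | succ t ih =>
    intro x y c d hx hy
    obtain ⟨x0, c0, i, hx0, rfl, rfl⟩ := hx.succ_inv
    obtain ⟨y1, d0, j1, hy1, rfl, rfl⟩ := hy.succ_inv
    obtain ⟨σ, hσ⟩ := ih x0 y1 c0 d0 hx0 hy1
    -- relabel `y`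
    set y0 : Fin k → Tok k := fun l => y1 (σ l) with hy0
    set j : Fin k := σ.symm j1 with hj
    have hσj : σ j = j1 := by simp [hj]
    have hyj : ∀ l, update y1 j1 (Sum.inr t : Tok k) (σ l) = update y0 j (Sum.inr t) l := by
      intro l
      by_cases hl : l = j
      · rw [hl, hσj]; simp
      · have : σ l ≠ j1 := by
          intro h; exact hl (σ.injective (by rw [h, hσj]))
        rw [update_of_ne this, update_of_ne hl]
    have hmj : y1 j1 = y0 j := by rw [hy0]; simp only; rw [hσj]
    rw [hmj]
    by_cases hij : i = j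
    · -- aligned case
      refine ⟨σ, fun P => ?_⟩
      simp only [hyj]
      obtain ⟨c', d', h1, h2, h3⟩ := hσ P
      have e1 : (fun l => if l ∈ P then update x0 i (Sum.inr t : Tok k) l
          else update y0 j (Sum.inr t) l) =
          update (fun l => if l ∈ P then x0 l else y0 l) i (Sum.inr t) := by
        funext l
        by_cases hl : l = i
        · subst hl; simp [← hij]
        · rw [update_of_ne hl, update_of_ne hl, update_of_ne (hij ▸ hl)]
      have e2 : (fun l => if l ∈ P then update y0 j (Sum.inr t : Tok k) l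
          else update x0 i (Sum.inr t) l) =
          update (fun l => if l ∈ P then y0 l else x0 l) i (Sum.inr t) := by
        funext l
        by_cases hl : l = i
        · subst hl; simp [← hij]
        · rw [update_of_ne hl, update_of_ne hl, update_of_ne (hij ▸ hl)]
      rw [e1, e2]
      refine ⟨_, _, UR.step i h1, UR.step i h2, ?_⟩
      rw [← hij]
      by_cases hP : i ∈ P
      · simp only [hP, if_true]; linarith
      · simp only [hP, if_false]; linarith
    · -- crossed case
      refine ⟨(Equiv.swap i j).trans σ, fun P => ?_⟩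
      have hyl : ∀ l, update y1 j1 (Sum.inr t : Tok k) (((Equiv.swap i j).trans σ) l) =
          update y0 j (Sum.inr t) (Equiv.swap i j l) := fun l => hyj _
      simp only [hyl]
      by_cases hP : j ∈ P
      · obtain ⟨c', d', h1, h2, h3⟩ := hσ (insert i P)
        have g1 := UR.step i h1
        have g2 := (UR.step j h2).perm (Equiv.swap i j)
        refine ⟨c' + m t (x0 i), d' + m t (y0 j), ?_, ?_, ?_⟩
        · convert g1 using 1
          · funext l
            by_cases hl : l = i
            · subst hl
              simp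
            · rw [update_of_ne hl, update_of_ne hl]
              by_cases hl' : l = j
              · subst hl'
                simp [hP]
              · rw [Equiv.swap_apply_of_ne_of_ne hl hl', update_of_ne hl']
                simp [hl, hy0]
          · simp
        · convert g2 using 1
          · funext l
            by_cases hl : l = i
            · subst hl
              simp
            · by_cases hl' : l = j
              · subst hl'
                simp [hP, update_of_ne hij, hy0]
              · rw [Equiv.swap_apply_of_ne_of_ne hl hl', update_of_ne hl', update_of_ne hl,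
                  update_of_ne hl']
                simp [hl, hy0]
          · simp [hP, hy0]
        · linarith
      · obtain ⟨c', d', h1, h2, h3⟩ := hσ (P.erase i)
        have g1 := (UR.step j h1).perm (Equiv.swap i j)
        have g2 := UR.step i h2
        refine ⟨c' + m t (y0 j), d' + m t (x0 i), ?_, ?_, ?_⟩
        · convert g1 using 1
          · funext l
            by_cases hl : l = i
            · subst hl
              simp
            · by_cases hl' : l = j
              · subst hl'
                simp [hP, update_of_ne hij, hy0]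
              · rw [Equiv.swap_apply_of_ne_of_ne hl hl', update_of_ne hl', update_of_ne hl,
                  update_of_ne hl']
                simp [hl, hy0]
          · simp [hP, hy0]
        · convert g2 using 1
          · funext l
            by_cases hl : l = i
            · subst hl
              simp
            · rw [update_of_ne hl, update_of_ne hl]
              by_cases hl' : l = j
              · subst hl'
                simp [hP]
              · rw [Equiv.swap_apply_of_ne_of_ne hl hl', update_of_ne hl']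
                simp [hl, hy0]
          · simp
        · linarith

/-- Finitely many reachable pairs. -/
theorem UR.finite (m : ℕ → Tok k → ℝ) (t : ℕ) :
    {q : (Fin k → Tok k) × ℝ | UR m t q.1 q.2}.Finite := by
  induction t with
  | zero =>
    refine (Set.finite_range fun σ : Equiv.Perm (Fin k) =>
      ((fun i => Sum.inl (σ i) : Fin k → Tok k), (0 : ℝ))).subset ?_
    rintro ⟨x, c⟩ h
    obtain ⟨⟨σ, hσ⟩, hc⟩ := UR.zero_inv h
    exact ⟨σ, by simp only at hσ hc; simp [hσ, hc]⟩
  | succ t ih =>
    refine ((ih.prod (Set.finite_univ (α := Fin k))).image fun q =>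
      (update q.1.1 q.2 (Sum.inr t : Tok k), q.1.2 + m t (q.1.1 q.2))).subset ?_
    rintro ⟨x, c⟩ h
    obtain ⟨y, d, i, hy, hx, hc⟩ := UR.succ_inv h
    exact ⟨((y, d), i), ⟨hy, Set.mem_univ _⟩, by simp only at hx hc; simp [hx, hc]⟩

/-- The minimal total price after `t` steps. -/
noncomputable def G (m : ℕ → Tok k → ℝ) (t : ℕ) : ℝ := sInf {c : ℝ | ∃ x, UR m t x c}

theorem UR.exists_some [NeZero k] (m : ℕ → Tok k → ℝ) (t : ℕ) : ∃ x c, UR m t x c := by
  induction t with
  | zero => exact ⟨_, _, UR.start⟩
  | succ t ih =>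
    obtain ⟨x, c, h⟩ := ih
    exact ⟨_, _, UR.step 0 h⟩

theorem finite_costs (m : ℕ → Tok k → ℝ) (t : ℕ) : {c : ℝ | ∃ x, UR m t x c}.Finite := by
  refine ((UR.finite m t).image Prod.snd).subset ?_
  rintro c ⟨x, h⟩
  exact ⟨(x, c), h, rfl⟩

theorem G_le {m : ℕ → Tok k → ℝ} {t : ℕ} {x : Fin k → Tok k} {c : ℝ} (h : UR m t x c) :
    G m t ≤ c :=
  csInf_le (finite_costs m t).bddBelow ⟨x, h⟩

theorem exists_opt [NeZero k] (m : ℕ → Tok k → ℝ) (t : ℕ) : ∃ x, UR m t x (G m t) := by
  have hne : {c : ℝ | ∃ x, UR m t x c}.Nonempty := by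
    obtain ⟨x, c, h⟩ := UR.exists_some m t
    exact ⟨c, x, h⟩
  exact hne.csInf_mem (finite_costs m t)

theorem G_zero (m : ℕ → Tok k → ℝ) : G m 0 = 0 := by
  have : {c : ℝ | ∃ x, UR m 0 x c} = {0} := by
    ext c
    constructor
    · rintro ⟨x, h⟩; exact h.zero_inv.2
    · rintro rfl; exact ⟨_, UR.start⟩
  rw [G, this, csInf_singleton]

/-- One lazy move suffices. -/
theorem opt_step [NeZero k] {m : ℕ → Tok k → ℝ} {t : ℕ} {x : Fin k → Tok k}
    (hx : UR m t x (G m t)) :
    ∃ i, UR m (t + 1) (update x i (Sum.inr t)) (G m (t + 1)) := by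
  obtain ⟨z, hz⟩ := exists_opt m (t + 1)
  obtain ⟨y, d, j, hy, hzy, hG⟩ := hz.succ_inv
  obtain ⟨σ, hσ⟩ := UR.exchange m t x y _ _ hx hy
  set i : Fin k := σ.symm j with hi
  have hσi : σ i = j := by simp [hi]
  obtain ⟨c', d', h1, h2, h3⟩ := hσ {i}
  have h4 : G m t ≤ c' := G_le h1
  have h5 : d' ≤ d := by linarith
  have h6 := UR.step i h2
  have e : update (fun l => if l ∈ ({i} : Finset (Fin k)) then y (σ l) else x l) i
      (Sum.inr t : Tok k) = update x i (Sum.inr t) := by
    funext l
    by_cases hl : l = i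
    · subst hl; simp
    · rw [update_of_ne hl, update_of_ne hl]; simp [hl]
  rw [e] at h6
  simp only [Finset.mem_singleton, if_true, hσi] at h6
  have h7 : d' + m t (y j) = G m (t + 1) := by
    apply le_antisymm
    · rw [hG]; linarith
    · exact G_le h6
  rw [h7] at h6
  exact ⟨i, h6⟩

theorem G_mono_step [NeZero k] {m : ℕ → Tok k → ℝ} {t : ℕ} (hm : ∀ a, 0 ≤ m t a) :
    G m t ≤ G m (t + 1) := by
  obtain ⟨z, hz⟩ := exists_opt m (t + 1)
  obtain ⟨y, d, j, hy, hzy, hG⟩ := hz.succ_inv
  rw [hG]
  have := G_le hy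
  have := hm (y j)
  linarith

/-- The price of a (comparator) path: servers `j 0, j 1, ...` used at steps `0, 1, ...`. -/
def cpos (j : ℕ → Fin k) : ℕ → Fin k → Tok k
  | 0 => Sum.inl
  | t + 1 => update (cpos j t) (j t) (Sum.inr t)

theorem UR.cpos (m : ℕ → Tok k → ℝ) (j : ℕ → Fin k) (t : ℕ) :
    UR m t (cpos j t) (∑ s ∈ Finset.range t, m s (Tk.cpos j s (j s))) := by
  induction t with
  | zero => exact UR.start
  | succ t ih =>
    rw [Finset.sum_range_succ]
    exact UR.step (j t) ih

theorem G_le_path (m : ℕ → Tok k → ℝ) (j : ℕ → Fin k) (t : ℕ) :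
    G m t ≤ ∑ s ∈ Finset.range t, m s (cpos j s (j s)) :=
  G_le (UR.cpos m j t)

/-- The follow-the-leader algorithm. -/
noncomputable def pos [NeZero k] (m : ℕ → Tok k → ℝ) : ℕ → Fin k → Tok k
  | 0 => Sum.inl
  | t + 1 => open Classical in
      update (pos m t)
        (if h : ∃ i, UR m (t + 1) (update (pos m t) i (Sum.inr t)) (G m (t + 1)) then h.choose
          else 0) (Sum.inr t)

/-- The server used by the algorithm. -/
noncomputable def srv [NeZero k] (m : ℕ → Tok k → ℝ) (t : ℕ) : Fin k :=
  open Classical in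
  if h : ∃ i, UR m (t + 1) (update (pos m t) i (Sum.inr t)) (G m (t + 1)) then h.choose else 0

theorem pos_succ [NeZero k] (m : ℕ → Tok k → ℝ) (t : ℕ) :
    pos m (t + 1) = update (pos m t) (srv m t) (Sum.inr t) := rfl

theorem pos_opt [NeZero k] (m : ℕ → Tok k → ℝ) (t : ℕ) : UR m t (pos m t) (G m t) := by
  induction t with
  | zero => rw [G_zero]; exact UR.start
  | succ t ih =>
    have h := opt_step ih
    rw [pos_succ, srv, dif_pos h]
    exact h.choose_spec

theorem pos_eq_cpos [NeZero k] (m : ℕ → Tok k → ℝ) (t : ℕ) : pos m t = cpos (srv m) t := by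
  induction t with
  | zero => rfl
  | succ t ih => rw [pos_succ, ih]; rfl

/-- Reachability only depends on the past prices. -/
theorem UR.congr {m m' : ℕ → Tok k → ℝ} {t : ℕ} {x : Fin k → Tok k} {c : ℝ} (h : UR m t x c)
    (hm : ∀ s < t, m s = m' s) : UR m' t x c := by
  induction h with
  | zero σ => exact UR.zero σ
  | @step t x c i hx ih =>
    rw [hm t (Nat.lt_succ_self t)]
    exact UR.step i (ih fun s hs => hm s (hs.trans (Nat.lt_succ_self t)))

theorem UR.congr_eq {m m' : ℕ → Tok k → ℝ} {t : ℕ} (hm : ∀ s < t, m s = m' s) :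
    UR m t = UR m' t := by
  funext x c
  exact propext ⟨fun h => h.congr hm, fun h => h.congr fun s hs => (hm s hs).symm⟩

theorem G_congr {m m' : ℕ → Tok k → ℝ} {t : ℕ} (hm : ∀ s < t, m s = m' s) : G m t = G m' t := by
  rw [G, G, UR.congr_eq hm]

theorem pos_congr [NeZero k] {m m' : ℕ → Tok k → ℝ} {t : ℕ} (hm : ∀ s < t, m s = m' s) :
    pos m t = pos m' t := by
  induction t with
  | zero => rfl
  | succ t ih =>
    have h1 := ih fun s hs => hm s (hs.trans (Nat.lt_succ_self t))
    simp only [pos]
    rw [h1, UR.congr_eq hm, G_congr hm]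

theorem srv_congr [NeZero k] {m m' : ℕ → Tok k → ℝ} {t : ℕ} (hm : ∀ s ≤ t, m s = m' s) :
    srv m t = srv m' t := by
  have h1 : pos m t = pos m' t := pos_congr fun s hs => hm s hs.le
  have h2 : ∀ s < t + 1, m s = m' s := fun s hs => hm s (Nat.lt_succ_iff.1 hs)
  simp only [srv]
  rw [h1, UR.congr_eq h2, G_congr h2]

end Crest.Agent.R314.Tk
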