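import Mathlib

/-!
R314, Theorem A, part 2: the discrete noise law on the grid `0, 1, ..., K-1` (in units `h/K`):
truncated geometric with ratio `exp (-η/K)` and total weight `1 - exp (-η/2)`, plus uniform with
total weight `exp (-η/2)`.
-/

set_option autoImplicit false

namespace Crest.Agent.R314.Tk

open Finset

/-- The coefficient of the geometric part. -/
noncomputable def alph (η : ℝ) (K : ℕ) : ℝ :=
  (1 - Real.exp (-η / 2)) * (1 - Real.exp (-η / K)) / (1 - Real.exp (-η))

/-- The noise law. -/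
noncomputable def prb (η : ℝ) (K : ℕ) (j : ℕ) : ℝ :=
  alph η K * Real.exp (-η / K) ^ j + Real.exp (-η / 2) / K

theorem exp_half_le {η : ℝ} (hη : 8 ≤ η) : 2 * Real.exp 1 * η * Real.exp (-η / 2) ≤ 1 := by
  -- exp (η/2 - 1) ≥ 2 η
  have h1 : Real.exp 3 * (η / 2 - 3) ≤ Real.exp (η / 2 - 1) := by
    have : Real.exp (η / 2 - 1) = Real.exp 3 * Real.exp (η / 2 - 4) := by
      rw [← Real.exp_add]; congr 1; ring
    rw [this]
    have h := Real.add_one_le_exp (η / 2 - 4)
    have h3 : 0 < Real.exp 3 := Real.exp_pos 3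
    nlinarith
  have h2 : (20 : ℝ) ≤ Real.exp 3 := by
    have : Real.exp 3 = Real.exp 1 ^ 3 := by
      rw [← Real.exp_nat_mul]; norm_num
    rw [this]
    have h := Real.exp_one_gt_d9
    have h' : (2.718 : ℝ) ≤ Real.exp 1 := by linarith
    calc (20 : ℝ) ≤ 2.718 ^ 3 := by norm_num
      _ ≤ Real.exp 1 ^ 3 := by gcongr
  have h3 : 2 * η ≤ Real.exp (η / 2 - 1) := by nlinarith
  have h4 : Real.exp 1 * Real.exp (-η / 2) * Real.exp (η / 2 - 1) = 1 := by
    rw [← Real.exp_add, ← Real.exp_add]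
    convert Real.exp_zero using 2; ring
  have h5 : 0 < Real.exp 1 * Real.exp (-η / 2) := by positivity
  calc 2 * Real.exp 1 * η * Real.exp (-η / 2) = (Real.exp 1 * Real.exp (-η / 2)) * (2 * η) := by ring
    _ ≤ (Real.exp 1 * Real.exp (-η / 2)) * Real.exp (η / 2 - 1) := by gcongr
    _ = 1 := h4

theorem exp_half_le' {η : ℝ} (hη : 8 ≤ η) : Real.exp (-η / 2) ≤ 1 / 32 := by
  have h := exp_half_le hη
  have h1 : (2 : ℝ) ≤ Real.exp 1 := by
    have := Real.add_one_le_exp (1 : ℝ); linarith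
  have h2 : 0 < Real.exp (-η / 2) := Real.exp_pos _
  have h3 : 4 * 8 ≤ 2 * Real.exp 1 * η := by nlinarith
  have h4 : 4 * 8 * Real.exp (-η / 2) ≤ 2 * Real.exp 1 * η * Real.exp (-η / 2) := by gcongr
  linarith

theorem exp_neg_le_half {η : ℝ} (hη : 8 ≤ η) : Real.exp (-η) ≤ 1 / 2 := by
  have h := exp_half_le' hη
  have : Real.exp (-η) = Real.exp (-η / 2) * Real.exp (-η / 2) := by
    rw [← Real.exp_add]; congr 1; ring
  rw [this]
  have h2 : 0 < Real.exp (-η / 2) := Real.exp_pos _
  nlinarith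

section
variable {η : ℝ} {K : ℕ}

theorem alph_nonneg (hη : 8 ≤ η) (hK : 0 < K) : 0 ≤ alph η K := by
  have h1 := exp_half_le' hη
  have h2 := exp_neg_le_half hη
  have h3 : Real.exp (-η / K) ≤ 1 := Real.exp_le_one_iff.2 (by
    have : (0 : ℝ) < K := by exact_mod_cast hK
    rw [div_nonpos_iff]; right; constructor <;> linarith)
  unfold alph
  apply div_nonneg
  · apply mul_nonneg <;> linarith
  · linarith

theorem alph_le (hη : 8 ≤ η) (hK : 0 < K) : alph η K ≤ 2 * (1 - Real.exp (-η / K)) := by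
  have h0 : 0 < Real.exp (-η / 2) := Real.exp_pos _
  have h2 := exp_neg_le_half hη
  have h3 : Real.exp (-η / K) ≤ 1 := Real.exp_le_one_iff.2 (by
    have : (0 : ℝ) < K := by exact_mod_cast hK
    rw [div_nonpos_iff]; right; constructor <;> linarith)
  unfold alph
  rw [div_le_iff₀ (by linarith)]
  have : (1 - Real.exp (-η / 2)) * (1 - Real.exp (-η / K)) ≤ 1 * (1 - Real.exp (-η / K)) := by
    apply mul_le_mul_of_nonneg_right <;> linarith
  nlinarith

theorem one_sub_exp_le (K : ℕ) (η : ℝ) : 1 - Real.exp (-η / K) ≤ η / K := by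
  have := Real.add_one_le_exp (-η / K)
  have h : -η / K = -(η / K) := by ring
  rw [h] at this ⊢
  linarith

theorem prb_nonneg (hη : 8 ≤ η) (hK : 0 < K) (j : ℕ) : 0 ≤ prb η K j := by
  have := alph_nonneg hη hK
  unfold prb
  positivity

theorem prb_sum (hη : 8 ≤ η) (hK : 0 < K) : ∑ j ∈ range K, prb η K j = 1 := by
  have hK' : (0 : ℝ) < K := by exact_mod_cast hK
  have hq : Real.exp (-η / K) ≠ 1 := by
    intro h
    rw [Real.exp_eq_one_iff] at h
    rw [div_eq_zero_iff] at h
    rcases h with h | h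
    · linarith
    · linarith
  unfold prb
  rw [sum_add_distrib, ← mul_sum, geom_sum_eq hq, sum_const, card_range, nsmul_eq_mul]
  have hpow : Real.exp (-η / K) ^ K = Real.exp (-η) := by
    rw [← Real.exp_nat_mul]; congr 1; field_simp
  rw [hpow]
  have h2 := exp_neg_le_half hη
  have hd : 1 - Real.exp (-η) ≠ 0 := by
    have : 0 < 1 - Real.exp (-η) := by linarith
    exact this.ne'
  have hq' : Real.exp (-η / K) - 1 ≠ 0 := sub_ne_zero.2 hq
  unfold alph
  generalize Real.exp (-η / K) = q at *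
  generalize Real.exp (-η) = r at *
  generalize Real.exp (-η / 2) = b at *
  have hK'' : (K : ℝ) ≠ 0 := hK'.ne'
  have e1 : (K : ℝ) * (b / K) = b := by field_simp
  have e2 : (1 - b) * (1 - q) / (1 - r) * ((r - 1) / (q - 1)) = 1 - b := by
    have e3 : (1 - q) = -(q - 1) := by ring
    have e4 : (r - 1) = -(1 - r) := by ring
    rw [e3, e4]
    field_simp
  rw [e1, e2]
  ring

theorem prb_anti (hη : 8 ≤ η) (hK : 0 < K) {i j : ℕ} (hij : i ≤ j) : prb η K j ≤ prb η K i := by
  have h0 := alph_nonneg hη hK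
  have h3 : Real.exp (-η / K) ≤ 1 := Real.exp_le_one_iff.2 (by
    have : (0 : ℝ) < K := by exact_mod_cast hK
    rw [div_nonpos_iff]; right; constructor <;> linarith)
  unfold prb
  have := pow_le_pow_of_le_one (Real.exp_pos (-η / K)).le h3 hij
  gcongr

theorem prb_sub (hη : 8 ≤ η) (hK : 0 < K) (j : ℕ) :
    prb η K j - prb η K (j + 1) ≤ η / K * prb η K j := by
  have h0 := alph_nonneg hη hK
  have h1 := one_sub_exp_le K η
  have hK' : (0 : ℝ) < K := by exact_mod_cast hK
  have h2 : prb η K j - prb η K (j + 1) =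
      (1 - Real.exp (-η / K)) * (alph η K * Real.exp (-η / K) ^ j) := by
    unfold prb; rw [pow_succ]; ring
  rw [h2]
  have h3 : alph η K * Real.exp (-η / K) ^ j ≤ prb η K j := by
    unfold prb
    have : 0 ≤ Real.exp (-η / 2) / K := by positivity
    linarith
  have h4 : 0 ≤ alph η K * Real.exp (-η / K) ^ j := by positivity
  calc _ ≤ η / K * (alph η K * Real.exp (-η / K) ^ j) := by gcongr
    _ ≤ _ := by
      have : 0 ≤ η / K := by positivity
      gcongr

theorem prb_ge (hη : 8 ≤ η) (hK : 0 < K) (j : ℕ) : Real.exp (-η / 2) / K ≤ prb η K j := by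
  have h0 := alph_nonneg hη hK
  unfold prb
  have : 0 ≤ alph η K * Real.exp (-η / K) ^ j := by positivity
  linarith

theorem prb_last (hη : 8 ≤ η) (hK : 0 < K) (hK2 : η ≤ K) :
    K * prb η K (K - 1) ≤ 2 * Real.exp (-η / 2) := by
  have hK' : (0 : ℝ) < K := by exact_mod_cast hK
  unfold prb
  have h1 : Real.exp (-η / K) ^ (K - 1) ≤ Real.exp 1 * Real.exp (-η) := by
    rw [← Real.exp_nat_mul, ← Real.exp_add, Nat.cast_sub hK, Nat.cast_one]
    apply Real.exp_le_exp.2
    have : (K - 1 : ℝ) * (-η / K) = -η + η / K := by field_simp; ring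
    rw [this]
    have : η / K ≤ 1 := by rw [div_le_one hK']; exact hK2
    linarith
  have h2 := alph_le hη hK
  have h3 := one_sub_exp_le K η
  have h4 : alph η K ≤ 2 * (η / K) := by linarith
  have h5 := alph_nonneg hη hK
  have h6 : (K : ℝ) * (alph η K * Real.exp (-η / K) ^ (K - 1)) ≤
      2 * η * (Real.exp 1 * Real.exp (-η)) := by
    calc (K : ℝ) * (alph η K * Real.exp (-η / K) ^ (K - 1)) ≤
        K * ((2 * (η / K)) * (Real.exp 1 * Real.exp (-η))) := by gcongr
      _ = _ := by field_simp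
  have h7 : Real.exp (-η) = Real.exp (-η / 2) * Real.exp (-η / 2) := by
    rw [← Real.exp_add]; congr 1; ring
  have h8 : 2 * η * (Real.exp 1 * Real.exp (-η)) ≤ Real.exp (-η / 2) := by
    rw [h7]
    have h := exp_half_le hη
    have h9 : 0 < Real.exp (-η / 2) := Real.exp_pos _
    calc 2 * η * (Real.exp 1 * (Real.exp (-η / 2) * Real.exp (-η / 2))) =
        (2 * Real.exp 1 * η * Real.exp (-η / 2)) * Real.exp (-η / 2) := by ring
      _ ≤ 1 * Real.exp (-η / 2) := by gcongr
      _ = _ := one_mul _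
  calc (K : ℝ) * (alph η K * Real.exp (-η / K) ^ (K - 1) + Real.exp (-η / 2) / K) =
      K * (alph η K * Real.exp (-η / K) ^ (K - 1)) + Real.exp (-η / 2) := by field_simp
    _ ≤ _ := by linarith

theorem prb_zero_le (hη : 8 ≤ η) (hK : 0 < K) : prb η K 0 ≤ (2 * η + 1) / K := by
  have hK' : (0 : ℝ) < K := by exact_mod_cast hK
  have h2 := alph_le hη hK
  have h3 := one_sub_exp_le K η
  have h5 := exp_half_le' hη
  unfold prb
  rw [pow_zero, mul_one]
  calc alph η K + Real.exp (-η / 2) / K ≤ 2 * (η / K) + 1 / K := by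
        gcongr
        · linarith
        · linarith
    _ = _ := by ring

theorem sum_mul_geom (q : ℝ) (K : ℕ) :
    (∑ j ∈ range K, (j : ℝ) * q ^ j) * (1 - q) ^ 2 = q - K * q ^ K + (K - 1) * q ^ (K + 1) := by
  induction K with
  | zero => simp
  | succ K ih =>
    rw [sum_range_succ, add_mul, ih]
    push_cast
    ring

theorem prb_mean (hη : 8 ≤ η) (hK : 0 < K) :
    ∑ j ∈ range K, prb η K j * (j / K) ≤ 3 / η := by
  have hK' : (0 : ℝ) < K := by exact_mod_cast hK
  have hη0 : 0 < η := by linarith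
  have ha := alph_le hη hK
  have ha0 := alph_nonneg hη hK
  set q := Real.exp (-η / K) with hq
  have hq0 : 0 < q := Real.exp_pos _
  have hx : q * (1 + η / K) ≤ 1 := by
    have h := Real.add_one_le_exp (η / K)
    have h1 : q * Real.exp (η / K) = 1 := by
      rw [hq, ← Real.exp_add]; convert Real.exp_zero using 2; ring
    calc q * (1 + η / K) ≤ q * Real.exp (η / K) := by
          apply mul_le_mul_of_nonneg_left _ hq0.le; linarith
      _ = 1 := h1
  have hx0 : 0 < η / K := by positivity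
  have hq1 : 0 < 1 - q := by nlinarith
  have hs : ∑ j ∈ range K, (j : ℝ) * q ^ j ≤ q / (1 - q) ^ 2 := by
    rw [le_div_iff₀ (by positivity), sum_mul_geom]
    have h1 : q ^ (K + 1) ≤ q ^ K := pow_le_pow_of_le_one hq0.le (by linarith) (Nat.le_succ K)
    have h2 : 0 < q ^ (K + 1) := by positivity
    have h3 : (K - 1 : ℝ) * q ^ (K + 1) ≤ K * q ^ (K + 1) := by nlinarith
    have h4 : (K : ℝ) * q ^ (K + 1) ≤ K * q ^ K := by gcongr
    linarith
  have hs2 : ∑ j ∈ range K, (j : ℝ) ≤ K ^ 2 / 2 := by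
    have h : (∑ j ∈ range K, (j : ℝ)) * 2 = K * (K - 1) := by
      have := Finset.sum_range_id_mul_two K
      have h' : ((∑ j ∈ range K, j : ℕ) : ℝ) * 2 = ((K * (K - 1) : ℕ) : ℝ) := by
        exact_mod_cast this
      rw [Nat.cast_sum] at h'
      rw [h', Nat.cast_mul, Nat.cast_sub hK, Nat.cast_one]
    nlinarith
  have e : ∑ j ∈ range K, prb η K j * (j / K) =
      alph η K / K * (∑ j ∈ range K, (j : ℝ) * q ^ j) +
        Real.exp (-η / 2) / K ^ 2 * ∑ j ∈ range K, (j : ℝ) := by
    rw [mul_sum, mul_sum, ← sum_add_distrib]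
    apply sum_congr rfl
    intro j _
    unfold prb
    rw [← hq]
    field_simp
  rw [e]
  have h1 : alph η K / K * (∑ j ∈ range K, (j : ℝ) * q ^ j) ≤ 2 / η := by
    calc alph η K / K * (∑ j ∈ range K, (j : ℝ) * q ^ j) ≤
        (2 * (1 - q)) / K * (q / (1 - q) ^ 2) := by
          apply mul_le_mul _ hs (Finset.sum_nonneg fun j _ => by positivity) (by positivity)
          gcongr
      _ = 2 / K * (q / (1 - q)) := by field_simp
      _ ≤ 2 / K * (K / η) := by
          have : q / (1 - q) ≤ K / η := by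
            rw [div_le_div_iff₀ hq1 hη0]
            have : q * (η / K) ≤ 1 - q := by linarith
            calc q * η = q * (η / K) * K := by field_simp
              _ ≤ (1 - q) * K := by gcongr
              _ = K * (1 - q) := by ring
          gcongr
      _ = 2 / η := by field_simp
  have h2 : Real.exp (-η / 2) / K ^ 2 * ∑ j ∈ range K, (j : ℝ) ≤ 1 / η := by
    have hb := exp_half_le hη
    have he : (1 : ℝ) ≤ Real.exp 1 := by
      have := Real.add_one_le_exp (1 : ℝ); linarith
    have hb0 : 0 < Real.exp (-η / 2) := Real.exp_pos _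
    have hb1 : η * Real.exp (-η / 2) ≤ 1 := by
      calc η * Real.exp (-η / 2) ≤ 2 * Real.exp 1 * η * Real.exp (-η / 2) := by
            apply mul_le_mul_of_nonneg_right _ hb0.le
            nlinarith
        _ ≤ 1 := hb
    calc Real.exp (-η / 2) / K ^ 2 * ∑ j ∈ range K, (j : ℝ) ≤
        Real.exp (-η / 2) / K ^ 2 * (K ^ 2 / 2) := by gcongr
      _ = Real.exp (-η / 2) / 2 := by field_simp
      _ ≤ 1 / η := by
          rw [div_le_div_iff₀ (by norm_num) hη0]; nlinarith
  calc _ ≤ 2 / η + 1 / η := add_le_add h1 h2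
    _ = 3 / η := by ring

end

end Crest.Agent.R314.Tk
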