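import Mathlib
import Crest.Agent.R314.Tok2

/-!
R314, Theorem A, part 3: the one-dimensional inequality (integration by parts in one noise
variable).
-/

set_option autoImplicit false

namespace Crest.Agent.R314.Tk

open Finset

theorem abel_identity (p a : ℕ → ℝ) (n : ℕ) :
    ∑ j ∈ range n, p (j + 1) * (a (j + 1) - a j) =
      p n * a n - p 0 * a 0 + ∑ j ∈ range n, (p j - p (j + 1)) * a j := by
  induction n with
  | zero => simp
  | succ n ih => rw [sum_range_succ, sum_range_succ, ih]; ring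

theorem telescope_le {k : ℝ} (N : ℕ → ℝ) (n : ℕ) (h0 : 0 ≤ N n) (hk : N 0 ≤ k) :
    ∑ j ∈ range n, (N j - N (j + 1)) ≤ k := by
  rw [sum_range_sub']; linarith

/-- Chebyshev: both sequences antitone. -/
theorem cheb {K : ℕ} (p N : ℕ → ℝ) (hp : ∀ i j, i ≤ j → j < K → p j ≤ p i)
    (hN : ∀ i j, i ≤ j → j < K → N j ≤ N i) (hp1 : ∑ j ∈ range K, p j = 1) :
    ∑ j ∈ range K, N j ≤ K * ∑ j ∈ range K, p j * N j := by
  have h : MonovaryOn p N (range K) := by
    intro i hi j hj hij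
    rw [coe_range, Set.mem_Iio] at hi hj
    by_contra hcon
    push Not at hcon
    rcases le_total i j with h | h
    · exact absurd (hN i j h hj) (not_le.2 hij)
    · exact absurd (hp j i h hi) (not_le.2 hcon)
  have := h.sum_mul_sum_le_card_mul_sum
  rw [hp1, one_mul, card_range] at this
  exact this

section
variable {K' k T : ℕ} {η δ : ℝ}

theorem one_dim_step (hη : 8 ≤ η) (hδ : 0 < δ) {k : ℝ}
    (Δ N N' en : ℕ → ℝ) (hΔ : ∀ j ≤ K', 0 ≤ Δ j)
    (hen1 : en 0 ≤ 1)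
    (hN0 : 0 ≤ N K') (hNk : N 0 ≤ k)
    (hanti : ∀ j < K', N (j + 1) ≤ N j)
    (hst : ∀ j ≤ K', N' j = N j + en j)
    (hinc : ∀ j < K', δ * N' (j + 1) - δ * N j ≤ Δ (j + 1) - Δ j) :
    ∑ j ∈ range (K' + 1), prb η (K' + 1) j * en j ≤
      prb η (K' + 1) 0 * (1 + k) + 1 / δ * (prb η (K' + 1) K' * Δ K') +
        η / ((K' + 1 : ℕ) * δ) * ∑ j ∈ range (K' + 1), prb η (K' + 1) j * Δ j := by
  have hK : 0 < K' + 1 := Nat.succ_pos _
  have hKr : (0 : ℝ) < ((K' + 1 : ℕ) : ℝ) := by exact_mod_cast hK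
  set p := prb η (K' + 1) with hp
  have hp0 : ∀ j, 0 ≤ p j := prb_nonneg hη hK
  rw [sum_range_succ']
  have h1 : ∀ j ∈ range K', p (j + 1) * en (j + 1) ≤
      1 / δ * (p (j + 1) * (Δ (j + 1) - Δ j)) + p 0 * (N j - N (j + 1)) := by
    intro j hj
    rw [mem_range] at hj
    have h2 := hinc j hj
    rw [hst (j + 1) hj] at h2
    have h3 : en (j + 1) ≤ 1 / δ * (Δ (j + 1) - Δ j) + (N j - N (j + 1)) := by
      have : δ * en (j + 1) ≤ (Δ (j + 1) - Δ j) + δ * (N j - N (j + 1)) := by linarith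
      have h4 : en (j + 1) = 1 / δ * (δ * en (j + 1)) := by field_simp
      rw [h4]
      calc 1 / δ * (δ * en (j + 1)) ≤ 1 / δ * ((Δ (j + 1) - Δ j) + δ * (N j - N (j + 1))) := by
            gcongr
        _ = _ := by field_simp
    calc p (j + 1) * en (j + 1) ≤ p (j + 1) * (1 / δ * (Δ (j + 1) - Δ j) + (N j - N (j + 1))) := by
          apply mul_le_mul_of_nonneg_left h3 (hp0 _)
      _ = 1 / δ * (p (j + 1) * (Δ (j + 1) - Δ j)) + p (j + 1) * (N j - N (j + 1)) := by ring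
      _ ≤ _ := by
          have h5 : p (j + 1) ≤ p 0 := prb_anti hη hK (Nat.zero_le _)
          have h6 : 0 ≤ N j - N (j + 1) := by have := hanti j hj; linarith
          have := mul_le_mul_of_nonneg_right h5 h6
          linarith
  have h2 : ∑ j ∈ range K', p (j + 1) * en (j + 1) ≤
      1 / δ * (∑ j ∈ range K', p (j + 1) * (Δ (j + 1) - Δ j)) +
        p 0 * ∑ j ∈ range K', (N j - N (j + 1)) := by
    rw [mul_sum, mul_sum, ← sum_add_distrib]
    exact sum_le_sum h1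
  have h3 : ∑ j ∈ range K', (N j - N (j + 1)) ≤ k := telescope_le N K' hN0 hNk
  have h4 : ∑ j ∈ range K', p (j + 1) * (Δ (j + 1) - Δ j) ≤
      p K' * Δ K' + η / (K' + 1 : ℕ) * ∑ j ∈ range (K' + 1), p j * Δ j := by
    rw [abel_identity]
    have h5 : ∑ j ∈ range K', (p j - p (j + 1)) * Δ j ≤
        ∑ j ∈ range K', η / (K' + 1 : ℕ) * (p j * Δ j) := by
      apply sum_le_sum
      intro j hj
      rw [mem_range] at hj
      have := prb_sub hη hK j
      calc (p j - p (j + 1)) * Δ j ≤ (η / (K' + 1 : ℕ) * p j) * Δ j := by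
            apply mul_le_mul_of_nonneg_right _ (hΔ j hj.le)
            exact this
        _ = _ := by ring
    have h6 : ∑ j ∈ range K', η / (K' + 1 : ℕ) * (p j * Δ j) ≤
        η / (K' + 1 : ℕ) * ∑ j ∈ range (K' + 1), p j * Δ j := by
      rw [← mul_sum, sum_range_succ]
      have : 0 ≤ η / (K' + 1 : ℕ) * (p K' * Δ K') := by
        have := hp0 K'
        have := hΔ K' le_rfl
        positivity
      linarith
    have h7 : 0 ≤ p 0 * Δ 0 := mul_nonneg (hp0 0) (hΔ 0 (Nat.zero_le _))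
    linarith
  have h8 : p 0 * en 0 ≤ p 0 * 1 := mul_le_mul_of_nonneg_left hen1 (hp0 0)
  have h9 : p 0 * ∑ j ∈ range K', (N j - N (j + 1)) ≤ p 0 * k :=
    mul_le_mul_of_nonneg_left h3 (hp0 0)
  have h10 : 1 / δ * (∑ j ∈ range K', p (j + 1) * (Δ (j + 1) - Δ j)) ≤
      1 / δ * (p K' * Δ K' + η / (K' + 1 : ℕ) * ∑ j ∈ range (K' + 1), p j * Δ j) := by
    gcongr
  have h11 : 1 / δ * (p K' * Δ K' + η / (K' + 1 : ℕ) * ∑ j ∈ range (K' + 1), p j * Δ j) =
      1 / δ * (p K' * Δ K') +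
        η / ((K' + 1 : ℕ) * δ) * ∑ j ∈ range (K' + 1), p j * Δ j := by
    field_simp
  linarith

/-- The one-dimensional inequality. -/
theorem one_dim (hη : 8 ≤ η) (hK2 : η ≤ (K' + 1 : ℕ)) (hδ : 0 < δ) {k : ℝ} (hk : 0 ≤ k)
    {B D T : ℕ} (hBD : B ≤ D) (hDT : D ≤ T)
    (g N en ex : ℕ → ℕ → ℝ)
    (Sin Su : ℕ → Prop) [DecidablePred Sin] [DecidablePred Su]
    (hSU : ∀ t, Sin t → Su t)
    (hN0 : ∀ t j, 0 ≤ N t j) (hNk : ∀ t j, N t j ≤ k)
    (hNB : ∀ j, j ≤ K' → N B j = 0)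
    (hstep : ∀ t j, j ≤ K' → N (t + 1) j = N t j + en t j - ex t j)
    (hen1 : ∀ t j, en t j ≤ 1) (hex0 : ∀ t j, 0 ≤ ex t j)
    (henS : ∀ t, B ≤ t → t < D → ¬ Sin t → ∀ j, j ≤ K' → en t j = 0)
    (hexS : ∀ t, B ≤ t → t < D → Sin t → ∀ j, j ≤ K' → ex t j = 0)
    (hmon : ∀ t j, B ≤ t → t < D → j ≤ K' → g t j ≤ g (t + 1) j)
    (hlow : ∀ t, B ≤ t → t ≤ D → ∀ j, j < K' → δ * N t (j + 1) ≤ g t (j + 1) - g t j)
    (hup : ∀ t, B ≤ t → t ≤ D → ∀ j, j < K' → g t (j + 1) - g t j ≤ δ * N t j) :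
    ∑ j ∈ range (K' + 1), prb η (K' + 1) j * ∑ t ∈ (Ico B D).filter Sin, en t j ≤
      η / ((K' + 1 : ℕ) * δ) * (∑ j ∈ range (K' + 1), prb η (K' + 1) j *
        ∑ t ∈ (Ico B D).filter Sin, (g (t + 1) j - g t j)) +
      2 * Real.exp (-η / 2) / ((K' + 1 : ℕ) * δ) *
        (∑ j ∈ range (K' + 1), prb η (K' + 1) j *
          ∑ t ∈ (Ico B D).filter Su, (g (t + 1) j - g t j)) +
      2 * Real.exp (-η / 2) * (∑ j ∈ range (K' + 1), prb η (K' + 1) j * N D j) +
      2 * (∑ j ∈ range (K' + 1), prb η (K' + 1) j *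
        ∑ t ∈ (Ico B D).filter (fun t => ¬ Su t), ex t j) +
      T * (k + 1) * (prb η (K' + 1) 0 + 2 / (K' + 1 : ℕ)) := by
  have hK : 0 < K' + 1 := Nat.succ_pos _
  have hKr : (0 : ℝ) < ((K' + 1 : ℕ) : ℝ) := by exact_mod_cast hK
  set p := prb η (K' + 1) with hp
  set b := Real.exp (-η / 2) with hb
  have hb0 : 0 < b := Real.exp_pos _
  have hb1 : b ≤ 1 / 32 := exp_half_le' hη
  have hp0 : ∀ j, 0 ≤ p j := prb_nonneg hη hK
  have hpsum : ∑ j ∈ range (K' + 1), p j = 1 := prb_sum hη hK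
  have hanti : ∀ t, B ≤ t → t ≤ D → ∀ j, j < K' → N t (j + 1) ≤ N t j := by
    intro t h1 h2 j hj
    have := (hlow t h1 h2 j hj).trans (hup t h1 h2 j hj)
    exact le_of_mul_le_mul_left this hδ
  have hanti' : ∀ t, B ≤ t → t ≤ D → ∀ i j, i ≤ j → j < K' + 1 → N t j ≤ N t i := by
    intro t h1 h2 i j hij hj
    induction j, hij using Nat.le_induction with
    | base => exact le_rfl
    | succ j _ ih =>
      exact (hanti t h1 h2 j (by omega)).trans (ih (by omega))
  have hΔ0 : ∀ t j, B ≤ t → t < D → j ≤ K' → 0 ≤ g (t + 1) j - g t j := by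
    intro t j h1 h2 h3
    have := hmon t j h1 h2 h3
    linarith
  -- Step A
  have hA : ∀ t ∈ (Ico B D).filter Sin, ∑ j ∈ range (K' + 1), p j * en t j ≤
      p 0 * (1 + k) + 1 / δ * (p K' * (g (t + 1) K' - g t K')) +
        η / ((K' + 1 : ℕ) * δ) * ∑ j ∈ range (K' + 1), p j * (g (t + 1) j - g t j) := by
    intro t ht
    rw [mem_filter, mem_Ico] at ht
    obtain ⟨⟨ht1, ht2⟩, ht3⟩ := ht
    apply one_dim_step hη hδ (fun j => g (t + 1) j - g t j) (fun j => N t j)
      (fun j => N (t + 1) j) (fun j => en t j)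
    · intro j hj; exact hΔ0 t j ht1 ht2 hj
    · exact hen1 t 0
    · exact hN0 t K'
    · exact hNk t 0
    · exact hanti t ht1 ht2.le
    · intro j hj
      rw [hstep t j hj, hexS t ht1 ht2 ht3 j hj, sub_zero]
    · intro j hj
      have h1 := hlow (t + 1) (by omega) (by omega) j hj
      have h2 := hup t ht1 ht2.le j hj
      linarith
  have hA' : ∑ j ∈ range (K' + 1), p j * ∑ t ∈ (Ico B D).filter Sin, en t j ≤
      T * (p 0 * (1 + k)) + 1 / δ * (p K' * ∑ t ∈ (Ico B D).filter Su, (g (t + 1) K' - g t K')) +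
      η / ((K' + 1 : ℕ) * δ) * (∑ j ∈ range (K' + 1), p j *
        ∑ t ∈ (Ico B D).filter Sin, (g (t + 1) j - g t j)) := by
    have e1 : ∑ j ∈ range (K' + 1), p j * ∑ t ∈ (Ico B D).filter Sin, en t j =
        ∑ t ∈ (Ico B D).filter Sin, ∑ j ∈ range (K' + 1), p j * en t j := by
      rw [sum_comm]
      apply sum_congr rfl; intro j _; rw [mul_sum]
    have e2 : ∑ j ∈ range (K' + 1), p j * ∑ t ∈ (Ico B D).filter Sin, (g (t + 1) j - g t j) =
        ∑ t ∈ (Ico B D).filter Sin, ∑ j ∈ range (K' + 1), p j * (g (t + 1) j - g t j) := by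
      rw [sum_comm]
      apply sum_congr rfl; intro j _; rw [mul_sum]
    rw [e1, e2]
    refine (sum_le_sum hA).trans ?_
    rw [sum_add_distrib, sum_add_distrib, sum_const, nsmul_eq_mul,
      ← mul_sum (s := (Ico B D).filter Sin) (a := 1 / δ), ← mul_sum (s := (Ico B D).filter Sin) (a := p K'),
      ← mul_sum (s := (Ico B D).filter Sin) (a := η / ((K' + 1 : ℕ) * δ))]
    have h1 : (((Ico B D).filter Sin).card : ℝ) ≤ T := by
      have : ((Ico B D).filter Sin).card ≤ T := by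
        refine (card_filter_le _ _).trans ?_
        rw [Nat.card_Ico]; omega
      exact_mod_cast this
    have h2 : ∑ t ∈ (Ico B D).filter Sin, (g (t + 1) K' - g t K') ≤
        ∑ t ∈ (Ico B D).filter Su, (g (t + 1) K' - g t K') := by
      apply sum_le_sum_of_subset_of_nonneg
      · intro t ht
        rw [mem_filter] at ht ⊢
        exact ⟨ht.1, hSU t ht.2⟩
      · intro t ht _
        rw [mem_filter, mem_Ico] at ht
        exact hΔ0 t K' ht.1.1 ht.1.2 le_rfl
    have h3 : 0 ≤ p 0 * (1 + k) := mul_nonneg (hp0 0) (by linarith)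
    have h4 : (((Ico B D).filter Sin).card : ℝ) * (p 0 * (1 + k)) ≤ T * (p 0 * (1 + k)) :=
      mul_le_mul_of_nonneg_right h1 h3
    have h5 : 1 / δ * (p K' * ∑ t ∈ (Ico B D).filter Sin, (g (t + 1) K' - g t K')) ≤
        1 / δ * (p K' * ∑ t ∈ (Ico B D).filter Su, (g (t + 1) K' - g t K')) := by
      have := hp0 K'
      gcongr
    linarith
  -- Step B
  set J : ℕ → ℝ := fun j => ∑ t ∈ (Ico B D).filter Su, (g (t + 1) j - g t j) with hJ
  set out := (Ico B D).filter (fun t => ¬ Su t) with hout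
  have houtT : (out.card : ℝ) ≤ T := by
    have : out.card ≤ T := by
      refine (card_filter_le _ _).trans ?_
      rw [Nat.card_Ico]; omega
    exact_mod_cast this
  have hJinc : ∀ s, s < K' → J (s + 1) - J s ≤
      δ * N D s + δ * (∑ t ∈ out, ex t (s + 1)) + δ * ∑ t ∈ out, (N t s - N t (s + 1)) := by
    intro s hs
    have e1 : ∀ j, J j = (g D j - g B j) - ∑ t ∈ out, (g (t + 1) j - g t j) := by
      intro j
      have h1 := sum_filter_add_sum_filter_not (Ico B D) Su (fun t => g (t + 1) j - g t j)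
      have h2 : ∑ t ∈ Ico B D, (g (t + 1) j - g t j) = g D j - g B j :=
        sum_Ico_sub (fun t => g t j) hBD
      rw [h2] at h1
      simp only [hJ, hout]
      linarith
    rw [e1, e1]
    have h1 := hup D hBD le_rfl s hs
    have h2 := hlow B le_rfl hBD s hs
    rw [hNB (s + 1) hs, mul_zero] at h2
    have h3 : ∑ t ∈ out, (g (t + 1) s - g t s) - ∑ t ∈ out, (g (t + 1) (s + 1) - g t (s + 1)) ≤
        δ * (∑ t ∈ out, ex t (s + 1)) + δ * ∑ t ∈ out, (N t s - N t (s + 1)) := by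
      rw [← sum_sub_distrib, mul_sum, mul_sum, ← sum_add_distrib]
      apply sum_le_sum
      intro t ht
      rw [hout, mem_filter, mem_Ico] at ht
      obtain ⟨⟨ht1, ht2⟩, ht3⟩ := ht
      have h4 := hlow (t + 1) (by omega) (by omega) s hs
      have h5 := hup t ht1 ht2.le s hs
      have h6 : en t (s + 1) = 0 := henS t ht1 ht2 (fun h => ht3 (hSU t h)) (s + 1) hs
      rw [hstep t (s + 1) hs, h6] at h4
      linarith
    linarith
  have hX0 : ∀ s, s < K' → 0 ≤ δ * N D s + δ * (∑ t ∈ out, ex t (s + 1)) +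
      δ * ∑ t ∈ out, (N t s - N t (s + 1)) := by
    intro s hs
    have h1 := hN0 D s
    have h2 : 0 ≤ ∑ t ∈ out, ex t (s + 1) := sum_nonneg fun t _ => hex0 t _
    have h3 : 0 ≤ ∑ t ∈ out, (N t s - N t (s + 1)) := by
      apply sum_nonneg
      intro t ht
      rw [hout, mem_filter, mem_Ico] at ht
      have := hanti t ht.1.1 ht.1.2.le s hs
      linarith
    positivity
  have hJj : ∀ j, j ≤ K' → J K' ≤ J j + (δ * (∑ s ∈ range (K' + 1), N D s) +
      δ * (∑ s ∈ range (K' + 1), ∑ t ∈ out, ex t s) + δ * (T * k)) := by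
    intro j hj
    have e1 : J K' - J j = ∑ s ∈ Ico j K', (J (s + 1) - J s) := (sum_Ico_sub J hj).symm
    have h1 : J K' - J j ≤ ∑ s ∈ range K', (δ * N D s + δ * (∑ t ∈ out, ex t (s + 1)) +
        δ * ∑ t ∈ out, (N t s - N t (s + 1))) := by
      rw [e1]
      refine (sum_le_sum (fun s hs => hJinc s (mem_Ico.1 hs).2)).trans ?_
      apply sum_le_sum_of_subset_of_nonneg
      · intro s hs
        rw [mem_Ico] at hs
        exact mem_range.2 hs.2
      · intro s hs _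
        exact hX0 s (mem_range.1 hs)
    rw [sum_add_distrib, sum_add_distrib, ← mul_sum, ← mul_sum, ← mul_sum] at h1
    have h2 : ∑ s ∈ range K', N D s ≤ ∑ s ∈ range (K' + 1), N D s := by
      rw [sum_range_succ]; have := hN0 D K'; linarith
    have h3 : ∑ s ∈ range K', ∑ t ∈ out, ex t (s + 1) ≤
        ∑ s ∈ range (K' + 1), ∑ t ∈ out, ex t s := by
      rw [sum_range_succ']
      have : 0 ≤ ∑ t ∈ out, ex t 0 := sum_nonneg fun t _ => hex0 t _
      linarith
    have h4 : ∑ s ∈ range K', ∑ t ∈ out, (N t s - N t (s + 1)) ≤ T * k := by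
      rw [sum_comm]
      have : ∀ t ∈ out, ∑ s ∈ range K', (N t s - N t (s + 1)) ≤ k := by
        intro t _
        exact telescope_le (fun s => N t s) K' (hN0 t K') (hNk t 0)
      refine (sum_le_sum this).trans ?_
      rw [sum_const, nsmul_eq_mul]
      exact mul_le_mul_of_nonneg_right houtT hk
    have h5 : δ * ∑ s ∈ range K', N D s ≤ δ * ∑ s ∈ range (K' + 1), N D s := by gcongr
    have h6 : δ * ∑ s ∈ range K', ∑ t ∈ out, ex t (s + 1) ≤
        δ * ∑ s ∈ range (K' + 1), ∑ t ∈ out, ex t s := by gcongr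
    have h7 : δ * ∑ s ∈ range K', ∑ t ∈ out, (N t s - N t (s + 1)) ≤ δ * (T * k) := by gcongr
    linarith
  have hB : J K' ≤ (∑ j ∈ range (K' + 1), p j * J j) + (δ * (∑ s ∈ range (K' + 1), N D s) +
      δ * (∑ s ∈ range (K' + 1), ∑ t ∈ out, ex t s) + δ * (T * k)) := by
    set Q := δ * (∑ s ∈ range (K' + 1), N D s) +
      δ * (∑ s ∈ range (K' + 1), ∑ t ∈ out, ex t s) + δ * (T * k) with hQ
    calc J K' = ∑ j ∈ range (K' + 1), p j * J K' := by rw [← sum_mul, hpsum, one_mul]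
      _ ≤ ∑ j ∈ range (K' + 1), (p j * J j + p j * Q) := by
          apply sum_le_sum
          intro j hj
          have := hJj j (Nat.lt_succ_iff.1 (mem_range.1 hj))
          have h2 := mul_le_mul_of_nonneg_left this (hp0 j)
          linarith
      _ = _ := by rw [sum_add_distrib, ← sum_mul, hpsum, one_mul]
  have hC1 : ∑ s ∈ range (K' + 1), N D s ≤ (K' + 1 : ℕ) * ∑ j ∈ range (K' + 1), p j * N D j := by
    apply cheb p (fun j => N D j) (fun i j hij _ => prb_anti hη hK hij)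
      (hanti' D hBD le_rfl) hpsum
  have hC2 : ∑ s ∈ range (K' + 1), ∑ t ∈ out, ex t s ≤
      (K' + 1 : ℕ) / b * ∑ j ∈ range (K' + 1), p j * ∑ t ∈ out, ex t j := by
    rw [mul_sum]
    apply sum_le_sum
    intro s _
    have h1 : b / (K' + 1 : ℕ) ≤ p s := prb_ge hη hK s
    have h2 : 0 ≤ ∑ t ∈ out, ex t s := sum_nonneg fun t _ => hex0 t _
    have h3 : 1 ≤ (K' + 1 : ℕ) / b * p s := by
      calc (1 : ℝ) = (K' + 1 : ℕ) / b * (b / (K' + 1 : ℕ)) := by field_simp
        _ ≤ _ := by gcongr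
    calc ∑ t ∈ out, ex t s = 1 * ∑ t ∈ out, ex t s := by rw [one_mul]
      _ ≤ ((K' + 1 : ℕ) / b * p s) * ∑ t ∈ out, ex t s := by gcongr
      _ = _ := by ring
  have hlast : (K' + 1 : ℕ) * p K' ≤ 2 * b := by
    have := prb_last hη hK hK2
    simpa using this
  have hlast' : p K' ≤ 2 * b / (K' + 1 : ℕ) := by
    rw [le_div_iff₀ hKr]; linarith
  -- Combine
  have hJK0 : 0 ≤ J K' := by
    apply sum_nonneg
    intro t ht
    rw [mem_filter, mem_Ico] at ht
    exact hΔ0 t K' ht.1.1 ht.1.2 le_rfl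
  have hF : 1 / δ * (p K' * J K') ≤
      2 * b / ((K' + 1 : ℕ) * δ) * (∑ j ∈ range (K' + 1), p j * J j) +
      2 * b * (∑ j ∈ range (K' + 1), p j * N D j) +
      2 * (∑ j ∈ range (K' + 1), p j * ∑ t ∈ out, ex t j) +
      2 * b / (K' + 1 : ℕ) * (T * k) := by
    calc 1 / δ * (p K' * J K') ≤ 1 / δ * (2 * b / (K' + 1 : ℕ) * J K') := by gcongr
      _ ≤ 1 / δ * (2 * b / (K' + 1 : ℕ) * ((∑ j ∈ range (K' + 1), p j * J j) +
          (δ * ((K' + 1 : ℕ) * ∑ j ∈ range (K' + 1), p j * N D j) +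
          δ * ((K' + 1 : ℕ) / b * ∑ j ∈ range (K' + 1), p j * ∑ t ∈ out, ex t j) +
          δ * (T * k)))) := by
          have hQ : J K' ≤ (∑ j ∈ range (K' + 1), p j * J j) +
              (δ * ((K' + 1 : ℕ) * ∑ j ∈ range (K' + 1), p j * N D j) +
              δ * ((K' + 1 : ℕ) / b * ∑ j ∈ range (K' + 1), p j * ∑ t ∈ out, ex t j) +
              δ * (T * k)) := by
            refine hB.trans ?_
            have q1 := mul_le_mul_of_nonneg_left hC1 hδ.le
            have q2 := mul_le_mul_of_nonneg_left hC2 hδ.le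
            linarith
          gcongr
      _ = _ := by
          field_simp
          ring
  have hG : T * (p 0 * (1 + k)) + 2 * b / (K' + 1 : ℕ) * (T * k) ≤
      T * (k + 1) * (p 0 + 2 / (K' + 1 : ℕ)) := by
    have hT : (0 : ℝ) ≤ T := Nat.cast_nonneg T
    have h1 : 2 * b / (K' + 1 : ℕ) * (T * k) ≤ 2 / (K' + 1 : ℕ) * (T * (k + 1)) := by
      have h2 : 2 * b / ((K' + 1 : ℕ) : ℝ) ≤ 2 / ((K' + 1 : ℕ) : ℝ) := by
        gcongr; linarith
      have h3 : (T : ℝ) * k ≤ T * (k + 1) := by nlinarith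
      exact mul_le_mul h2 h3 (by positivity) (by positivity)
    nlinarith
  have hfin := hA'
  change _ ≤ _ + 1 / δ * (p K' * J K') + _ at hfin
  linarith

end

end Crest.Agent.R314.Tk
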