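import Mathlib
import Crest.Agent.R314.Tok1
import Crest.Agent.R314.Tok3

/-!
R314, Theorem A, part 4: the noisy token system and the shift lemma.
-/

set_option autoImplicit false
set_option linter.unusedSectionVars false
set_option linter.unusedSimpArgs false

namespace Crest.Agent.R314.Tk

open Finset Function

/-- A token system: `E a` = the noise nodes containing the token `a`; `w`, `η` = weight and noise
parameter; a node lives during `[B v, D v)`; `In v t` = "request `t` lies in the parent cluster of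
`v`"; `κ` = additional nonnegative prices. -/
structure FData (k : ℕ) (V : Type*) where
  E : Tok k → Finset V
  E_inl : ∀ i, E (Sum.inl i) = ∅
  w : V → ℝ
  w_pos : ∀ v, 0 < w v
  η : V → ℝ
  η_ge : ∀ v, 8 ≤ η v
  B : V → ℕ
  D : V → ℕ
  B_le_D : ∀ v, B v ≤ D v
  life : ∀ t v, v ∈ E (Sum.inr t) → B v ≤ t ∧ t < D v
  In : V → ℕ → Prop
  In_of_mem : ∀ t v, v ∈ E (Sum.inr t) → In v t
  κ : ℕ → Tok k → ℝ
  κ_nonneg : ∀ t a, 0 ≤ κ t a

namespace FData

variable {k : ℕ} {V : Type*} [DecidableEq V] (F : FData k V)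

/-- The noisy prices. -/
noncomputable def mcost (ξ : V → ℝ) (t : ℕ) (a : Tok k) : ℝ :=
  F.κ t a + ∑ v ∈ F.E (Sum.inr t) \ F.E a, ξ v +
    ∑ v ∈ (F.E a \ F.E (Sum.inr t)).filter (fun v => t < F.D v), (F.w v / 4 - ξ v)

/-- Number of servers at tokens of `v`. -/
noncomputable def Nv (v : V) (x : Fin k → Tok k) : ℝ :=
  ∑ i, if v ∈ F.E (x i) then 1 else 0

theorem Nv_nonneg (v : V) (x : Fin k → Tok k) : 0 ≤ F.Nv v x :=
  sum_nonneg fun i _ => by split_ifs <;> norm_num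

theorem Nv_le (v : V) (x : Fin k → Tok k) : F.Nv v x ≤ k := by
  unfold Nv
  calc _ ≤ ∑ i : Fin k, (1 : ℝ) := sum_le_sum fun i _ => by split_ifs <;> norm_num
    _ = k := by simp

theorem Nv_update (v : V) (x : Fin k → Tok k) (i : Fin k) (a : Tok k) :
    F.Nv v (update x i a) = F.Nv v x + (if v ∈ F.E a then 1 else 0) -
      (if v ∈ F.E (x i) then 1 else 0) := by
  unfold Nv
  rw [← add_sum_erase univ _ (mem_univ i), ← add_sum_erase univ (fun j => if v ∈ F.E (x j) then (1 : ℝ) else 0) (mem_univ i)]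
  have : ∑ j ∈ univ.erase i, (if v ∈ F.E (update x i a j) then (1 : ℝ) else 0) =
      ∑ j ∈ univ.erase i, (if v ∈ F.E (x j) then (1 : ℝ) else 0) := by
    apply sum_congr rfl
    intro j hj
    rw [update_of_ne (ne_of_mem_erase hj)]
  rw [this]
  simp only [update_self]
  ring

theorem Nv_start (v : V) : F.Nv v Sum.inl = 0 := by
  unfold Nv
  apply sum_eq_zero
  intro i _
  simp [F.E_inl]

theorem sum_update_shift (ξ : V → ℝ) (v : V) (δ : ℝ) (S : Finset V) :
    ∑ u ∈ S, update ξ v (ξ v + δ) u = ∑ u ∈ S, ξ u + if v ∈ S then δ else 0 := by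
  by_cases hv : v ∈ S
  · rw [if_pos hv, ← add_sum_erase S _ hv, ← add_sum_erase S ξ hv]
    have : ∑ u ∈ S.erase v, update ξ v (ξ v + δ) u = ∑ u ∈ S.erase v, ξ u := by
      apply sum_congr rfl
      intro u hu
      rw [update_of_ne (ne_of_mem_erase hu)]
    rw [this]; simp only [update_self]; ring
  · rw [if_neg hv, add_zero]
    apply sum_congr rfl
    intro u hu
    have hne : u ≠ v := by rintro rfl; exact hv hu
    rw [update_of_ne hne]

theorem mcost_shift (ξ : V → ℝ) (v : V) (δ : ℝ) (t : ℕ) (ht : t < F.D v) (a : Tok k) :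
    F.mcost (update ξ v (ξ v + δ)) t a = F.mcost ξ t a +
      δ * ((if v ∈ F.E (Sum.inr t) then 1 else 0) - (if v ∈ F.E a then 1 else 0)) := by
  unfold mcost
  rw [sum_sub_distrib, sum_sub_distrib, sum_update_shift, sum_update_shift]
  by_cases h1 : v ∈ F.E (Sum.inr t) <;> by_cases h2 : v ∈ F.E a <;>
    simp [h1, h2, ht] <;> ring

theorem ur_shift {ξ : V → ℝ} (v : V) (δ : ℝ) {T : ℕ} {x : Fin k → Tok k} {c : ℝ}
    (h : UR (F.mcost ξ) T x c) (hT : T ≤ F.D v) :
    UR (F.mcost (update ξ v (ξ v + δ))) T x (c + δ * F.Nv v x) := by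
  induction h with
  | zero σ =>
    have : F.Nv v (fun i => Sum.inl (σ i)) = 0 := by
      unfold Nv
      apply sum_eq_zero
      intro i _
      simp [F.E_inl]
    rw [this, mul_zero, add_zero]
    exact UR.zero σ
  | @step t x c i hx ih =>
    have h1 := UR.step i (ih (by omega))
    convert h1 using 1
    rw [F.mcost_shift ξ v δ t (by omega), F.Nv_update]
    ring

theorem ur_shift_neg {ξ : V → ℝ} (v : V) (δ : ℝ) {T : ℕ} {x : Fin k → Tok k} {c : ℝ}
    (h : UR (F.mcost (update ξ v (ξ v + δ))) T x c) (hT : T ≤ F.D v) :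
    UR (F.mcost ξ) T x (c - δ * F.Nv v x) := by
  have h1 := F.ur_shift v (-δ) h hT
  have e : update (update ξ v (ξ v + δ)) v (update ξ v (ξ v + δ) v + -δ) = ξ := by
    funext u
    by_cases hu : u = v
    · subst hu; simp
    · simp [hu]
  rw [e] at h1
  convert h1 using 1
  ring

section
variable [NeZero k]

theorem G_shift_up (ξ : V → ℝ) (v : V) (δ : ℝ) {t : ℕ} (ht : t ≤ F.D v) :
    G (F.mcost (update ξ v (ξ v + δ))) t - G (F.mcost ξ) t ≤
      δ * F.Nv v (pos (F.mcost ξ) t) := by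
  have := G_le (F.ur_shift v δ (pos_opt (F.mcost ξ) t) ht)
  linarith

theorem G_shift_low (ξ : V → ℝ) (v : V) (δ : ℝ) {t : ℕ} (ht : t ≤ F.D v) :
    δ * F.Nv v (pos (F.mcost (update ξ v (ξ v + δ))) t) ≤
      G (F.mcost (update ξ v (ξ v + δ))) t - G (F.mcost ξ) t := by
  have := G_le (F.ur_shift_neg v δ (pos_opt (F.mcost (update ξ v (ξ v + δ))) t) ht)
  linarith

theorem mcost_nonneg {ξ : V → ℝ} (h0 : ∀ v, 0 ≤ ξ v) (h1 : ∀ v, ξ v ≤ F.w v / 4) (t : ℕ)
    (a : Tok k) : 0 ≤ F.mcost ξ t a := by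
  unfold mcost
  have e1 := F.κ_nonneg t a
  have e2 : 0 ≤ ∑ v ∈ F.E (Sum.inr t) \ F.E a, ξ v := sum_nonneg fun v _ => h0 v
  have e3 : 0 ≤ ∑ v ∈ (F.E a \ F.E (Sum.inr t)).filter (fun v => t < F.D v), (F.w v / 4 - ξ v) :=
    sum_nonneg fun v _ => by have := h1 v; linarith
  linarith

end

end FData

theorem pos_tok {k : ℕ} [NeZero k] (m : ℕ → Tok k → ℝ) (t : ℕ) (i : Fin k) :
    (∃ j, pos m t i = Sum.inl j) ∨ ∃ s < t, pos m t i = Sum.inr s := by
  induction t with
  | zero => exact Or.inl ⟨i, rfl⟩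
  | succ t ih =>
    rw [pos_succ]
    by_cases h : i = srv m t
    · right; exact ⟨t, Nat.lt_succ_self t, by rw [h, update_self]⟩
    · rw [update_of_ne h]
      rcases ih with ⟨j, hj⟩ | ⟨s, hs, hs'⟩
      · exact Or.inl ⟨j, hj⟩
      · exact Or.inr ⟨s, hs.trans (Nat.lt_succ_self t), hs'⟩

theorem cpos_tok {k : ℕ} (j : ℕ → Fin k) (t : ℕ) (i : Fin k) :
    (∃ j', cpos j t i = Sum.inl j') ∨ ∃ s < t, cpos j t i = Sum.inr s := by
  induction t with
  | zero => exact Or.inl ⟨i, rfl⟩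
  | succ t ih =>
    rw [cpos]
    by_cases h : i = j t
    · right; exact ⟨t, Nat.lt_succ_self t, by rw [h, update_self]⟩
    · rw [update_of_ne h]
      rcases ih with ⟨j', hj⟩ | ⟨s, hs, hs'⟩
      · exact Or.inl ⟨j', hj⟩
      · exact Or.inr ⟨s, hs.trans (Nat.lt_succ_self t), hs'⟩

/-! ### Resampling one coordinate of the noise -/

section Resample

variable {V : Type*} [Fintype V] [DecidableEq V]

/-- The grid. -/
noncomputable def Om (V : Type*) [Fintype V] [DecidableEq V] (K : ℕ) : Finset (V → ℕ) :=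
  Fintype.piFinset fun _ => range K

/-- The product weight. -/
noncomputable def pwt (p : V → ℕ → ℝ) (n : V → ℕ) : ℝ := ∏ v, p v (n v)

/-- Expectation. -/
noncomputable def Ex (p : V → ℕ → ℝ) (K : ℕ) (f : (V → ℕ) → ℝ) : ℝ :=
  ∑ n ∈ Om V K, pwt p n * f n

theorem pwt_sum (p : V → ℕ → ℝ) (K : ℕ) (hp : ∀ v, ∑ j ∈ range K, p v j = 1) :
    ∑ n ∈ Om V K, pwt p n = 1 := by
  unfold Om pwt
  rw [← prod_univ_sum]
  exact prod_eq_one fun v _ => hp v

theorem pwt_nonneg {p : V → ℕ → ℝ} (hp : ∀ v j, 0 ≤ p v j) (n : V → ℕ) : 0 ≤ pwt p n :=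
  prod_nonneg fun v _ => hp v _

theorem Ex_mono {p : V → ℕ → ℝ} (hp : ∀ v j, 0 ≤ p v j) {K : ℕ} {f g : (V → ℕ) → ℝ}
    (h : ∀ n ∈ Om V K, f n ≤ g n) : Ex p K f ≤ Ex p K g :=
  sum_le_sum fun n hn => mul_le_mul_of_nonneg_left (h n hn) (pwt_nonneg hp n)

theorem Ex_const {p : V → ℕ → ℝ} {K : ℕ} (hp : ∀ v, ∑ j ∈ range K, p v j = 1) (c : ℝ) :
    Ex p K (fun _ => c) = c := by
  unfold Ex; rw [← sum_mul, pwt_sum p K hp, one_mul]

theorem Ex_add (p : V → ℕ → ℝ) (K : ℕ) (f g : (V → ℕ) → ℝ) :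
    Ex p K (fun n => f n + g n) = Ex p K f + Ex p K g := by
  unfold Ex; rw [← sum_add_distrib]; exact sum_congr rfl fun n _ => by ring

theorem Ex_mul (p : V → ℕ → ℝ) (K : ℕ) (c : ℝ) (f : (V → ℕ) → ℝ) :
    Ex p K (fun n => c * f n) = c * Ex p K f := by
  unfold Ex; rw [mul_sum]; exact sum_congr rfl fun n _ => by ring

theorem Ex_sum {ι : Type*} (p : V → ℕ → ℝ) (K : ℕ) (s : Finset ι) (f : ι → (V → ℕ) → ℝ) :
    Ex p K (fun n => ∑ i ∈ s, f i n) = ∑ i ∈ s, Ex p K (f i) := by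
  unfold Ex; rw [sum_comm]; exact sum_congr rfl fun n _ => by rw [mul_sum]

theorem pwt_update (p : V → ℕ → ℝ) (n : V → ℕ) (v : V) (j : ℕ) :
    pwt p n * p v j = pwt p (update n v j) * p v (n v) := by
  unfold pwt
  rw [← mul_prod_erase univ _ (mem_univ v),
    ← mul_prod_erase univ (fun u => p u (update n v j u)) (mem_univ v)]
  have : ∏ u ∈ univ.erase v, p u (update n v j u) = ∏ u ∈ univ.erase v, p u (n u) := by
    apply prod_congr rfl
    intro u hu
    rw [update_of_ne (ne_of_mem_erase hu)]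
  rw [this]
  simp only [update_self]
  ring

theorem Ex_resample {p : V → ℕ → ℝ} {K : ℕ} (hp : ∀ v, ∑ j ∈ range K, p v j = 1) (v : V)
    (f : (V → ℕ) → ℝ) :
    Ex p K f = Ex p K (fun n => ∑ j ∈ range K, p v j * f (update n v j)) := by
  have e1 : Ex p K f = ∑ q ∈ Om V K ×ˢ range K, (pwt p q.1 * p v q.2) * f q.1 := by
    rw [sum_product]
    unfold Ex
    apply sum_congr rfl
    intro n _
    simp only
    rw [← sum_mul, ← mul_sum, hp v, mul_one]
  have e2 : Ex p K (fun n => ∑ j ∈ range K, p v j * f (update n v j)) =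
      ∑ q ∈ Om V K ×ˢ range K, (pwt p q.1 * p v q.2) * f (update q.1 v q.2) := by
    rw [sum_product]
    unfold Ex
    apply sum_congr rfl
    intro n _
    simp only
    rw [mul_sum]
    exact sum_congr rfl fun j _ => by ring
  rw [e1, e2]
  apply sum_nbij' (fun q => (update q.1 v q.2, q.1 v)) (fun q => (update q.1 v q.2, q.1 v))
  · rintro ⟨n, j⟩ h
    rw [mem_product] at h ⊢
    simp only [Om, Fintype.mem_piFinset] at h ⊢
    refine ⟨fun u => ?_, h.1 v⟩
    by_cases hu : u = v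
    · subst hu; rw [update_self]; exact h.2
    · rw [update_of_ne hu]; exact h.1 u
  · rintro ⟨n, j⟩ h
    rw [mem_product] at h ⊢
    simp only [Om, Fintype.mem_piFinset] at h ⊢
    refine ⟨fun u => ?_, h.1 v⟩
    by_cases hu : u = v
    · subst hu; rw [update_self]; exact h.2
    · rw [update_of_ne hu]; exact h.1 u
  · rintro ⟨n, j⟩ _
    simp
  · rintro ⟨n, j⟩ _
    simp
  · rintro ⟨n, j⟩ _
    simp only [update_self, update_idem, update_eq_self]
    rw [← pwt_update]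

end Resample

end Crest.Agent.R314.Tk
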