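import Mathlib
import Crest.Agent.R314.Tok4

/-!
R314, Theorem A, part 5: the FPL inequality for one token system.
-/

set_option autoImplicit false
set_option linter.unusedSectionVars false

namespace Crest.Agent.R314.Tk

open Finset Function

namespace FData

variable {k : ℕ} [NeZero k] {V : Type*} [Fintype V] [DecidableEq V] (F : FData k V)

/-- The noise values. -/
noncomputable def xi (K : ℕ) (n : V → ℕ) (v : V) : ℝ := n v * (F.w v / 4 / K)

/-- The prices at noise `n`. -/
noncomputable def mm (K : ℕ) (n : V → ℕ) : ℕ → Tok k → ℝ := F.mcost (F.xi K n)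

/-- The token left by the algorithm at step `t`. -/
noncomputable def X (K : ℕ) (n : V → ℕ) (t : ℕ) : Tok k :=
  pos (F.mm K n) t (srv (F.mm K n) t)

/-- Increment of the optimum. -/
noncomputable def dl (K : ℕ) (n : V → ℕ) (t : ℕ) : ℝ := G (F.mm K n) (t + 1) - G (F.mm K n) t

/-- Entering. -/
noncomputable def en (K : ℕ) (v : V) (n : V → ℕ) (t : ℕ) : ℝ :=
  if v ∈ F.E (Sum.inr t) ∧ v ∉ F.E (F.X K n t) then 1 else 0

/-- Leaving. -/
noncomputable def exi (K : ℕ) (v : V) (n : V → ℕ) (t : ℕ) : ℝ :=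
  if v ∈ F.E (F.X K n t) ∧ v ∉ F.E (Sum.inr t) then 1 else 0

theorem xi_update (K : ℕ) (n : V → ℕ) (v : V) (j : ℕ) :
    F.xi K (update n v (j + 1)) =
      update (F.xi K (update n v j)) v (F.xi K (update n v j) v + F.w v / 4 / K) := by
  funext u
  by_cases hu : u = v
  · subst hu
    simp only [xi, update_self]
    push_cast; ring
  · simp only [xi, update_of_ne hu]

theorem Nv_step (K : ℕ) (v : V) (n : V → ℕ) (t : ℕ) :
    F.Nv v (pos (F.mm K n) (t + 1)) = F.Nv v (pos (F.mm K n) t) + F.en K v n t - F.exi K v n t := by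
  rw [pos_succ, F.Nv_update, en, exi, X]
  by_cases h1 : v ∈ F.E (Sum.inr t) <;>
    by_cases h2 : v ∈ F.E (pos (F.mm K n) t (srv (F.mm K n) t)) <;> simp [h1, h2]

theorem xi_nonneg (K : ℕ) (n : V → ℕ) (v : V) : 0 ≤ F.xi K n v := by
  unfold xi
  have := F.w_pos v
  positivity

theorem xi_le {K : ℕ} (hK : 0 < K) {n : V → ℕ} {v : V} (hn : n v ≤ K) : F.xi K n v ≤ F.w v / 4 := by
  unfold xi
  have h1 := F.w_pos v
  have hK' : (0 : ℝ) < K := by exact_mod_cast hK
  have h2 : (n v : ℝ) ≤ K := by exact_mod_cast hn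
  calc (n v : ℝ) * (F.w v / 4 / K) ≤ K * (F.w v / 4 / K) := by gcongr
    _ = F.w v / 4 := by field_simp

theorem mm_nonneg {K : ℕ} (hK : 0 < K) {n : V → ℕ} (hn : ∀ v, n v ≤ K) (t : ℕ) (a : Tok k) :
    0 ≤ F.mm K n t a :=
  F.mcost_nonneg (F.xi_nonneg K n) (fun v => F.xi_le hK (hn v)) t a

theorem dl_nonneg {K : ℕ} (hK : 0 < K) {n : V → ℕ} (hn : ∀ v, n v ≤ K) (t : ℕ) :
    0 ≤ F.dl K n t := by
  have := G_mono_step (F.mm_nonneg hK hn t)
  unfold dl
  linarith

theorem N_birth (K : ℕ) (v : V) (n : V → ℕ) {t : ℕ} (ht : t ≤ F.B v) :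
    F.Nv v (pos (F.mm K n) t) = 0 := by
  unfold Nv
  apply sum_eq_zero
  intro i _
  rw [if_neg]
  intro h
  rcases pos_tok (F.mm K n) t i with ⟨j, hj⟩ | ⟨s, hs, hs'⟩
  · rw [hj, F.E_inl] at h; simp at h
  · rw [hs'] at h
    have := (F.life s v h).1
    omega

theorem en_nonneg (K : ℕ) (v : V) (n : V → ℕ) (t : ℕ) : 0 ≤ F.en K v n t := by
  unfold en; split_ifs <;> norm_num

theorem exi_nonneg (K : ℕ) (v : V) (n : V → ℕ) (t : ℕ) : 0 ≤ F.exi K v n t := by
  unfold exi; split_ifs <;> norm_num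

open Classical in
/-- The inequality for one node. -/
theorem node_ineq {K' T : ℕ} (v : V) (hK2 : F.η v ≤ (K' + 1 : ℕ)) :
    Ex (fun u => prb (F.η u) (K' + 1)) (K' + 1) (fun n =>
        ∑ t ∈ (Ico (min (F.B v) T) (min (F.D v) T)).filter (fun t => v ∈ F.E (Sum.inr t)),
          F.en (K' + 1) v n t) ≤
      F.η v / (F.w v / 4) * Ex (fun u => prb (F.η u) (K' + 1)) (K' + 1) (fun n =>
        ∑ t ∈ (Ico (min (F.B v) T) (min (F.D v) T)).filter (fun t => v ∈ F.E (Sum.inr t)),
          F.dl (K' + 1) n t) +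
      2 * Real.exp (-F.η v / 2) / (F.w v / 4) * Ex (fun u => prb (F.η u) (K' + 1)) (K' + 1)
        (fun n => ∑ t ∈ (Ico (min (F.B v) T) (min (F.D v) T)).filter (fun t => F.In v t),
          F.dl (K' + 1) n t) +
      2 * Real.exp (-F.η v / 2) * Ex (fun u => prb (F.η u) (K' + 1)) (K' + 1)
        (fun n => F.Nv v (pos (F.mm (K' + 1) n) (min (F.D v) T))) +
      2 * Ex (fun u => prb (F.η u) (K' + 1)) (K' + 1) (fun n =>
        ∑ t ∈ (Ico (min (F.B v) T) (min (F.D v) T)).filter (fun t => ¬ F.In v t),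
          F.exi (K' + 1) v n t) +
      T * (k + 1) * (prb (F.η v) (K' + 1) 0 + 2 / (K' + 1 : ℕ)) := by
  set K := K' + 1 with hKdef
  have hK : 0 < K := Nat.succ_pos _
  have hKr : (0 : ℝ) < (K : ℝ) := by exact_mod_cast hK
  set p : V → ℕ → ℝ := fun u => prb (F.η u) K with hp
  have hp0 : ∀ u j, 0 ≤ p u j := fun u j => prb_nonneg (F.η_ge u) hK j
  have hpsum : ∀ u, ∑ j ∈ range K, p u j = 1 := fun u => prb_sum (F.η_ge u) hK
  have hw := F.w_pos v
  have hδ : 0 < F.w v / 4 / K := by positivity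
  have hKδ : (K : ℝ) * (F.w v / 4 / K) = F.w v / 4 := by field_simp
  have hkr : (0 : ℝ) ≤ k := Nat.cast_nonneg k
  rw [Ex_resample hpsum v (fun n =>
      ∑ t ∈ (Ico (min (F.B v) T) (min (F.D v) T)).filter (fun t => v ∈ F.E (Sum.inr t)),
        F.en K v n t),
    Ex_resample hpsum v (fun n =>
      ∑ t ∈ (Ico (min (F.B v) T) (min (F.D v) T)).filter (fun t => v ∈ F.E (Sum.inr t)),
        F.dl K n t),
    Ex_resample hpsum v (fun n =>
      ∑ t ∈ (Ico (min (F.B v) T) (min (F.D v) T)).filter (fun t => F.In v t), F.dl K n t),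
    Ex_resample hpsum v (fun n => F.Nv v (pos (F.mm K n) (min (F.D v) T))),
    Ex_resample hpsum v (fun n =>
      ∑ t ∈ (Ico (min (F.B v) T) (min (F.D v) T)).filter (fun t => ¬ F.In v t), F.exi K v n t),
    ← Ex_mul, ← Ex_mul, ← Ex_mul, ← Ex_mul, ← Ex_const hpsum (T * (k + 1) *
      (prb (F.η v) K 0 + 2 / (K : ℕ))), ← Ex_add, ← Ex_add, ← Ex_add, ← Ex_add]
  apply Ex_mono hp0
  intro n hn
  have hn' : ∀ u, n u < K := by
    intro u
    have := (Fintype.mem_piFinset.1 hn) u
    exact mem_range.1 this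
  have hnj : ∀ j, j ≤ K' → ∀ u, update n v j u ≤ K := by
    intro j hj u
    by_cases hu : u = v
    · subst hu; rw [update_self]; omega
    · rw [update_of_ne hu]; exact (hn' u).le
  have key := one_dim (K' := K') (F.η_ge v) hK2 hδ hkr
    (B := min (F.B v) T) (D := min (F.D v) T) (T := T)
    (min_le_min_right T (F.B_le_D v)) (min_le_right _ _)
    (fun t j => G (F.mm K (update n v j)) t)
    (fun t j => F.Nv v (pos (F.mm K (update n v j)) t))
    (fun t j => F.en K v (update n v j) t)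
    (fun t j => F.exi K v (update n v j) t)
    (fun t => v ∈ F.E (Sum.inr t)) (fun t => F.In v t)
    (fun t ht => F.In_of_mem t v ht)
    (fun t j => F.Nv_nonneg _ _) (fun t j => F.Nv_le _ _)
    (fun j _ => F.N_birth K v _ (min_le_left _ _))
    (fun t j _ => F.Nv_step K v _ t)
    (fun t j => by unfold en; split_ifs <;> norm_num)
    (fun t j => F.exi_nonneg _ _ _ _)
    (fun t _ _ hS j _ => by unfold en; rw [if_neg]; exact fun h => hS h.1)
    (fun t _ _ hS j _ => by unfold exi; rw [if_neg]; exact fun h => h.2 hS)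
    (fun t j _ _ hj => G_mono_step (F.mm_nonneg hK (hnj j hj) t))
    (fun t _ ht j _ => by
      have h := F.G_shift_low (F.xi K (update n v j)) v (F.w v / 4 / K)
        (ht.trans (min_le_left _ _))
      rw [← F.xi_update] at h
      exact h)
    (fun t _ ht j _ => by
      have h := F.G_shift_up (F.xi K (update n v j)) v (F.w v / 4 / K)
        (ht.trans (min_le_left _ _))
      rw [← F.xi_update] at h
      exact h)
  rw [← hKdef, hKδ] at key
  refine key.trans (le_of_eq ?_)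
  rfl

/-- Total weight of a configuration. -/
noncomputable def Wt (x : Fin k → Tok k) : ℝ := ∑ i, ∑ v ∈ F.E (x i), F.w v

theorem Wt_nonneg (x : Fin k → Tok k) : 0 ≤ F.Wt x :=
  sum_nonneg fun _ _ => sum_nonneg fun v _ => (F.w_pos v).le

theorem Wt_update (x : Fin k → Tok k) (i : Fin k) (a : Tok k) :
    F.Wt (update x i a) = F.Wt x + ∑ v ∈ F.E a, F.w v - ∑ v ∈ F.E (x i), F.w v := by
  unfold Wt
  rw [← add_sum_erase univ _ (mem_univ i),
    ← add_sum_erase univ (fun j => ∑ v ∈ F.E (x j), F.w v) (mem_univ i)]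
  have : ∑ j ∈ univ.erase i, ∑ v ∈ F.E (update x i a j), F.w v =
      ∑ j ∈ univ.erase i, ∑ v ∈ F.E (x j), F.w v := by
    apply sum_congr rfl
    intro j hj
    rw [update_of_ne (ne_of_mem_erase hj)]
  rw [this]
  simp only [update_self]
  ring

theorem sdiff_diff (S U : Finset V) (f : V → ℝ) :
    ∑ v ∈ S \ U, f v - ∑ v ∈ U \ S, f v = ∑ v ∈ S, f v - ∑ v ∈ U, f v := by
  have h1 := sum_inter_add_sum_sdiff S U f
  have h2 := sum_inter_add_sum_sdiff U S f
  rw [inter_comm] at h2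
  linarith

/-- Total entering weight of a path of tokens `a 0, a 1, ...`. -/
noncomputable def EnW (a : ℕ → Tok k) (T : ℕ) : ℝ :=
  ∑ t ∈ range T, ∑ v ∈ F.E (Sum.inr t) \ F.E (a t), F.w v

/-- Total leaving weight. -/
noncomputable def ExW (a : ℕ → Tok k) (T : ℕ) : ℝ :=
  ∑ t ∈ range T, ∑ v ∈ F.E (a t) \ F.E (Sum.inr t), F.w v

theorem ExW_le_EnW (K : ℕ) (n : V → ℕ) (T : ℕ) : F.ExW (F.X K n) T ≤ F.EnW (F.X K n) T := by
  have h : ∀ T, F.EnW (F.X K n) T - F.ExW (F.X K n) T = F.Wt (pos (F.mm K n) T) := by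
    intro T
    induction T with
    | zero =>
      simp only [EnW, ExW, range_zero, sum_empty, sub_zero]
      unfold Wt
      symm
      apply sum_eq_zero
      intro i _
      change ∑ v ∈ F.E (Sum.inl i), F.w v = 0
      rw [F.E_inl, sum_empty]
    | succ T ih =>
      rw [pos_succ, F.Wt_update, ← ih, EnW, ExW, sum_range_succ, sum_range_succ]
      have := sdiff_diff (F.E (Sum.inr T)) (F.E (F.X K n T)) F.w
      have e : F.E (F.X K n T) = F.E (pos (F.mm K n) T (srv (F.mm K n) T)) := rfl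
      rw [← e]
      unfold EnW ExW
      linarith
  have := h T
  have := F.Wt_nonneg (pos (F.mm K n) T)
  linarith

open Classical in
theorem EnW_eq (K : ℕ) (n : V → ℕ) (T : ℕ) :
    F.EnW (F.X K n) T = ∑ v, F.w v *
      ∑ t ∈ (Ico (min (F.B v) T) (min (F.D v) T)).filter (fun t => v ∈ F.E (Sum.inr t)),
        F.en K v n t := by
  have h1 : ∀ v, ∑ t ∈ (Ico (min (F.B v) T) (min (F.D v) T)).filter
      (fun t => v ∈ F.E (Sum.inr t)), F.en K v n t = ∑ t ∈ range T, F.en K v n t := by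
    intro v
    apply sum_subset_zero_on_sdiff
    · intro t ht
      rw [mem_filter, mem_Ico] at ht
      rw [mem_range]
      have := ht.1.2
      exact lt_of_lt_of_le this (min_le_right _ _)
    · intro t ht
      rw [mem_sdiff, mem_range, mem_filter, mem_Ico] at ht
      unfold en
      rw [if_neg]
      intro h
      apply ht.2
      have h2 := F.life t v h.1
      refine ⟨⟨(min_le_left _ _).trans h2.1, lt_min h2.2 ht.1⟩, h.1⟩
    · intro t _; rfl
  simp_rw [h1]
  have h2 : ∀ v, F.w v * ∑ t ∈ range T, F.en K v n t =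
      ∑ t ∈ range T, F.w v * F.en K v n t := fun v => by rw [mul_sum]
  simp_rw [h2]
  rw [sum_comm]
  unfold EnW
  apply sum_congr rfl
  intro t _
  have h3 : ∀ v, F.w v * F.en K v n t = if v ∈ F.E (Sum.inr t) \ F.E (F.X K n t) then F.w v else 0 := by
    intro v
    unfold en
    by_cases h : v ∈ F.E (Sum.inr t) ∧ v ∉ F.E (F.X K n t)
    · rw [if_pos h, if_pos (mem_sdiff.2 h), mul_one]
    · rw [if_neg h, if_neg (fun h' => h (mem_sdiff.1 h')), mul_zero]
  simp_rw [h3]
  rw [sum_ite_mem, univ_inter]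

theorem Nv_le_en (K : ℕ) (v : V) (n : V → ℕ) {T D' : ℕ} (hD : D' ≤ T) :
    F.Nv v (pos (F.mm K n) D') ≤ ∑ t ∈ range T, F.en K v n t := by
  have h : ∀ D', F.Nv v (pos (F.mm K n) D') ≤ ∑ t ∈ range D', F.en K v n t := by
    intro D'
    induction D' with
    | zero => rw [range_zero, sum_empty]; exact (F.Nv_start v).le
    | succ D' ih =>
      rw [F.Nv_step, sum_range_succ]
      have := F.exi_nonneg K v n D'
      linarith
  refine (h D').trans ?_
  apply sum_le_sum_of_subset_of_nonneg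
  · intro t ht; rw [mem_range] at ht ⊢; omega
  · intro t _ _; exact F.en_nonneg K v n t

end FData

end Crest.Agent.R314.Tk
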