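import Mathlib
import Crest.Agent.R314.Tok5

/-!
R314, Theorem A, part 6: the total FPL inequality.
-/

set_option autoImplicit false
set_option linter.unusedSectionVars false

namespace Crest.Agent.R314.Tk

open Finset Function

namespace FData

variable {k : ℕ} [NeZero k] {V : Type*} [Fintype V] [DecidableEq V] (F : FData k V)

/-- Expectation over the noise of the system `F`. -/
noncomputable def EE (K : ℕ) (f : (V → ℕ) → ℝ) : ℝ := Ex (fun u => prb (F.η u) K) K f

theorem EE_mono {K : ℕ} (hK : 0 < K) {f g : (V → ℕ) → ℝ} (h : ∀ n ∈ Om V K, f n ≤ g n) :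
    F.EE K f ≤ F.EE K g := Ex_mono (fun u j => prb_nonneg (F.η_ge u) hK j) h

theorem EE_const {K : ℕ} (hK : 0 < K) (c : ℝ) : F.EE K (fun _ => c) = c :=
  Ex_const (fun u => prb_sum (F.η_ge u) hK) c

theorem EE_add (K : ℕ) (f g : (V → ℕ) → ℝ) :
    F.EE K (fun n => f n + g n) = F.EE K f + F.EE K g := Ex_add _ _ _ _

theorem EE_mul (K : ℕ) (c : ℝ) (f : (V → ℕ) → ℝ) :
    F.EE K (fun n => c * f n) = c * F.EE K f := Ex_mul _ _ _ _

theorem EE_sum {ι : Type*} (K : ℕ) (s : Finset ι) (f : ι → (V → ℕ) → ℝ) :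
    F.EE K (fun n => ∑ i ∈ s, f i n) = ∑ i ∈ s, F.EE K (f i) := Ex_sum _ _ _ _

theorem G_telescope (K : ℕ) (n : V → ℕ) (T : ℕ) :
    ∑ t ∈ range T, F.dl K n t = G (F.mm K n) T := by
  unfold dl
  rw [sum_range_sub (fun t => G (F.mm K n) t), G_zero, sub_zero]

open Classical in
/-- **Theorem A** (algorithm side). -/
theorem main_ineq {K' T : ℕ} (hK2 : ∀ v, F.η v ≤ (K' + 1 : ℕ)) {Lam β : ℝ}
    (hLam : 0 ≤ Lam) (hβ : 0 ≤ β)
    (H1 : ∀ t < T, ∑ v ∈ F.E (Sum.inr t), F.η v ≤ Lam)
    (H2 : ∀ t < T, ∑ v ∈ univ.filter (fun v => F.B v ≤ t ∧ t < F.D v ∧ F.In v t),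
      Real.exp (-F.η v / 2) ≤ β)
    (H3 : ∀ t < T, ∀ s < t, ∑ v ∈ (F.E (Sum.inr s)).filter (fun v => t < F.D v ∧ ¬ F.In v t), F.w v ≤
      1 / 8 * ∑ v ∈ F.E (Sum.inr s) \ F.E (Sum.inr t), F.w v) :
    F.EE (K' + 1) (fun n => F.EnW (F.X (K' + 1) n) T) ≤
      (8 * Lam + 16 * β) * F.EE (K' + 1) (fun n => G (F.mm (K' + 1) n) T) +
      2 * ∑ v, F.w v * (T * (k + 1) * (prb (F.η v) (K' + 1) 0 + 2 / (K' + 1 : ℕ))) := by
  set K := K' + 1 with hKdef
  have hK : 0 < K := Nat.succ_pos _
  have hOm : ∀ n ∈ Om V K, ∀ u, n u ≤ K := by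
    intro n hn u
    have := (Fintype.mem_piFinset.1 hn) u
    exact (mem_range.1 this).le
  have hdl : ∀ n ∈ Om V K, ∀ t, 0 ≤ F.dl K n t := fun n hn t => F.dl_nonneg hK (hOm n hn) t
  -- the sum over the nodes
  have hsum : F.EE K (fun n => F.EnW (F.X K n) T) = ∑ v, F.w v * F.EE K (fun n =>
      ∑ t ∈ (Ico (min (F.B v) T) (min (F.D v) T)).filter (fun t => v ∈ F.E (Sum.inr t)),
        F.en K v n t) := by
    simp_rw [F.EnW_eq]
    rw [F.EE_sum]
    exact sum_congr rfl fun v _ => F.EE_mul _ _ _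
  have hnode : ∀ v, F.w v * F.EE K (fun n =>
      ∑ t ∈ (Ico (min (F.B v) T) (min (F.D v) T)).filter (fun t => v ∈ F.E (Sum.inr t)),
        F.en K v n t) ≤
      4 * F.EE K (fun n => ∑ t ∈ range T, if v ∈ F.E (Sum.inr t) then F.η v * F.dl K n t else 0) +
      8 * F.EE K (fun n => ∑ t ∈ range T, if F.B v ≤ t ∧ t < F.D v ∧ F.In v t then
        Real.exp (-F.η v / 2) * F.dl K n t else 0) +
      1 / 16 * F.EE K (fun n => F.w v * ∑ t ∈ range T, F.en K v n t) +
      2 * F.EE K (fun n => ∑ t ∈ range T,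
        if v ∈ F.E (F.X K n t) ∧ t < F.D v ∧ ¬ F.In v t then F.w v else 0) +
      F.w v * (T * (k + 1) * (prb (F.η v) (K' + 1) 0 + 2 / (K' + 1 : ℕ))) := by
    intro v
    have hw := F.w_pos v
    have h0 : F.EE K (fun n =>
        ∑ t ∈ (Ico (min (F.B v) T) (min (F.D v) T)).filter (fun t => v ∈ F.E (Sum.inr t)),
          F.en K v n t) ≤
      F.η v / (F.w v / 4) * F.EE K (fun n =>
        ∑ t ∈ (Ico (min (F.B v) T) (min (F.D v) T)).filter (fun t => v ∈ F.E (Sum.inr t)),
          F.dl K n t) +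
      2 * Real.exp (-F.η v / 2) / (F.w v / 4) * F.EE K
        (fun n => ∑ t ∈ (Ico (min (F.B v) T) (min (F.D v) T)).filter (fun t => F.In v t),
          F.dl K n t) +
      2 * Real.exp (-F.η v / 2) * F.EE K
        (fun n => F.Nv v (pos (F.mm K n) (min (F.D v) T))) +
      2 * F.EE K (fun n =>
        ∑ t ∈ (Ico (min (F.B v) T) (min (F.D v) T)).filter (fun t => ¬ F.In v t),
          F.exi K v n t) +
      T * (k + 1) * (prb (F.η v) (K' + 1) 0 + 2 / (K' + 1 : ℕ)) :=
      F.node_ineq (K' := K') (T := T) v (hK2 v)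
    have h1 := mul_le_mul_of_nonneg_left h0 hw.le
    have e1 : F.w v * (F.η v / (F.w v / 4) * F.EE K (fun n =>
        ∑ t ∈ (Ico (min (F.B v) T) (min (F.D v) T)).filter (fun t => v ∈ F.E (Sum.inr t)),
          F.dl K n t)) ≤ 4 * F.EE K (fun n => ∑ t ∈ range T,
            if v ∈ F.E (Sum.inr t) then F.η v * F.dl K n t else 0) := by
      have e : F.w v * (F.η v / (F.w v / 4) * F.EE K (fun n =>
        ∑ t ∈ (Ico (min (F.B v) T) (min (F.D v) T)).filter (fun t => v ∈ F.E (Sum.inr t)),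
          F.dl K n t)) = 4 * (F.η v * F.EE K (fun n =>
        ∑ t ∈ (Ico (min (F.B v) T) (min (F.D v) T)).filter (fun t => v ∈ F.E (Sum.inr t)),
          F.dl K n t)) := by
        field_simp
      rw [e, ← F.EE_mul]
      apply mul_le_mul_of_nonneg_left _ (by norm_num)
      apply F.EE_mono hK
      intro n hn
      rw [mul_sum, ← sum_filter]
      apply sum_le_sum_of_subset_of_nonneg
      · intro t ht
        rw [mem_filter, mem_Ico] at ht
        rw [mem_filter, mem_range]
        exact ⟨lt_of_lt_of_le ht.1.2 (min_le_right _ _), ht.2⟩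
      · intro t _ _
        have := hdl n hn t
        have := F.η_ge v
        positivity
    have e2 : F.w v * (2 * Real.exp (-F.η v / 2) / (F.w v / 4) *
        F.EE K
        (fun n => ∑ t ∈ (Ico (min (F.B v) T) (min (F.D v) T)).filter (fun t => F.In v t),
          F.dl K n t)) ≤ 8 * F.EE K (fun n => ∑ t ∈ range T,
            if F.B v ≤ t ∧ t < F.D v ∧ F.In v t then
              Real.exp (-F.η v / 2) * F.dl K n t else 0) := by
      have e : F.w v * (2 * Real.exp (-F.η v / 2) / (F.w v / 4) *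
        F.EE K
        (fun n => ∑ t ∈ (Ico (min (F.B v) T) (min (F.D v) T)).filter (fun t => F.In v t),
          F.dl K n t)) = 8 * (Real.exp (-F.η v / 2) * F.EE K (fun n =>
        ∑ t ∈ (Ico (min (F.B v) T) (min (F.D v) T)).filter (fun t => F.In v t),
          F.dl K n t)) := by
        field_simp
        ring
      rw [e, ← F.EE_mul]
      apply mul_le_mul_of_nonneg_left _ (by norm_num)
      apply F.EE_mono hK
      intro n hn
      rw [mul_sum, ← sum_filter]
      apply sum_le_sum_of_subset_of_nonneg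
      · intro t ht
        rw [mem_filter, mem_Ico] at ht
        rw [mem_filter, mem_range]
        have h3 : t < T := lt_of_lt_of_le ht.1.2 (min_le_right _ _)
        refine ⟨h3, ?_, lt_of_lt_of_le ht.1.2 (min_le_left _ _), ht.2⟩
        rcases min_le_iff.1 ht.1.1 with h | h
        · exact h
        · omega
      · intro t _ _
        have := hdl n hn t
        positivity
    have e3 : F.w v * (2 * Real.exp (-F.η v / 2) * F.EE K
        (fun n => F.Nv v (pos (F.mm K n) (min (F.D v) T)))) ≤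
        1 / 16 * F.EE K (fun n => F.w v * ∑ t ∈ range T, F.en K v n t) := by
      have hb := exp_half_le' (F.η_ge v)
      have h2 : F.EE K (fun n => F.Nv v (pos (F.mm K n) (min (F.D v) T))) ≤
          F.EE K (fun n => ∑ t ∈ range T, F.en K v n t) :=
        F.EE_mono hK fun n _ => F.Nv_le_en K v n (min_le_right _ _)
      have h3 : 0 ≤ F.EE K (fun n => F.Nv v (pos (F.mm K n) (min (F.D v) T))) := by
        have := F.EE_mono hK (f := fun _ => 0)
          (g := fun n => F.Nv v (pos (F.mm K n) (min (F.D v) T)))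
          (fun n _ => F.Nv_nonneg _ _)
        rwa [F.EE_const hK] at this
      rw [F.EE_mul]
      have h4 : 0 < Real.exp (-F.η v / 2) := Real.exp_pos _
      calc F.w v * (2 * Real.exp (-F.η v / 2) *
            F.EE K (fun n => F.Nv v (pos (F.mm K n) (min (F.D v) T)))) ≤
          F.w v * (2 * (1 / 32) * F.EE K (fun n => ∑ t ∈ range T, F.en K v n t)) := by
            gcongr
        _ = _ := by ring
    have e4 : F.w v * (2 * F.EE K (fun n =>
        ∑ t ∈ (Ico (min (F.B v) T) (min (F.D v) T)).filter (fun t => ¬ F.In v t),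
          F.exi K v n t)) ≤ 2 * F.EE K (fun n => ∑ t ∈ range T,
        if v ∈ F.E (F.X K n t) ∧ t < F.D v ∧ ¬ F.In v t then F.w v else 0) := by
      have e : F.w v * (2 * F.EE K (fun n =>
        ∑ t ∈ (Ico (min (F.B v) T) (min (F.D v) T)).filter (fun t => ¬ F.In v t),
          F.exi K v n t)) = 2 * (F.w v * F.EE K (fun n =>
        ∑ t ∈ (Ico (min (F.B v) T) (min (F.D v) T)).filter (fun t => ¬ F.In v t),
          F.exi K v n t)) := by
        ring
      rw [e, ← F.EE_mul]
      apply mul_le_mul_of_nonneg_left _ (by norm_num)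
      apply F.EE_mono hK
      intro n hn
      rw [mul_sum]
      have h5 : ∑ t ∈ (Ico (min (F.B v) T) (min (F.D v) T)).filter (fun t => ¬ F.In v t),
          F.w v * F.exi K v n t ≤
          ∑ t ∈ (Ico (min (F.B v) T) (min (F.D v) T)).filter (fun t => ¬ F.In v t),
          (if v ∈ F.E (F.X K n t) ∧ t < F.D v ∧ ¬ F.In v t then F.w v else 0) := by
        apply sum_le_sum
        intro t ht
        rw [mem_filter, mem_Ico] at ht
        unfold exi
        by_cases h6 : v ∈ F.E (F.X K n t) ∧ v ∉ F.E (Sum.inr t)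
        · rw [if_pos h6, if_pos ⟨h6.1, lt_of_lt_of_le ht.1.2 (min_le_left _ _), ht.2⟩, mul_one]
        · rw [if_neg h6, mul_zero]
          split_ifs
          · exact hw.le
          · exact le_rfl
      refine h5.trans ?_
      apply sum_le_sum_of_subset_of_nonneg
      · intro t ht
        rw [mem_filter, mem_Ico] at ht
        rw [mem_range]
        exact lt_of_lt_of_le ht.1.2 (min_le_right _ _)
      · intro t _ _
        split_ifs
        · exact hw.le
        · exact le_rfl
    refine h1.trans ?_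
    rw [mul_add, mul_add, mul_add, mul_add]
    linarith
  -- sum up
  have hA : ∑ v, (4 * F.EE K (fun n => ∑ t ∈ range T,
      if v ∈ F.E (Sum.inr t) then F.η v * F.dl K n t else 0)) ≤
      4 * Lam * F.EE K (fun n => G (F.mm K n) T) := by
    rw [← mul_sum, ← F.EE_sum, mul_assoc, ← F.EE_mul K Lam]
    apply mul_le_mul_of_nonneg_left _ (by norm_num)
    apply F.EE_mono hK
    intro n hn
    rw [← F.G_telescope, mul_sum, sum_comm]
    apply sum_le_sum
    intro t ht
    rw [sum_ite_mem, univ_inter, ← sum_mul]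
    exact mul_le_mul_of_nonneg_right (H1 t (mem_range.1 ht)) (hdl n hn t)
  have hB : ∑ v, (8 * F.EE K (fun n => ∑ t ∈ range T,
      if F.B v ≤ t ∧ t < F.D v ∧ F.In v t then Real.exp (-F.η v / 2) * F.dl K n t else 0)) ≤
      8 * β * F.EE K (fun n => G (F.mm K n) T) := by
    rw [← mul_sum, ← F.EE_sum, mul_assoc, ← F.EE_mul K β]
    apply mul_le_mul_of_nonneg_left _ (by norm_num)
    apply F.EE_mono hK
    intro n hn
    rw [← F.G_telescope, mul_sum, sum_comm]
    apply sum_le_sum
    intro t ht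
    rw [← sum_filter, ← sum_mul]
    exact mul_le_mul_of_nonneg_right (H2 t (mem_range.1 ht)) (hdl n hn t)
  have hC : ∑ v, (1 / 16 * F.EE K (fun n => F.w v * ∑ t ∈ range T, F.en K v n t)) =
      1 / 16 * F.EE K (fun n => F.EnW (F.X K n) T) := by
    rw [← mul_sum, ← F.EE_sum]
    congr 2
    funext n
    have h2 : ∀ v, F.w v * ∑ t ∈ range T, F.en K v n t =
        ∑ t ∈ range T, F.w v * F.en K v n t := fun v => by rw [mul_sum]
    simp_rw [h2]
    rw [sum_comm]
    unfold EnW
    apply sum_congr rfl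
    intro t _
    have h3 : ∀ v, F.w v * F.en K v n t =
        if v ∈ F.E (Sum.inr t) \ F.E (F.X K n t) then F.w v else 0 := by
      intro v
      unfold en
      by_cases h : v ∈ F.E (Sum.inr t) ∧ v ∉ F.E (F.X K n t)
      · rw [if_pos h, if_pos (mem_sdiff.2 h), mul_one]
      · rw [if_neg h, if_neg (fun h' => h (mem_sdiff.1 h')), mul_zero]
    simp_rw [h3]
    rw [sum_ite_mem, univ_inter]
  have hD : ∑ v, (2 * F.EE K (fun n => ∑ t ∈ range T,
        if v ∈ F.E (F.X K n t) ∧ t < F.D v ∧ ¬ F.In v t then F.w v else 0)) ≤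
      1 / 4 * F.EE K (fun n => F.EnW (F.X K n) T) := by
    rw [← mul_sum, ← F.EE_sum]
    have : (1 : ℝ) / 4 * F.EE K (fun n => F.EnW (F.X K n) T) =
        2 * F.EE K (fun n => 1 / 8 * F.EnW (F.X K n) T) := by rw [F.EE_mul]; ring
    rw [this]
    apply mul_le_mul_of_nonneg_left _ (by norm_num)
    apply F.EE_mono hK
    intro n hn
    have h1 := F.ExW_le_EnW K n T
    refine le_trans ?_ (mul_le_mul_of_nonneg_left h1 (by norm_num : (0 : ℝ) ≤ 1 / 8))
    unfold ExW
    rw [mul_sum, sum_comm]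
    apply sum_le_sum
    intro t ht
    rw [← sum_filter]
    rcases pos_tok (F.mm K n) t (srv (F.mm K n) t) with ⟨j, hj⟩ | ⟨s, hs, hs'⟩
    · have e : F.X K n t = Sum.inl j := hj
      rw [e, F.E_inl]
      simp
    · have e : F.X K n t = Sum.inr s := hs'
      rw [e]
      have h2 := H3 t (mem_range.1 ht) s hs
      refine le_trans (le_of_eq ?_) h2
      apply sum_congr _ (fun _ _ => rfl)
      ext v
      simp
  have hTot : F.EE K (fun n => F.EnW (F.X K n) T) ≤
      4 * Lam * F.EE K (fun n => G (F.mm K n) T) + 8 * β * F.EE K (fun n => G (F.mm K n) T) +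
      1 / 16 * F.EE K (fun n => F.EnW (F.X K n) T) + 1 / 4 * F.EE K (fun n => F.EnW (F.X K n) T) +
      ∑ v, F.w v * (T * (k + 1) * (prb (F.η v) (K' + 1) 0 + 2 / (K' + 1 : ℕ))) := by
    calc F.EE K (fun n => F.EnW (F.X K n) T) = _ := hsum
      _ ≤ _ := sum_le_sum fun v _ => hnode v
      _ ≤ _ := by
        rw [sum_add_distrib, sum_add_distrib, sum_add_distrib, sum_add_distrib, hC]
        linarith
  have hG0 : 0 ≤ F.EE K (fun n => G (F.mm K n) T) := by
    have := F.EE_mono hK (f := fun _ => 0) (g := fun n => G (F.mm K n) T) (fun n hn => by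
      rw [← F.G_telescope]
      exact sum_nonneg fun t _ => hdl n hn t)
    rwa [F.EE_const hK] at this
  have hE0 : 0 ≤ ∑ v, F.w v * (T * (k + 1) * (prb (F.η v) (K' + 1) 0 + 2 / (K' + 1 : ℕ))) := by
    apply sum_nonneg
    intro v _
    have := F.w_pos v
    have := prb_nonneg (F.η_ge v) hK 0
    positivity
  have hLG : 0 ≤ Lam * F.EE K (fun n => G (F.mm K n) T) := mul_nonneg hLam hG0
  have hBG : 0 ≤ β * F.EE K (fun n => G (F.mm K n) T) := mul_nonneg hβ hG0
  nlinarith

end FData

end Crest.Agent.R314.Tk
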