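import Mathlib
import Crest.Agent.R314.Tok6

/-!
R314, Theorem A, part 7: the comparator side, and the final inequality for one token system.
-/

set_option autoImplicit false
set_option linter.unusedSectionVars false

namespace Crest.Agent.R314.Tk

open Finset Function

namespace FData

variable {k : ℕ} [NeZero k] {V : Type*} [Fintype V] [DecidableEq V] (F : FData k V)

theorem EE_coord {K : ℕ} (hK : 0 < K) (v : V) (f : ℕ → ℝ) :
    F.EE K (fun n => f (n v)) = ∑ j ∈ range K, prb (F.η v) K j * f j := by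
  have hpsum : ∀ u, ∑ j ∈ range K, prb (F.η u) K j = 1 := fun u => prb_sum (F.η_ge u) hK
  rw [EE, Ex_resample hpsum v (fun n => f (n v))]
  simp only [update_self]
  exact Ex_const hpsum _

theorem EE_xi_le {K : ℕ} (hK : 0 < K) (v : V) :
    F.EE K (fun n => F.xi K n v) ≤ 3 / F.η v * (F.w v / 4) := by
  have h1 : F.EE K (fun n => F.xi K n v) =
      (F.w v / 4) * ∑ j ∈ range K, prb (F.η v) K j * (j / K) := by
    have := F.EE_coord hK v (fun j => (j : ℝ) * (F.w v / 4 / K))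
    unfold xi
    rw [this, mul_sum]
    apply sum_congr rfl
    intro j _
    ring
  rw [h1, mul_comm]
  have := prb_mean (F.η_ge v) hK
  have hw := F.w_pos v
  gcongr

/-- The price of the step `a → inr t` for the comparator. -/
noncomputable def cstep (a : Tok k) (t : ℕ) : ℝ :=
  F.κ t a + ∑ v ∈ F.E (Sum.inr t) \ F.E a, 3 / F.η v * (F.w v / 4) +
    ∑ v ∈ (F.E a \ F.E (Sum.inr t)).filter (fun v => t < F.D v), F.w v / 4

theorem EE_mm_le {K : ℕ} (hK : 0 < K) (t : ℕ) (a : Tok k) :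
    F.EE K (fun n => F.mm K n t a) ≤ F.cstep a t := by
  have h1 : ∀ n, F.mm K n t a ≤ (F.κ t a + ∑ v ∈ (F.E a \ F.E (Sum.inr t)).filter
      (fun v => t < F.D v), F.w v / 4) + ∑ v ∈ F.E (Sum.inr t) \ F.E a, F.xi K n v := by
    intro n
    unfold mm mcost
    have : ∑ v ∈ (F.E a \ F.E (Sum.inr t)).filter (fun v => t < F.D v), (F.w v / 4 - F.xi K n v) ≤
        ∑ v ∈ (F.E a \ F.E (Sum.inr t)).filter (fun v => t < F.D v), F.w v / 4 := by
      apply sum_le_sum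
      intro v _
      have := F.xi_nonneg K n v
      linarith
    linarith
  refine (F.EE_mono hK (fun n _ => h1 n)).trans ?_
  rw [F.EE_add, F.EE_const hK, F.EE_sum]
  unfold cstep
  have : ∑ v ∈ F.E (Sum.inr t) \ F.E a, F.EE K (fun n => F.xi K n v) ≤
      ∑ v ∈ F.E (Sum.inr t) \ F.E a, 3 / F.η v * (F.w v / 4) :=
    sum_le_sum fun v _ => F.EE_xi_le hK v
  linarith

theorem EE_G_le {K : ℕ} (hK : 0 < K) (j : ℕ → Fin k) (T : ℕ) :
    F.EE K (fun n => G (F.mm K n) T) ≤ ∑ t ∈ range T, F.cstep (cpos j t (j t)) t := by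
  refine (F.EE_mono hK (fun n _ => G_le_path (F.mm K n) j T)).trans ?_
  rw [F.EE_sum]
  exact sum_le_sum fun t _ => F.EE_mm_le hK t _

/-- The discretisation error. -/
noncomputable def err (w η : V → ℝ) (T k : ℕ) (K : ℕ) : ℝ :=
  2 * ∑ v, w v * (T * (k + 1) * ((2 * η v + 3) / K))

open Classical in
/-- **Theorem A** for one token system. -/
theorem thmA {K T : ℕ} (hK : 0 < K) (hK2 : ∀ v, F.η v ≤ K) {Lam β : ℝ}
    (hLam : 0 ≤ Lam) (hβ : 0 ≤ β)
    (H1 : ∀ t < T, ∑ v ∈ F.E (Sum.inr t), F.η v ≤ Lam)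
    (H2 : ∀ t < T, ∑ v ∈ univ.filter (fun v => F.B v ≤ t ∧ t < F.D v ∧ F.In v t),
      Real.exp (-F.η v / 2) ≤ β)
    (H3 : ∀ t < T, ∀ s < t, ∑ v ∈ (F.E (Sum.inr s)).filter (fun v => t < F.D v ∧ ¬ F.In v t), F.w v ≤
      1 / 8 * ∑ v ∈ F.E (Sum.inr s) \ F.E (Sum.inr t), F.w v) (j : ℕ → Fin k) :
    F.EE K (fun n => F.EnW (F.X K n) T) ≤
      (8 * Lam + 16 * β) * ∑ t ∈ range T, F.cstep (cpos j t (j t)) t + err F.w F.η T k K := by
  obtain ⟨K', rfl⟩ : ∃ K', K = K' + 1 := ⟨K - 1, by omega⟩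
  have h1 := F.main_ineq (K' := K') (T := T) hK2 hLam hβ H1 H2 H3
  have h2 := F.EE_G_le hK j T
  have h3 : (8 * Lam + 16 * β) * F.EE (K' + 1) (fun n => G (F.mm (K' + 1) n) T) ≤
      (8 * Lam + 16 * β) * ∑ t ∈ range T, F.cstep (cpos j t (j t)) t := by
    gcongr
  have h4 : 2 * ∑ v, F.w v * (T * (k + 1) * (prb (F.η v) (K' + 1) 0 + 2 / (K' + 1 : ℕ))) ≤
      err F.w F.η T k (K' + 1) := by
    unfold err
    apply mul_le_mul_of_nonneg_left _ (by norm_num)
    apply sum_le_sum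
    intro v _
    have h5 := prb_zero_le (F.η_ge v) hK
    have h6 := F.w_pos v
    have h7 : prb (F.η v) (K' + 1) 0 + 2 / ((K' + 1 : ℕ) : ℝ) ≤
        (2 * F.η v + 3) / ((K' + 1 : ℕ) : ℝ) := by
      calc _ ≤ (2 * F.η v + 1) / ((K' + 1 : ℕ) : ℝ) + 2 / ((K' + 1 : ℕ) : ℝ) := by gcongr
        _ = _ := by ring
    gcongr
  linarith

end FData

theorem err_small {V : Type*} [Fintype V] (w η : V → ℝ) (T k : ℕ) {ε : ℝ} (hε : 0 < ε) :
    ∃ K : ℕ, 0 < K ∧ (∀ v, η v ≤ K) ∧ FData.err w η T k K ≤ ε := by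
  classical
  set S : ℝ := 2 * ∑ v, w v * (T * (k + 1) * (2 * η v + 3)) with hS
  obtain ⟨K1, hK1⟩ := exists_nat_ge (|S| / ε)
  obtain ⟨K2, hK2⟩ := exists_nat_ge (∑ v, |η v|)
  refine ⟨K1 + K2 + 1, by omega, ?_, ?_⟩
  · intro v
    have h1 : |η v| ≤ ∑ v, |η v| :=
      single_le_sum (f := fun v => |η v|) (fun _ _ => abs_nonneg _) (mem_univ v)
    have h2 := le_abs_self (η v)
    push_cast
    have : (0 : ℝ) ≤ K1 := Nat.cast_nonneg _
    linarith
  · have e : FData.err w η T k (K1 + K2 + 1) = S / ((K1 + K2 + 1 : ℕ) : ℝ) := by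
      rw [hS, FData.err, mul_div_assoc, sum_div]
      congr 1
      apply sum_congr rfl
      intro v _
      ring
    rw [e]
    have hK : (0 : ℝ) < ((K1 + K2 + 1 : ℕ) : ℝ) := by positivity
    rw [div_le_iff₀ hK]
    have h1 : |S| ≤ K1 * ε := by rwa [div_le_iff₀ hε] at hK1
    have h2 := le_abs_self S
    have h3 : (K1 : ℝ) * ε ≤ ε * ((K1 + K2 + 1 : ℕ) : ℝ) := by
      push_cast
      have : (0 : ℝ) ≤ K2 := Nat.cast_nonneg _
      nlinarith
    linarith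

end Crest.Agent.R314.Tk
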