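import Mathlib
import Crest.Agent.R314.Tok7
import Crest.Agent.R314.Frame5

/-!
R314, Theorem A, part 8: online policies from an adapted family of token systems, and the link to
`pathCost`, `dcost`.
-/

set_option autoImplicit false
set_option linter.unusedSectionVars false

namespace Crest.Agent.R314.Tk

open Finset Function Crest.LogicCS.KServer

/-- The token `a` exists before step `t`. -/
def Old {k : ℕ} (t : ℕ) (a : Tok k) : Prop := ∀ r, a = Sum.inr r → r < t

theorem UR.old {k : ℕ} {m : ℕ → Tok k → ℝ} {t : ℕ} {x : Fin k → Tok k} {c : ℝ}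
    (h : UR m t x c) : ∀ i, Old t (x i) := by
  induction h with
  | zero σ => intro i r hr; simp at hr
  | @step t x c i hx ih =>
    intro l r hr
    by_cases hl : l = i
    · subst hl
      rw [update_self] at hr
      have := Sum.inr.inj hr
      omega
    · rw [update_of_ne hl] at hr
      have := ih l r hr
      omega

theorem UR.congr_old {k : ℕ} {m m' : ℕ → Tok k → ℝ} {t : ℕ} {x : Fin k → Tok k} {c : ℝ}
    (h : UR m t x c) (hm : ∀ s < t, ∀ a, Old s a → m s a = m' s a) : UR m' t x c := by
  induction h with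
  | zero σ => exact UR.zero σ
  | @step t x c i hx ih =>
    rw [hm t (Nat.lt_succ_self t) (x i) (hx.old i)]
    exact UR.step i (ih fun s hs => hm s (hs.trans (Nat.lt_succ_self t)))

theorem UR.congr_old_eq {k : ℕ} {m m' : ℕ → Tok k → ℝ} {t : ℕ}
    (hm : ∀ s < t, ∀ a, Old s a → m s a = m' s a) : UR m t = UR m' t := by
  funext x c
  exact propext ⟨fun h => h.congr_old hm,
    fun h => h.congr_old fun s hs a ha => (hm s hs a ha).symm⟩

theorem G_congr_old {k : ℕ} {m m' : ℕ → Tok k → ℝ} {t : ℕ}
    (hm : ∀ s < t, ∀ a, Old s a → m s a = m' s a) : G m t = G m' t := by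
  rw [G, G, UR.congr_old_eq hm]

theorem pos_congr_old {k : ℕ} [NeZero k] {m m' : ℕ → Tok k → ℝ} {t : ℕ}
    (hm : ∀ s < t, ∀ a, Old s a → m s a = m' s a) : pos m t = pos m' t := by
  induction t with
  | zero => rfl
  | succ t ih =>
    have h1 := ih fun s hs => hm s (hs.trans (Nat.lt_succ_self t))
    simp only [pos]
    rw [h1, UR.congr_old_eq hm, G_congr_old hm]

theorem srv_congr_old {k : ℕ} [NeZero k] {m m' : ℕ → Tok k → ℝ} {t : ℕ}
    (hm : ∀ s ≤ t, ∀ a, Old s a → m s a = m' s a) : srv m t = srv m' t := by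
  have h1 : pos m t = pos m' t := pos_congr_old fun s hs => hm s hs.le
  have h2 : ∀ s < t + 1, ∀ a, Old s a → m s a = m' s a := fun s hs => hm s (Nat.lt_succ_iff.1 hs)
  simp only [srv]
  rw [h1, UR.congr_old_eq h2, G_congr_old h2]

/-! ### Link to `pathCost` -/

section Link

variable {Y : Type*} {k : ℕ} [NeZero k]

/-- The location of a token. -/
def loc (s : Fin k → Y) (σ : List Y) : Tok k → Y
  | Sum.inl i => s i
  | Sum.inr t => σ.getD t (s 0)

/-- The server sequence of a path. -/
def srvs (q : List (Y × Fin k)) (t : ℕ) : Fin k := (q.map Prod.snd).getD t 0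

theorem cpos_congr {j j' : ℕ → Fin k} {t : ℕ} (h : ∀ s < t, j s = j' s) : cpos j t = cpos j' t := by
  induction t with
  | zero => rfl
  | succ t ih =>
    rw [cpos, cpos, ih fun s hs => h s (hs.trans (Nat.lt_succ_self t)), h t (Nat.lt_succ_self t)]

theorem loc_congr {s : Fin k → Y} {σ τ : List Y} {t : ℕ} {a : Tok k}
    (ha : Old t a) (h : ∀ r < t, σ.getD r (s 0) = τ.getD r (s 0)) : loc s σ a = loc s τ a := by
  rcases a with i | r
  · rfl
  · exact h r (ha r rfl)

theorem getD_append_lt (σ τ : List Y) (d : Y) {t : ℕ} (ht : t < σ.length) :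
    (σ ++ τ).getD t d = σ.getD t d := by
  simp [List.getD_eq_getElem?_getD, List.getElem?_append_left ht]

theorem cpos_old (j : ℕ → Fin k) (t : ℕ) (i : Fin k) : Old t (cpos j t i) :=
  (UR.cpos (fun _ _ => 0) j t).old i

theorem srvs_append (q : List (Y × Fin k)) (a : Y × Fin k) {t : ℕ} (ht : t < q.length) :
    srvs (q ++ [a]) t = srvs q t := by
  unfold srvs
  rw [List.map_append]
  exact getD_append_lt _ _ _ (by simpa using ht)

theorem srvs_append_last (q : List (Y × Fin k)) (a : Y × Fin k) :
    srvs (q ++ [a]) q.length = a.2 := by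
  unfold srvs
  simp [List.getD_eq_getElem?_getD]

theorem fst_append_last (q : List (Y × Fin k)) (a : Y × Fin k) (d : Y) :
    ((q ++ [a]).map Prod.fst).getD q.length d = a.1 := by
  simp [List.getD_eq_getElem?_getD]

theorem endConf_eq (s : Fin k → Y) (q : List (Y × Fin k)) [MetricSpace Y] :
    endConf s q = fun i => loc s (q.map Prod.fst) (cpos (srvs q) q.length i) := by
  induction q using List.reverseRecOn with
  | nil => rfl
  | append_singleton q a ih =>
    rw [endConf_append, ih]
    simp only [endConf_cons, endConf_nil]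
    funext i
    have hc : cpos (srvs (q ++ [a])) (q ++ [a]).length =
        update (cpos (srvs q) q.length) a.2 (Sum.inr q.length) := by
      rw [List.length_append, List.length_singleton, cpos, srvs_append_last,
        cpos_congr fun s hs => srvs_append q a hs]
    rw [hc]
    by_cases hi : i = a.2
    · subst hi
      rw [update_self, update_self]
      exact (fst_append_last q a (s 0)).symm
    · rw [update_of_ne hi, update_of_ne hi]
      refine loc_congr (cpos_old _ _ _) fun r hr => ?_
      rw [List.map_append]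
      exact (getD_append_lt _ _ _ (by simpa using hr)).symm

theorem pathCost_eq [MetricSpace Y] (s : Fin k → Y) (q : List (Y × Fin k)) :
    pathCost s q = ∑ t ∈ range q.length,
      dist (loc s (q.map Prod.fst) (cpos (srvs q) t (srvs q t)))
        (loc s (q.map Prod.fst) (Sum.inr t)) := by
  induction q using List.reverseRecOn with
  | nil => simp
  | append_singleton q a ih =>
    rw [pathCost_append, ih, List.length_append, List.length_singleton, sum_range_succ]
    congr 1
    · apply sum_congr rfl
      intro t ht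
      rw [mem_range] at ht
      have h1 : loc s ((q ++ [a]).map Prod.fst) (Sum.inr t : Tok k) =
          loc s (q.map Prod.fst) (Sum.inr t) := by
        unfold loc
        rw [List.map_append]
        exact getD_append_lt _ _ _ (by simpa using ht)
      rw [h1, srvs_append q a ht, cpos_congr fun r hr => srvs_append q a (hr.trans ht)]
      congr 1
      refine loc_congr (cpos_old _ _ _) fun r hr => ?_
      rw [List.map_append]
      exact (getD_append_lt _ _ _ (by simpa using hr.trans ht)).symm
    · rw [pathCost_cons, pathCost_nil, add_zero, endConf_eq]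
      have h1 : loc s ((q ++ [a]).map Prod.fst) (Sum.inr q.length : Tok k) = a.1 :=
        fst_append_last q a (s 0)
      rw [h1, srvs_append_last, cpos_congr fun r hr => srvs_append q a hr]
      congr 1
      refine loc_congr (cpos_old _ _ _) fun r hr => ?_
      rw [List.map_append]
      exact (getD_append_lt _ _ _ (by simpa using hr)).symm

theorem srvs_run (d : DPol Y k) (σ : List Y) {t : ℕ} (ht : t < σ.length) :
    srvs (run d [] σ) t = d (σ.take (t + 1)) := by
  have h : ∀ (σ pre : List Y) (t : ℕ), t < σ.length →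
      ((run d pre σ).map Prod.snd).getD t 0 = d (pre ++ σ.take (t + 1)) := by
    intro σ
    induction σ with
    | nil => intro pre t ht; simp at ht
    | cons r rest ih =>
      intro pre t ht
      cases t with
      | zero => simp
      | succ t =>
        have := ih (pre ++ [r]) t (by simpa using ht)
        simpa using this
  have h1 := h σ [] t ht
  rw [List.nil_append] at h1
  exact h1

/-- Physical cost of a sequence of tokens left. -/
noncomputable def phys [MetricSpace Y] (s : Fin k → Y) (σ : List Y) (a : ℕ → Tok k) (T : ℕ) : ℝ :=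
  ∑ t ∈ range T, dist (loc s σ (a t)) (loc s σ (Sum.inr t))

theorem dcost_eq [MetricSpace Y] (s : Fin k → Y) (d : DPol Y k) (σ : List Y)
    (m : ℕ → Tok k → ℝ) (h : ∀ t < σ.length, d (σ.take (t + 1)) = srv m t) :
    dcost d s σ = phys s σ (fun t => pos m t (srv m t)) σ.length := by
  unfold dcost phys
  rw [pathCost_eq, run_length, run_map_fst]
  apply sum_congr rfl
  intro t ht
  rw [mem_range] at ht
  have h1 : ∀ r < σ.length, srvs (run d [] σ) r = srv m r := fun r hr => by
    rw [srvs_run d σ hr, h r hr]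
  rw [h1 t ht, cpos_congr fun r hr => h1 r (hr.trans ht), ← pos_eq_cpos]

end Link

/-! ### Adapted families -/

section Family

variable {Y : Type*} [MetricSpace Y] {k : ℕ} [NeZero k] {V : Type*} [Fintype V] [DecidableEq V]

/-- A family of token systems indexed by the request list, online and with common noise law. -/
structure Adapted (F : List Y → FData k V) (w η : V → ℝ) : Prop where
  w_eq : ∀ σ, (F σ).w = w
  η_eq : ∀ σ, (F σ).η = η
  E_eq : ∀ (σ : List Y) (t : ℕ), t < σ.length →
    (F (σ.take (t + 1))).E (Sum.inr t) = (F σ).E (Sum.inr t)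
  D_iff : ∀ (σ : List Y) (t : ℕ), t < σ.length → ∀ (a : Tok k), Old t a → ∀ v ∈ (F σ).E a,
    (t < (F (σ.take (t + 1))).D v ↔ t < (F σ).D v)
  κ_eq : ∀ (σ : List Y) (t : ℕ), t < σ.length → ∀ (a : Tok k), Old t a →
    (F (σ.take (t + 1))).κ t a = (F σ).κ t a

variable {F : List Y → FData k V} {w η : V → ℝ}

theorem Adapted.E_eq' (h : Adapted F w η) {σ : List Y} {s t : ℕ} (hs : s < t) (ht : t ≤ σ.length) :
    (F (σ.take t)).E (Sum.inr s) = (F σ).E (Sum.inr s) := by
  have h1 := h.E_eq (σ.take t) s (by rw [List.length_take]; omega)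
  rw [List.take_take, min_eq_left (by omega)] at h1
  rw [← h1]
  exact h.E_eq σ s (by omega)

theorem Adapted.E_old (h : Adapted F w η) {σ : List Y} {t : ℕ} (ht : t < σ.length) {a : Tok k}
    (ha : Old t a) : (F (σ.take (t + 1))).E a = (F σ).E a := by
  rcases a with i | s
  · rw [(F _).E_inl, (F _).E_inl]
  · have := ha s rfl
    exact h.E_eq' (by omega) (by omega)

theorem Adapted.mcost_eq (h : Adapted F w η) {σ : List Y} {t : ℕ} (ht : t < σ.length) {a : Tok k}
    (ha : Old t a) (ξ : V → ℝ) :
    (F (σ.take (t + 1))).mcost ξ t a = (F σ).mcost ξ t a := by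
  unfold FData.mcost
  rw [h.κ_eq σ t ht a ha, h.E_eq σ t ht, h.E_old ht ha, h.w_eq, h.w_eq]
  congr 1
  apply sum_congr _ (fun _ _ => rfl)
  ext v
  simp only [mem_filter, mem_sdiff]
  constructor
  · rintro ⟨⟨h1, h2⟩, h3⟩
    exact ⟨⟨h1, h2⟩, (h.D_iff σ t ht a ha v h1).1 h3⟩
  · rintro ⟨⟨h1, h2⟩, h3⟩
    exact ⟨⟨h1, h2⟩, (h.D_iff σ t ht a ha v h1).2 h3⟩

theorem Adapted.mm_eq (h : Adapted F w η) (K : ℕ) (n : V → ℕ) {σ : List Y} {t : ℕ}
    (ht : t < σ.length) {a : Tok k} (ha : Old t a) :
    (F (σ.take (t + 1))).mm K n t a = (F σ).mm K n t a := by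
  unfold FData.mm
  have : (F (σ.take (t + 1))).xi K n = (F σ).xi K n := by
    funext v; unfold FData.xi; rw [h.w_eq, h.w_eq]
  rw [this]
  exact h.mcost_eq ht ha _

/-- The online policy. -/
noncomputable def dpol (F : List Y → FData k V) (K : ℕ) (n : V → ℕ) : DPol Y k :=
  fun pre => srv ((F pre).mm K n) (pre.length - 1)

theorem Adapted.dpol_eq (h : Adapted F w η) (K : ℕ) (n : V → ℕ) {σ : List Y} {t : ℕ}
    (ht : t < σ.length) : dpol F K n (σ.take (t + 1)) = srv ((F σ).mm K n) t := by
  unfold dpol
  have hl : (σ.take (t + 1)).length - 1 = t := by rw [List.length_take]; omega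
  rw [hl]
  apply srv_congr_old
  intro s hs a ha
  have h1 : s < (σ.take (t + 1)).length := by rw [List.length_take]; omega
  have h2 := h.mm_eq K n h1 ha
  rw [List.take_take, min_eq_left (by omega)] at h2
  rw [← h2]
  exact h.mm_eq K n (by omega) ha

theorem Adapted.dcost_eq (h : Adapted F w η) (K : ℕ) (n : V → ℕ) (s : Fin k → Y) (σ : List Y) :
    dcost (dpol F K n) s σ = phys s σ ((F σ).X K n) σ.length :=
  Tk.dcost_eq s _ σ ((F σ).mm K n) fun _ ht => h.dpol_eq K n ht

/-- Averaging over the noise: a deterministic policy at least as good as the random one. -/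
theorem exists_dpol (h : Adapted F w η) {K : ℕ} (hK : 0 < K) (hη : ∀ v, 8 ≤ η v)
    (s : Fin k → Y) {ι : Type} [Fintype ι] (p : ι → ℝ) (q : ι → List (Y × Fin k)) :
    ∃ d : DPol Y k, ∑ i, p i * dcost d s ((q i).map Prod.fst) ≤
      ∑ i, p i * (F ((q i).map Prod.fst)).EE K (fun n =>
        phys s ((q i).map Prod.fst) ((F ((q i).map Prod.fst)).X K n) (q i).length) := by
  classical
  set P : V → ℕ → ℝ := fun u => prb (η u) K with hP
  have hP0 : ∀ u j, 0 ≤ P u j := fun u j => prb_nonneg (hη u) hK j
  have hP1 : ∀ u, ∑ j ∈ range K, P u j = 1 := fun u => prb_sum (hη u) hK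
  set f : (V → ℕ) → ℝ := fun n => ∑ i, p i * dcost (dpol F K n) s ((q i).map Prod.fst) with hf
  have e : ∑ i, p i * (F ((q i).map Prod.fst)).EE K (fun n =>
      phys s ((q i).map Prod.fst) ((F ((q i).map Prod.fst)).X K n) (q i).length) = Ex P K f := by
    rw [hf, Ex_sum]
    apply sum_congr rfl
    intro i _
    rw [Ex_mul]
    congr 1
    unfold FData.EE
    rw [h.η_eq]
    congr 1
    funext n
    rw [h.dcost_eq, List.length_map]
  rw [e]
  by_contra hcon
  push Not at hcon
  have h1 : ∀ n ∈ Om V K, Ex P K f ≤ f n := fun n _ => (hcon (dpol F K n)).le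
  have h2 : ∃ n ∈ Om V K, 0 < pwt P n := by
    by_contra h3
    push Not at h3
    have h4 := pwt_sum P K hP1
    have h5 : ∑ n ∈ Om V K, pwt P n ≤ 0 := sum_nonpos h3
    linarith
  obtain ⟨n0, hn0, hn0'⟩ := h2
  have h3 : Ex P K (fun _ => Ex P K f) < Ex P K f := by
    conv_rhs => rw [Ex]
    rw [Ex]
    apply sum_lt_sum
    · intro n hn
      exact mul_le_mul_of_nonneg_left (h1 n hn) (pwt_nonneg hP0 n)
    · exact ⟨n0, hn0, mul_lt_mul_of_pos_left (hcon (dpol F K n0)) hn0'⟩
  rw [Ex_const hP1] at h3
  exact lt_irrefl _ h3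

end Family

end Crest.Agent.R314.Tk
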