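import Mathlib
import Crest.Agent.R314.Tok8

/-!
R314, block ASM-T: interface `TreeSys` between module C/T (the history-indexed tree structure) and
Theorem A.

All data are functions of the history `h : List X` (the requests so far, in order of time).  The
axioms are only required on a prefix-closed set `Good` of histories (the prefixes of the request
lists of the prior).  `live h` is the set of nodes alive after `h` has been processed, `pt h z` the
live nodes whose region contains the location `z`.  The token created by the last request `x` of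
`h ++ [x]` lies in the nodes `pt (h ++ [x]) x`.
-/

set_option autoImplicit false
set_option linter.unusedSectionVars false

namespace Crest.Agent.R314.Asm

open Finset Function Crest.LogicCS.KServer Tk

section price
variable {V : Type*} [DecidableEq V]

/-- Price of replacing the label set `A` by `B`; nodes outside `L` are dead (free exit). -/
noncomputable def price (w η : V → ℝ) (A B L : Finset V) : ℝ :=
  ∑ v ∈ B \ A, 3 / η v * (w v / 4) + ∑ v ∈ (A \ B) ∩ L, w v / 4

/-- **Triangle inequality** for prices. -/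
theorem price_triangle {w η : V → ℝ} (hw : ∀ v, 0 ≤ w v) (hη : ∀ v, 0 ≤ η v)
    (A B C L L' : Finset V) (hL : (A \ B) ∩ L ⊆ L') :
    price w η A C L ≤ price w η A B L' + price w η B C L := by
  have h1 : ∑ v ∈ C \ A, 3 / η v * (w v / 4) ≤
      ∑ v ∈ B \ A, 3 / η v * (w v / 4) + ∑ v ∈ C \ B, 3 / η v * (w v / 4) := by
    have h0 : ∀ v, 0 ≤ 3 / η v * (w v / 4) := fun v =>
      mul_nonneg (div_nonneg (by norm_num) (hη v)) (div_nonneg (hw v) (by norm_num))
    have e : C \ A ⊆ (B \ A) ∪ (C \ B) := by
      intro v hv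
      rw [mem_sdiff] at hv
      rw [mem_union, mem_sdiff, mem_sdiff]
      tauto
    calc _ ≤ ∑ v ∈ (B \ A) ∪ (C \ B), 3 / η v * (w v / 4) :=
          sum_le_sum_of_subset_of_nonneg e fun v _ _ => h0 v
      _ = _ := by
          rw [sum_union]
          rw [disjoint_left]
          intro v hv hv'
          rw [mem_sdiff] at hv hv'
          tauto
  have h2 : ∑ v ∈ (A \ C) ∩ L, w v / 4 ≤
      ∑ v ∈ (A \ B) ∩ L', w v / 4 + ∑ v ∈ (B \ C) ∩ L, w v / 4 := by
    have h0 : ∀ v, 0 ≤ w v / 4 := fun v => div_nonneg (hw v) (by norm_num)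
    have e : (A \ C) ∩ L ⊆ ((A \ B) ∩ L') ∪ ((B \ C) ∩ L) := by
      intro v hv
      rw [mem_inter, mem_sdiff] at hv
      rw [mem_union, mem_inter, mem_inter, mem_sdiff, mem_sdiff]
      by_cases hb : v ∈ B
      · exact Or.inr ⟨⟨hb, hv.1.2⟩, hv.2⟩
      · exact Or.inl ⟨⟨hv.1.1, hb⟩, hL (by rw [mem_inter, mem_sdiff]; exact ⟨⟨hv.1.1, hb⟩, hv.2⟩)⟩
    calc _ ≤ ∑ v ∈ ((A \ B) ∩ L') ∪ ((B \ C) ∩ L), w v / 4 :=
          sum_le_sum_of_subset_of_nonneg e fun v _ _ => h0 v
      _ = _ := by
          rw [sum_union]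
          rw [disjoint_left]
          intro v hv hv'
          rw [mem_inter, mem_sdiff] at hv hv'
          tauto
  unfold price
  linarith

theorem price_self (w η : V → ℝ) (A L : Finset V) : price w η A A L = 0 := by
  simp [price]

theorem price_nonneg {w η : V → ℝ} (hw : ∀ v, 0 ≤ w v) (hη : ∀ v, 0 ≤ η v)
    (A B L : Finset V) : 0 ≤ price w η A B L := by
  unfold price
  apply add_nonneg
  · exact sum_nonneg fun v _ => mul_nonneg (div_nonneg (by norm_num) (hη v))
      (div_nonneg (hw v) (by norm_num))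
  · exact sum_nonneg fun v _ => div_nonneg (hw v) (by norm_num)

/-- (H3) from parents: the map `par` is injective on `D`, maps `D` into `R` and multiplies the
weights by at least `8`. -/
theorem sum_par_le {w : V → ℝ} (hw : ∀ v, 0 ≤ w v) (D R : Finset V) (par : V → V)
    (h1 : ∀ v ∈ D, par v ∈ R) (h2 : ∀ v ∈ D, 8 * w v ≤ w (par v))
    (h3 : ∀ v ∈ D, ∀ v' ∈ D, par v = par v' → v = v') :
    ∑ v ∈ D, w v ≤ 1 / 8 * ∑ v ∈ R, w v := by
  calc ∑ v ∈ D, w v ≤ ∑ v ∈ D, 1 / 8 * w (par v) :=
        sum_le_sum fun v hv => by linarith [h2 v hv]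
    _ = 1 / 8 * ∑ u ∈ D.image par, w u := by
        rw [← mul_sum, sum_image]
        intro v hv v' hv' h
        exact h3 v hv v' hv' h
    _ ≤ 1 / 8 * ∑ v ∈ R, w v := by
        apply mul_le_mul_of_nonneg_left _ (by norm_num)
        apply sum_le_sum_of_subset_of_nonneg
        · intro u hu
          rw [mem_image] at hu
          obtain ⟨v, hv, rfl⟩ := hu
          exact h1 v hv
        · intro u _ _; exact hw u

end price

/-- `v` is strictly below `o` (`none` = the root). -/
def Below {V : Type*} (w : V → ℝ) (o : Option V) (v : V) : Prop := ∀ u, o = some u → w v < w u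

open Classical in
/-- What module C/T delivers. -/
structure TreeSys (X : Type*) [MetricSpace X] (V : Type*) [DecidableEq V]
    (Good : List X → Prop) where
  /-- weights and noise parameters of the nodes (fixed for the life of the node) -/
  w : V → ℝ
  w_pos : ∀ v, 0 < w v
  η : V → ℝ
  η_ge : ∀ v, 8 ≤ η v
  /-- index (starting with 0) of the request at which the node is born -/
  birth : V → ℕ
  live : List X → Finset V
  pt : List X → X → Finset V
  pt_nil : ∀ z, pt [] z = ∅
  pt_live : ∀ h, Good h → ∀ z, pt h z ⊆ live h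
  birth_lt : ∀ h, Good h → ∀ v ∈ live h, birth v < h.length
  /-- lives are intervals -/
  live_back : ∀ h x, Good (h ++ [x]) → ∀ v ∈ live (h ++ [x]), birth v < h.length → v ∈ live h
  /-- `In h v`: the last request of `h` lies in the parent region of `v` -/
  In : List X → V → Prop
  In_of_mem : ∀ h x, Good (h ++ [x]) → ∀ v ∈ pt (h ++ [x]) x, In (h ++ [x]) v
  /-- (H1) -/
  Lam : ℝ
  H1 : ∀ h x, Good (h ++ [x]) → ∑ v ∈ pt (h ++ [x]) x, η v ≤ Lam
  /-- (H2) -/
  β : ℝ
  H2 : ∀ h x, Good (h ++ [x]) →
    ∑ v ∈ (live (h ++ [x])).filter (fun v => In (h ++ [x]) v), Real.exp (-η v / 2) ≤ β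
  /-- (H3) -/
  H3 : ∀ h₁ x₁ h₂ x₂, h₁ ++ [x₁] <+: h₂ → Good (h₂ ++ [x₂]) →
    ∑ v ∈ (pt (h₁ ++ [x₁]) x₁ ∩ live (h₂ ++ [x₂])).filter (fun v => ¬ In (h₂ ++ [x₂]) v), w v ≤
      1 / 8 * ∑ v ∈ pt (h₁ ++ [x₁]) x₁ \ pt (h₂ ++ [x₂]) x₂, w v
  /-- physical part: centres and travel counters; `none` is the root -/
  ctr : List X → Option V → X
  trav : List X → Option V → ℝ
  CT : ℝ
  CT_nonneg : 0 ≤ CT
  trav_nonneg : ∀ h o, 0 ≤ trav h o
  trav_le : ∀ h, Good h → ∀ v ∈ live h, trav h (some v) ≤ CT * w v
  trav_step : ∀ h x, Good (h ++ [x]) → ∀ v ∈ live h, v ∈ live (h ++ [x]) →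
    dist (ctr h (some v)) (ctr (h ++ [x]) (some v)) ≤ trav (h ++ [x]) (some v) - trav h (some v)
  trav_root : ∀ h x, Good (h ++ [x]) →
    dist (ctr h none) (ctr (h ++ [x]) none) ≤ trav (h ++ [x]) none - trav h none
  CP : ℝ
  CP_nonneg : 0 ≤ CP
  /-- the centre of every node of the chain of the request (and of the root) is close to the
  request, relative to the nodes of the chain strictly below it; equal to the request if there is
  no such node -/
  prox : ∀ h x, Good (h ++ [x]) → ∀ o : Option V, (∀ u, o = some u → u ∈ pt (h ++ [x]) x) →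
    dist x (ctr (h ++ [x]) o) ≤ CP * ∑ v ∈ (pt (h ++ [x]) x).filter (fun v => Below w o v), w v

/-- The label bill of a comparator path `q` (locations AND moves): at every request every
comparator server at `z` (before) / `z'` (after) pays `price (pt h z) (pt (h++[r]) z')`. -/
noncomputable def bill {X : Type*} [MetricSpace X] {V : Type*} [DecidableEq V]
    {Good : List X → Prop} (S : TreeSys X V Good) {k : ℕ} (s : Fin k → X)
    (q : List (X × Fin k)) : ℝ :=
  ∑ t ∈ range q.length, ∑ l : Fin k,
    price S.w S.η (S.pt ((q.map Prod.fst).take t) (endConf s (q.take t) l))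
      (S.pt ((q.map Prod.fst).take (t + 1)) (endConf s (q.take (t + 1)) l))
      (S.live ((q.map Prod.fst).take (t + 1)))

end Crest.Agent.R314.Asm
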