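import Mathlib
import Crest.Agent.R314.Asm2

/-!
R314, block ASM-T, part 3: the comparator side, `Σ cstep ≤ bill`.
-/

set_option autoImplicit false
set_option linter.unusedSectionVars false

namespace Crest.Agent.R314.Asm

open Finset Function Crest.LogicCS.KServer Tk

variable {X : Type*} [MetricSpace X] {V : Type*} [DecidableEq V] {Good : List X → Prop}

section conf
variable {k : ℕ}

theorem endConf_take_succ (s : Fin k → X) (q : List (X × Fin k)) {t : ℕ} (ht : t < q.length) :
    endConf s (q.take (t + 1)) = update (endConf s (q.take t)) q[t].2 q[t].1 := by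
  rw [List.take_add_one, List.getElem?_eq_getElem ht, Option.toList_some, endConf_append]
  rfl

theorem srvs_getElem [NeZero k] (q : List (X × Fin k)) {t : ℕ} (ht : t < q.length) :
    srvs q t = q[t].2 := by
  unfold srvs
  rw [List.getD_eq_getElem?_getD, List.getElem?_map, List.getElem?_eq_getElem ht]
  rfl

end conf

namespace TreeSys

variable (S : TreeSys X V Good) (hG : ∀ h x, Good (h ++ [x]) → Good h)
variable {k : ℕ} [NeZero k]

/-- The price of a comparator step is a `price`. -/
theorem cstep_eq {σ : List X} (hσ : ∀ t, Good (σ.take t)) {t : ℕ} (ht : t < σ.length) {a : Tok k}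
    (ha : Old t a) :
    (S.toF hG k σ).cstep a t = price S.w S.η ((S.toF hG k σ).E a) (S.Et σ t)
      (S.live (σ.take (t + 1))) := by
  unfold FData.cstep price
  change 0 + _ + _ = _
  rw [zero_add]
  congr 1
  apply sum_congr _ fun _ _ => rfl
  ext v
  rw [mem_filter, mem_inter]
  apply and_congr_right
  intro hv
  rw [mem_sdiff] at hv
  rcases a with i | s
  · exact absurd hv.1 (notMem_empty _)
  · have hst : s < t := ha s rfl
    have hb := S.birth_of_Et (σ := σ) (t := s) hv.1
    change t < S.Dt σ v ↔ _
    rw [S.lt_Dt_iff hG (by omega) ht, mem_gl]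
    exact ⟨fun h => h.2, fun h => ⟨hσ _, h⟩⟩

/-- The label set of comparator server `l` at time `t`. -/
noncomputable def P (s : Fin k → X) (q : List (X × Fin k)) (t : ℕ) (l : Fin k) : Finset V :=
  S.pt ((q.map Prod.fst).take t) (endConf s (q.take t) l)

theorem comparator_aux (s : Fin k → X) (q : List (X × Fin k))
    (hσ : ∀ t, Good ((q.map Prod.fst).take t)) (t : ℕ) (ht : t ≤ q.length) :
    ∑ r ∈ range t, (S.toF hG k (q.map Prod.fst)).cstep (cpos (srvs q) r (srvs q r)) r +
      ∑ l : Fin k, price S.w S.η ((S.toF hG k (q.map Prod.fst)).E (cpos (srvs q) t l))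
        (S.P s q t l) (S.live ((q.map Prod.fst).take t)) ≤
    ∑ r ∈ range t, ∑ l : Fin k, price S.w S.η (S.P s q r l) (S.P s q (r + 1) l)
      (S.live ((q.map Prod.fst).take (r + 1))) := by
  set σ := q.map Prod.fst with hσdef
  have hw : ∀ v, 0 ≤ S.w v := fun v => (S.w_pos v).le
  have hη : ∀ v, 0 ≤ S.η v := fun v => by linarith [S.η_ge v]
  induction t with
  | zero =>
    simp only [range_zero, sum_empty, zero_add]
    apply le_of_eq
    apply sum_eq_zero
    intro l _
    have h1 : S.P s q 0 l = ∅ := by
      unfold P; rw [List.take_zero]; exact S.pt_nil _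
    have h2 : (S.toF hG k σ).E (cpos (srvs q) 0 l) = ∅ := (S.toF hG k σ).E_inl l
    rw [h1, h2, price_self]
  | succ t ih =>
    have htq : t < q.length := by omega
    have htσ : t < σ.length := by rw [hσdef, List.length_map]; exact htq
    have ih' := ih (by omega)
    have hj : srvs q t = q[t].2 := srvs_getElem q htq
    have hx : σ[t]? = some q[t].1 := by
      rw [hσdef, List.getElem?_map, List.getElem?_eq_getElem htq]; rfl
    -- triangle for every server
    have htri : ∀ l : Fin k, price S.w S.η ((S.toF hG k σ).E (cpos (srvs q) t l))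
        (S.P s q (t + 1) l) (S.live (σ.take (t + 1))) ≤
        price S.w S.η ((S.toF hG k σ).E (cpos (srvs q) t l)) (S.P s q t l) (S.live (σ.take t)) +
        price S.w S.η (S.P s q t l) (S.P s q (t + 1) l) (S.live (σ.take (t + 1))) := by
      intro l
      apply price_triangle hw hη
      intro v hv
      rw [mem_inter, mem_sdiff] at hv
      obtain ⟨⟨h1, -⟩, h2⟩ := hv
      have ho := cpos_old (srvs q) t l
      rcases hc : cpos (srvs q) t l with i | r
      · rw [hc] at h1
        exact absurd h1 (notMem_empty _)
      · rw [hc] at h1 ho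
        have hr : r < t := ho r rfl
        have hb := S.birth_of_Et (σ := σ) (t := r) h1
        have hg : Good (σ.take t ++ [q[t].1]) := by rw [← take_succ_eq hx]; exact hσ _
        rw [take_succ_eq hx] at h2
        apply S.live_back _ _ hg v h2
        rw [List.length_take]
        omega
    -- the moved server
    have hmove : (S.toF hG k σ).cstep (cpos (srvs q) t (srvs q t)) t =
        price S.w S.η ((S.toF hG k σ).E (cpos (srvs q) t (srvs q t)))
          (S.P s q (t + 1) (srvs q t)) (S.live (σ.take (t + 1))) := by
      rw [S.cstep_eq hG hσ htσ (cpos_old _ _ _)]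
      congr 1
      rw [S.Et_eq hx (hσ _)]
      unfold P
      rw [endConf_take_succ s q htq, hj, update_self]
    have hmove2 : price S.w S.η ((S.toF hG k σ).E (cpos (srvs q) (t + 1) (srvs q t)))
        (S.P s q (t + 1) (srvs q t)) (S.live (σ.take (t + 1))) = 0 := by
      have e1 : (S.toF hG k σ).E (cpos (srvs q) (t + 1) (srvs q t)) = S.Et σ t := by
        rw [cpos, update_self]; rfl
      have e2 : S.P s q (t + 1) (srvs q t) = S.Et σ t := by
        rw [S.Et_eq hx (hσ _)]
        unfold P
        rw [endConf_take_succ s q htq, hj, update_self]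
      rw [e1, e2, price_self]
    have hstay : ∀ l ∈ univ.erase (srvs q t), price S.w S.η
        ((S.toF hG k σ).E (cpos (srvs q) (t + 1) l)) (S.P s q (t + 1) l)
          (S.live (σ.take (t + 1))) ≤
        price S.w S.η ((S.toF hG k σ).E (cpos (srvs q) t l)) (S.P s q t l) (S.live (σ.take t)) +
        price S.w S.η (S.P s q t l) (S.P s q (t + 1) l) (S.live (σ.take (t + 1))) := by
      intro l hl
      have e1 : cpos (srvs q) (t + 1) l = cpos (srvs q) t l := by
        rw [cpos, update_of_ne (ne_of_mem_erase hl)]
      rw [e1]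
      exact htri l
    have hsum : (S.toF hG k σ).cstep (cpos (srvs q) t (srvs q t)) t +
        ∑ l : Fin k, price S.w S.η ((S.toF hG k σ).E (cpos (srvs q) (t + 1) l))
          (S.P s q (t + 1) l) (S.live (σ.take (t + 1))) ≤
        ∑ l : Fin k, (price S.w S.η ((S.toF hG k σ).E (cpos (srvs q) t l)) (S.P s q t l)
            (S.live (σ.take t)) +
          price S.w S.η (S.P s q t l) (S.P s q (t + 1) l) (S.live (σ.take (t + 1)))) := by
      rw [← add_sum_erase univ (fun l => price S.w S.η
          ((S.toF hG k σ).E (cpos (srvs q) (t + 1) l))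
          (S.P s q (t + 1) l) (S.live (σ.take (t + 1)))) (mem_univ (srvs q t)),
        ← add_sum_erase univ (fun l => price S.w S.η ((S.toF hG k σ).E (cpos (srvs q) t l))
            (S.P s q t l) (S.live (σ.take t)) +
          price S.w S.η (S.P s q t l) (S.P s q (t + 1) l) (S.live (σ.take (t + 1))))
          (mem_univ (srvs q t))]
      have h1 := sum_le_sum hstay
      have h2 := htri (srvs q t)
      rw [← hmove] at h2
      linarith [hmove2]
    rw [sum_add_distrib] at hsum
    rw [sum_range_succ, sum_range_succ (fun r => ∑ l : Fin k, price S.w S.η (S.P s q r l)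
      (S.P s q (r + 1) l) (S.live (σ.take (r + 1))))]
    linarith

/-- **Comparator side**: the total price of the comparator is at most its label bill. -/
theorem sum_cstep_le (s : Fin k → X) (q : List (X × Fin k))
    (hσ : ∀ t, Good ((q.map Prod.fst).take t)) :
    ∑ r ∈ range q.length, (S.toF hG k (q.map Prod.fst)).cstep (cpos (srvs q) r (srvs q r)) r ≤
      bill S s q := by
  have h := S.comparator_aux hG s q hσ q.length le_rfl
  have h0 : 0 ≤ ∑ l : Fin k, price S.w S.η
      ((S.toF hG k (q.map Prod.fst)).E (cpos (srvs q) q.length l))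
        (S.P s q q.length l) (S.live ((q.map Prod.fst).take q.length)) :=
    sum_nonneg fun l _ => price_nonneg (fun v => (S.w_pos v).le)
      (fun v => by linarith [S.η_ge v]) _ _ _
  exact le_trans (le_add_of_nonneg_right h0) h

end TreeSys

end Crest.Agent.R314.Asm
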