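import Mathlib
import Crest.Agent.R314.Asm3

/-!
R314, block ASM-T, part 4: the physical cost.
-/

set_option autoImplicit false
set_option linter.unusedSectionVars false

namespace Crest.Agent.R314.Asm

open Finset Function Crest.LogicCS.KServer Tk

variable {X : Type*} [MetricSpace X] {V : Type*} [DecidableEq V] {Good : List X → Prop}

/-- Telescoping of a sum of token potentials along a path of moves. -/
theorem sum_move {k : ℕ} (ψ : Tok k → ℝ) (j : ℕ → Fin k) (T : ℕ) :
    ∑ t ∈ range T, (ψ (Sum.inr t) - ψ (cpos j t (j t))) =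
      ∑ l, ψ (cpos j T l) - ∑ l, ψ (Sum.inl l) := by
  induction T with
  | zero => simp [cpos]
  | succ T ih =>
    rw [sum_range_succ, ih]
    have h1 : ∑ l, ψ (cpos j (T + 1) l) =
        ψ (Sum.inr T) + ∑ l ∈ univ.erase (j T), ψ (cpos j T l) := by
      rw [← add_sum_erase univ _ (mem_univ (j T))]
      congr 1
      · rw [cpos, update_self]
      · apply sum_congr rfl
        intro l hl
        rw [cpos, update_of_ne (ne_of_mem_erase hl)]
    have h2 : ∑ l, ψ (cpos j T l) =
        ψ (cpos j T (j T)) + ∑ l ∈ univ.erase (j T), ψ (cpos j T l) := by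
      rw [← add_sum_erase univ _ (mem_univ (j T))]
    rw [h1, h2]
    ring

namespace TreeSys

variable (S : TreeSys X V Good) (hG : ∀ h x, Good (h ++ [x]) → Good h)

/-- Travel counter at time `t` (after request number `t`). -/
noncomputable def tv (σ : List X) (t : ℕ) (o : Option V) : ℝ := S.trav (σ.take (t + 1)) o

/-- Centre at time `t`. -/
noncomputable def cv (σ : List X) (t : ℕ) (o : Option V) : X := S.ctr (σ.take (t + 1)) o

variable {σ : List X} (hσ : ∀ t, Good (σ.take t))

include hσ in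
theorem root_step {s t : ℕ} (hst : s ≤ t) (ht : t < σ.length) :
    dist (S.cv σ s none) (S.cv σ t none) ≤ S.tv σ t none - S.tv σ s none := by
  induction t, hst using Nat.le_induction with
  | base => simp
  | succ t hst ih =>
    have h1 := ih (by omega)
    have hx : σ[t + 1]? = some σ[t + 1] := List.getElem?_eq_getElem ht
    have hg : Good (σ.take (t + 1) ++ [σ[t + 1]]) := by rw [← take_succ_eq hx]; exact hσ _
    have h2 := S.trav_root _ _ hg
    rw [← take_succ_eq hx] at h2
    have h3 := dist_triangle (S.cv σ s none) (S.cv σ t none) (S.cv σ (t + 1) none)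
    unfold cv tv at *
    linarith

include hσ in
theorem root_start {t : ℕ} (ht : t < σ.length) :
    dist (S.ctr [] none) (S.cv σ t none) ≤ S.tv σ t none := by
  have hx : σ[0]? = some σ[0] := List.getElem?_eq_getElem (by omega)
  have hg : Good ([] ++ [σ[0]]) := by
    have := hσ 1
    rw [take_succ_eq hx, List.take_zero] at this
    exact this
  have h1 := S.trav_root _ _ hg
  have e : σ.take (0 + 1) = [] ++ [σ[0]] := by rw [take_succ_eq hx, List.take_zero]
  have h2 := S.root_step hσ (Nat.zero_le t) ht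
  have h3 := dist_triangle (S.ctr [] none) (S.cv σ 0 none) (S.cv σ t none)
  have h4 := S.trav_nonneg [] none
  unfold cv tv at *
  rw [e] at h2 h3
  linarith

include hσ hG in
theorem node_step {s t : ℕ} (hst : s ≤ t) (ht : t < σ.length) {v : V} (hb : S.birth v ≤ s)
    (hv : v ∈ S.live (σ.take (t + 1))) :
    dist (S.cv σ s (some v)) (S.cv σ t (some v)) ≤ S.tv σ t (some v) - S.tv σ s (some v) := by
  induction t, hst using Nat.le_induction with
  | base => simp
  | succ t hst ih =>
    have hx : σ[t + 1]? = some σ[t + 1] := List.getElem?_eq_getElem ht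
    have hg : Good (σ.take (t + 1) ++ [σ[t + 1]]) := by rw [← take_succ_eq hx]; exact hσ _
    have hv1 : v ∈ S.live (σ.take (t + 1)) := by
      have h0 := S.gl_back hG ht (by omega : S.birth v ≤ t) (S.mem_gl.2 ⟨hσ _, hv⟩)
      exact (S.mem_gl.1 h0).2
    have h1 := ih (by omega) hv1
    have hv2 := hv
    rw [take_succ_eq hx] at hv2
    have h2 := S.trav_step _ _ hg v hv1 hv2
    rw [← take_succ_eq hx] at h2
    have h3 := dist_triangle (S.cv σ s (some v)) (S.cv σ t (some v)) (S.cv σ (t + 1) (some v))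
    unfold cv tv at *
    linarith

variable {k : ℕ}

/-- Token potential. -/
noncomputable def psi (s : Fin k → X) (σ : List X) : Tok k → ℝ
  | Sum.inl l => - dist (s l) (S.ctr [] none)
  | Sum.inr t => ∑ v ∈ S.Et σ t, S.tv σ t (some v) + S.tv σ t none

open Classical in
include hσ in
theorem prox_t {t : ℕ} (ht : t < σ.length) (o : Option V) (ho : ∀ u, o = some u → u ∈ S.Et σ t) :
    dist σ[t] (S.cv σ t o) ≤ S.CP * ∑ v ∈ (S.Et σ t).filter (fun v => Below S.w o v), S.w v := by
  have hx : σ[t]? = some σ[t] := List.getElem?_eq_getElem ht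
  have hg : Good (σ.take t ++ [σ[t]]) := by rw [← take_succ_eq hx]; exact hσ _
  have he := S.Et_eq hx (hσ _)
  have h := S.prox _ _ hg o (by
    intro u hu
    have := ho u hu
    rw [he, take_succ_eq hx] at this
    exact this)
  rw [← take_succ_eq hx] at h
  rw [he]
  exact h

theorem loc_inr (s : Fin k → X) [NeZero k] {t : ℕ} (ht : t < σ.length) :
    loc s σ (Sum.inr t) = σ[t] := by
  change σ.getD t (s 0) = σ[t]
  rw [List.getD_eq_getElem?_getD, List.getElem?_eq_getElem ht]
  rfl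

include hσ in
/-- One move from an initial token. -/
theorem move_inl [NeZero k] (s : Fin k → X) {t : ℕ} (ht : t < σ.length) (l : Fin k) :
    dist (loc s σ (Sum.inl l)) (loc s σ (Sum.inr t)) ≤
      S.CP * ∑ v ∈ S.Et σ t, S.w v + (S.psi s σ (Sum.inr t) - S.psi s σ (Sum.inl l)) := by
  classical
  rw [loc_inr s ht]
  change dist (s l) σ[t] ≤ _ + ((∑ v ∈ S.Et σ t, S.tv σ t (some v) + S.tv σ t none) -
    (- dist (s l) (S.ctr [] none)))
  have h1 := S.prox_t hσ ht none (by simp)
  have h2 := S.root_start hσ ht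
  have h3 : ∑ v ∈ (S.Et σ t).filter (fun v => Below S.w none v), S.w v ≤
      ∑ v ∈ S.Et σ t, S.w v :=
    sum_le_sum_of_subset_of_nonneg (filter_subset _ _) fun v _ _ => (S.w_pos v).le
  have h4 := mul_le_mul_of_nonneg_left h3 S.CP_nonneg
  have h5 : 0 ≤ ∑ v ∈ S.Et σ t, S.tv σ t (some v) := sum_nonneg fun v _ => S.trav_nonneg _ _
  have h6 := dist_triangle4 (s l) (S.ctr [] none) (S.cv σ t none) σ[t]
  rw [dist_comm (S.cv σ t none)] at h6
  linarith

include hσ hG in
/-- One move between two request tokens. -/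
theorem move_inr [NeZero k] (s : Fin k → X) {r t : ℕ} (hrt : r < t) (ht : t < σ.length) :
    dist (loc s σ (Sum.inr r)) (loc s σ (Sum.inr t)) ≤
      S.CP * ∑ v ∈ S.Et σ t \ S.Et σ r, S.w v + (S.CP + S.CT) * ∑ v ∈ S.Et σ r \ S.Et σ t, S.w v +
        (S.psi s σ (Sum.inr t) - S.psi s σ (Sum.inr r)) := by
  classical
  have hr : r < σ.length := hrt.trans ht
  rw [loc_inr s ht, loc_inr s hr]
  -- common nodes
  have hcom : ∀ v ∈ S.Et σ r ∩ S.Et σ t,
      dist (S.cv σ r (some v)) (S.cv σ t (some v)) ≤ S.tv σ t (some v) - S.tv σ r (some v) := by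
    intro v hv
    rw [mem_inter] at hv
    obtain ⟨x, hx, hg, hm⟩ := S.mem_Et hv.2
    exact S.node_step hG hσ hrt.le ht (S.birth_of_Et hv.1) (S.pt_live _ hg x hm)
  have hcom0 : ∀ v ∈ S.Et σ r ∩ S.Et σ t, 0 ≤ S.tv σ t (some v) - S.tv σ r (some v) :=
    fun v hv => dist_nonneg.trans (hcom v hv)
  have hroot := S.root_step hσ hrt.le ht
  have hroot0 : 0 ≤ S.tv σ t none - S.tv σ r none := dist_nonneg.trans hroot
  -- the deepest common node
  obtain ⟨o, ho1, ho2⟩ : ∃ o : Option V, (∀ u, o = some u → u ∈ S.Et σ r ∩ S.Et σ t) ∧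
      ∀ v ∈ S.Et σ r ∩ S.Et σ t, ¬ Below S.w o v := by
    rcases (S.Et σ r ∩ S.Et σ t).eq_empty_or_nonempty with he | hne
    · exact ⟨none, by simp, by rw [he]; simp⟩
    · obtain ⟨u, hu, hmin⟩ := exists_min_image _ S.w hne
      refine ⟨some u, ?_, ?_⟩
      · intro u' hu'
        rw [← Option.some.inj hu']
        exact hu
      · intro v hv hb
        exact absurd (hb u rfl) (not_lt.2 (hmin v hv))
  have hdo : dist (S.cv σ r o) (S.cv σ t o) ≤
      ∑ v ∈ S.Et σ r ∩ S.Et σ t, (S.tv σ t (some v) - S.tv σ r (some v)) +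
        (S.tv σ t none - S.tv σ r none) := by
    rcases o with _ | u
    · have := sum_nonneg hcom0
      linarith
    · have hu := ho1 u rfl
      have h1 := hcom u hu
      have h2 := single_le_sum hcom0 hu
      linarith
  have p1 := S.prox_t hσ hr o fun u hu => (mem_inter.1 (ho1 u hu)).1
  have p2 := S.prox_t hσ ht o fun u hu => (mem_inter.1 (ho1 u hu)).2
  have q1 : ∑ v ∈ (S.Et σ r).filter (fun v => Below S.w o v), S.w v ≤
      ∑ v ∈ S.Et σ r \ S.Et σ t, S.w v := by
    apply sum_le_sum_of_subset_of_nonneg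
    · intro v hv
      rw [mem_filter] at hv
      rw [mem_sdiff]
      exact ⟨hv.1, fun hv' => ho2 v (mem_inter.2 ⟨hv.1, hv'⟩) hv.2⟩
    · intro v _ _; exact (S.w_pos v).le
  have q2 : ∑ v ∈ (S.Et σ t).filter (fun v => Below S.w o v), S.w v ≤
      ∑ v ∈ S.Et σ t \ S.Et σ r, S.w v := by
    apply sum_le_sum_of_subset_of_nonneg
    · intro v hv
      rw [mem_filter] at hv
      rw [mem_sdiff]
      exact ⟨hv.1, fun hv' => ho2 v (mem_inter.2 ⟨hv', hv.1⟩) hv.2⟩
    · intro v _ _; exact (S.w_pos v).le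
  have q1' := mul_le_mul_of_nonneg_left q1 S.CP_nonneg
  have q2' := mul_le_mul_of_nonneg_left q2 S.CP_nonneg
  have h4 := dist_triangle4 σ[r] (S.cv σ r o) (S.cv σ t o) σ[t]
  rw [dist_comm (S.cv σ t o) σ[t]] at h4
  -- potential difference
  have e1 : ∑ v ∈ S.Et σ t, S.tv σ t (some v) =
      ∑ v ∈ S.Et σ r ∩ S.Et σ t, S.tv σ t (some v) +
        ∑ v ∈ S.Et σ t \ S.Et σ r, S.tv σ t (some v) := by
    rw [inter_comm]
    exact (sum_inter_add_sum_sdiff _ _ _).symm
  have e2 : ∑ v ∈ S.Et σ r, S.tv σ r (some v) =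
      ∑ v ∈ S.Et σ r ∩ S.Et σ t, S.tv σ r (some v) +
        ∑ v ∈ S.Et σ r \ S.Et σ t, S.tv σ r (some v) :=
    (sum_inter_add_sum_sdiff _ _ _).symm
  have e3 : 0 ≤ ∑ v ∈ S.Et σ t \ S.Et σ r, S.tv σ t (some v) :=
    sum_nonneg fun v _ => S.trav_nonneg _ _
  have e4 : ∑ v ∈ S.Et σ r \ S.Et σ t, S.tv σ r (some v) ≤
      S.CT * ∑ v ∈ S.Et σ r \ S.Et σ t, S.w v := by
    rw [mul_sum]
    apply sum_le_sum
    intro v hv
    rw [mem_sdiff] at hv
    obtain ⟨x, hx, hg, hm⟩ := S.mem_Et hv.1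
    exact S.trav_le _ hg v (S.pt_live _ hg x hm)
  rw [sum_sub_distrib] at hdo
  change _ ≤ _ + _ + ((∑ v ∈ S.Et σ t, S.tv σ t (some v) + S.tv σ t none) -
    (∑ v ∈ S.Et σ r, S.tv σ r (some v) + S.tv σ r none))
  rw [e1, e2]
  nlinarith [e3, e4, hdo, q1', q2', p1, p2, h4]

include hσ hG in
/-- **Physical cost** of any server sequence. -/
theorem phys_le [NeZero k] (s : Fin k → X) (j : ℕ → Fin k) {T : ℕ} (hT : T ≤ σ.length) :
    phys s σ (fun t => cpos j t (j t)) T ≤
      S.CP * (S.toF hG k σ).EnW (fun t => cpos j t (j t)) T +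
      (S.CP + S.CT) * (S.toF hG k σ).ExW (fun t => cpos j t (j t)) T +
      (∑ l, S.psi s σ (cpos j T l) + ∑ l, dist (s l) (S.ctr [] none)) := by
  have hstep : ∀ t ∈ range T,
      dist (loc s σ (cpos j t (j t))) (loc s σ (Sum.inr t)) ≤
        S.CP * ∑ v ∈ (S.toF hG k σ).E (Sum.inr t) \ (S.toF hG k σ).E (cpos j t (j t)), S.w v +
        (S.CP + S.CT) *
          ∑ v ∈ (S.toF hG k σ).E (cpos j t (j t)) \ (S.toF hG k σ).E (Sum.inr t), S.w v +
        (S.psi s σ (Sum.inr t) - S.psi s σ (cpos j t (j t))) := by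
    intro t ht
    rw [mem_range] at ht
    have ho := cpos_old j t (j t)
    rcases hc : cpos j t (j t) with l | r
    · have h := S.move_inl hσ s (ht.trans_le hT) l
      have e1 : (S.toF hG k σ).E (Sum.inr t) \ (S.toF hG k σ).E (Sum.inl l) = S.Et σ t := by
        rw [(S.toF hG k σ).E_inl, sdiff_empty]; rfl
      have e2 : (S.toF hG k σ).E (Sum.inl l) \ (S.toF hG k σ).E (Sum.inr t) = ∅ := by
        rw [(S.toF hG k σ).E_inl, empty_sdiff]
      rw [e1, e2, sum_empty, mul_zero, add_zero]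
      exact h
    · rw [hc] at ho
      exact S.move_inr hG hσ s (ho r rfl) (ht.trans_le hT)
  have hsum := sum_le_sum hstep
  rw [sum_add_distrib, sum_add_distrib, ← mul_sum, ← mul_sum, sum_move] at hsum
  have e : ∑ l, S.psi s σ (Sum.inl l) = - ∑ l, dist (s l) (S.ctr [] none) := by
    rw [← sum_neg_distrib]; rfl
  rw [e] at hsum
  unfold phys FData.EnW FData.ExW
  change _ ≤ S.CP * ∑ t ∈ range T, ∑ v ∈ (S.toF hG k σ).E (Sum.inr t) \
    (S.toF hG k σ).E (cpos j t (j t)), S.w v + (S.CP + S.CT) *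
    ∑ t ∈ range T, ∑ v ∈ (S.toF hG k σ).E (cpos j t (j t)) \ (S.toF hG k σ).E (Sum.inr t), S.w v + _
  linarith

/-- Weight of the tokens at the end. -/
theorem EnW_sub_ExW (j : ℕ → Fin k) (T : ℕ) :
    (S.toF hG k σ).EnW (fun t => cpos j t (j t)) T - (S.toF hG k σ).ExW (fun t => cpos j t (j t)) T
      = ∑ l, ∑ v ∈ (S.toF hG k σ).E (cpos j T l), S.w v := by
  have h := sum_move (fun a => ∑ v ∈ (S.toF hG k σ).E a, S.w v) j T
  have e : ∑ l : Fin k, ∑ v ∈ (S.toF hG k σ).E (Sum.inl l), S.w v = 0 := by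
    apply sum_eq_zero
    intro l _
    rw [(S.toF hG k σ).E_inl, sum_empty]
  rw [e, sub_zero] at h
  rw [← h]
  unfold FData.EnW FData.ExW
  rw [← sum_sub_distrib]
  apply sum_congr rfl
  intro t _
  have h1 := sum_inter_add_sum_sdiff ((S.toF hG k σ).E (Sum.inr t))
    ((S.toF hG k σ).E (cpos j t (j t))) S.w
  have h2 := sum_inter_add_sum_sdiff ((S.toF hG k σ).E (cpos j t (j t)))
    ((S.toF hG k σ).E (Sum.inr t)) S.w
  rw [inter_comm] at h2
  change ∑ v ∈ (S.toF hG k σ).E (Sum.inr t) \ (S.toF hG k σ).E (cpos j t (j t)), S.w v -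
    ∑ v ∈ (S.toF hG k σ).E (cpos j t (j t)) \ (S.toF hG k σ).E (Sum.inr t), S.w v = _
  linarith

include hσ hG in
/-- The potential of the final tokens. -/
theorem psi_end_le [NeZero k] (s : Fin k → X) (j : ℕ → Fin k) :
    ∑ l, S.psi s σ (cpos j σ.length l) ≤
      S.CT * ∑ l, ∑ v ∈ (S.toF hG k σ).E (cpos j σ.length l), S.w v +
        k * S.trav σ none := by
  have h1 : ∀ l : Fin k, S.psi s σ (cpos j σ.length l) ≤
      S.CT * ∑ v ∈ (S.toF hG k σ).E (cpos j σ.length l), S.w v + S.trav σ none := by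
    intro l
    have ho := cpos_old j σ.length l
    rcases hc : cpos j σ.length l with i | r
    · rw [(S.toF hG k σ).E_inl, sum_empty, mul_zero, zero_add]
      change - dist (s i) (S.ctr [] none) ≤ _
      have := S.trav_nonneg σ none
      have := dist_nonneg (x := s i) (y := S.ctr [] none)
      linarith
    · rw [hc] at ho
      have hr : r < σ.length := ho r rfl
      change ∑ v ∈ S.Et σ r, S.tv σ r (some v) + S.tv σ r none ≤
        S.CT * ∑ v ∈ S.Et σ r, S.w v + S.trav σ none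
      have h2 : ∑ v ∈ S.Et σ r, S.tv σ r (some v) ≤ S.CT * ∑ v ∈ S.Et σ r, S.w v := by
        rw [mul_sum]
        apply sum_le_sum
        intro v hv
        obtain ⟨x, hx, hg, hm⟩ := S.mem_Et hv
        exact S.trav_le _ hg v (S.pt_live _ hg x hm)
      have h3 := S.root_step hσ (show r ≤ σ.length - 1 by omega) (by omega)
      have h4 := dist_nonneg (x := S.cv σ r none) (y := S.cv σ (σ.length - 1) none)
      have h5 : S.tv σ (σ.length - 1) none = S.trav σ none := by
        unfold tv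
        rw [Nat.sub_add_cancel (by omega), List.take_length]
      linarith
  refine (sum_le_sum fun l _ => h1 l).trans (le_of_eq ?_)
  rw [sum_add_distrib, ← mul_sum, sum_const, card_univ, Fintype.card_fin, nsmul_eq_mul]

include hσ hG in
/-- **Physical cost**: at most a constant times the entering weight. -/
theorem phys_le' [NeZero k] (s : Fin k → X) (j : ℕ → Fin k) :
    phys s σ (fun t => cpos j t (j t)) σ.length ≤
      (2 * S.CP + S.CT) * (S.toF hG k σ).EnW (fun t => cpos j t (j t)) σ.length +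
      k * S.trav σ none + ∑ l, dist (s l) (S.ctr [] none) := by
  have h1 := S.phys_le hG hσ s j le_rfl
  have h2 := S.psi_end_le hG hσ s j
  have h3 := S.EnW_sub_ExW hG (σ := σ) j σ.length
  have h4 : 0 ≤ ∑ l, ∑ v ∈ (S.toF hG k σ).E (cpos j σ.length l), S.w v :=
    sum_nonneg fun l _ => sum_nonneg fun v _ => (S.w_pos v).le
  have h5 := S.CP_nonneg
  have h6 := S.CT_nonneg
  rw [← h3] at h2 h4
  have h7 : S.CP * (S.toF hG k σ).ExW (fun t => cpos j t (j t)) σ.length ≤
      S.CP * (S.toF hG k σ).EnW (fun t => cpos j t (j t)) σ.length :=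
    mul_le_mul_of_nonneg_left (by linarith) h5
  nlinarith [h1, h2, h7]

end TreeSys

end Crest.Agent.R314.Asm
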