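import Mathlib
import Crest.Agent.R314.Asm4

/-!
R314, block ASM-T, part 5: from a `TreeSys` to a deterministic online policy for a finite prior.
-/

set_option autoImplicit false
set_option linter.unusedSectionVars false

namespace Crest.Agent.R314.Asm

open Finset Function Crest.LogicCS.KServer Tk

variable {X : Type*} [MetricSpace X] {V : Type*} [DecidableEq V] {Good : List X → Prop}

theorem err_mono {V : Type*} [Fintype V] (w η : V → ℝ) (hw : ∀ v, 0 ≤ w v) (hη : ∀ v, 0 ≤ η v)
    {T T' : ℕ} (h : T ≤ T') (k K : ℕ) : FData.err w η T k K ≤ FData.err w η T' k K := by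
  unfold FData.err
  apply mul_le_mul_of_nonneg_left _ (by norm_num)
  apply sum_le_sum
  intro v _
  have h1 := hw v
  have h2 := hη v
  have h3 : (T : ℝ) ≤ T' := by exact_mod_cast h
  gcongr

namespace TreeSys

variable (S : TreeSys X V Good) (hG : ∀ h x, Good (h ++ [x]) → Good h)
variable {k : ℕ} [NeZero k] [Fintype V]

/-- One request list. -/
theorem one_list (hLam : 0 ≤ S.Lam) (hβ : 0 ≤ S.β) (s : Fin k → X) (q : List (X × Fin k))
    (hσ : ∀ t, Good ((q.map Prod.fst).take t)) {K : ℕ} (hK : 0 < K) (hK2 : ∀ v, S.η v ≤ K) :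
    (S.toF hG k (q.map Prod.fst)).EE K (fun n =>
        phys s (q.map Prod.fst) ((S.toF hG k (q.map Prod.fst)).X K n) q.length) ≤
      (2 * S.CP + S.CT) * ((8 * S.Lam + 16 * S.β) * bill S s q +
        FData.err S.w S.η q.length k K) +
      k * S.trav (q.map Prod.fst) none + ∑ l, dist (s l) (S.ctr [] none) := by
  classical
  set σ := q.map Prod.fst with hσdef
  have hl : σ.length = q.length := by rw [hσdef, List.length_map]
  have hX : ∀ n, (S.toF hG k σ).X K n =
      fun t => cpos (srv ((S.toF hG k σ).mm K n)) t (srv ((S.toF hG k σ).mm K n) t) := by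
    intro n
    funext t
    unfold FData.X
    rw [pos_eq_cpos]
  have h1 : ∀ n, phys s σ ((S.toF hG k σ).X K n) q.length ≤
      (2 * S.CP + S.CT) * (S.toF hG k σ).EnW ((S.toF hG k σ).X K n) σ.length +
      (k * S.trav σ none + ∑ l, dist (s l) (S.ctr [] none)) := by
    intro n
    rw [← hl, hX n, ← add_assoc]
    exact S.phys_le' hG hσ s _
  refine ((S.toF hG k σ).EE_mono hK fun n _ => h1 n).trans ?_
  rw [(S.toF hG k σ).EE_add, (S.toF hG k σ).EE_mul, (S.toF hG k σ).EE_const hK]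
  have hA := (S.toF hG k σ).thmA hK (T := σ.length) hK2 hLam hβ (S.toF_H1 hG hσ k)
    (S.toF_H2 hG hσ k) (S.toF_H3 hG hσ k) (srvs q)
  have hc := S.sum_cstep_le hG s q hσ
  rw [← hl] at hc
  have hC : 0 ≤ 2 * S.CP + S.CT := by linarith [S.CP_nonneg, S.CT_nonneg]
  have hL : 0 ≤ 8 * S.Lam + 16 * S.β := by linarith
  have h2 := mul_le_mul_of_nonneg_left hc hL
  have h3 : (S.toF hG k σ).EE K (fun n => (S.toF hG k σ).EnW ((S.toF hG k σ).X K n) σ.length) ≤
      (8 * S.Lam + 16 * S.β) * bill S s q + FData.err S.w S.η q.length k K := by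
    rw [← hl]
    refine hA.trans ?_
    change _ + FData.err S.w S.η σ.length k K ≤ _
    linarith
  have h4 := mul_le_mul_of_nonneg_left h3 hC
  linarith

include hG in
/-- **ASM-T**: from a `TreeSys` to a policy. -/
theorem exists_policy (hLam : 0 ≤ S.Lam) (hβ : 0 ≤ S.β) (s : Fin k → X) {ι : Type} [Fintype ι]
    (p : ι → ℝ) (hp : ∀ i, 0 ≤ p i) (q : ι → List (X × Fin k))
    (hσ : ∀ i t, Good (((q i).map Prod.fst).take t)) {ε : ℝ} (hε : 0 < ε) :
    ∃ d : DPol X k, ∑ i, p i * dcost d s ((q i).map Prod.fst) ≤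
      (2 * S.CP + S.CT) * ((8 * S.Lam + 16 * S.β) * ∑ i, p i * bill S s (q i)) +
      k * ∑ i, p i * S.trav ((q i).map Prod.fst) none +
      (∑ i, p i) * ∑ l, dist (s l) (S.ctr [] none) + ε := by
  classical
  have hC : 0 ≤ 2 * S.CP + S.CT := by linarith [S.CP_nonneg, S.CT_nonneg]
  have hp0 : 0 ≤ ∑ i, p i := sum_nonneg fun i _ => hp i
  set T : ℕ := ∑ i, (q i).length with hT
  set ε' : ℝ := ε / ((2 * S.CP + S.CT) * (∑ i, p i) + 1) with hε'
  have hden : 0 < (2 * S.CP + S.CT) * (∑ i, p i) + 1 := by positivity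
  have hε'0 : 0 < ε' := div_pos hε hden
  obtain ⟨K, hK, hK2, herr⟩ := err_small S.w S.η T k hε'0
  obtain ⟨d, hd⟩ := exists_dpol (S.adapted hG k) hK S.η_ge s p q
  refine ⟨d, hd.trans ?_⟩
  have h1 : ∀ i ∈ univ, p i * (S.toF hG k ((q i).map Prod.fst)).EE K (fun n =>
        phys s ((q i).map Prod.fst) ((S.toF hG k ((q i).map Prod.fst)).X K n) (q i).length) ≤
      (2 * S.CP + S.CT) * (8 * S.Lam + 16 * S.β) * (p i * bill S s (q i)) +
      (2 * S.CP + S.CT) * ε' * p i + k * (p i * S.trav ((q i).map Prod.fst) none) +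
      (∑ l, dist (s l) (S.ctr [] none)) * p i := by
    intro i _
    have h2 := S.one_list hG hLam hβ s (q i) (hσ i) hK hK2
    have h3 : FData.err S.w S.η (q i).length k K ≤ ε' :=
      (err_mono S.w S.η (fun v => (S.w_pos v).le) (fun v => by linarith [S.η_ge v])
        (single_le_sum (f := fun i => (q i).length) (fun _ _ => Nat.zero_le _)
          (mem_univ i)) k K).trans herr
    have h4 := mul_le_mul_of_nonneg_left h3 hC
    calc _ ≤ p i * ((2 * S.CP + S.CT) * ((8 * S.Lam + 16 * S.β) * bill S s (q i) +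
          ε') + k * S.trav ((q i).map Prod.fst) none + ∑ l, dist (s l) (S.ctr [] none)) := by
          apply mul_le_mul_of_nonneg_left _ (hp i)
          refine h2.trans ?_
          linarith
      _ = _ := by ring
  refine (sum_le_sum h1).trans ?_
  rw [sum_add_distrib, sum_add_distrib, sum_add_distrib, ← mul_sum, ← mul_sum, ← mul_sum,
    ← mul_sum]
  have h5 : (2 * S.CP + S.CT) * ε' * ∑ i, p i ≤ ε := by
    rw [hε']
    have : (2 * S.CP + S.CT) * (ε / ((2 * S.CP + S.CT) * (∑ i, p i) + 1)) * ∑ i, p i =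
        ε * (((2 * S.CP + S.CT) * ∑ i, p i) / ((2 * S.CP + S.CT) * (∑ i, p i) + 1)) := by
      ring
    rw [this]
    have h6 : ((2 * S.CP + S.CT) * ∑ i, p i) / ((2 * S.CP + S.CT) * (∑ i, p i) + 1) ≤ 1 := by
      rw [div_le_one hden]; linarith
    calc _ ≤ ε * 1 := mul_le_mul_of_nonneg_left h6 hε.le
      _ = ε := mul_one _
  linarith

end TreeSys

end Crest.Agent.R314.Asm
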