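import Mathlib
import Crest.Agent.R314.Tok8

/-!
R314, block BAY, part 1: the finite prior, histories, (unnormalised) conditional expectations,
masses before and after the flow, double counting over histories, telescoping of potentials.
-/

set_option autoImplicit false
set_option linter.unusedSectionVars false

namespace Crest.Agent.R314.Bay

open Finset Function Crest.LogicCS.KServer Crest.Agent.R314 Crest.Agent.R314.Tk

/-- A finitely supported prior on (request list, comparator). -/
structure Prior (Y : Type*) (k : ℕ) where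
  ι : Type
  [fin : Fintype ι]
  s : Fin k → Y
  p : ι → ℝ
  p_nonneg : ∀ i, 0 ≤ p i
  q : ι → List (Y × Fin k)

attribute [instance] Prior.fin

variable {Y : Type*} {k : ℕ} [NeZero k]

namespace Prior

variable (Q : Prior Y k)

/-- The request list of the scenario `i`. -/
def req (i : Q.ι) : List Y := (Q.q i).map Prod.fst

/-- The server moved by the comparator at step `t`. -/
def jj (i : Q.ι) (t : ℕ) : Fin k := srvs (Q.q i) t

/-- The comparator's configuration before step `t` (after `t` requests). -/
def conf (i : Q.ι) (t : ℕ) : Fin k → Y := fun j => loc Q.s (Q.req i) (cpos (Q.jj i) t j)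

/-- Request number `t` (junk value beyond the end of the list). -/
def rq (i : Q.ι) (t : ℕ) : Y := (Q.req i).getD t (Q.s 0)

/-- The position of the server moved at step `t`. -/
def src (i : Q.ι) (t : ℕ) : Y := Q.conf i t (Q.jj i t)

@[simp] theorem length_req (i : Q.ι) : (Q.req i).length = (Q.q i).length := by simp [req]

@[simp] theorem conf_zero (i : Q.ι) : Q.conf i 0 = Q.s := by
  funext j; rfl

theorem conf_succ (i : Q.ι) (t : ℕ) :
    Q.conf i (t + 1) = update (Q.conf i t) (Q.jj i t) (Q.rq i t) := by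
  funext j
  unfold conf
  rw [cpos]
  by_cases h : j = Q.jj i t
  · subst h
    rw [update_self, update_self]
    rfl
  · rw [update_of_ne h, update_of_ne h]

theorem conf_succ_self (i : Q.ι) (t : ℕ) : Q.conf i (t + 1) (Q.jj i t) = Q.rq i t := by
  rw [conf_succ, update_self]

theorem pathCost_eq [MetricSpace Y] (i : Q.ι) :
    pathCost Q.s (Q.q i) = ∑ t ∈ range (Q.req i).length, dist (Q.src i t) (Q.rq i t) := by
  rw [Tk.pathCost_eq, length_req]
  rfl

/-- The price of the prior: expected cost of the comparator. -/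
noncomputable def opt [MetricSpace Y] : ℝ := ∑ i, Q.p i * pathCost Q.s (Q.q i)

/-- Sum of a potential over the servers, after a move. -/
theorem sum_conf_succ (U : Y → ℝ) (i : Q.ι) (t : ℕ) :
    ∑ j, U (Q.conf i (t + 1) j) = ∑ j, U (Q.conf i t j) + (U (Q.rq i t) - U (Q.src i t)) := by
  rw [conf_succ, ← add_sum_erase univ _ (mem_univ (Q.jj i t)),
    ← add_sum_erase univ (fun j => U (Q.conf i t j)) (mem_univ (Q.jj i t))]
  have : ∑ j ∈ univ.erase (Q.jj i t), U (update (Q.conf i t) (Q.jj i t) (Q.rq i t) j) =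
      ∑ j ∈ univ.erase (Q.jj i t), U (Q.conf i t j) := by
    apply sum_congr rfl
    intro j hj
    rw [update_of_ne (ne_of_mem_erase hj)]
  rw [this, update_self]
  unfold src
  ring

/-! ### Histories -/

open Classical in
/-- The scenarios compatible with the history `h`. -/
noncomputable def I (h : List Y) : Finset Q.ι := univ.filter fun i => h <+: Q.req i

theorem mem_I {h : List Y} {i : Q.ι} : i ∈ Q.I h ↔ h <+: Q.req i := by
  classical
  simp [I]

open Classical in
/-- The nonempty histories of positive support. -/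
noncomputable def H : Finset (List Y) :=
  univ.biUnion fun i => (range (Q.req i).length).image fun t => (Q.req i).take (t + 1)

theorem mem_H {h : List Y} : h ∈ Q.H ↔ h ≠ [] ∧ (Q.I h).Nonempty := by
  classical
  simp only [H, mem_biUnion, mem_univ, true_and, mem_image, mem_range]
  constructor
  · rintro ⟨i, t, ht, rfl⟩
    refine ⟨?_, i, Q.mem_I.2 (List.take_prefix _ _)⟩
    intro h0
    have := congrArg List.length h0
    rw [List.length_take, List.length_nil] at this
    omega
  · rintro ⟨h0, i, hi⟩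
    rw [mem_I] at hi
    have hl := hi.length_le
    have hpos : 0 < h.length := List.length_pos_iff.2 h0
    refine ⟨i, h.length - 1, by omega, ?_⟩
    rw [Nat.sub_add_cancel (by omega)]
    exact (List.prefix_iff_eq_take.1 hi).symm

theorem ne_nil_of_mem_H {h : List Y} (hh : h ∈ Q.H) : h ≠ [] := (Q.mem_H.1 hh).1

theorem I_mono {h h' : List Y} (hh : h <+: h') : Q.I h' ⊆ Q.I h := by
  intro i hi
  rw [mem_I] at *
  exact hh.trans hi

theorem take_of_mem_I {h : List Y} {i : Q.ι} (hi : i ∈ Q.I h) : (Q.req i).take h.length = h := by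
  rw [mem_I] at hi
  exact (List.prefix_iff_eq_take.1 hi).symm

theorem length_le_of_mem_I {h : List Y} {i : Q.ι} (hi : i ∈ Q.I h) :
    h.length ≤ (Q.req i).length := ((Q.mem_I).1 hi).length_le

/-- Double counting over histories. -/
theorem sum_H (f : List Y → Q.ι → ℝ) :
    ∑ h ∈ Q.H, ∑ i ∈ Q.I h, f h i =
      ∑ i, ∑ t ∈ range (Q.req i).length, f ((Q.req i).take (t + 1)) i := by
  classical
  have h1 : ∀ h ∈ Q.H, ∑ i ∈ Q.I h, f h i = ∑ i, if h <+: Q.req i then f h i else 0 := by
    intro h _
    rw [I, sum_filter]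
  rw [sum_congr rfl h1, sum_comm]
  apply sum_congr rfl
  intro i _
  rw [← sum_filter]
  have h2 : (Q.H.filter fun h => h <+: Q.req i) =
      (range (Q.req i).length).image fun t => (Q.req i).take (t + 1) := by
    ext h
    simp only [mem_filter, mem_image, mem_range]
    constructor
    · rintro ⟨hh, hp⟩
      have h0 := Q.ne_nil_of_mem_H hh
      have hl := hp.length_le
      have hpos : 0 < h.length := List.length_pos_iff.2 h0
      refine ⟨h.length - 1, by omega, ?_⟩
      rw [Nat.sub_add_cancel (by omega)]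
      exact (List.prefix_iff_eq_take.1 hp).symm
    · rintro ⟨t, ht, rfl⟩
      refine ⟨?_, List.take_prefix _ _⟩
      rw [H, mem_biUnion]
      exact ⟨i, mem_univ _, mem_image.2 ⟨t, mem_range.2 ht, rfl⟩⟩
  rw [h2, sum_image]
  intro a ha b hb hab
  have ha' := mem_range.1 ha
  have hb' := mem_range.1 hb
  have := congrArg List.length hab
  simp only [List.length_take] at this
  omega

/-- The (unnormalised) probability of a history. -/
noncomputable def P (h : List Y) : ℝ := ∑ i ∈ Q.I h, Q.p i

theorem P_nonneg (h : List Y) : 0 ≤ Q.P h := sum_nonneg fun i _ => Q.p_nonneg i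

/-- Unnormalised expectation of a functional of the configuration, before the last request of `h`
is served. -/
noncomputable def Em (h : List Y) (f : (Fin k → Y) → ℝ) : ℝ :=
  ∑ i ∈ Q.I h, Q.p i * f (Q.conf i (h.length - 1))

/-- Unnormalised expectation of a functional of the configuration, after the last request of `h`
is served. -/
noncomputable def Ep (h : List Y) (f : (Fin k → Y) → ℝ) : ℝ :=
  ∑ i ∈ Q.I h, Q.p i * f (Q.conf i h.length)

theorem Em_add (h : List Y) (f g : (Fin k → Y) → ℝ) :
    Q.Em h (fun c => f c + g c) = Q.Em h f + Q.Em h g := by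
  unfold Em; rw [← sum_add_distrib]; exact sum_congr rfl fun i _ => mul_add _ _ _

theorem Ep_add (h : List Y) (f g : (Fin k → Y) → ℝ) :
    Q.Ep h (fun c => f c + g c) = Q.Ep h f + Q.Ep h g := by
  unfold Ep; rw [← sum_add_distrib]; exact sum_congr rfl fun i _ => mul_add _ _ _

theorem Em_sum {α : Type*} (S : Finset α) (h : List Y) (f : α → (Fin k → Y) → ℝ) :
    Q.Em h (fun c => ∑ a ∈ S, f a c) = ∑ a ∈ S, Q.Em h (f a) := by
  unfold Em; rw [sum_comm]; exact sum_congr rfl fun i _ => mul_sum _ _ _

theorem Ep_sum {α : Type*} (S : Finset α) (h : List Y) (f : α → (Fin k → Y) → ℝ) :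
    Q.Ep h (fun c => ∑ a ∈ S, f a c) = ∑ a ∈ S, Q.Ep h (f a) := by
  unfold Ep; rw [sum_comm]; exact sum_congr rfl fun i _ => mul_sum _ _ _

theorem Em_mul (h : List Y) (a : ℝ) (f : (Fin k → Y) → ℝ) :
    Q.Em h (fun c => a * f c) = a * Q.Em h f := by
  unfold Em; rw [mul_sum]; exact sum_congr rfl fun i _ => by ring

theorem Ep_mul (h : List Y) (a : ℝ) (f : (Fin k → Y) → ℝ) :
    Q.Ep h (fun c => a * f c) = a * Q.Ep h f := by
  unfold Ep; rw [mul_sum]; exact sum_congr rfl fun i _ => by ring

theorem Em_const (h : List Y) (a : ℝ) : Q.Em h (fun _ => a) = a * Q.P h := by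
  unfold Em P; rw [mul_sum]; exact sum_congr rfl fun i _ => by ring

theorem Ep_const (h : List Y) (a : ℝ) : Q.Ep h (fun _ => a) = a * Q.P h := by
  unfold Ep P; rw [mul_sum]; exact sum_congr rfl fun i _ => by ring

theorem Em_mono (h : List Y) {f g : (Fin k → Y) → ℝ} (hfg : ∀ c, f c ≤ g c) :
    Q.Em h f ≤ Q.Em h g :=
  sum_le_sum fun i _ => mul_le_mul_of_nonneg_left (hfg _) (Q.p_nonneg i)

theorem Ep_mono (h : List Y) {f g : (Fin k → Y) → ℝ} (hfg : ∀ c, f c ≤ g c) :
    Q.Ep h f ≤ Q.Ep h g :=
  sum_le_sum fun i _ => mul_le_mul_of_nonneg_left (hfg _) (Q.p_nonneg i)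

theorem Em_nonneg (h : List Y) {f : (Fin k → Y) → ℝ} (hf : ∀ c, 0 ≤ f c) : 0 ≤ Q.Em h f :=
  sum_nonneg fun i _ => mul_nonneg (Q.p_nonneg i) (hf _)

theorem Ep_nonneg (h : List Y) {f : (Fin k → Y) → ℝ} (hf : ∀ c, 0 ≤ f c) : 0 ≤ Q.Ep h f :=
  sum_nonneg fun i _ => mul_nonneg (Q.p_nonneg i) (hf _)

/-- In `I h`, the last request is the last entry of `h`. -/
theorem rq_of_mem_I {h : List Y} {i : Q.ι} (hi : i ∈ Q.I h) (h0 : h ≠ []) :
    Q.rq i (h.length - 1) = h.getLast h0 := by
  have hpos : 0 < h.length := List.length_pos_iff.2 h0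
  have h1 := Q.take_of_mem_I hi
  have hl := Q.length_le_of_mem_I hi
  unfold rq
  rw [List.getD_eq_getElem _ _ (by omega), List.getLast_eq_getElem]
  have h2 : h[h.length - 1]'(by omega) = ((Q.req i).take h.length)[h.length - 1]'(by
      rw [List.length_take]; omega) := by
    congr 1
    exact h1.symm
  rw [h2, List.getElem_take]

/-- The flow step for potentials which are sums over the servers. -/
theorem Ep_sum_server {h : List Y} (h0 : h ≠ []) (U : Y → ℝ) :
    Q.Ep h (fun c => ∑ j, U (c j)) = Q.Em h (fun c => ∑ j, U (c j)) +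
      ∑ i ∈ Q.I h, Q.p i * (U (h.getLast h0) - U (Q.src i (h.length - 1))) := by
  unfold Ep Em
  rw [← sum_add_distrib]
  apply sum_congr rfl
  intro i hi
  have hpos : 0 < h.length := List.length_pos_iff.2 h0
  have h1 := Q.sum_conf_succ U i (h.length - 1)
  rw [Nat.sub_add_cancel (by omega), Q.rq_of_mem_I hi h0] at h1
  simp only []
  rw [h1]; ring

/-- **Telescoping**: potentials `a h` (a function of the history and of the configuration),
bills and slopes per history. -/
theorem telescope (a : List Y → (Fin k → Y) → ℝ) (ha : ∀ h c, 0 ≤ a h c)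
    (bill slope : List Y → ℝ)
    (hstep : ∀ h ∈ Q.H, Q.Ep h (a h) + bill h ≤ Q.Em h (a h.dropLast) + slope h) :
    ∑ h ∈ Q.H, bill h ≤ (∑ i, Q.p i) * a [] Q.s + ∑ h ∈ Q.H, slope h := by
  have h1 : ∑ h ∈ Q.H, bill h ≤ ∑ h ∈ Q.H, (Q.Em h (a h.dropLast) - Q.Ep h (a h)) +
      ∑ h ∈ Q.H, slope h := by
    rw [← sum_add_distrib]
    apply sum_le_sum
    intro h hh
    have := hstep h hh
    linarith
  have h2 : ∑ h ∈ Q.H, (Q.Em h (a h.dropLast) - Q.Ep h (a h)) =
      ∑ i, ∑ t ∈ range (Q.req i).length, Q.p i *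
        (a ((Q.req i).take t) (Q.conf i t) - a ((Q.req i).take (t + 1)) (Q.conf i (t + 1))) := by
    have h3 : ∀ h ∈ Q.H, Q.Em h (a h.dropLast) - Q.Ep h (a h) = ∑ i ∈ Q.I h, Q.p i *
        (a h.dropLast (Q.conf i (h.length - 1)) - a h (Q.conf i h.length)) := by
      intro h _
      unfold Em Ep
      rw [← sum_sub_distrib]
      exact sum_congr rfl fun i _ => by ring
    rw [sum_congr rfl h3, Q.sum_H (fun h i => Q.p i *
        (a h.dropLast (Q.conf i (h.length - 1)) - a h (Q.conf i h.length)))]
    apply sum_congr rfl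
    intro i _
    apply sum_congr rfl
    intro t ht
    rw [mem_range] at ht
    have hl : ((Q.req i).take (t + 1)).length = t + 1 := by rw [List.length_take]; omega
    have hd : ((Q.req i).take (t + 1)).dropLast = (Q.req i).take t := by
      rw [List.dropLast_eq_take, hl, List.take_take]
      congr 1
      omega
    rw [hd, hl, Nat.add_sub_cancel]
  have h4 : ∀ i, ∑ t ∈ range (Q.req i).length, Q.p i *
        (a ((Q.req i).take t) (Q.conf i t) - a ((Q.req i).take (t + 1)) (Q.conf i (t + 1))) ≤
      Q.p i * a [] Q.s := by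
    intro i
    rw [← mul_sum]
    apply mul_le_mul_of_nonneg_left _ (Q.p_nonneg i)
    rw [sum_range_sub' (fun t => a ((Q.req i).take t) (Q.conf i t))]
    have := ha ((Q.req i).take (Q.req i).length) (Q.conf i (Q.req i).length)
    simp only [List.take_zero, conf_zero]
    linarith
  have h5 : ∑ h ∈ Q.H, (Q.Em h (a h.dropLast) - Q.Ep h (a h)) ≤ (∑ i, Q.p i) * a [] Q.s := by
    rw [h2, sum_mul]
    exact sum_le_sum fun i _ => h4 i
  linarith

/-- The expected cost of the comparator as a sum over histories. -/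
theorem opt_eq [MetricSpace Y] : Q.opt = ∑ h ∈ Q.H, ∑ i ∈ Q.I h,
    Q.p i * dist (Q.src i (h.length - 1)) (Q.rq i (h.length - 1)) := by
  rw [Q.sum_H (fun h i => Q.p i * dist (Q.src i (h.length - 1)) (Q.rq i (h.length - 1)))]
  unfold opt
  apply sum_congr rfl
  intro i _
  rw [Q.pathCost_eq, mul_sum]
  apply sum_congr rfl
  intro t ht
  rw [mem_range] at ht
  have hl : ((Q.req i).take (t + 1)).length = t + 1 := by rw [List.length_take]; omega
  rw [hl, Nat.add_sub_cancel]

end Prior

end Crest.Agent.R314.Bay
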