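import Mathlib
import Crest.Agent.R314.Bay1

/-!
R314, block BAY, part 2: masses before and after the flow, lazy best response ("games"), the
bill of a game, the `3/4`-quantile radius.
-/

set_option autoImplicit false
set_option linter.unusedSectionVars false

namespace Crest.Agent.R314.Bay

open Finset Function Crest.LogicCS.KServer Crest.Agent.R314 Crest.Agent.R314.Tk

variable {Y : Type*} {k : ℕ} [NeZero k]

namespace Prior

variable (Q : Prior Y k)

section Mass

open Classical in
/-- Mass before the flow at the history `h`. -/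
noncomputable def mm (h : List Y) (x : Y) : ℝ := Q.Em h fun c => ∑ j, if c j = x then 1 else 0

open Classical in
/-- Mass after the flow at the history `h`. -/
noncomputable def mp (h : List Y) (x : Y) : ℝ := Q.Ep h fun c => ∑ j, if c j = x then 1 else 0

theorem mm_nonneg (h : List Y) (x : Y) : 0 ≤ Q.mm h x :=
  Q.Em_nonneg h fun c => sum_nonneg fun j _ => by split_ifs <;> norm_num

theorem mp_nonneg (h : List Y) (x : Y) : 0 ≤ Q.mp h x :=
  Q.Ep_nonneg h fun c => sum_nonneg fun j _ => by split_ifs <;> norm_num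

variable [Fintype Y]

theorem sum_mm (h : List Y) (U : Y → ℝ) :
    ∑ x, Q.mm h x * U x = Q.Em h fun c => ∑ j, U (c j) := by
  classical
  unfold mm
  have h1 : ∀ x, (Q.Em h fun c => ∑ j, if c j = x then 1 else 0) * U x =
      Q.Em h fun c => U x * ∑ j, if c j = x then 1 else 0 := by
    intro x
    rw [mul_comm, ← Q.Em_mul]
  rw [sum_congr rfl fun x _ => h1 x, ← Q.Em_sum univ h fun x c => U x * ∑ j, if c j = x then 1 else 0]
  congr 1
  funext c
  simp_rw [mul_sum]
  rw [sum_comm]
  apply sum_congr rfl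
  intro j _
  simp

theorem sum_mp (h : List Y) (U : Y → ℝ) :
    ∑ x, Q.mp h x * U x = Q.Ep h fun c => ∑ j, U (c j) := by
  classical
  unfold mp
  have h1 : ∀ x, (Q.Ep h fun c => ∑ j, if c j = x then 1 else 0) * U x =
      Q.Ep h fun c => U x * ∑ j, if c j = x then 1 else 0 := by
    intro x
    rw [mul_comm, ← Q.Ep_mul]
  rw [sum_congr rfl fun x _ => h1 x, ← Q.Ep_sum univ h fun x c => U x * ∑ j, if c j = x then 1 else 0]
  congr 1
  funext c
  simp_rw [mul_sum]
  rw [sum_comm]
  apply sum_congr rfl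
  intro j _
  simp

/-- Total mass before the flow. -/
theorem sum_mm_one (h : List Y) : ∑ x, Q.mm h x = k * Q.P h := by
  have := Q.sum_mm h fun _ => 1
  simp only [mul_one] at this
  rw [this]
  simp only [sum_const, card_univ, Fintype.card_fin, nsmul_eq_mul, mul_one]
  exact Q.Em_const h k

/-- Total mass after the flow. -/
theorem sum_mp_one (h : List Y) : ∑ x, Q.mp h x = k * Q.P h := by
  have := Q.sum_mp h fun _ => 1
  simp only [mul_one] at this
  rw [this]
  simp only [sum_const, card_univ, Fintype.card_fin, nsmul_eq_mul, mul_one]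
  exact Q.Ep_const h k

/-- Mass of a set, before the flow. -/
theorem sum_mm_set (h : List Y) (A : Finset Y) [DecidableEq Y] :
    ∑ x ∈ A, Q.mm h x = Q.Em h fun c => ∑ j, if c j ∈ A then 1 else 0 := by
  classical
  have := Q.sum_mm h fun x => if x ∈ A then 1 else 0
  rw [← this]
  rw [← sum_filter_add_sum_filter_not univ (fun x => x ∈ A)]
  have h1 : ∑ x ∈ univ.filter (fun x => x ∈ A), Q.mm h x * (if x ∈ A then 1 else 0) =
      ∑ x ∈ A, Q.mm h x := by
    have : univ.filter (fun x => x ∈ A) = A := by ext; simp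
    rw [this]
    exact sum_congr rfl fun x hx => by rw [if_pos hx, mul_one]
  have h2 : ∑ x ∈ univ.filter (fun x => ¬ x ∈ A), Q.mm h x * (if x ∈ A then 1 else 0) = 0 :=
    sum_eq_zero fun x hx => by rw [if_neg (mem_filter.1 hx).2, mul_zero]
  rw [h1, h2, add_zero]

end Mass

theorem conf_of_mem_I {h : List Y} {i : Q.ι} (hi : i ∈ Q.I h) (h0 : h ≠ []) :
    Q.conf i h.length (Q.jj i (h.length - 1)) = h.getLast h0 := by
  have hpos : 0 < h.length := List.length_pos_iff.2 h0
  have := Q.conf_succ_self i (h.length - 1)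
  rw [Nat.sub_add_cancel (by omega), Q.rq_of_mem_I hi h0] at this
  exact this

/-- The requested point has mass at least `P h` after the flow. -/
theorem P_le_mp {h : List Y} (h0 : h ≠ []) : Q.P h ≤ Q.mp h (h.getLast h0) := by
  classical
  unfold P mp Ep
  apply sum_le_sum
  intro i hi
  have h1 := Q.conf_of_mem_I hi h0
  have h2 : (1 : ℝ) ≤ ∑ j, if Q.conf i h.length j = h.getLast h0 then (1 : ℝ) else 0 := by
    have := single_le_sum (f := fun j => if Q.conf i h.length j = h.getLast h0 then (1 : ℝ) else 0)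
      (fun j _ => by split_ifs <;> norm_num) (mem_univ (Q.jj i (h.length - 1)))
    simp only [h1, if_true] at this
    exact this
  have := mul_le_mul_of_nonneg_left h2 (Q.p_nonneg i)
  rw [mul_one] at this
  convert this using 2

/-- Flow step for masses: after = before + arrivals - departures. -/
theorem mp_eq {h : List Y} (h0 : h ≠ []) [DecidableEq Y] (x : Y) :
    Q.mp h x = Q.mm h x + ∑ i ∈ Q.I h, Q.p i * ((if h.getLast h0 = x then 1 else 0) -
      (if Q.src i (h.length - 1) = x then 1 else 0)) := by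
  have := Q.Ep_sum_server h0 (fun y => if y = x then (1 : ℝ) else 0)
  have e1 : Q.mp h x = Q.Ep h fun c => ∑ j, if c j = x then 1 else 0 := by
    unfold mp
    congr 1
    funext c
    exact sum_congr rfl fun j _ => by congr
  have e2 : Q.mm h x = Q.Em h fun c => ∑ j, if c j = x then 1 else 0 := by
    unfold mm
    congr 1
    funext c
    exact sum_congr rfl fun j _ => by congr
  rw [e1, e2, this]

section Quantile

variable [MetricSpace Y] [Fintype Y]

open Classical in
/-- Unnormalised probability that the configuration before the flow meets the closed ball of radius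
`ρ` around `r`. -/
noncomputable def hit (h : List Y) (r : Y) (ρ : ℝ) : ℝ :=
  Q.Em h fun c => if ∃ j, dist (c j) r ≤ ρ then 1 else 0

open Classical in
/-- Same with the open ball. -/
noncomputable def hit' (h : List Y) (r : Y) (ρ : ℝ) : ℝ :=
  Q.Em h fun c => if ∃ j, dist (c j) r < ρ then 1 else 0

/-- **Quantile radius** `r₁`: the configuration before the flow meets the closed ball with
conditional probability at least `3/4` and the open ball with conditional probability at most
`3/4`. -/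
theorem exists_quantile (h : List Y) (r : Y) :
    ∃ r1 : ℝ, 0 ≤ r1 ∧ 3 / 4 * Q.P h ≤ Q.hit h r r1 ∧ Q.hit' h r r1 ≤ 3 / 4 * Q.P h := by
  classical
  have hP := Q.P_nonneg h
  set D : Finset ℝ := univ.image fun x : Y => dist x r with hD
  set G : Finset ℝ := D.filter fun ρ => 3 / 4 * Q.P h ≤ Q.hit h r ρ with hG
  have hDne : D.Nonempty := ⟨dist r r, mem_image_of_mem _ (mem_univ _)⟩
  have hGne : G.Nonempty := by
    refine ⟨D.max' hDne, mem_filter.2 ⟨max'_mem _ _, ?_⟩⟩
    have : Q.hit h r (D.max' hDne) = Q.P h := by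
      unfold hit
      have h1 : (fun c : Fin k → Y => if ∃ j, dist (c j) r ≤ D.max' hDne then (1 : ℝ) else 0) =
          fun _ => 1 := by
        funext c
        rw [if_pos]
        exact ⟨0, le_max' D _ (mem_image_of_mem (fun x : Y => dist x r) (mem_univ _))⟩
      rw [h1, Q.Em_const, one_mul]
    rw [this]
    linarith
  refine ⟨G.min' hGne, ?_, ?_, ?_⟩
  · have h1 := (mem_filter.1 (min'_mem G hGne)).1
    obtain ⟨x, _, hx⟩ := mem_image.1 h1
    rw [← hx]
    exact dist_nonneg
  · exact (mem_filter.1 (min'_mem G hGne)).2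
  · set ρ := G.min' hGne with hρ
    set D' : Finset ℝ := D.filter fun d => d < ρ with hD'
    by_cases hne : D'.Nonempty
    · have h1 := mem_filter.1 (max'_mem D' hne)
      set ρ' := D'.max' hne with hρ'
      have h2 : Q.hit' h r ρ ≤ Q.hit h r ρ' := by
        apply Q.Em_mono
        intro c
        by_cases hc : ∃ j, dist (c j) r < ρ
        · obtain ⟨j, hj⟩ := hc
          have : dist (c j) r ≤ ρ' := le_max' D' _
            (mem_filter.2 ⟨mem_image_of_mem (fun x : Y => dist x r) (mem_univ _), hj⟩)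
          rw [if_pos ⟨j, hj⟩, if_pos ⟨j, this⟩]
        · rw [if_neg hc]; split_ifs <;> norm_num
      by_contra hcon
      push Not at hcon
      have h3 : ρ' ∈ G := mem_filter.2 ⟨h1.1, by linarith⟩
      have h4 := min'_le G ρ' h3
      linarith [h1.2]
    · have h1 : Q.hit' h r ρ = 0 := by
        unfold hit'
        have h2 : (fun c : Fin k → Y => if ∃ j, dist (c j) r < ρ then (1 : ℝ) else 0) =
            fun _ => 0 := by
          funext c
          rw [if_neg]
          rintro ⟨j, hj⟩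
          exact hne ⟨dist (c j) r, mem_filter.2
            ⟨mem_image_of_mem (fun x : Y => dist x r) (mem_univ _), hj⟩⟩
        rw [h2, Q.Em_const, zero_mul]
      rw [h1]
      positivity

/-- The expected cost of the comparator at the step `h` is at least `r₁ P h / 4`. -/
theorem quantile_flow {h : List Y} (h0 : h ≠ []) {r1 : ℝ} (hr1 : 0 ≤ r1)
    (hh : Q.hit' h (h.getLast h0) r1 ≤ 3 / 4 * Q.P h) :
    r1 * Q.P h / 4 ≤ ∑ i ∈ Q.I h, Q.p i * dist (Q.src i (h.length - 1)) (h.getLast h0) := by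
  classical
  have h1 : Q.Em h (fun c => r1 * (1 - if ∃ j, dist (c j) (h.getLast h0) < r1 then 1 else 0)) ≤
      ∑ i ∈ Q.I h, Q.p i * dist (Q.src i (h.length - 1)) (h.getLast h0) := by
    apply sum_le_sum
    intro i _
    apply mul_le_mul_of_nonneg_left _ (Q.p_nonneg i)
    simp only []
    by_cases hc : ∃ j, dist (Q.conf i (h.length - 1) j) (h.getLast h0) < r1
    · rw [if_pos hc]
      simp [dist_nonneg]
    · rw [if_neg hc]
      push Not at hc
      have := hc (Q.jj i (h.length - 1))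
      simpa [src] using this
  have h2 : Q.Em h (fun c => r1 * (1 - if ∃ j, dist (c j) (h.getLast h0) < r1 then 1 else 0)) =
      r1 * (Q.P h - Q.hit' h (h.getLast h0) r1) := by
    rw [Q.Em_mul]
    congr 1
    have := Q.Em_add h (fun c => 1 - if ∃ j, dist (c j) (h.getLast h0) < r1 then (1 : ℝ) else 0)
      (fun c => if ∃ j, dist (c j) (h.getLast h0) < r1 then (1 : ℝ) else 0)
    simp only [sub_add_cancel] at this
    rw [Q.Em_const, one_mul] at this
    unfold hit'
    linarith
  rw [h2] at h1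
  have : r1 * (Q.P h / 4) ≤ r1 * (Q.P h - Q.hit' h (h.getLast h0) r1) :=
    mul_le_mul_of_nonneg_left (by linarith) hr1
  linarith

/-- Mass of the closed ball versus hitting probability. -/
theorem hit_le_mass (h : List Y) (r : Y) (ρ : ℝ) [DecidableEq Y] :
    Q.hit h r ρ ≤ ∑ x ∈ univ.filter (fun x => dist x r ≤ ρ), Q.mm h x := by
  classical
  rw [Q.sum_mm_set]
  apply Q.Em_mono
  intro c
  by_cases hc : ∃ j, dist (c j) r ≤ ρ
  · rw [if_pos hc]
    obtain ⟨j, hj⟩ := hc
    have := single_le_sum (f := fun j => if c j ∈ univ.filter (fun x => dist x r ≤ ρ) then (1 : ℝ)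
      else 0) (fun j _ => by split_ifs <;> norm_num) (mem_univ j)
    simp only [mem_filter, mem_univ, true_and, hj, if_true] at this
    simpa using this
  · rw [if_neg hc]
    exact sum_nonneg fun j _ => by split_ifs <;> norm_num

end Quantile

end Prior

/-! ### Games: linear potentials with lazy best response -/

/-- A game on `Y`: states, potentials `U`, relabelling prices `rel` per unit of mass. -/
structure Game (Y : Type*) [Fintype Y] where
  S : Type*
  S0 : S
  U : S → Y → ℝ
  U_nonneg : ∀ σ x, 0 ≤ U σ x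
  rel : S → S → Y → ℝ
  rel_nonneg : ∀ σ τ x, 0 ≤ rel σ τ x
  rel_self : ∀ σ x, rel σ σ x = 0
  rel_tri : ∀ σ τ υ x, rel σ υ x ≤ rel σ τ x + rel τ υ x
  exists_min : ∀ m : Y → ℝ, (∀ x, 0 ≤ m x) → ∀ σ, ∃ τ, ∀ υ,
    ∑ x, m x * (U τ x + rel σ τ x) ≤ ∑ x, m x * (U υ x + rel σ υ x)

/-- Finite state spaces have minimisers. -/
theorem exists_min_of_finite {Y S : Type*} [Fintype Y] [Finite S] (U : S → Y → ℝ)
    (rel : S → S → Y → ℝ) (m : Y → ℝ) (σ : S) :
    ∃ τ, ∀ υ, ∑ x, m x * (U τ x + rel σ τ x) ≤ ∑ x, m x * (U υ x + rel σ υ x) := by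
  haveI : Nonempty S := ⟨σ⟩
  exact Finite.exists_min fun τ => ∑ x, m x * (U τ x + rel σ τ x)

namespace Game

variable [Fintype Y] (G : Game Y)

/-- Potential of a state against a measure. -/
noncomputable def Phi (m : Y → ℝ) (σ : G.S) : ℝ := ∑ x, m x * G.U σ x

/-- Relabelling bill. -/
noncomputable def Rel (m : Y → ℝ) (σ τ : G.S) : ℝ := ∑ x, m x * G.rel σ τ x

/-- No change of state pays for itself. -/
def Stuck (m : Y → ℝ) (σ : G.S) : Prop := ∀ τ, G.Phi m σ ≤ G.Phi m τ + G.Rel m σ τ

theorem Rel_nonneg {m : Y → ℝ} (hm : ∀ x, 0 ≤ m x) (σ τ : G.S) : 0 ≤ G.Rel m σ τ :=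
  sum_nonneg fun x _ => mul_nonneg (hm x) (G.rel_nonneg _ _ _)

theorem Phi_nonneg {m : Y → ℝ} (hm : ∀ x, 0 ≤ m x) (σ : G.S) : 0 ≤ G.Phi m σ :=
  sum_nonneg fun x _ => mul_nonneg (hm x) (G.U_nonneg _ _)

open Classical in
/-- Lazy best response. -/
noncomputable def br (m : Y → ℝ) (σ : G.S) : G.S :=
  if h : ∀ x, 0 ≤ m x then (G.exists_min m h σ).choose else σ

theorem br_le {m : Y → ℝ} (hm : ∀ x, 0 ≤ m x) (σ τ : G.S) :
    G.Phi m (G.br m σ) + G.Rel m σ (G.br m σ) ≤ G.Phi m τ + G.Rel m σ τ := by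
  have key := (G.exists_min m hm σ).choose_spec τ
  have hbr : G.br m σ = (G.exists_min m hm σ).choose := by
    unfold br
    rw [dif_pos hm]
  rw [← hbr] at key
  unfold Phi Rel
  rw [← sum_add_distrib, ← sum_add_distrib]
  simp only [← mul_add]
  exact key

theorem br_pays {m : Y → ℝ} (hm : ∀ x, 0 ≤ m x) (σ : G.S) :
    G.Phi m (G.br m σ) + G.Rel m σ (G.br m σ) ≤ G.Phi m σ := by
  have := G.br_le hm σ σ
  have h1 : G.Rel m σ σ = 0 := sum_eq_zero fun x _ => by rw [G.rel_self, mul_zero]
  linarith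

theorem br_stuck {m : Y → ℝ} (hm : ∀ x, 0 ≤ m x) (σ : G.S) : G.Stuck m (G.br m σ) := by
  intro τ
  have h1 := G.br_le hm σ τ
  have h2 : G.Rel m σ τ ≤ G.Rel m σ (G.br m σ) + G.Rel m (G.br m σ) τ := by
    unfold Rel
    rw [← sum_add_distrib]
    apply sum_le_sum
    intro x _
    rw [← mul_add]
    exact mul_le_mul_of_nonneg_left (G.rel_tri _ _ _ _) (hm x)
  linarith

variable (Q : Prior Y k) (op : List Y → G.S → G.S)

/-- State after the information step. -/
noncomputable def m1 (h : List Y) (σ : G.S) : G.S := G.br (Q.mm h) σ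

/-- State at the flow. -/
noncomputable def m2 (h : List Y) (σ : G.S) : G.S := op h (G.m1 Q h σ)

/-- State at the end of the step. -/
noncomputable def m3 (h : List Y) (σ : G.S) : G.S := G.br (Q.mp h) (G.m2 Q op h σ)

/-- The states along the prefixes of `h`. -/
noncomputable def stN (h : List Y) : ℕ → G.S
  | 0 => G.S0
  | t + 1 => G.m3 Q op (h.take (t + 1)) (stN h t)

/-- The state after the history `h`. -/
noncomputable def st (h : List Y) : G.S := G.stN Q op h h.length

theorem stN_take (h : List Y) {n t : ℕ} (ht : t ≤ n) :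
    G.stN Q op (h.take n) t = G.stN Q op h t := by
  induction t with
  | zero => rfl
  | succ t ih =>
    rw [stN, stN, ih (by omega), List.take_take, min_eq_left ht]

@[simp] theorem st_nil : G.st Q op [] = G.S0 := rfl

theorem st_eq {h : List Y} (h0 : h ≠ []) :
    G.st Q op h = G.m3 Q op h (G.st Q op h.dropLast) := by
  have hpos : 0 < h.length := List.length_pos_iff.2 h0
  obtain ⟨n, hn⟩ : ∃ n, h.length = n + 1 := ⟨h.length - 1, by omega⟩
  unfold st
  rw [hn, stN, ← hn, List.take_length]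
  congr 1
  rw [List.length_dropLast, hn, Nat.add_sub_cancel, List.dropLast_eq_take, hn,
    Nat.add_sub_cancel, G.stN_take Q op h le_rfl]

/-- State after the information step, in the process. -/
noncomputable def s1 (h : List Y) : G.S := G.m1 Q h (G.st Q op h.dropLast)

/-- State at the flow, in the process. -/
noncomputable def s2 (h : List Y) : G.S := op h (G.s1 Q op h)

theorem st_eq' {h : List Y} (h0 : h ≠ []) : G.st Q op h = G.br (Q.mp h) (G.s2 Q op h) := by
  rw [G.st_eq Q op h0]; rfl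

theorem s1_stuck (h : List Y) : G.Stuck (Q.mm h) (G.s1 Q op h) := G.br_stuck (Q.mm_nonneg h) _

theorem st_stuck {h : List Y} (h0 : h ≠ []) : G.Stuck (Q.mp h) (G.st Q op h) := by
  rw [G.st_eq' Q op h0]
  exact G.br_stuck (Q.mp_nonneg h) _

/-- Bill of a game at the history `h`: relabelling before the flow, cuts, relabelling after the
flow. -/
noncomputable def bill (cut : G.S → Y → Y → ℝ) (h : List Y) : ℝ :=
  G.Rel (Q.mm h) (G.st Q op h.dropLast) (G.s1 Q op h) +
  G.Rel (Q.mm h) (G.s1 Q op h) (G.s2 Q op h) +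
  ∑ i ∈ Q.I h, Q.p i * cut (G.s2 Q op h) (Q.src i (h.length - 1)) (Q.rq i (h.length - 1)) +
  G.Rel (Q.mp h) (G.s2 Q op h) (G.st Q op h)

/-- **Bill of a game.** `e h` = price of the operation `op h` before the flow, `sl h` = price of
the flow. -/
theorem bill_le (cut : G.S → Y → Y → ℝ) (e sl : List Y → ℝ)
    (hop : ∀ h ∈ Q.H, ∀ σ, G.Stuck (Q.mm h) σ →
      G.Phi (Q.mm h) (op h σ) + G.Rel (Q.mm h) σ (op h σ) ≤ G.Phi (Q.mm h) σ + e h)
    (hsl : ∀ h ∈ Q.H, ∀ σ, G.Stuck (Q.mm h) σ →
      ∑ i ∈ Q.I h, Q.p i * (G.U (op h σ) (Q.rq i (h.length - 1)) -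
        G.U (op h σ) (Q.src i (h.length - 1)) +
        cut (op h σ) (Q.src i (h.length - 1)) (Q.rq i (h.length - 1))) ≤ sl h) :
    ∑ h ∈ Q.H, G.bill Q op cut h ≤
      (∑ i, Q.p i) * (∑ j, G.U G.S0 (Q.s j)) + ∑ h ∈ Q.H, (e h + sl h) := by
  have := Q.telescope (fun h c => ∑ j, G.U (G.st Q op h) (c j))
    (fun h c => sum_nonneg fun j _ => G.U_nonneg _ _) (G.bill Q op cut) (fun h => e h + sl h) ?_
  · simpa using this
  intro h hh
  have h0 := Q.ne_nil_of_mem_H hh
  have e1 : Q.Ep h (fun c => ∑ j, G.U (G.st Q op h) (c j)) = G.Phi (Q.mp h) (G.st Q op h) :=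
    (Q.sum_mp h _).symm
  have e2 : Q.Em h (fun c => ∑ j, G.U (G.st Q op h.dropLast) (c j)) =
      G.Phi (Q.mm h) (G.st Q op h.dropLast) := (Q.sum_mm h _).symm
  simp only [e1, e2]
  have a1 := G.br_pays (Q.mm_nonneg h) (G.st Q op h.dropLast)
  have a2 := hop h hh _ (G.s1_stuck Q op h)
  have a3 := hsl h hh _ (G.s1_stuck Q op h)
  have a4 := G.br_pays (Q.mp_nonneg h) (G.s2 Q op h)
  rw [← G.st_eq' Q op h0] at a4
  have a5 : G.Phi (Q.mp h) (G.s2 Q op h) = G.Phi (Q.mm h) (G.s2 Q op h) +
      ∑ i ∈ Q.I h, Q.p i * (G.U (G.s2 Q op h) (Q.rq i (h.length - 1)) -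
        G.U (G.s2 Q op h) (Q.src i (h.length - 1))) := by
    unfold Phi
    rw [Q.sum_mp, Q.sum_mm, Q.Ep_sum_server h0]
    congr 1
    apply sum_congr rfl
    intro i hi
    rw [Q.rq_of_mem_I hi h0]
  have a6 : ∑ i ∈ Q.I h, Q.p i * (G.U (G.s2 Q op h) (Q.rq i (h.length - 1)) -
        G.U (G.s2 Q op h) (Q.src i (h.length - 1)) +
        cut (G.s2 Q op h) (Q.src i (h.length - 1)) (Q.rq i (h.length - 1))) =
      ∑ i ∈ Q.I h, Q.p i * (G.U (G.s2 Q op h) (Q.rq i (h.length - 1)) -
        G.U (G.s2 Q op h) (Q.src i (h.length - 1))) +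
      ∑ i ∈ Q.I h, Q.p i *
        cut (G.s2 Q op h) (Q.src i (h.length - 1)) (Q.rq i (h.length - 1)) := by
    rw [← sum_add_distrib]
    exact sum_congr rfl fun i _ => by ring
  change G.Phi (Q.mm h) (G.s1 Q op h) + G.Rel (Q.mm h) (G.st Q op h.dropLast) (G.s1 Q op h) ≤
    G.Phi (Q.mm h) (G.st Q op h.dropLast) at a1
  change G.Phi (Q.mm h) (G.s2 Q op h) + G.Rel (Q.mm h) (G.s1 Q op h) (G.s2 Q op h) ≤
    G.Phi (Q.mm h) (G.s1 Q op h) + e h at a2
  change ∑ i ∈ Q.I h, Q.p i * (G.U (G.s2 Q op h) (Q.rq i (h.length - 1)) -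
        G.U (G.s2 Q op h) (Q.src i (h.length - 1)) +
        cut (G.s2 Q op h) (Q.src i (h.length - 1)) (Q.rq i (h.length - 1))) ≤ sl h at a3
  unfold bill
  linarith

end Game

end Crest.Agent.R314.Bay
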