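import Mathlib

/-!
R314, block G2: minhash labels.  `T` is a finite set of atoms, `σ` a uniformly random priority
`T ≃ Fin (card T)`; the label given by a nonempty active set `A` is the atom of `A` with the
smallest priority.
-/

set_option autoImplicit false
set_option linter.unusedSectionVars false

namespace Crest.Agent.R314.Mh

open Finset

variable {T : Type*} [Fintype T] [DecidableEq T]

/-- Priorities. -/
abbrev Prio (T : Type*) [Fintype T] := T ≃ Fin (Fintype.card T)

/-- Uniform probability of an event. -/
noncomputable def pr {Ω : Type*} [Fintype Ω] (P : Ω → Prop) : ℝ :=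
  open Classical in ((univ.filter P).card : ℝ) / (Fintype.card Ω : ℝ)

section pr
variable {Ω : Type*} [Fintype Ω]

theorem pr_nonneg (P : Ω → Prop) : 0 ≤ pr P := by unfold pr; positivity

theorem pr_mono {P Q : Ω → Prop} (h : ∀ ω, P ω → Q ω) : pr P ≤ pr Q := by
  classical
  unfold pr
  apply div_le_div_of_nonneg_right _ (Nat.cast_nonneg _)
  have : (univ.filter P).card ≤ (univ.filter Q).card :=
    card_le_card fun ω hω => by
      rw [mem_filter] at hω ⊢
      exact ⟨hω.1, h ω hω.2⟩
  exact_mod_cast this

theorem pr_le_one (P : Ω → Prop) : pr P ≤ 1 := by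
  classical
  unfold pr
  apply div_le_one_of_le₀ _ (Nat.cast_nonneg _)
  exact_mod_cast (card_le_univ _)

theorem pr_or_le (P Q : Ω → Prop) : pr (fun ω => P ω ∨ Q ω) ≤ pr P + pr Q := by
  classical
  unfold pr
  rw [← add_div]
  apply div_le_div_of_nonneg_right _ (Nat.cast_nonneg _)
  have : (univ.filter (fun ω => P ω ∨ Q ω)).card ≤ (univ.filter P).card + (univ.filter Q).card := by
    refine le_trans (card_le_card fun ω hω => ?_) (card_union_le _ _)
    rw [mem_filter] at hω
    rw [mem_union, mem_filter, mem_filter]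
    rcases hω.2 with h | h
    · exact Or.inl ⟨mem_univ _, h⟩
    · exact Or.inr ⟨mem_univ _, h⟩
  rw [← Nat.cast_add, Nat.cast_le]
  convert this

theorem pr_sum_le {ι : Type*} (s : Finset ι) (P : ι → Ω → Prop) :
    pr (fun ω => ∃ i ∈ s, P i ω) ≤ ∑ i ∈ s, pr (P i) := by
  classical
  induction s using Finset.induction_on with
  | empty =>
    simp only [notMem_empty, false_and, exists_false, sum_empty]
    unfold pr; simp
  | insert a s ha ih =>
    rw [sum_insert ha]
    calc pr (fun ω => ∃ i ∈ insert a s, P i ω) ≤ pr (fun ω => P a ω ∨ ∃ i ∈ s, P i ω) := by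
          apply pr_mono
          rintro ω ⟨i, hi, h⟩
          rcases mem_insert.1 hi with rfl | hi
          · exact Or.inl h
          · exact Or.inr ⟨i, hi, h⟩
      _ ≤ _ := (pr_or_le _ _).trans (by linarith)

end pr

/-- The atom of `A` with the smallest priority. -/
noncomputable def top (σ : Prio T) (A : Finset T) (hA : A.Nonempty) : T :=
  (A.exists_min_image σ hA).choose

theorem top_mem (σ : Prio T) (A : Finset T) (hA : A.Nonempty) : top σ A hA ∈ A :=
  (A.exists_min_image σ hA).choose_spec.1

theorem top_le (σ : Prio T) (A : Finset T) (hA : A.Nonempty) {b : T} (hb : b ∈ A) :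
    σ (top σ A hA) ≤ σ b :=
  (A.exists_min_image σ hA).choose_spec.2 b hb

theorem top_eq_iff (σ : Prio T) (A : Finset T) (hA : A.Nonempty) (a : T) :
    top σ A hA = a ↔ a ∈ A ∧ ∀ b ∈ A, σ a ≤ σ b := by
  constructor
  · rintro rfl
    exact ⟨top_mem σ A hA, fun b hb => top_le σ A hA hb⟩
  · rintro ⟨ha, h⟩
    exact σ.injective (le_antisymm (top_le σ A hA ha) (h _ (top_mem σ A hA)))

/-- The top of a larger set, if it lies in the smaller one, is the top of the smaller one. -/
theorem top_eq_of_subset (σ : Prio T) {A C : Finset T} (hA : A.Nonempty) (hC : C.Nonempty)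
    (hAC : A ⊆ C) (h : top σ C hC ∈ A) : top σ A hA = top σ C hC :=
  (top_eq_iff σ A hA _).2 ⟨h, fun _ hb => top_le σ C hC (hAC hb)⟩

theorem card_top_eq_swap (A : Finset T) (hA : A.Nonempty) {a b : T} (ha : a ∈ A) (hb : b ∈ A) :
    (univ.filter fun σ : Prio T => top σ A hA = a).card =
      (univ.filter fun σ : Prio T => top σ A hA = b).card := by
  apply card_bij' (fun σ _ => (Equiv.swap a b).trans σ) (fun σ _ => (Equiv.swap a b).trans σ)
  · intro σ hσ
    simp only [mem_filter, mem_univ, true_and] at hσ ⊢
    rw [top_eq_iff] at hσ ⊢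
    refine ⟨hb, fun c hc => ?_⟩
    simp only [Equiv.trans_apply, Equiv.swap_apply_right]
    apply hσ.2
    by_cases h1 : c = a
    · subst h1; simpa using hb
    · by_cases h2 : c = b
      · subst h2; simpa using ha
      · rwa [Equiv.swap_apply_of_ne_of_ne h1 h2]
  · intro σ hσ
    simp only [mem_filter, mem_univ, true_and] at hσ ⊢
    rw [top_eq_iff] at hσ ⊢
    refine ⟨ha, fun c hc => ?_⟩
    simp only [Equiv.trans_apply, Equiv.swap_apply_left]
    apply hσ.2
    by_cases h1 : c = a
    · subst h1; simpa using hb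
    · by_cases h2 : c = b
      · subst h2; simpa using ha
      · rwa [Equiv.swap_apply_of_ne_of_ne h1 h2]
  · intro σ _; ext x; simp
  · intro σ _; ext x; simp

theorem card_prio_pos : 0 < Fintype.card (Prio T) :=
  Fintype.card_pos_iff.2 ⟨Fintype.equivFin T⟩

theorem pr_top_eq (A : Finset T) (hA : A.Nonempty) {a : T} (ha : a ∈ A) :
    pr (fun σ : Prio T => top σ A hA = a) = 1 / A.card := by
  classical
  have h1 : ∑ b ∈ A, (univ.filter fun σ : Prio T => top σ A hA = b).card =
      Fintype.card (Prio T) := by
    rw [← card_biUnion]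
    · have : (A.biUnion fun b => univ.filter fun σ : Prio T => top σ A hA = b) = univ := by
        ext σ
        simp only [mem_biUnion, mem_filter, mem_univ, true_and, iff_true]
        exact ⟨_, top_mem σ A hA, rfl⟩
      rw [this]; rfl
    · intro b _ c _ hbc
      rw [Function.onFun, disjoint_left]
      intro σ h1 h2
      simp only [mem_filter, mem_univ, true_and] at h1 h2
      exact hbc (h1.symm.trans h2)
  have h2 : ∑ b ∈ A, (univ.filter fun σ : Prio T => top σ A hA = b).card =
      A.card * (univ.filter fun σ : Prio T => top σ A hA = a).card := by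
    rw [sum_congr rfl fun b hb => card_top_eq_swap A hA hb ha, sum_const, smul_eq_mul]
  rw [h2] at h1
  unfold pr
  have hc : (0 : ℝ) < Fintype.card (Prio T) := by exact_mod_cast card_prio_pos
  have hA0 : (0 : ℝ) < A.card := by exact_mod_cast hA.card_pos
  rw [div_eq_div_iff hc.ne' hA0.ne', one_mul]
  have : (A.card : ℝ) * (univ.filter fun σ : Prio T => top σ A hA = a).card =
      Fintype.card (Prio T) := by exact_mod_cast h1
  rw [← this, mul_comm]
  congr!

/-- The probability that the top of `A` lies in `S`. -/
theorem pr_top_mem (A S : Finset T) (hA : A.Nonempty) :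
    pr (fun σ : Prio T => top σ A hA ∈ S) = ((A ∩ S).card : ℝ) / A.card := by
  classical
  have h1 : pr (fun σ : Prio T => top σ A hA ∈ S) =
      ∑ a ∈ A ∩ S, pr (fun σ : Prio T => top σ A hA = a) := by
    unfold pr
    rw [← sum_div]
    congr 1
    rw [← Nat.cast_sum]
    congr 1
    rw [← card_biUnion]
    · congr 1
      ext σ
      simp only [mem_biUnion, mem_filter, mem_univ, true_and, mem_inter]
      constructor
      · intro h
        exact ⟨_, ⟨top_mem σ A hA, h⟩, rfl⟩
      · rintro ⟨a, ⟨_, ha⟩, rfl⟩
        exact ha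
    · intro b _ c _ hbc
      rw [Function.onFun, disjoint_left]
      intro σ h1 h2
      simp only [mem_filter, mem_univ, true_and] at h1 h2
      exact hbc (h1.symm.trans h2)
  rw [h1, sum_congr rfl fun a ha => pr_top_eq A hA (mem_inter.1 ha).1, sum_const, nsmul_eq_mul]
  ring

/-- **Jaccard bound.** -/
theorem pr_top_ne_le (A B : Finset T) (hA : A.Nonempty) (hB : B.Nonempty) :
    pr (fun σ : Prio T => top σ A hA ≠ top σ B hB) ≤
      ((symmDiff A B).card : ℝ) / (A ∪ B).card := by
  classical
  have hU : (A ∪ B).Nonempty := hA.mono subset_union_left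
  have h1 : pr (fun σ : Prio T => top σ A hA ≠ top σ B hB) ≤
      pr (fun σ : Prio T => top σ (A ∪ B) hU ∈ symmDiff A B) := by
    apply pr_mono
    intro σ h
    by_contra hcon
    apply h
    have hm := top_mem σ (A ∪ B) hU
    have hin : top σ (A ∪ B) hU ∈ A ∧ top σ (A ∪ B) hU ∈ B := by
      rw [mem_symmDiff] at hcon
      rw [mem_union] at hm
      tauto
    rw [top_eq_of_subset σ hA hU subset_union_left hin.1,
      top_eq_of_subset σ hB hU subset_union_right hin.2]
  refine h1.trans (le_of_eq ?_)
  rw [pr_top_mem]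
  congr 2
  congr 1
  apply inter_eq_right.2
  intro a ha
  rw [mem_symmDiff] at ha
  rw [mem_union]
  tauto

end Crest.Agent.R314.Mh
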