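import Mathlib
import Crest.Agent.R314.Mh1

/-!
R314, block G2: minhash labels for integer weights.  Atoms are pairs `(x, u)`, `u < H`; the weight
function `j : X → ℕ` (`j ≤ H`) and the set `S` of visible points give the active set
`act j S = {(x, u) | x ∈ S, u < j x}`; the label is the first coordinate of the top atom.
-/

set_option autoImplicit false
set_option linter.unusedSectionVars false

namespace Crest.Agent.R314.Mh

open Finset

variable {X : Type*} [Fintype X] [DecidableEq X] {H : ℕ}

/-- Active atoms. -/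
def act (H : ℕ) (j : X → ℕ) (S : Finset X) : Finset (X × Fin H) :=
  univ.filter fun a => a.1 ∈ S ∧ (a.2 : ℕ) < j a.1

theorem mem_act {j : X → ℕ} {S : Finset X} {a : X × Fin H} :
    a ∈ act H j S ↔ a.1 ∈ S ∧ (a.2 : ℕ) < j a.1 := by simp [act]

/-- Effective weight. -/
def ew (j : X → ℕ) (S : Finset X) (x : X) : ℕ := if x ∈ S then j x else 0

theorem card_filter_fin (f : X → ℕ) (g : X → ℕ) (hg : ∀ x, g x ≤ H) :
    (univ.filter fun a : X × Fin H => f a.1 ≤ (a.2 : ℕ) ∧ (a.2 : ℕ) < g a.1).card =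
      ∑ x, (g x - f x) := by
  have h1 : (univ.filter fun a : X × Fin H => f a.1 ≤ (a.2 : ℕ) ∧ (a.2 : ℕ) < g a.1).card =
      ∑ x, (univ.filter fun u : Fin H => f x ≤ (u : ℕ) ∧ (u : ℕ) < g x).card := by
    simp only [card_filter]
    rw [← univ_product_univ, sum_product]
  rw [h1]
  apply sum_congr rfl
  intro x _
  have h2 : (univ.filter fun u : Fin H => f x ≤ (u : ℕ) ∧ (u : ℕ) < g x).map Fin.valEmbedding =
      Ico (f x) (g x) := by
    ext n
    simp only [mem_map, mem_filter, mem_univ, true_and, Fin.valEmbedding_apply, mem_Ico]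
    constructor
    · rintro ⟨u, ⟨h1, h2⟩, rfl⟩; exact ⟨h1, h2⟩
    · rintro ⟨h1, h2⟩
      exact ⟨⟨n, h2.trans_le (hg x)⟩, ⟨h1, h2⟩, rfl⟩
  rw [← card_map Fin.valEmbedding, h2, Nat.card_Ico]

theorem card_act (j : X → ℕ) (hj : ∀ x, j x ≤ H) (S : Finset X) :
    (act H j S).card = ∑ x ∈ S, j x := by
  have h1 : act H j S = univ.filter fun a : X × Fin H => (fun _ : X => 0) a.1 ≤ (a.2 : ℕ) ∧
      (a.2 : ℕ) < (ew j S) a.1 := by
    ext a
    rw [mem_act, mem_filter]
    unfold ew
    by_cases h : a.1 ∈ S <;> simp [h]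
  have h2 : ∀ x, ew j S x ≤ H := by
    intro x; unfold ew; split_ifs
    · exact hj x
    · exact Nat.zero_le _
  rw [h1, card_filter_fin (fun _ => 0) (ew j S) h2]
  simp only [Nat.sub_zero]
  unfold ew
  rw [sum_ite_mem, univ_inter]

theorem act_nonempty {j : X → ℕ} (hj : ∀ x, j x ≤ H) {S : Finset X} {x : X} (hx : x ∈ S)
    (h0 : 0 < j x) : (act H j S).Nonempty :=
  ⟨(x, ⟨0, h0.trans_le (hj x)⟩), mem_act.2 ⟨hx, h0⟩⟩

theorem card_union_act (j j' : X → ℕ) (hj : ∀ x, j x ≤ H) (hj' : ∀ x, j' x ≤ H)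
    (S S' : Finset X) :
    (act H j S ∪ act H j' S').card = ∑ x, max (ew j S x) (ew j' S' x) := by
  have h1 : act H j S ∪ act H j' S' = univ.filter fun a : X × Fin H =>
      (fun _ : X => 0) a.1 ≤ (a.2 : ℕ) ∧
        (a.2 : ℕ) < (fun x => max (ew j S x) (ew j' S' x)) a.1 := by
    ext a
    rw [mem_union, mem_act, mem_act, mem_filter]
    unfold ew
    by_cases h : a.1 ∈ S <;> by_cases h' : a.1 ∈ S' <;> simp [h, h']
  have h2 : ∀ x, (fun x => max (ew j S x) (ew j' S' x)) x ≤ H := by
    intro x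
    unfold ew
    apply max_le <;> split_ifs
    · exact hj x
    · exact Nat.zero_le _
    · exact hj' x
    · exact Nat.zero_le _
  rw [h1, card_filter_fin (fun _ => 0) (fun x => max (ew j S x) (ew j' S' x)) h2]
  simp

theorem card_inter_act (j j' : X → ℕ) (hj : ∀ x, j x ≤ H) (S S' : Finset X) :
    (act H j S ∩ act H j' S').card = ∑ x, min (ew j S x) (ew j' S' x) := by
  have h1 : act H j S ∩ act H j' S' = univ.filter fun a : X × Fin H =>
      (fun _ : X => 0) a.1 ≤ (a.2 : ℕ) ∧
        (a.2 : ℕ) < (fun x => min (ew j S x) (ew j' S' x)) a.1 := by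
    ext a
    rw [mem_inter, mem_act, mem_act, mem_filter]
    unfold ew
    by_cases h : a.1 ∈ S <;> by_cases h' : a.1 ∈ S' <;> simp [h, h']
  have h2 : ∀ x, (fun x => min (ew j S x) (ew j' S' x)) x ≤ H := by
    intro x
    unfold ew
    refine (min_le_left _ _).trans ?_
    split_ifs
    · exact hj x
    · exact Nat.zero_le _
  rw [h1, card_filter_fin (fun _ => 0) (fun x => min (ew j S x) (ew j' S' x)) h2]
  simp

/-- The label. -/
noncomputable def lab (σ : Prio (X × Fin H)) (j : X → ℕ) (S : Finset X)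
    (h : (act H j S).Nonempty) : X := (top σ (act H j S) h).1

theorem lab_mem (σ : Prio (X × Fin H)) (j : X → ℕ) (S : Finset X)
    (h : (act H j S).Nonempty) : lab σ j S h ∈ S := (mem_act.1 (top_mem σ _ h)).1

/-- **Relabelling/cut bound** (Jaccard): the probability that two labels differ is at most
`Σ |w - w'| / Σ max w w'` for the effective weights. -/
theorem pr_lab_ne_le (j j' : X → ℕ) (hj : ∀ x, j x ≤ H) (hj' : ∀ x, j' x ≤ H)
    (S S' : Finset X) (h : (act H j S).Nonempty) (h' : (act H j' S').Nonempty) :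
    pr (fun σ : Prio (X × Fin H) => lab σ j S h ≠ lab σ j' S' h') ≤
      (∑ x, |(ew j S x : ℝ) - ew j' S' x|) / ∑ x, max (ew j S x : ℝ) (ew j' S' x) := by
  have h1 : pr (fun σ : Prio (X × Fin H) => lab σ j S h ≠ lab σ j' S' h') ≤
      pr (fun σ : Prio (X × Fin H) => top σ (act H j S) h ≠ top σ (act H j' S') h') := by
    apply pr_mono
    intro σ hne heq
    exact hne (by unfold lab; rw [heq])
  refine h1.trans ((pr_top_ne_le _ _ h h').trans (le_of_eq ?_))
  have hU := card_union_act (H := H) j j' hj hj' S S'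
  have hI := card_inter_act (H := H) j j' hj S S'
  have hs : (symmDiff (act H j S) (act H j' S')).card + (act H j S ∩ act H j' S').card =
      (act H j S ∪ act H j' S').card := by
    rw [← card_union_of_disjoint]
    · congr 1
      ext a
      rw [mem_union, mem_symmDiff, mem_inter, mem_union]
      tauto
    · rw [disjoint_left]
      intro a ha hb
      rw [mem_symmDiff] at ha
      rw [mem_inter] at hb
      tauto
  have e1 : ((act H j S ∪ act H j' S').card : ℝ) = ∑ x, max (ew j S x : ℝ) (ew j' S' x) := by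
    rw [hU]; push_cast; rfl
  have e2 : ((symmDiff (act H j S) (act H j' S')).card : ℝ) =
      ∑ x, |(ew j S x : ℝ) - ew j' S' x| := by
    have h3 : ((symmDiff (act H j S) (act H j' S')).card : ℝ) =
        ∑ x, max (ew j S x : ℝ) (ew j' S' x) - ∑ x, min (ew j S x : ℝ) (ew j' S' x) := by
      rw [← e1]
      have : ((symmDiff (act H j S) (act H j' S')).card : ℝ) + (act H j S ∩ act H j' S').card =
          (act H j S ∪ act H j' S').card := by exact_mod_cast hs
      have h4 : ((act H j S ∩ act H j' S').card : ℝ) =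
          ∑ x, min (ew j S x : ℝ) (ew j' S' x) := by
        rw [hI]; push_cast; rfl
      rw [← h4]; linarith
    rw [h3, ← sum_sub_distrib]
    exact sum_congr rfl fun x _ => max_sub_min_eq_abs' _ _
  rw [e1, e2]

end Crest.Agent.R314.Mh
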