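import Mathlib
import Crest.Agent.R314.Mh2

/-!
R314, block G2: uniform expectations on finite products, the law of the radius
(`max` of two uniform indices: density vanishing linearly at the inner edge), shift lemmas.
-/

set_option autoImplicit false
set_option linter.unusedSectionVars false

namespace Crest.Agent.R314.Mh

open Finset
open scoped BigOperators

section expect
variable {Ω Θ : Type*} [Fintype Ω] [Fintype Θ]

theorem pr_eq_expect (P : Ω → Prop) [DecidablePred P] :
    pr P = 𝔼 ω, if P ω then (1 : ℝ) else 0 := by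
  classical
  rw [Fintype.expect_eq_sum_div_card]
  unfold pr
  rw [Finset.sum_boole]
  congr!

theorem pr_prod (P : Ω → Θ → Prop) :
    pr (fun a : Ω × Θ => P a.1 a.2) = 𝔼 θ, pr (fun ω => P ω θ) := by
  classical
  have h : ∀ θ, pr (fun ω => P ω θ) = 𝔼 ω, if P ω θ then (1 : ℝ) else 0 := fun θ =>
    pr_eq_expect _
  simp only [h]
  rw [pr_eq_expect, expect_comm, ← univ_product_univ, expect_product]

theorem pr_prod' (P : Ω → Θ → Prop) :
    pr (fun a : Ω × Θ => P a.1 a.2) = 𝔼 ω, pr (fun θ => P ω θ) := by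
  classical
  have h : ∀ ω, pr (fun θ => P ω θ) = 𝔼 θ, if P ω θ then (1 : ℝ) else 0 := fun θ =>
    pr_eq_expect _
  simp only [h]
  rw [pr_eq_expect, ← univ_product_univ, expect_product]

theorem pr_and_prod (P : Ω → Prop) (Q : Θ → Prop) :
    pr (fun a : Ω × Θ => P a.1 ∧ Q a.2) = pr P * pr Q := by
  classical
  rw [pr_prod' (fun a b => P a ∧ Q b)]
  have h : ∀ ω, pr (fun θ => P ω ∧ Q θ) = (if P ω then (1 : ℝ) else 0) * pr Q := by
    intro ω
    by_cases hp : P ω
    · simp [hp]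
    · simp [hp, pr]
  simp only [h]
  rw [← expect_mul, ← pr_eq_expect]

/-- the event `P ω ∧ Q ω θ`. -/
theorem pr_and_dep (P : Ω → Prop) (Q : Ω → Θ → Prop) {c : ℝ}
    (hQ : ∀ ω, P ω → pr (Q ω) ≤ c) :
    pr (fun a : Ω × Θ => P a.1 ∧ Q a.1 a.2) ≤ pr P * c := by
  classical
  rw [pr_prod' (fun a b => P a ∧ Q a b), pr_eq_expect P, expect_mul]
  apply expect_le_expect
  intro ω _
  by_cases hp : P ω
  · simp only [hp, true_and, if_true, one_mul]
    exact hQ ω hp
  · simp [hp, pr]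

end expect

/-- The law of the maximum of two uniform indices. -/
theorem sum_mx (N : ℕ) (φ : ℕ → ℝ) :
    ∑ i ∈ range N, ∑ j ∈ range N, φ (max i j) = ∑ s ∈ range N, (2 * (s : ℝ) + 1) * φ s := by
  induction N with
  | zero => simp
  | succ n ih =>
    rw [sum_range_succ, sum_range_succ (fun s => (2 * (s : ℝ) + 1) * φ s), ← ih]
    simp only [sum_range_succ, sum_add_distrib]
    have h1 : ∑ i ∈ range n, φ (max i n) = n * φ n := by
      rw [sum_congr rfl fun i hi => by rw [max_eq_right (mem_range.1 hi).le], sum_const,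
        card_range, nsmul_eq_mul]
    have h2 : ∑ j ∈ range n, φ (max n j) = n * φ n := by
      rw [sum_congr rfl fun i hi => by rw [max_eq_left (mem_range.1 hi).le], sum_const,
        card_range, nsmul_eq_mul]
    rw [h1, h2, max_self]
    ring

/-- The index of the radius. -/
def mx {N : ℕ} (p : Fin N × Fin N) : ℕ := max (p.1 : ℕ) (p.2 : ℕ)

theorem mx_lt {N : ℕ} (p : Fin N × Fin N) : mx p < N := max_lt p.1.2 p.2.2

theorem expect_mx (N : ℕ) (φ : ℕ → ℝ) :
    𝔼 p : Fin N × Fin N, φ (mx p) = (∑ s ∈ range N, (2 * (s : ℝ) + 1) * φ s) / (N : ℝ) ^ 2 := by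
  rw [Fintype.expect_eq_sum_div_card, ← univ_product_univ, sum_product]
  rw [← sum_mx]
  congr 1
  · rw [← Fin.sum_univ_eq_sum_range (fun i => ∑ j ∈ range N, φ (max i j))]
    refine sum_congr rfl fun i _ => ?_
    rw [← Fin.sum_univ_eq_sum_range (fun j => φ (max (i : ℕ) j))]
    rfl
  · rw [Fintype.card_prod, Fintype.card_fin]; push_cast; ring

theorem sum_odd (n : ℕ) : ∑ s ∈ range n, (2 * (s : ℝ) + 1) = (n : ℝ) ^ 2 := by
  induction n with
  | zero => simp
  | succ n ih => rw [sum_range_succ, ih]; push_cast; ring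

/-- Distribution function of the radius index. -/
theorem pr_mx_lt (N : ℕ) (n : ℕ) (hn : n ≤ N) :
    pr (fun p : Fin N × Fin N => mx p < n) = (n : ℝ) ^ 2 / (N : ℝ) ^ 2 := by
  classical
  rw [pr_eq_expect, expect_mx N (fun s => if s < n then (1 : ℝ) else 0)]
  congr 1
  rw [← sum_odd n]
  rw [← sum_subset (range_subset_range.2 hn)]
  · apply sum_congr rfl
    intro s hs
    rw [if_pos (mem_range.1 hs), mul_one]
  · intro s _ hs
    rw [mem_range] at hs
    rw [if_neg hs, mul_zero]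

/-- **Shift lemma 1.** -/
theorem shift_one (N l : ℕ) (h : ℕ → ℝ) (h0 : ∀ t, 0 ≤ h t) :
    ∑ s ∈ range N, (2 * (s : ℝ) + 1) * (h s - h (s + l)) ≤ 2 * l * ∑ t ∈ range N, h t := by
  have e1 : ∑ s ∈ range N, (2 * (s : ℝ) + 1) * (h s - h (s + l)) =
      ∑ s ∈ range N, (2 * (s : ℝ) + 1) * h s - ∑ s ∈ range N, (2 * (s : ℝ) + 1) * h (s + l) := by
    rw [← sum_sub_distrib]; exact sum_congr rfl fun s _ => by ring
  have e2 : ∑ t ∈ range N, (2 * ((t : ℝ) - l) + 1) * (if l ≤ t then h t else 0) ≤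
      ∑ s ∈ range N, (2 * (s : ℝ) + 1) * h (s + l) := by
    have e3 : ∑ s ∈ range N, (2 * (s : ℝ) + 1) * h (s + l) =
        ∑ t ∈ Ico l (N + l), (2 * ((t : ℝ) - l) + 1) * h t := by
      rw [sum_Ico_eq_sum_range]
      rw [Nat.add_sub_cancel]
      apply sum_congr rfl
      intro s _
      rw [add_comm l s]
      push_cast
      ring
    rw [e3]
    have e4 : ∑ t ∈ range N, (2 * ((t : ℝ) - l) + 1) * (if l ≤ t then h t else 0) =
        ∑ t ∈ (range N).filter (fun t => l ≤ t), (2 * ((t : ℝ) - l) + 1) * h t := by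
      rw [sum_filter]
      apply sum_congr rfl
      intro t _
      split_ifs <;> simp
    rw [e4]
    apply sum_le_sum_of_subset_of_nonneg
    · intro t ht
      rw [mem_filter, mem_range] at ht
      rw [mem_Ico]
      omega
    · intro t ht _
      rw [mem_Ico] at ht
      have : (l : ℝ) ≤ t := by exact_mod_cast ht.1
      have := h0 t
      apply mul_nonneg _ this
      linarith
  rw [e1]
  have e5 : ∑ s ∈ range N, (2 * (s : ℝ) + 1) * h s -
      ∑ t ∈ range N, (2 * ((t : ℝ) - l) + 1) * (if l ≤ t then h t else 0) ≤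
      2 * l * ∑ t ∈ range N, h t := by
    rw [← sum_sub_distrib, mul_sum]
    apply sum_le_sum
    intro t _
    have ht := h0 t
    by_cases hl : l ≤ t
    · rw [if_pos hl]
      linarith
    · rw [if_neg hl, mul_zero, sub_zero]
      apply mul_le_mul_of_nonneg_right _ ht
      have : (t : ℝ) + 1 ≤ l := by exact_mod_cast (not_le.1 hl)
      linarith
  linarith

/-- **Shift lemma 2.** -/
theorem shift_two (N l : ℕ) (hl : l ≤ N) (h c : ℕ → ℝ) (h0 : ∀ t, 0 ≤ h t)
    (hc1 : ∀ s, c s ≤ 1) (hc : ∀ t, t + l < N → c (t + l) ≤ h t - h (t + 2 * l)) :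
    ∑ s ∈ range N, (2 * (s : ℝ) + 1) * c s ≤
      (l : ℝ) ^ 2 + 6 * l * ∑ t ∈ range (N - l), h t := by
  have e1 : ∑ s ∈ range N, (2 * (s : ℝ) + 1) * c s =
      ∑ s ∈ range l, (2 * (s : ℝ) + 1) * c s +
        ∑ t ∈ range (N - l), (2 * ((t : ℝ) + l) + 1) * c (t + l) := by
    rw [← sum_range_add_sum_Ico _ hl, sum_Ico_eq_sum_range]
    congr 1
    apply sum_congr rfl
    intro s _
    rw [add_comm l s]
    push_cast
    ring
  have e2 : ∑ s ∈ range l, (2 * (s : ℝ) + 1) * c s ≤ (l : ℝ) ^ 2 := by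
    rw [← sum_odd l]
    apply sum_le_sum
    intro s _
    have := hc1 s
    have h2 : (0 : ℝ) ≤ 2 * (s : ℝ) + 1 := by positivity
    nlinarith
  have e3 : ∑ t ∈ range (N - l), (2 * ((t : ℝ) + l) + 1) * c (t + l) ≤
      ∑ t ∈ range (N - l), ((2 * (t : ℝ) + 1) * (h t - h (t + 2 * l)) + 2 * l * h t) := by
    apply sum_le_sum
    intro t ht
    rw [mem_range] at ht
    have h1 := hc t (by omega)
    have h2 : (0 : ℝ) ≤ 2 * ((t : ℝ) + l) + 1 := by positivity
    have h3 : (0 : ℝ) ≤ l := by positivity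
    have h4 := h0 (t + 2 * l)
    calc (2 * ((t : ℝ) + l) + 1) * c (t + l) ≤ (2 * ((t : ℝ) + l) + 1) * (h t - h (t + 2 * l)) :=
          mul_le_mul_of_nonneg_left h1 h2
      _ = (2 * (t : ℝ) + 1) * (h t - h (t + 2 * l)) + 2 * l * h t - 2 * l * h (t + 2 * l) := by
          ring
      _ ≤ _ := by nlinarith
  have e4 := shift_one (N - l) (2 * l) h h0
  rw [sum_add_distrib, ← mul_sum] at e3
  rw [e1]
  push_cast at e4
  nlinarith [e2, e3, e4]

end Crest.Agent.R314.Mh
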