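import Mathlib
import Crest.Agent.R314.Mh3

/-!
R314, block G2 (fractional labels, helper435 #8508): every location carries a probability vector
`π : Y → ℝ`; one uniformly random priority turns all vectors into labels `flab σ π` such that
`P (flab σ π ≠ flab σ π') ≤ |π - π'|₁ + |Y| / n` for all pairs at once.  For a finite weighted
family of pairs the priority can be fixed (`exists_labels`).
-/

set_option autoImplicit false
set_option linter.unusedSectionVars false

namespace Crest.Agent.R314.Mh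

open Finset
open scoped BigOperators

variable {Y : Type*} [Fintype Y] [DecidableEq Y]

/-- Probability vectors. -/
structure IsPV (π : Y → ℝ) : Prop where
  nonneg : ∀ y, 0 ≤ π y
  sum_eq : ∑ y, π y = 1

theorem IsPV.le_one {π : Y → ℝ} (h : IsPV π) (y : Y) : π y ≤ 1 := by
  rw [← h.sum_eq]
  exact single_le_sum (fun z _ => h.nonneg z) (mem_univ y)

/-- Number of atoms. -/
noncomputable def cnt (n : ℕ) (π : Y → ℝ) (y : Y) : ℕ := min n ⌈n * π y⌉₊

theorem cnt_le (n : ℕ) (π : Y → ℝ) (y : Y) : cnt n π y ≤ n := min_le_left _ _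

theorem IsPV.cnt_eq {π : Y → ℝ} (h : IsPV π) (n : ℕ) (y : Y) : cnt n π y = ⌈n * π y⌉₊ := by
  unfold cnt
  apply min_eq_right
  rw [Nat.ceil_le]
  calc (n : ℝ) * π y ≤ n * 1 := mul_le_mul_of_nonneg_left (h.le_one y) (Nat.cast_nonneg n)
    _ = n := mul_one _

theorem IsPV.le_sum_cnt {π : Y → ℝ} (h : IsPV π) (n : ℕ) : (n : ℝ) ≤ ∑ y, (cnt n π y : ℝ) := by
  calc (n : ℝ) = ∑ y, n * π y := by rw [← mul_sum, h.sum_eq, mul_one]
    _ ≤ _ := sum_le_sum fun y _ => by rw [h.cnt_eq]; exact Nat.le_ceil _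

theorem IsPV.act_nonempty {π : Y → ℝ} (h : IsPV π) {n : ℕ} (hn : 0 < n) :
    (act n (cnt n π) univ).Nonempty := by
  rw [← card_pos, card_act _ (cnt_le n π)]
  have := h.le_sum_cnt n
  have h1 : (0 : ℝ) < ∑ y, (cnt n π y : ℝ) := lt_of_lt_of_le (by exact_mod_cast hn) this
  exact_mod_cast h1

open Classical in
/-- The label of the vector `π` for the priority `σ`. -/
noncomputable def flab [Nonempty Y] (n : ℕ) (σ : Prio (Y × Fin n)) (π : Y → ℝ) : Y :=
  if h : (act n (cnt n π) univ).Nonempty then lab σ (cnt n π) univ h else Classical.arbitrary Y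

theorem IsPV.flab_eq [Nonempty Y] {π : Y → ℝ} (h : IsPV π) {n : ℕ} (hn : 0 < n)
    (σ : Prio (Y × Fin n)) :
    flab n σ π = lab σ (cnt n π) univ (h.act_nonempty hn) := by
  unfold flab; rw [dif_pos (h.act_nonempty hn)]

theorem IsPV.flab_pos [Nonempty Y] {π : Y → ℝ} (h : IsPV π) {n : ℕ} (hn : 0 < n)
    (σ : Prio (Y × Fin n)) : 0 < π (flab n σ π) := by
  rw [h.flab_eq hn]
  have h1 := (mem_act.1 (top_mem σ _ (h.act_nonempty hn))).2
  change _ < cnt n π (lab σ (cnt n π) univ (h.act_nonempty hn)) at h1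
  rw [h.cnt_eq, Nat.lt_ceil] at h1
  by_contra hcon
  push Not at hcon
  have : (n : ℝ) * π (lab σ (cnt n π) univ (h.act_nonempty hn)) ≤ 0 :=
    mul_nonpos_of_nonneg_of_nonpos (Nat.cast_nonneg _) hcon
  have h2 : (0 : ℝ) ≤ ((top σ _ (h.act_nonempty hn)).2 : ℕ) := Nat.cast_nonneg _
  linarith

theorem abs_ceil_sub (a b : ℝ) (ha : 0 ≤ a) (hb : 0 ≤ b) :
    |(⌈a⌉₊ : ℝ) - ⌈b⌉₊| ≤ |a - b| + 1 := by
  have h1 := Nat.le_ceil a
  have h2 := Nat.le_ceil b
  have h3 := (Nat.ceil_lt_add_one ha).le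
  have h4 := (Nat.ceil_lt_add_one hb).le
  have h5 := le_abs_self (a - b)
  have h6 := neg_abs_le (a - b)
  rw [abs_le]
  constructor <;> linarith

/-- **Fractional labels**: total variation bound for all pairs. -/
theorem pr_flab_ne_le [Nonempty Y] {π π' : Y → ℝ} (h : IsPV π) (h' : IsPV π') {n : ℕ}
    (hn : 0 < n) :
    pr (fun σ : Prio (Y × Fin n) => flab n σ π ≠ flab n σ π') ≤
      ∑ y, |π y - π' y| + (Fintype.card Y : ℝ) / n := by
  have hn' : (0 : ℝ) < n := by exact_mod_cast hn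
  have h1 := pr_lab_ne_le (H := n) (cnt n π) (cnt n π') (cnt_le n π) (cnt_le n π') univ univ
    (h.act_nonempty hn) (h'.act_nonempty hn)
  have e : (fun σ : Prio (Y × Fin n) => flab n σ π ≠ flab n σ π') =
      fun σ => lab σ (cnt n π) univ (h.act_nonempty hn) ≠
        lab σ (cnt n π') univ (h'.act_nonempty hn) := by
    funext σ; rw [h.flab_eq hn, h'.flab_eq hn]
  rw [e]
  refine h1.trans ?_
  have hew : ∀ (j : Y → ℕ) (x : Y), ew j univ x = j x := fun j x => by simp [ew]
  simp only [hew]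
  have hU : (n : ℝ) ≤ ∑ y, max (cnt n π y : ℝ) (cnt n π' y) :=
    (h.le_sum_cnt n).trans (sum_le_sum fun y _ => le_max_left _ _)
  have hN : ∑ y, |(cnt n π y : ℝ) - cnt n π' y| ≤ n * ∑ y, |π y - π' y| + Fintype.card Y := by
    calc ∑ y, |(cnt n π y : ℝ) - cnt n π' y| ≤ ∑ y, (n * |π y - π' y| + 1) := by
          apply sum_le_sum
          intro y _
          rw [h.cnt_eq, h'.cnt_eq]
          refine (abs_ceil_sub _ _ (mul_nonneg hn'.le (h.nonneg y))
            (mul_nonneg hn'.le (h'.nonneg y))).trans (le_of_eq ?_)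
          rw [← mul_sub, abs_mul, abs_of_pos hn']
      _ = _ := by
          rw [sum_add_distrib, ← mul_sum, sum_const, card_univ, nsmul_eq_mul, mul_one]
  calc (∑ y, |(cnt n π y : ℝ) - cnt n π' y|) / ∑ y, max (cnt n π y : ℝ) (cnt n π' y)
      ≤ (n * ∑ y, |π y - π' y| + Fintype.card Y) / n := by
        apply div_le_div₀ _ hN hn' hU
        positivity
    _ = _ := by field_simp

/-- If the average of `f` is at most `c`, some value is. -/
theorem exists_le_of_expect_le {Ω : Type*} [Fintype Ω] [Nonempty Ω] (f : Ω → ℝ) {c : ℝ}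
    (h : 𝔼 ω, f ω ≤ c) : ∃ ω, f ω ≤ c := by
  by_contra hcon
  push Not at hcon
  have h1 : (Fintype.card Ω : ℝ) * c < ∑ ω, f ω := by
    calc (Fintype.card Ω : ℝ) * c = ∑ _ω : Ω, c := by
          rw [sum_const, card_univ, nsmul_eq_mul]
      _ < _ := sum_lt_sum_of_nonempty univ_nonempty fun ω _ => hcon ω
  rw [Fintype.expect_eq_sum_div_card] at h
  have h2 : (0 : ℝ) < Fintype.card Ω := by exact_mod_cast Fintype.card_pos
  rw [div_le_iff₀ h2] at h
  linarith

/-- **Derandomised labels** (block G2). For a finite family of pairs of probability vectors with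
weights `c i ≥ 0` there is one labelling rule whose weighted number of separated pairs is at most
the weighted `ℓ¹` distance, up to `ε`. -/
theorem exists_labels [Nonempty Y] {ι : Type*} (s : Finset ι) (c : ι → ℝ)
    (hc : ∀ i ∈ s, 0 ≤ c i) (π π' : ι → Y → ℝ) (hπ : ∀ i ∈ s, IsPV (π i))
    (hπ' : ∀ i ∈ s, IsPV (π' i)) {ε : ℝ} (hε : 0 < ε) :
    ∃ L : (Y → ℝ) → Y, (∀ q, IsPV q → 0 < q (L q)) ∧
      ∑ i ∈ s, c i * (open Classical in if L (π i) ≠ L (π' i) then (1 : ℝ) else 0) ≤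
        ∑ i ∈ s, c i * ∑ y, |π i y - π' i y| + ε := by
  classical
  have hC0 : 0 ≤ ∑ i ∈ s, c i := sum_nonneg hc
  obtain ⟨n, hn⟩ := exists_nat_gt ((∑ i ∈ s, c i) * (Fintype.card Y : ℝ) / ε)
  have hn0 : (0 : ℝ) < n := lt_of_le_of_lt (by positivity) hn
  have hn1 : 0 < n := by exact_mod_cast hn0
  have hne : Nonempty (Prio (Y × Fin n)) := ⟨Fintype.equivFin _⟩
  have key : 𝔼 σ : Prio (Y × Fin n), ∑ i ∈ s, c i *
      (if flab n σ (π i) ≠ flab n σ (π' i) then (1 : ℝ) else 0) ≤
      ∑ i ∈ s, c i * ∑ y, |π i y - π' i y| + ε := by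
    rw [expect_sum_comm]
    calc ∑ i ∈ s, 𝔼 σ : Prio (Y × Fin n), c i *
          (if flab n σ (π i) ≠ flab n σ (π' i) then (1 : ℝ) else 0)
        ≤ ∑ i ∈ s, c i * (∑ y, |π i y - π' i y| + (Fintype.card Y : ℝ) / n) := by
          apply sum_le_sum
          intro i hi
          rw [← mul_expect, ← pr_eq_expect]
          exact mul_le_mul_of_nonneg_left (pr_flab_ne_le (hπ i hi) (hπ' i hi) hn1) (hc i hi)
      _ = ∑ i ∈ s, c i * ∑ y, |π i y - π' i y| +
            (∑ i ∈ s, c i) * (Fintype.card Y : ℝ) / n := by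
          simp only [mul_add, sum_add_distrib]
          rw [sum_mul, sum_div]
          congr 1
          exact sum_congr rfl fun i _ => by ring
      _ ≤ _ := by
          have : (∑ i ∈ s, c i) * (Fintype.card Y : ℝ) / n ≤ ε := by
            rw [div_le_iff₀ hn0]
            rw [div_lt_iff₀ hε] at hn
            linarith
          linarith
  obtain ⟨σ, hσ⟩ := exists_le_of_expect_le _ key
  refine ⟨flab n σ, fun q hq => hq.flab_pos hn1 σ, ?_⟩
  convert hσ

end Crest.Agent.R314.Mh
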