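import Mathlib
import Crest.Agent.R314.Bay2
import Crest.Agent.R314.Mh4

/-!
R314, block BAY, part 3: games whose relabelling price is the `ℓ¹` distance of probability vectors
("fractional labels"), summation over levels, deterministic labels.
-/

set_option autoImplicit false
set_option linter.unusedSectionVars false

namespace Crest.Agent.R314.Bay

open Finset Function Crest.LogicCS.KServer Crest.Agent.R314 Crest.Agent.R314.Tk

universe u v w

/-- A game with fractional labels `π σ x : Z → ℝ`. -/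
structure PGame (Y : Type u) (Z : Type v) [Fintype Y] [Fintype Z] where
  S : Type w
  S0 : S
  U : S → Y → ℝ
  U_nonneg : ∀ σ x, 0 ≤ U σ x
  π : S → Y → Z → ℝ
  π_pv : ∀ σ x, Mh.IsPV (π σ x)
  exists_min : ∀ m : Y → ℝ, (∀ x, 0 ≤ m x) → ∀ σ, ∃ τ, ∀ υ,
    ∑ x, m x * (U τ x + ∑ z, |π σ x z - π τ x z|) ≤
      ∑ x, m x * (U υ x + ∑ z, |π σ x z - π υ x z|)

namespace PGame

variable {Y : Type u} {Z : Type v} [Fintype Y] [Fintype Z] (G : PGame.{u, v, w} Y Z)

/-- The underlying game. -/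
noncomputable def toGame : Game.{u, w} Y where
  S := G.S
  S0 := G.S0
  U := G.U
  U_nonneg := G.U_nonneg
  rel := fun σ τ x => ∑ z, |G.π σ x z - G.π τ x z|
  rel_nonneg := fun σ τ x => sum_nonneg fun z _ => abs_nonneg _
  rel_self := fun σ x => by simp
  rel_tri := fun σ τ υ x => by
    rw [← sum_add_distrib]
    exact sum_le_sum fun z _ => abs_sub_le _ _ _
  exists_min := G.exists_min

/-- The cut price. -/
noncomputable def cut (σ : G.S) (x y : Y) : ℝ := ∑ z, |G.π σ x z - G.π σ y z|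

theorem cut_nonneg (σ : G.S) (x y : Y) : 0 ≤ G.cut σ x y := sum_nonneg fun _ _ => abs_nonneg _

end PGame

section Levels

variable {Y : Type u} {Z : Type v} [Fintype Y] [Fintype Z] [MetricSpace Y] {k : ℕ} [NeZero k]
variable (Q : Prior Y k) {L : ℕ} (G : Fin L → PGame.{u, v, w} Y Z)
  (op : ∀ p, List Y → (G p).S → (G p).S)

/-- Bill of the level `p` at the history `h`. -/
noncomputable def lbill (p : Fin L) (h : List Y) : ℝ :=
  (G p).toGame.bill Q (op p) (G p).cut h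

/-- **Summation over the levels.** -/
theorem sum_lbill_le (R : Fin L → ℝ) (hR : ∀ p, 0 ≤ R p) (r1 : List Y → ℝ)
    (hr1 : ∀ h ∈ Q.H, r1 h * Q.P h / 4 ≤
      ∑ i ∈ Q.I h, Q.p i * dist (Q.src i (h.length - 1)) (Q.rq i (h.length - 1)))
    {K : ℝ} (hK : 0 ≤ K) (e : Fin L → List Y → ℝ) (F : Fin L → List Y → Y → ℝ)
    (hop : ∀ p, ∀ h ∈ Q.H, ∀ σ, (G p).toGame.Stuck (Q.mm h) σ →
      (G p).toGame.Phi (Q.mm h) (op p h σ) + (G p).toGame.Rel (Q.mm h) σ (op p h σ) ≤
        (G p).toGame.Phi (Q.mm h) σ + e p h)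
    (hsl : ∀ p, ∀ h ∈ Q.H, ∀ h0 : h ≠ [], ∀ σ, (G p).toGame.Stuck (Q.mm h) σ → ∀ x,
      (G p).U (op p h σ) (h.getLast h0) - (G p).U (op p h σ) x +
        (G p).cut (op p h σ) x (h.getLast h0) ≤ F p h x)
    (he : ∀ h ∈ Q.H, ∑ p, R p * e p h ≤ K * (Q.P h * r1 h))
    (hF : ∀ h ∈ Q.H, ∀ h0 : h ≠ [], ∀ x, ∑ p, R p * F p h x ≤
      K * (dist x (h.getLast h0) + r1 h)) :
    ∑ h ∈ Q.H, ∑ p, R p * lbill Q G op p h ≤
      9 * K * Q.opt + (∑ i, Q.p i) * ∑ p, R p * ∑ j, (G p).U (G p).S0 (Q.s j) := by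
  have h1 : ∀ p, ∑ h ∈ Q.H, lbill Q G op p h ≤
      (∑ i, Q.p i) * (∑ j, (G p).U (G p).S0 (Q.s j)) +
        ∑ h ∈ Q.H, (e p h + ∑ i ∈ Q.I h, Q.p i * F p h (Q.src i (h.length - 1))) := by
    intro p
    refine (G p).toGame.bill_le Q (op p) (G p).cut (e p)
      (fun h => ∑ i ∈ Q.I h, Q.p i * F p h (Q.src i (h.length - 1))) (hop p) ?_
    intro h hh σ hσ
    apply sum_le_sum
    intro i hi
    apply mul_le_mul_of_nonneg_left _ (Q.p_nonneg i)
    have h0 := Q.ne_nil_of_mem_H hh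
    rw [Q.rq_of_mem_I hi h0]
    exact hsl p h hh h0 σ hσ _
  have h2 : ∑ h ∈ Q.H, ∑ p, R p * lbill Q G op p h = ∑ p, R p * ∑ h ∈ Q.H, lbill Q G op p h := by
    rw [sum_comm]
    exact sum_congr rfl fun p _ => (mul_sum _ _ _).symm
  have h3 : ∑ p, R p * ∑ h ∈ Q.H, lbill Q G op p h ≤
      (∑ i, Q.p i) * ∑ p, R p * ∑ j, (G p).U (G p).S0 (Q.s j) +
        ∑ h ∈ Q.H, (∑ p, R p * e p h +
          ∑ i ∈ Q.I h, Q.p i * ∑ p, R p * F p h (Q.src i (h.length - 1))) := by
    calc ∑ p, R p * ∑ h ∈ Q.H, lbill Q G op p h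
        ≤ ∑ p, R p * ((∑ i, Q.p i) * (∑ j, (G p).U (G p).S0 (Q.s j)) +
          ∑ h ∈ Q.H, (e p h + ∑ i ∈ Q.I h, Q.p i * F p h (Q.src i (h.length - 1)))) :=
          sum_le_sum fun p _ => mul_le_mul_of_nonneg_left (h1 p) (hR p)
      _ = _ := by
          simp_rw [mul_add]
          rw [sum_add_distrib, mul_sum]
          congr 1
          · exact sum_congr rfl fun p _ => by ring
          · simp_rw [mul_sum]
            rw [sum_comm]
            apply sum_congr rfl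
            intro h _
            simp_rw [mul_add]
            rw [sum_add_distrib]
            congr 1
            simp_rw [mul_sum]
            rw [sum_comm]
            apply sum_congr rfl
            intro i _
            exact sum_congr rfl fun p _ => by ring
  have h4 : ∀ h ∈ Q.H, ∑ p, R p * e p h +
      ∑ i ∈ Q.I h, Q.p i * ∑ p, R p * F p h (Q.src i (h.length - 1)) ≤
      9 * K * ∑ i ∈ Q.I h, Q.p i *
        dist (Q.src i (h.length - 1)) (Q.rq i (h.length - 1)) := by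
    intro h hh
    have h0 := Q.ne_nil_of_mem_H hh
    have a1 := he h hh
    have a2 : ∑ i ∈ Q.I h, Q.p i * ∑ p, R p * F p h (Q.src i (h.length - 1)) ≤
        K * ∑ i ∈ Q.I h, Q.p i *
          dist (Q.src i (h.length - 1)) (Q.rq i (h.length - 1)) + K * (Q.P h * r1 h) := by
      calc ∑ i ∈ Q.I h, Q.p i * ∑ p, R p * F p h (Q.src i (h.length - 1))
          ≤ ∑ i ∈ Q.I h, Q.p i * (K * (dist (Q.src i (h.length - 1))
              (Q.rq i (h.length - 1)) + r1 h)) := by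
            apply sum_le_sum
            intro i hi
            apply mul_le_mul_of_nonneg_left _ (Q.p_nonneg i)
            rw [Q.rq_of_mem_I hi h0]
            exact hF h hh h0 _
        _ = _ := by
            unfold Prior.P
            rw [sum_mul, mul_sum, mul_sum, ← sum_add_distrib]
            exact sum_congr rfl fun i _ => by ring
    have a3 := hr1 h hh
    have a4 : K * (Q.P h * r1 h) ≤ 4 * (K * ∑ i ∈ Q.I h, Q.p i *
          dist (Q.src i (h.length - 1)) (Q.rq i (h.length - 1))) := by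
      have : Q.P h * r1 h ≤ 4 * ∑ i ∈ Q.I h, Q.p i *
          dist (Q.src i (h.length - 1)) (Q.rq i (h.length - 1)) := by linarith
      calc K * (Q.P h * r1 h) ≤ K * (4 * ∑ i ∈ Q.I h, Q.p i *
          dist (Q.src i (h.length - 1)) (Q.rq i (h.length - 1))) :=
            mul_le_mul_of_nonneg_left this hK
        _ = _ := by ring
    linarith
  rw [h2]
  refine h3.trans ?_
  have h5 := sum_le_sum h4
  rw [← mul_sum, ← Q.opt_eq] at h5
  linarith

open Classical in
/-- The bill of a deterministic label process: `lp p h` = labels after the history `h`, `lm p h` =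
labels at the flow of the last request of `h`. -/
noncomputable def labBill {Z : Type*} (R : Fin L → ℝ) (lp lm : Fin L → List Y → Y → Z)
    (h : List Y) : ℝ :=
  ∑ p, R p * (∑ x, Q.mm h x * (if lp p h.dropLast x ≠ lm p h x then 1 else 0) +
    ∑ i ∈ Q.I h, Q.p i *
      (if lm p h (Q.src i (h.length - 1)) ≠ lm p h (Q.rq i (h.length - 1)) then 1 else 0) +
    ∑ x, Q.mp h x * (if lm p h x ≠ lp p h x then 1 else 0))

/-- **Deterministic labels** for a family of games. -/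
theorem exists_label_process [DecidableEq Z] [Nonempty Z] (R : Fin L → ℝ) (hR : ∀ p, 0 ≤ R p)
    {ε : ℝ} (hε : 0 < ε) :
    ∃ lab : (Z → ℝ) → Z, (∀ q, Mh.IsPV q → 0 < q (lab q)) ∧
      ∑ h ∈ Q.H, labBill Q R
          (fun p h x => lab ((G p).π ((G p).toGame.st Q (op p) h) x))
          (fun p h x => lab ((G p).π ((G p).toGame.s2 Q (op p) h) x)) h ≤
        ∑ h ∈ Q.H, ∑ p, R p * lbill Q G op p h + ε := by
  classical
  set c : List Y × Fin L × (Y ⊕ (Q.ι ⊕ Y)) → ℝ := fun a =>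
    match a with
    | (h, p, Sum.inl x) => R p * Q.mm h x
    | (h, p, Sum.inr (Sum.inl i)) => R p * (if i ∈ Q.I h then Q.p i else 0)
    | (h, p, Sum.inr (Sum.inr x)) => R p * Q.mp h x with hc
  set A : List Y × Fin L × (Y ⊕ (Q.ι ⊕ Y)) → Z → ℝ := fun a =>
    match a with
    | (h, p, Sum.inl x) => (G p).π ((G p).toGame.st Q (op p) h.dropLast) x
    | (h, p, Sum.inr (Sum.inl i)) =>
      (G p).π ((G p).toGame.s2 Q (op p) h) (Q.src i (h.length - 1))
    | (h, p, Sum.inr (Sum.inr x)) => (G p).π ((G p).toGame.s2 Q (op p) h) x with hA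
  set B : List Y × Fin L × (Y ⊕ (Q.ι ⊕ Y)) → Z → ℝ := fun a =>
    match a with
    | (h, p, Sum.inl x) => (G p).π ((G p).toGame.s2 Q (op p) h) x
    | (h, p, Sum.inr (Sum.inl i)) =>
      (G p).π ((G p).toGame.s2 Q (op p) h) (Q.rq i (h.length - 1))
    | (h, p, Sum.inr (Sum.inr x)) => (G p).π ((G p).toGame.st Q (op p) h) x with hB
  have hc0 : ∀ a ∈ Q.H ×ˢ (univ : Finset (Fin L × (Y ⊕ (Q.ι ⊕ Y)))), 0 ≤ c a := by
    rintro ⟨h, p, (x | i | x)⟩ _
    · exact mul_nonneg (hR p) (Q.mm_nonneg _ _)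
    · refine mul_nonneg (hR p) ?_
      split_ifs
      · exact Q.p_nonneg i
      · exact le_rfl
    · exact mul_nonneg (hR p) (Q.mp_nonneg _ _)
  have hA0 : ∀ a ∈ Q.H ×ˢ (univ : Finset (Fin L × (Y ⊕ (Q.ι ⊕ Y)))), Mh.IsPV (A a) := by
    rintro ⟨h, p, (x | i | x)⟩ _ <;> exact (G p).π_pv _ _
  have hB0 : ∀ a ∈ Q.H ×ˢ (univ : Finset (Fin L × (Y ⊕ (Q.ι ⊕ Y)))), Mh.IsPV (B a) := by
    rintro ⟨h, p, (x | i | x)⟩ _ <;> exact (G p).π_pv _ _
  obtain ⟨lab, hl1, hl2⟩ := Mh.exists_labels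
    (Q.H ×ˢ (univ : Finset (Fin L × (Y ⊕ (Q.ι ⊕ Y))))) c hc0 A B hA0 hB0 hε
  refine ⟨lab, hl1, ?_⟩
  have e1 : ∀ f : List Y × Fin L × (Y ⊕ (Q.ι ⊕ Y)) → ℝ,
      ∑ a ∈ Q.H ×ˢ (univ : Finset (Fin L × (Y ⊕ (Q.ι ⊕ Y)))), f a =
      ∑ h ∈ Q.H, ∑ p, (∑ x, f (h, p, Sum.inl x) + (∑ i, f (h, p, Sum.inr (Sum.inl i)) +
        ∑ x, f (h, p, Sum.inr (Sum.inr x)))) := by
    intro f
    rw [sum_product]
    apply sum_congr rfl
    intro h _
    rw [← univ_product_univ, sum_product]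
    apply sum_congr rfl
    intro p _
    rw [Fintype.sum_sum_type, Fintype.sum_sum_type]
  rw [e1, e1] at hl2
  have e2 : ∀ h : List Y, ∀ g : Q.ι → ℝ, ∀ a : ℝ,
      ∑ i, a * (if i ∈ Q.I h then Q.p i else 0) * g i = a * ∑ i ∈ Q.I h, Q.p i * g i := by
    intro h g a
    rw [mul_sum, ← sum_filter_add_sum_filter_not univ (fun i => i ∈ Q.I h)]
    have a1 : univ.filter (fun i => i ∈ Q.I h) = Q.I h := by ext; simp
    have a2 : ∑ i ∈ univ.filter (fun i => ¬ i ∈ Q.I h),
        a * (if i ∈ Q.I h then Q.p i else 0) * g i = 0 :=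
      sum_eq_zero fun i hi => by rw [if_neg (mem_filter.1 hi).2]; ring
    rw [a1, a2, add_zero]
    exact sum_congr rfl fun i hi => by rw [if_pos hi]; ring
  have e3 : ∑ h ∈ Q.H, ∑ p, (∑ x, c (h, p, Sum.inl x) * (∑ z, |A (h, p, Sum.inl x) z -
        B (h, p, Sum.inl x) z|) + (∑ i, c (h, p, Sum.inr (Sum.inl i)) *
        (∑ z, |A (h, p, Sum.inr (Sum.inl i)) z - B (h, p, Sum.inr (Sum.inl i)) z|) +
        ∑ x, c (h, p, Sum.inr (Sum.inr x)) *
          (∑ z, |A (h, p, Sum.inr (Sum.inr x)) z - B (h, p, Sum.inr (Sum.inr x)) z|))) ≤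
      ∑ h ∈ Q.H, ∑ p, R p * lbill Q G op p h := by
    apply sum_le_sum
    intro h _
    apply sum_le_sum
    intro p _
    simp only [hc, hA, hB]
    rw [e2 h (fun i => ∑ z, |(G p).π ((G p).toGame.s2 Q (op p) h) (Q.src i (h.length - 1)) z -
      (G p).π ((G p).toGame.s2 Q (op p) h) (Q.rq i (h.length - 1)) z|)]
    have b1 : ∑ x, R p * Q.mm h x * ∑ z, |(G p).π ((G p).toGame.st Q (op p) h.dropLast) x z -
          (G p).π ((G p).toGame.s2 Q (op p) h) x z| ≤
        R p * ((G p).toGame.Rel (Q.mm h) ((G p).toGame.st Q (op p) h.dropLast)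
          ((G p).toGame.s1 Q (op p) h) + (G p).toGame.Rel (Q.mm h) ((G p).toGame.s1 Q (op p) h)
          ((G p).toGame.s2 Q (op p) h)) := by
      unfold Game.Rel
      rw [← sum_add_distrib, mul_sum]
      apply sum_le_sum
      intro x _
      have := (G p).toGame.rel_tri ((G p).toGame.st Q (op p) h.dropLast)
        ((G p).toGame.s1 Q (op p) h) ((G p).toGame.s2 Q (op p) h) x
      have h1 : 0 ≤ R p * Q.mm h x := mul_nonneg (hR p) (Q.mm_nonneg _ _)
      have h2 := mul_le_mul_of_nonneg_left this h1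
      calc _ ≤ _ := h2
        _ = _ := by ring
    have b2 : ∑ x, R p * Q.mp h x * ∑ z, |(G p).π ((G p).toGame.s2 Q (op p) h) x z -
          (G p).π ((G p).toGame.st Q (op p) h) x z| =
        R p * (G p).toGame.Rel (Q.mp h) ((G p).toGame.s2 Q (op p) h)
          ((G p).toGame.st Q (op p) h) := by
      unfold Game.Rel
      rw [mul_sum]
      exact sum_congr rfl fun x _ => mul_assoc _ _ _
    rw [b2]
    unfold lbill Game.bill PGame.cut
    rw [mul_add, mul_add]
    linarith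
  have e4 : ∑ h ∈ Q.H, labBill Q R
          (fun p h x => lab ((G p).π ((G p).toGame.st Q (op p) h) x))
          (fun p h x => lab ((G p).π ((G p).toGame.s2 Q (op p) h) x)) h =
      ∑ h ∈ Q.H, ∑ p, (∑ x, c (h, p, Sum.inl x) * (if lab (A (h, p, Sum.inl x)) ≠
        lab (B (h, p, Sum.inl x)) then (1 : ℝ) else 0) +
        (∑ i, c (h, p, Sum.inr (Sum.inl i)) * (if lab (A (h, p, Sum.inr (Sum.inl i))) ≠
          lab (B (h, p, Sum.inr (Sum.inl i))) then (1 : ℝ) else 0) +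
        ∑ x, c (h, p, Sum.inr (Sum.inr x)) * (if lab (A (h, p, Sum.inr (Sum.inr x))) ≠
          lab (B (h, p, Sum.inr (Sum.inr x))) then (1 : ℝ) else 0))) := by
    apply sum_congr rfl
    intro h _
    unfold labBill
    apply sum_congr rfl
    intro p _
    simp only [hc, hA, hB]
    rw [e2 h (fun i => if lab ((G p).π ((G p).toGame.s2 Q (op p) h) (Q.src i (h.length - 1))) ≠
      lab ((G p).π ((G p).toGame.s2 Q (op p) h) (Q.rq i (h.length - 1))) then (1 : ℝ) else 0)]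
    have f1 : ∀ (m g : Y → ℝ), ∑ x, R p * m x * g x = R p * ∑ x, m x * g x := fun m g => by
      rw [mul_sum]; exact sum_congr rfl fun x _ => mul_assoc _ _ _
    rw [f1 (Q.mm h), f1 (Q.mp h)]
    ring
  rw [e4]
  exact hl2.trans (by linarith)

end Levels

end Crest.Agent.R314.Bay
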