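import Mathlib
import Crest.Agent.R314.Bay3

/-!
R314, block BAY, part 4: the ONE-update-per-step process with `ε`-minimisers (no existence
hypothesis): information step, `ε`-best response for the mass before the flow, operation `op h`
(e.g. `Op (r, a_R)`), flow.  The state after the history `h` is the state used at the flow.
-/

set_option autoImplicit false
set_option linter.unusedSectionVars false

namespace Crest.Agent.R314.Bay

open Finset Function Crest.LogicCS.KServer Crest.Agent.R314 Crest.Agent.R314.Tk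

universe u v w

/-- A system of states with linear potential `U` and fractional labels `π`. -/
structure EGame (Y : Type u) (Z : Type v) [Fintype Y] [Fintype Z] where
  S : Type w
  S0 : S
  U : S → Y → ℝ
  U_nonneg : ∀ σ x, 0 ≤ U σ x
  π : S → Y → Z → ℝ
  π_pv : ∀ σ x, Mh.IsPV (π σ x)

namespace EGame

variable {Y : Type u} {Z : Type v} [Fintype Y] [Fintype Z] (G : EGame.{u, v, w} Y Z)

/-- `ℓ¹` distance of the labels. -/
noncomputable def nr (σ : G.S) (x : Y) (τ : G.S) (y : Y) : ℝ := ∑ z, |G.π σ x z - G.π τ y z|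

theorem nr_nonneg (σ : G.S) (x : Y) (τ : G.S) (y : Y) : 0 ≤ G.nr σ x τ y :=
  sum_nonneg fun _ _ => abs_nonneg _

@[simp] theorem nr_self (σ : G.S) (x : Y) : G.nr σ x σ x = 0 := by simp [nr]

theorem nr_tri (σ : G.S) (x : Y) (τ : G.S) (y : Y) (υ : G.S) (z : Y) :
    G.nr σ x υ z ≤ G.nr σ x τ y + G.nr τ y υ z := by
  unfold nr
  rw [← sum_add_distrib]
  exact sum_le_sum fun z _ => abs_sub_le _ _ _

/-- Potential of a state against a measure. -/
noncomputable def Phi (m : Y → ℝ) (σ : G.S) : ℝ := ∑ x, m x * G.U σ x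

/-- Relabelling bill. -/
noncomputable def Rel (m : Y → ℝ) (σ τ : G.S) : ℝ := ∑ x, m x * G.nr σ x τ x

theorem Rel_nonneg {m : Y → ℝ} (hm : ∀ x, 0 ≤ m x) (σ τ : G.S) : 0 ≤ G.Rel m σ τ :=
  sum_nonneg fun x _ => mul_nonneg (hm x) (G.nr_nonneg _ _ _ _)

theorem Phi_nonneg {m : Y → ℝ} (hm : ∀ x, 0 ≤ m x) (σ : G.S) : 0 ≤ G.Phi m σ :=
  sum_nonneg fun x _ => mul_nonneg (hm x) (G.U_nonneg _ _)

theorem Rel_self (m : Y → ℝ) (σ : G.S) : G.Rel m σ σ = 0 := by simp [Rel]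

theorem Rel_tri {m : Y → ℝ} (hm : ∀ x, 0 ≤ m x) (σ τ υ : G.S) :
    G.Rel m σ υ ≤ G.Rel m σ τ + G.Rel m τ υ := by
  unfold Rel
  rw [← sum_add_distrib]
  apply sum_le_sum
  intro x _
  rw [← mul_add]
  exact mul_le_mul_of_nonneg_left (G.nr_tri _ _ _ _ _ _) (hm x)

/-- No change of state pays for itself, up to `ε`. -/
def Stuck (ε : ℝ) (m : Y → ℝ) (σ : G.S) : Prop := ∀ τ, G.Phi m σ ≤ G.Phi m τ + G.Rel m σ τ + ε

/-- `ε`-best responses exist. -/
theorem exists_br {ε : ℝ} (hε : 0 < ε) {m : Y → ℝ} (hm : ∀ x, 0 ≤ m x) (σ : G.S) :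
    ∃ τ, G.Phi m τ + G.Rel m σ τ ≤ G.Phi m σ ∧
      ∀ υ, G.Phi m τ + G.Rel m σ τ ≤ G.Phi m υ + G.Rel m σ υ + ε := by
  set f : G.S → ℝ := fun τ => G.Phi m τ + G.Rel m σ τ with hf
  have hb : BddBelow (Set.range f) := by
    refine ⟨0, ?_⟩
    rintro _ ⟨τ, rfl⟩
    exact add_nonneg (G.Phi_nonneg hm τ) (G.Rel_nonneg hm σ τ)
  have hne : (Set.range f).Nonempty := ⟨f σ, σ, rfl⟩
  obtain ⟨_, ⟨τ, rfl⟩, hτ⟩ := exists_lt_of_csInf_lt hne (lt_add_of_pos_right (sInf (Set.range f)) hε)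
  have hσ : f σ = G.Phi m σ := by simp [hf, G.Rel_self]
  have h1 : ∀ υ, sInf (Set.range f) ≤ f υ := fun υ => csInf_le hb ⟨υ, rfl⟩
  by_cases h : f τ ≤ f σ
  · exact ⟨τ, by rw [← hσ]; exact h, fun υ => by have := h1 υ; change f τ ≤ f υ + ε; linarith⟩
  · push Not at h
    refine ⟨σ, by rw [G.Rel_self, add_zero], fun υ => ?_⟩
    have := h1 υ
    change f σ ≤ f υ + ε
    linarith

open Classical in
/-- The chosen `ε`-best response. -/
noncomputable def br (ε : ℝ) (m : Y → ℝ) (σ : G.S) : G.S :=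
  if h : 0 < ε ∧ ∀ x, 0 ≤ m x then (G.exists_br h.1 h.2 σ).choose else σ

theorem br_spec {ε : ℝ} (hε : 0 < ε) {m : Y → ℝ} (hm : ∀ x, 0 ≤ m x) (σ : G.S) :
    G.Phi m (G.br ε m σ) + G.Rel m σ (G.br ε m σ) ≤ G.Phi m σ ∧
      ∀ υ, G.Phi m (G.br ε m σ) + G.Rel m σ (G.br ε m σ) ≤ G.Phi m υ + G.Rel m σ υ + ε := by
  have hbr : G.br ε m σ = (G.exists_br hε hm σ).choose := by
    unfold br
    rw [dif_pos ⟨hε, hm⟩]
  rw [hbr]
  exact (G.exists_br hε hm σ).choose_spec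

theorem br_stuck {ε : ℝ} (hε : 0 < ε) {m : Y → ℝ} (hm : ∀ x, 0 ≤ m x) (σ : G.S) :
    G.Stuck ε m (G.br ε m σ) := by
  intro τ
  have h1 := (G.br_spec hε hm σ).2 τ
  have h2 := G.Rel_tri hm σ (G.br ε m σ) τ
  linarith

section Process

variable {k : ℕ} [NeZero k] (Q : Prior Y k) (ep : List Y → ℝ) (op : List Y → G.S → G.S)

/-- The states along the prefixes of `h`. -/
noncomputable def stN (h : List Y) : ℕ → G.S
  | 0 => G.S0
  | t + 1 => op (h.take (t + 1)) (G.br (ep (h.take (t + 1))) (Q.mm (h.take (t + 1))) (stN h t))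

/-- The state after the history `h` (it is the state used at the flow of the last request). -/
noncomputable def st (h : List Y) : G.S := G.stN Q ep op h h.length

theorem stN_take (h : List Y) {n t : ℕ} (ht : t ≤ n) :
    G.stN Q ep op (h.take n) t = G.stN Q ep op h t := by
  induction t with
  | zero => rfl
  | succ t ih =>
    rw [stN, stN, ih (by omega), List.take_take, min_eq_left ht]

@[simp] theorem st_nil : G.st Q ep op [] = G.S0 := rfl

/-- The `ε`-stuck state before the operation. -/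
noncomputable def s1 (h : List Y) : G.S := G.br (ep h) (Q.mm h) (G.st Q ep op h.dropLast)

theorem st_eq {h : List Y} (h0 : h ≠ []) : G.st Q ep op h = op h (G.s1 Q ep op h) := by
  have hpos : 0 < h.length := List.length_pos_iff.2 h0
  obtain ⟨n, hn⟩ : ∃ n, h.length = n + 1 := ⟨h.length - 1, by omega⟩
  unfold st s1
  rw [hn, stN, ← hn, List.take_length]
  congr 2
  unfold st
  rw [List.length_dropLast, hn, Nat.add_sub_cancel, List.dropLast_eq_take, hn,
    Nat.add_sub_cancel, G.stN_take Q ep op h le_rfl]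

theorem s1_stuck {h : List Y} (he : 0 < ep h) : G.Stuck (ep h) (Q.mm h) (G.s1 Q ep op h) :=
  G.br_stuck he (Q.mm_nonneg h) _

/-- Bill at the history `h`: relabelling before the flow and cuts. -/
noncomputable def bill (h : List Y) : ℝ :=
  G.Rel (Q.mm h) (G.st Q ep op h.dropLast) (G.st Q ep op h) +
  ∑ i ∈ Q.I h, Q.p i * G.nr (G.st Q ep op h) (Q.src i (h.length - 1))
    (G.st Q ep op h) (Q.rq i (h.length - 1))

/-- **Bill of a game.** -/
theorem bill_le (hep : ∀ h ∈ Q.H, 0 < ep h) (e sl : List Y → ℝ)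
    (hop : ∀ h ∈ Q.H, ∀ σ, G.Stuck (ep h) (Q.mm h) σ →
      G.Phi (Q.mm h) (op h σ) + G.Rel (Q.mm h) σ (op h σ) ≤ G.Phi (Q.mm h) σ + e h)
    (hsl : ∀ h ∈ Q.H, ∀ σ, G.Stuck (ep h) (Q.mm h) σ →
      ∑ i ∈ Q.I h, Q.p i * (G.U (op h σ) (Q.rq i (h.length - 1)) -
        G.U (op h σ) (Q.src i (h.length - 1)) +
        G.nr (op h σ) (Q.src i (h.length - 1)) (op h σ) (Q.rq i (h.length - 1))) ≤ sl h) :
    ∑ h ∈ Q.H, G.bill Q ep op h ≤
      (∑ i, Q.p i) * (∑ j, G.U G.S0 (Q.s j)) + ∑ h ∈ Q.H, (e h + sl h) := by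
  have := Q.telescope (fun h c => ∑ j, G.U (G.st Q ep op h) (c j))
    (fun h c => sum_nonneg fun j _ => G.U_nonneg _ _) (G.bill Q ep op) (fun h => e h + sl h) ?_
  · simpa using this
  intro h hh
  have h0 := Q.ne_nil_of_mem_H hh
  have e1 : Q.Ep h (fun c => ∑ j, G.U (G.st Q ep op h) (c j)) =
      G.Phi (Q.mm h) (G.st Q ep op h) + ∑ i ∈ Q.I h, Q.p i *
        (G.U (G.st Q ep op h) (Q.rq i (h.length - 1)) -
          G.U (G.st Q ep op h) (Q.src i (h.length - 1))) := by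
    rw [Q.Ep_sum_server h0, ← Q.sum_mm]
    congr 1
    apply sum_congr rfl
    intro i hi
    rw [Q.rq_of_mem_I hi h0]
  have e2 : Q.Em h (fun c => ∑ j, G.U (G.st Q ep op h.dropLast) (c j)) =
      G.Phi (Q.mm h) (G.st Q ep op h.dropLast) := (Q.sum_mm h _).symm
  simp only [e1, e2]
  have a1 := (G.br_spec (hep h hh) (Q.mm_nonneg h) (G.st Q ep op h.dropLast)).1
  have a2 := hop h hh _ (G.s1_stuck Q ep op (hep h hh))
  have a3 := hsl h hh _ (G.s1_stuck Q ep op (hep h hh))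
  rw [← G.st_eq Q ep op h0] at a2 a3
  have a4 := G.Rel_tri (Q.mm_nonneg h) (G.st Q ep op h.dropLast) (G.s1 Q ep op h)
    (G.st Q ep op h)
  have a6 : ∑ i ∈ Q.I h, Q.p i * (G.U (G.st Q ep op h) (Q.rq i (h.length - 1)) -
        G.U (G.st Q ep op h) (Q.src i (h.length - 1)) +
        G.nr (G.st Q ep op h) (Q.src i (h.length - 1)) (G.st Q ep op h)
          (Q.rq i (h.length - 1))) =
      ∑ i ∈ Q.I h, Q.p i * (G.U (G.st Q ep op h) (Q.rq i (h.length - 1)) -
        G.U (G.st Q ep op h) (Q.src i (h.length - 1))) +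
      ∑ i ∈ Q.I h, Q.p i * G.nr (G.st Q ep op h) (Q.src i (h.length - 1)) (G.st Q ep op h)
          (Q.rq i (h.length - 1)) := by
    rw [← sum_add_distrib]
    exact sum_congr rfl fun i _ => by ring
  change G.Phi (Q.mm h) (G.s1 Q ep op h) + G.Rel (Q.mm h) (G.st Q ep op h.dropLast)
    (G.s1 Q ep op h) ≤ G.Phi (Q.mm h) (G.st Q ep op h.dropLast) at a1
  unfold bill
  linarith

end Process

end EGame

section Levels

variable {Y : Type u} {Z : Type v} [Fintype Y] [Fintype Z] [MetricSpace Y] {k : ℕ} [NeZero k]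
variable (Q : Prior Y k) {L : ℕ} (G : Fin L → EGame.{u, v, w} Y Z)
  (ep : Fin L → List Y → ℝ) (op : ∀ p, List Y → (G p).S → (G p).S)

/-- **Summation over the levels** (one update per step). `K` = the constant `C log (k+1)`. -/
theorem sum_ebill_le (R : Fin L → ℝ) (hR : ∀ p, 0 ≤ R p) (hep : ∀ p, ∀ h ∈ Q.H, 0 < ep p h)
    (r1 : List Y → ℝ)
    (hr1 : ∀ h ∈ Q.H, r1 h * Q.P h / 4 ≤
      ∑ i ∈ Q.I h, Q.p i * dist (Q.src i (h.length - 1)) (Q.rq i (h.length - 1)))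
    {K : ℝ} (hK : 0 ≤ K) (e : Fin L → List Y → ℝ) (F : Fin L → List Y → Y → ℝ)
    (hop : ∀ p, ∀ h ∈ Q.H, ∀ σ, (G p).Stuck (ep p h) (Q.mm h) σ →
      (G p).Phi (Q.mm h) (op p h σ) + (G p).Rel (Q.mm h) σ (op p h σ) ≤
        (G p).Phi (Q.mm h) σ + e p h)
    (hsl : ∀ p, ∀ h ∈ Q.H, ∀ h0 : h ≠ [], ∀ σ, (G p).Stuck (ep p h) (Q.mm h) σ → ∀ x,
      (G p).U (op p h σ) (h.getLast h0) - (G p).U (op p h σ) x +
        (G p).nr (op p h σ) x (op p h σ) (h.getLast h0) ≤ F p h x)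
    (he : ∀ h ∈ Q.H, ∑ p, R p * e p h ≤ K * (Q.P h * r1 h))
    (hF : ∀ h ∈ Q.H, ∀ h0 : h ≠ [], ∀ x, ∑ p, R p * F p h x ≤
      K * (dist x (h.getLast h0) + r1 h)) :
    ∑ h ∈ Q.H, ∑ p, R p * (G p).bill Q (ep p) (op p) h ≤
      9 * K * Q.opt + (∑ i, Q.p i) * ∑ p, R p * ∑ j, (G p).U (G p).S0 (Q.s j) := by
  have h1 : ∀ p, ∑ h ∈ Q.H, (G p).bill Q (ep p) (op p) h ≤
      (∑ i, Q.p i) * (∑ j, (G p).U (G p).S0 (Q.s j)) +
        ∑ h ∈ Q.H, (e p h + ∑ i ∈ Q.I h, Q.p i * F p h (Q.src i (h.length - 1))) := by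
    intro p
    refine (G p).bill_le Q (ep p) (op p) (hep p) (e p)
      (fun h => ∑ i ∈ Q.I h, Q.p i * F p h (Q.src i (h.length - 1))) (hop p) ?_
    intro h hh σ hσ
    apply sum_le_sum
    intro i hi
    apply mul_le_mul_of_nonneg_left _ (Q.p_nonneg i)
    have h0 := Q.ne_nil_of_mem_H hh
    rw [Q.rq_of_mem_I hi h0]
    exact hsl p h hh h0 σ hσ _
  have h2 : ∑ h ∈ Q.H, ∑ p, R p * (G p).bill Q (ep p) (op p) h =
      ∑ p, R p * ∑ h ∈ Q.H, (G p).bill Q (ep p) (op p) h := by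
    rw [sum_comm]
    exact sum_congr rfl fun p _ => (mul_sum _ _ _).symm
  have h3 : ∑ p, R p * ∑ h ∈ Q.H, (G p).bill Q (ep p) (op p) h ≤
      (∑ i, Q.p i) * ∑ p, R p * ∑ j, (G p).U (G p).S0 (Q.s j) +
        ∑ h ∈ Q.H, (∑ p, R p * e p h +
          ∑ i ∈ Q.I h, Q.p i * ∑ p, R p * F p h (Q.src i (h.length - 1))) := by
    calc ∑ p, R p * ∑ h ∈ Q.H, (G p).bill Q (ep p) (op p) h
        ≤ ∑ p, R p * ((∑ i, Q.p i) * (∑ j, (G p).U (G p).S0 (Q.s j)) +
          ∑ h ∈ Q.H, (e p h + ∑ i ∈ Q.I h, Q.p i * F p h (Q.src i (h.length - 1)))) :=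
          sum_le_sum fun p _ => mul_le_mul_of_nonneg_left (h1 p) (hR p)
      _ = _ := by
          simp_rw [mul_add]
          rw [sum_add_distrib, mul_sum]
          congr 1
          · exact sum_congr rfl fun p _ => by ring
          · simp_rw [mul_sum]
            rw [sum_comm]
            apply sum_congr rfl
            intro h _
            simp_rw [mul_add]
            rw [sum_add_distrib]
            congr 1
            simp_rw [mul_sum]
            rw [sum_comm]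
            apply sum_congr rfl
            intro i _
            exact sum_congr rfl fun p _ => by ring
  have h4 : ∀ h ∈ Q.H, ∑ p, R p * e p h +
      ∑ i ∈ Q.I h, Q.p i * ∑ p, R p * F p h (Q.src i (h.length - 1)) ≤
      9 * K * ∑ i ∈ Q.I h, Q.p i *
        dist (Q.src i (h.length - 1)) (Q.rq i (h.length - 1)) := by
    intro h hh
    have h0 := Q.ne_nil_of_mem_H hh
    have a1 := he h hh
    have a2 : ∑ i ∈ Q.I h, Q.p i * ∑ p, R p * F p h (Q.src i (h.length - 1)) ≤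
        K * ∑ i ∈ Q.I h, Q.p i *
          dist (Q.src i (h.length - 1)) (Q.rq i (h.length - 1)) + K * (Q.P h * r1 h) := by
      calc ∑ i ∈ Q.I h, Q.p i * ∑ p, R p * F p h (Q.src i (h.length - 1))
          ≤ ∑ i ∈ Q.I h, Q.p i * (K * (dist (Q.src i (h.length - 1))
              (Q.rq i (h.length - 1)) + r1 h)) := by
            apply sum_le_sum
            intro i hi
            apply mul_le_mul_of_nonneg_left _ (Q.p_nonneg i)
            rw [Q.rq_of_mem_I hi h0]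
            exact hF h hh h0 _
        _ = _ := by
            unfold Prior.P
            rw [sum_mul, mul_sum, mul_sum, ← sum_add_distrib]
            exact sum_congr rfl fun i _ => by ring
    have a3 := hr1 h hh
    have a4 : K * (Q.P h * r1 h) ≤ 4 * (K * ∑ i ∈ Q.I h, Q.p i *
          dist (Q.src i (h.length - 1)) (Q.rq i (h.length - 1))) := by
      have : Q.P h * r1 h ≤ 4 * ∑ i ∈ Q.I h, Q.p i *
          dist (Q.src i (h.length - 1)) (Q.rq i (h.length - 1)) := by linarith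
      calc K * (Q.P h * r1 h) ≤ K * (4 * ∑ i ∈ Q.I h, Q.p i *
          dist (Q.src i (h.length - 1)) (Q.rq i (h.length - 1))) :=
            mul_le_mul_of_nonneg_left this hK
        _ = _ := by ring
    linarith
  rw [h2]
  refine h3.trans ?_
  have h5 := sum_le_sum h4
  rw [← mul_sum, ← Q.opt_eq] at h5
  linarith

open Classical in
/-- The bill of a deterministic label process `lam p h`: relabelling from `h.dropLast` to `h` before
the flow (mass `mm h`) and cuts of the flow. -/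
noncomputable def labBill1 {Z : Type*} (R : Fin L → ℝ) (lam : Fin L → List Y → Y → Z)
    (h : List Y) : ℝ :=
  ∑ p, R p * (∑ x, Q.mm h x * (if lam p h.dropLast x ≠ lam p h x then 1 else 0) +
    ∑ i ∈ Q.I h, Q.p i *
      (if lam p h (Q.src i (h.length - 1)) ≠ lam p h (Q.rq i (h.length - 1)) then 1 else 0))

/-- **Deterministic labels** (one update per step). -/
theorem exists_label_process1 [DecidableEq Z] [Nonempty Z] (R : Fin L → ℝ) (hR : ∀ p, 0 ≤ R p)
    {ε : ℝ} (hε : 0 < ε) :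
    ∃ lab : (Z → ℝ) → Z, (∀ q, Mh.IsPV q → 0 < q (lab q)) ∧
      ∑ h ∈ Q.H, labBill1 Q R
          (fun p h x => lab ((G p).π ((G p).st Q (ep p) (op p) h) x)) h ≤
        ∑ h ∈ Q.H, ∑ p, R p * (G p).bill Q (ep p) (op p) h + ε := by
  classical
  set c : List Y × Fin L × (Y ⊕ Q.ι) → ℝ := fun a =>
    match a with
    | (h, p, Sum.inl x) => R p * Q.mm h x
    | (h, p, Sum.inr i) => R p * (if i ∈ Q.I h then Q.p i else 0) with hc
  set A : List Y × Fin L × (Y ⊕ Q.ι) → Z → ℝ := fun a =>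
    match a with
    | (h, p, Sum.inl x) => (G p).π ((G p).st Q (ep p) (op p) h.dropLast) x
    | (h, p, Sum.inr i) => (G p).π ((G p).st Q (ep p) (op p) h) (Q.src i (h.length - 1)) with hA
  set B : List Y × Fin L × (Y ⊕ Q.ι) → Z → ℝ := fun a =>
    match a with
    | (h, p, Sum.inl x) => (G p).π ((G p).st Q (ep p) (op p) h) x
    | (h, p, Sum.inr i) => (G p).π ((G p).st Q (ep p) (op p) h) (Q.rq i (h.length - 1)) with hB
  have hc0 : ∀ a ∈ Q.H ×ˢ (univ : Finset (Fin L × (Y ⊕ Q.ι))), 0 ≤ c a := by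
    rintro ⟨h, p, (x | i)⟩ _
    · exact mul_nonneg (hR p) (Q.mm_nonneg _ _)
    · refine mul_nonneg (hR p) ?_
      split_ifs
      · exact Q.p_nonneg i
      · exact le_rfl
  have hA0 : ∀ a ∈ Q.H ×ˢ (univ : Finset (Fin L × (Y ⊕ Q.ι))), Mh.IsPV (A a) := by
    rintro ⟨h, p, (x | i)⟩ _ <;> exact (G p).π_pv _ _
  have hB0 : ∀ a ∈ Q.H ×ˢ (univ : Finset (Fin L × (Y ⊕ Q.ι))), Mh.IsPV (B a) := by
    rintro ⟨h, p, (x | i)⟩ _ <;> exact (G p).π_pv _ _
  obtain ⟨lab, hl1, hl2⟩ := Mh.exists_labels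
    (Q.H ×ˢ (univ : Finset (Fin L × (Y ⊕ Q.ι)))) c hc0 A B hA0 hB0 hε
  refine ⟨lab, hl1, ?_⟩
  have e1 : ∀ f : List Y × Fin L × (Y ⊕ Q.ι) → ℝ,
      ∑ a ∈ Q.H ×ˢ (univ : Finset (Fin L × (Y ⊕ Q.ι))), f a =
      ∑ h ∈ Q.H, ∑ p, (∑ x, f (h, p, Sum.inl x) + ∑ i, f (h, p, Sum.inr i)) := by
    intro f
    rw [sum_product]
    apply sum_congr rfl
    intro h _
    rw [← univ_product_univ, sum_product]
    apply sum_congr rfl
    intro p _
    rw [Fintype.sum_sum_type]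
  rw [e1, e1] at hl2
  have e2 : ∀ h : List Y, ∀ g : Q.ι → ℝ, ∀ a : ℝ,
      ∑ i, a * (if i ∈ Q.I h then Q.p i else 0) * g i = a * ∑ i ∈ Q.I h, Q.p i * g i := by
    intro h g a
    rw [mul_sum, ← sum_filter_add_sum_filter_not univ (fun i => i ∈ Q.I h)]
    have a1 : univ.filter (fun i => i ∈ Q.I h) = Q.I h := by ext; simp
    have a2 : ∑ i ∈ univ.filter (fun i => ¬ i ∈ Q.I h),
        a * (if i ∈ Q.I h then Q.p i else 0) * g i = 0 :=
      sum_eq_zero fun i hi => by rw [if_neg (mem_filter.1 hi).2]; ring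
    rw [a1, a2, add_zero]
    exact sum_congr rfl fun i hi => by rw [if_pos hi]; ring
  have f1 : ∀ (p : Fin L) (m g : Y → ℝ), ∑ x, R p * m x * g x = R p * ∑ x, m x * g x :=
    fun p m g => by rw [mul_sum]; exact sum_congr rfl fun x _ => mul_assoc _ _ _
  have e3 : ∑ h ∈ Q.H, ∑ p, (∑ x, c (h, p, Sum.inl x) * (∑ z, |A (h, p, Sum.inl x) z -
        B (h, p, Sum.inl x) z|) + ∑ i, c (h, p, Sum.inr i) *
        (∑ z, |A (h, p, Sum.inr i) z - B (h, p, Sum.inr i) z|)) =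
      ∑ h ∈ Q.H, ∑ p, R p * (G p).bill Q (ep p) (op p) h := by
    apply sum_congr rfl
    intro h _
    apply sum_congr rfl
    intro p _
    simp only [hc, hA, hB]
    rw [e2 h (fun i => ∑ z, |(G p).π ((G p).st Q (ep p) (op p) h) (Q.src i (h.length - 1)) z -
      (G p).π ((G p).st Q (ep p) (op p) h) (Q.rq i (h.length - 1)) z|), f1 p (Q.mm h)]
    unfold EGame.bill EGame.Rel EGame.nr
    ring
  have e4 : ∑ h ∈ Q.H, labBill1 Q R
          (fun p h x => lab ((G p).π ((G p).st Q (ep p) (op p) h) x)) h =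
      ∑ h ∈ Q.H, ∑ p, (∑ x, c (h, p, Sum.inl x) * (if lab (A (h, p, Sum.inl x)) ≠
        lab (B (h, p, Sum.inl x)) then (1 : ℝ) else 0) +
        ∑ i, c (h, p, Sum.inr i) * (if lab (A (h, p, Sum.inr i)) ≠
          lab (B (h, p, Sum.inr i)) then (1 : ℝ) else 0)) := by
    apply sum_congr rfl
    intro h _
    unfold labBill1
    apply sum_congr rfl
    intro p _
    simp only [hc, hA, hB]
    rw [e2 h (fun i => if lab ((G p).π ((G p).st Q (ep p) (op p) h) (Q.src i (h.length - 1))) ≠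
      lab ((G p).π ((G p).st Q (ep p) (op p) h) (Q.rq i (h.length - 1))) then (1 : ℝ) else 0),
      f1 p (Q.mm h)]
    ring
  rw [e4]
  rw [e3] at hl2
  exact hl2

end Levels

end Crest.Agent.R314.Bay
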