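import Mathlib
import Crest.Agent.R314.Frame4

/-!
R314, block BAY (helper31): posterior bookkeeping on a finitely supported prior.

`Prior X k` : finitely many samples `i` with weights `p i`; sample `i` is a request list together
with the servers used by the comparator, `q i : List (X × Fin k)`; common start `s`.

For a history `h : List X` (requests, earlier first), everything UNNORMALISED:
* `P h`        : probability that the requests start with `h`
* `m h x`      : expected number of comparator servers at `x` after serving `h`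
* `mm h r x`   : the same mass, before the move, on the event that the next request is `r`
* `f h r x`    : the flow `x → r` (probability that the history is `h ++ [r]` and that the
                 comparator serves `r` with a server sitting at `x`).
-/

set_option autoImplicit false
set_option linter.unusedSectionVars false

namespace Crest.Agent.R314.By

open Crest.LogicCS.KServer Finset

/-- A finitely supported prior on (request sequence, comparator). -/
structure Prior (X : Type*) (k : ℕ) where
  ι : Type
  fin : Fintype ι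
  p : ι → ℝ
  q : ι → List (X × Fin k)
  s : Fin k → X
  p_nonneg : ∀ i, 0 ≤ p i

attribute [instance] Prior.fin

section
variable {X : Type*} [DecidableEq X] {k : ℕ} (Q : Prior X k)

/-- request list of sample `i` -/
def Prior.req (i : Q.ι) : List X := (Q.q i).map Prod.fst

/-- configuration of the comparator of sample `i` after `n` requests -/
def Prior.conf (i : Q.ι) (n : ℕ) : Fin k → X := endConf Q.s ((Q.q i).take n)

/-- number of servers of a configuration at `x` -/
noncomputable def cnt (c : Fin k → X) (x : X) : ℝ := ∑ j, if c j = x then (1 : ℝ) else 0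

/-- probability of the history `h` -/
noncomputable def Prior.P (h : List X) : ℝ := ∑ i, if h <+: Q.req i then Q.p i else 0

/-- posterior mass after serving `h` -/
noncomputable def Prior.m (h : List X) (x : X) : ℝ :=
  ∑ i, if h <+: Q.req i then Q.p i * cnt (Q.conf i h.length) x else 0

/-- posterior mass after the information `next request = r`, before the move -/
noncomputable def Prior.mm (h : List X) (r x : X) : ℝ :=
  ∑ i, if (h ++ [r]) <+: Q.req i then Q.p i * cnt (Q.conf i h.length) x else 0

/-- the position from which sample `i` serves its `n`-th request -/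
def Prior.src (i : Q.ι) (n : ℕ) : Option X := ((Q.q i)[n]?).map fun a => Q.conf i n a.2

/-- the flow `x → r` -/
noncomputable def Prior.f (h : List X) (r x : X) : ℝ :=
  ∑ i, if (h ++ [r]) <+: Q.req i then Q.p i * (if Q.src i h.length = some x then 1 else 0) else 0

variable {Q}

theorem cnt_nonneg (c : Fin k → X) (x : X) : 0 ≤ cnt c x :=
  Finset.sum_nonneg fun _ _ => by split_ifs <;> norm_num

theorem one_le_cnt (c : Fin k → X) (j : Fin k) : 1 ≤ cnt c (c j) := by
  unfold cnt
  have h : (if c j = c j then (1 : ℝ) else 0) ≤ ∑ j', if c j' = c j then (1 : ℝ) else 0 :=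
    Finset.single_le_sum (f := fun j' => if c j' = c j then (1 : ℝ) else 0)
      (fun i _ => by split_ifs <;> norm_num) (Finset.mem_univ j)
  simpa using h

theorem sum_cnt_mul [Fintype X] (c : Fin k → X) (φ : X → ℝ) : ∑ x, cnt c x * φ x = ∑ j, φ (c j) := by
  unfold cnt
  simp_rw [Finset.sum_mul]
  rw [Finset.sum_comm]
  refine Finset.sum_congr rfl fun j _ => ?_
  rw [Finset.sum_eq_single (c j)]
  · simp
  · intro b _ hb
    rw [if_neg (Ne.symm hb), zero_mul]
  · intro h; exact absurd (Finset.mem_univ _) h

theorem sum_cnt [Fintype X] (c : Fin k → X) : ∑ x, cnt c x = k := by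
  have := sum_cnt_mul c (fun _ => (1 : ℝ))
  simpa using this

theorem cnt_update (c : Fin k → X) (j : Fin k) (r x : X) :
    cnt (Function.update c j r) x = cnt c x - (if c j = x then 1 else 0) + (if x = r then 1 else 0) := by
  classical
  unfold cnt
  rw [← Finset.add_sum_erase _ _ (Finset.mem_univ j)]
  rw [← Finset.add_sum_erase (a := j) Finset.univ (fun j => if c j = x then (1 : ℝ) else 0)
    (Finset.mem_univ j)]
  have : ∑ i ∈ Finset.univ.erase j, (if Function.update c j r i = x then (1 : ℝ) else 0)
      = ∑ i ∈ Finset.univ.erase j, (if c i = x then (1 : ℝ) else 0) := by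
    refine Finset.sum_congr rfl fun i hi => ?_
    have hi : i ≠ j := (Finset.mem_erase.1 hi).1
    simp [Function.update_of_ne hi]
  rw [this]
  simp only [Function.update_self]
  have : (if r = x then (1 : ℝ) else 0) = if x = r then 1 else 0 := by
    by_cases h : x = r
    · simp [h]
    · rw [if_neg h, if_neg (Ne.symm h)]
  rw [this]; ring

theorem P_nonneg (h : List X) : 0 ≤ Q.P h :=
  Finset.sum_nonneg fun i _ => by split_ifs; exacts [Q.p_nonneg i, le_rfl]

theorem m_nonneg (h : List X) (x : X) : 0 ≤ Q.m h x :=
  Finset.sum_nonneg fun i _ => by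
    split_ifs; exacts [mul_nonneg (Q.p_nonneg i) (cnt_nonneg _ _), le_rfl]

theorem mm_nonneg (h : List X) (r x : X) : 0 ≤ Q.mm h r x :=
  Finset.sum_nonneg fun i _ => by
    split_ifs; exacts [mul_nonneg (Q.p_nonneg i) (cnt_nonneg _ _), le_rfl]

theorem f_nonneg (h : List X) (r x : X) : 0 ≤ Q.f h r x :=
  Finset.sum_nonneg fun i _ => by
    split_ifs
    · simpa using Q.p_nonneg i
    · simp
    · exact le_rfl

theorem prefix_snoc_iff (h l : List X) (r : X) :
    (h ++ [r]) <+: l ↔ h <+: l ∧ l[h.length]? = some r := by
  constructor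
  · rintro ⟨t, rfl⟩
    refine ⟨⟨[r] ++ t, by simp⟩, ?_⟩
    simp
  · rintro ⟨⟨t, rfl⟩, ht⟩
    rw [List.getElem?_append_right le_rfl] at ht
    simp only [Nat.sub_self] at ht
    cases t with
    | nil => simp at ht
    | cons a t =>
      simp at ht
      subst ht
      exact ⟨t, by simp⟩

theorem req_getElem? (i : Q.ι) (n : ℕ) : (Q.req i)[n]? = ((Q.q i)[n]?).map Prod.fst := by
  simp [Prior.req]

theorem endConf_append' (p q : List (X × Fin k)) : ∀ c : Fin k → X,
    endConf c (p ++ q) = endConf (endConf c p) q := by
  induction p with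
  | nil => intro c; rfl
  | cons a p ih => intro c; exact ih _

theorem conf_zero (i : Q.ι) : Q.conf i 0 = Q.s := by
  unfold Prior.conf; rw [List.take_zero]; rfl

theorem conf_succ (i : Q.ι) (n : ℕ) (a : X × Fin k) (ha : (Q.q i)[n]? = some a) :
    Q.conf i (n + 1) = Function.update (Q.conf i n) a.2 a.1 := by
  unfold Prior.conf
  rw [List.take_add_one, ha, endConf_append']
  rfl

theorem exists_of_prefix {h : List X} {r : X} {i : Q.ι} (hp : (h ++ [r]) <+: Q.req i) :
    ∃ j, (Q.q i)[h.length]? = some (r, j) ∧ Q.src i h.length = some (Q.conf i h.length j) := by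
  have h1 := ((prefix_snoc_iff _ _ _).1 hp).2
  rw [req_getElem?] at h1
  rcases hq : (Q.q i)[h.length]? with _ | ⟨a, j⟩
  · simp [hq] at h1
  · simp [hq] at h1
    subst h1
    exact ⟨j, rfl, by simp [Prior.src, hq]⟩

/-- **Update rule.** -/
theorem m_append (h : List X) (r x : X) :
    Q.m (h ++ [r]) x = Q.mm h r x - Q.f h r x + (if x = r then Q.P (h ++ [r]) else 0) := by
  unfold Prior.m Prior.mm Prior.f Prior.P
  have e : (if x = r then ∑ i, (if (h ++ [r]) <+: Q.req i then Q.p i else 0) else 0)
      = ∑ i, (if (h ++ [r]) <+: Q.req i then Q.p i * (if x = r then 1 else 0) else 0) := by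
    by_cases hx : x = r
    · simp [hx]
    · simp [hx]
  rw [e, ← Finset.sum_sub_distrib, ← Finset.sum_add_distrib]
  refine Finset.sum_congr rfl fun i _ => ?_
  by_cases hp : (h ++ [r]) <+: Q.req i
  · obtain ⟨j, hj, hs⟩ := exists_of_prefix hp
    simp only [if_pos hp, List.length_append, List.length_singleton]
    rw [conf_succ i _ _ hj, cnt_update, hs]
    simp only [Option.some.injEq]
    ring
  · simp [hp]

theorem f_le_mm (h : List X) (r x : X) : Q.f h r x ≤ Q.mm h r x := by
  refine Finset.sum_le_sum fun i _ => ?_
  by_cases hp : (h ++ [r]) <+: Q.req i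
  · obtain ⟨j, hj, hs⟩ := exists_of_prefix hp
    simp only [if_pos hp]
    refine mul_le_mul_of_nonneg_left ?_ (Q.p_nonneg i)
    rw [hs]
    by_cases hx : Q.conf i h.length j = x
    · subst hx
      simpa using one_le_cnt _ _
    · simp [hx, cnt_nonneg]
  · simp [hp]

section fin
variable [Fintype X]

theorem sum_m (h : List X) : ∑ x, Q.m h x = k * Q.P h := by
  unfold Prior.m Prior.P
  rw [Finset.sum_comm, Finset.mul_sum]
  refine Finset.sum_congr rfl fun i _ => ?_
  by_cases hp : h <+: Q.req i
  · simp only [if_pos hp]
    rw [← Finset.mul_sum, sum_cnt]; ring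
  · simp [hp]

theorem sum_mm (h : List X) (r : X) : ∑ x, Q.mm h r x = k * Q.P (h ++ [r]) := by
  unfold Prior.mm Prior.P
  rw [Finset.sum_comm, Finset.mul_sum]
  refine Finset.sum_congr rfl fun i _ => ?_
  by_cases hp : (h ++ [r]) <+: Q.req i
  · simp only [if_pos hp]
    rw [← Finset.mul_sum, sum_cnt]; ring
  · simp [hp]

theorem sum_f (h : List X) (r : X) : ∑ x, Q.f h r x = Q.P (h ++ [r]) := by
  unfold Prior.f Prior.P
  rw [Finset.sum_comm]
  refine Finset.sum_congr rfl fun i _ => ?_
  by_cases hp : (h ++ [r]) <+: Q.req i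
  · obtain ⟨j, hj, hs⟩ := exists_of_prefix hp
    simp only [if_pos hp]
    rw [← Finset.mul_sum, hs]
    simp
  · simp [hp]

theorem sum_ite_prefix_le (h : List X) (l : List X) (a : ℝ) (ha : 0 ≤ a) :
    ∑ r : X, (if (h ++ [r]) <+: l then a else 0) ≤ if h <+: l then a else 0 := by
  by_cases hp : h <+: l
  · rw [if_pos hp]
    rcases hl : l[h.length]? with _ | r0
    · refine le_trans (le_of_eq ?_) ha
      refine Finset.sum_eq_zero fun r _ => ?_
      rw [if_neg]
      intro hc
      have := ((prefix_snoc_iff _ _ _).1 hc).2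
      simp [hl] at this
    · rw [Finset.sum_eq_single r0]
      · split_ifs; exacts [le_rfl, ha]
      · intro b _ hb
        rw [if_neg]
        intro hc
        have := ((prefix_snoc_iff _ _ _).1 hc).2
        rw [hl] at this
        exact hb (Option.some.inj this).symm
      · intro h; exact absurd (Finset.mem_univ _) h
  · rw [if_neg hp]
    refine le_of_eq (Finset.sum_eq_zero fun r _ => ?_)
    rw [if_neg]
    intro hc
    exact hp ((prefix_snoc_iff _ _ _).1 hc).1

/-- **Information step**: the masses of the children sum to at most the mass. -/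
theorem sum_mm_le (h : List X) (x : X) : ∑ r, Q.mm h r x ≤ Q.m h x := by
  unfold Prior.mm Prior.m
  rw [Finset.sum_comm]
  exact Finset.sum_le_sum fun i _ =>
    sum_ite_prefix_le h _ _ (mul_nonneg (Q.p_nonneg i) (cnt_nonneg _ _))

theorem sum_P_le (h : List X) : ∑ r, Q.P (h ++ [r]) ≤ Q.P h := by
  unfold Prior.P
  rw [Finset.sum_comm]
  exact Finset.sum_le_sum fun i _ => sum_ite_prefix_le h _ _ (Q.p_nonneg i)

end fin

theorem P_nil : Q.P [] = ∑ i, Q.p i := by simp [Prior.P]

theorem m_nil (x : X) : Q.m [] x = (∑ i, Q.p i) * cnt Q.s x := by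
  simp [Prior.m, conf_zero, Finset.sum_mul]

/-- After the request there is a server at the requested point. -/
theorem P_le_m_last (h : List X) (r : X) : Q.P (h ++ [r]) ≤ Q.m (h ++ [r]) r := by
  rw [m_append, if_pos rfl]
  have := f_le_mm (Q := Q) h r r
  linarith

theorem P_append_le [Fintype X] (h : List X) (r : X) : Q.P (h ++ [r]) ≤ Q.P h :=
  le_trans (Finset.single_le_sum (f := fun r => Q.P (h ++ [r])) (fun _ _ => P_nonneg _)
    (Finset.mem_univ r)) (sum_P_le h)

theorem mm_le_m [Fintype X] (h : List X) (r x : X) : Q.mm h r x ≤ Q.m h x :=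
  le_trans (Finset.single_le_sum (f := fun r => Q.mm h r x) (fun _ _ => mm_nonneg _ _ _)
    (Finset.mem_univ r)) (sum_mm_le h x)

end

end Crest.Agent.R314.By
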