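import Mathlib
import Crest.Agent.R314.By1

/-!
R314, block BAY part 2 (helper31): histories, disintegration of history sums over the samples,
telescoping of history-indexed potentials.
-/

set_option autoImplicit false
set_option linter.unusedSectionVars false

namespace Crest.Agent.R314.By

open Crest.LogicCS.KServer Finset

variable {X : Type*} [DecidableEq X] [Fintype X] {k : ℕ} (Q : Prior X k)

/-- all histories occurring in the prior -/
noncomputable def Prior.hist : Finset (List X) :=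
  Finset.univ.biUnion fun i => ((Q.req i).inits).toFinset

/-- all steps `(h, r)` : history `h`, next request `r` -/
noncomputable def Prior.steps : Finset (List X × X) :=
  (Q.hist ×ˢ Finset.univ).filter fun a => a.1 ++ [a.2] ∈ Q.hist

variable {Q}

theorem mem_hist {h : List X} : h ∈ Q.hist ↔ ∃ i, h <+: Q.req i := by
  simp [Prior.hist]

theorem mem_steps {h : List X} {r : X} : (h, r) ∈ Q.steps ↔ h ++ [r] ∈ Q.hist := by
  constructor
  · intro hs
    simp only [Prior.steps, Finset.mem_filter] at hs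
    exact hs.2
  · intro hs
    simp only [Prior.steps, Finset.mem_filter, Finset.mem_product, Finset.mem_univ, and_true]
    refine ⟨?_, hs⟩
    obtain ⟨i, hi⟩ := mem_hist.1 hs
    exact mem_hist.2 ⟨i, (prefix_snoc_iff _ _ _).1 hi |>.1⟩

theorem P_eq_zero {h : List X} (hh : h ∉ Q.hist) : Q.P h = 0 := by
  refine Finset.sum_eq_zero fun i _ => ?_
  rw [if_neg]
  intro hc; exact hh (mem_hist.2 ⟨i, hc⟩)

theorem m_eq_zero {h : List X} (hh : h ∉ Q.hist) (x : X) : Q.m h x = 0 := by
  refine Finset.sum_eq_zero fun i _ => ?_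
  rw [if_neg]
  intro hc; exact hh (mem_hist.2 ⟨i, hc⟩)

theorem mm_eq_zero {h : List X} {r : X} (hh : (h, r) ∉ Q.steps) (x : X) : Q.mm h r x = 0 := by
  refine Finset.sum_eq_zero fun i _ => ?_
  rw [if_neg]
  intro hc; exact hh (mem_steps.2 (mem_hist.2 ⟨i, hc⟩))

theorem f_eq_zero {h : List X} {r : X} (hh : (h, r) ∉ Q.steps) (x : X) : Q.f h r x = 0 := by
  refine Finset.sum_eq_zero fun i _ => ?_
  rw [if_neg]
  intro hc; exact hh (mem_steps.2 (mem_hist.2 ⟨i, hc⟩))

/-! ### disintegration at one step -/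

theorem sum_mm_mul (h : List X) (r : X) (φ : X → ℝ) :
    ∑ x, Q.mm h r x * φ x =
      ∑ i, if (h ++ [r]) <+: Q.req i then Q.p i * ∑ j, φ (Q.conf i h.length j) else 0 := by
  unfold Prior.mm
  simp_rw [Finset.sum_mul]
  rw [Finset.sum_comm]
  refine Finset.sum_congr rfl fun i _ => ?_
  by_cases hp : (h ++ [r]) <+: Q.req i
  · simp only [if_pos hp]
    simp_rw [mul_assoc]
    rw [← Finset.mul_sum, sum_cnt_mul]
  · simp [hp]

theorem sum_m_mul (h : List X) (φ : X → ℝ) :
    ∑ x, Q.m h x * φ x =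
      ∑ i, if h <+: Q.req i then Q.p i * ∑ j, φ (Q.conf i h.length j) else 0 := by
  unfold Prior.m
  simp_rw [Finset.sum_mul]
  rw [Finset.sum_comm]
  refine Finset.sum_congr rfl fun i _ => ?_
  by_cases hp : h <+: Q.req i
  · simp only [if_pos hp]
    simp_rw [mul_assoc]
    rw [← Finset.mul_sum, sum_cnt_mul]
  · simp [hp]

/-- the position from which the comparator of sample `i` serves its request number `n` -/
def Prior.from' (i : Q.ι) (n : Fin (Q.q i).length) : X := Q.conf i n ((Q.q i)[n]).2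

theorem sum_f_mul (h : List X) (r : X) (φ : X → ℝ) (ψ : Q.ι → ℝ)
    (hψ : ∀ i j, (h ++ [r]) <+: Q.req i → (Q.q i)[h.length]? = some (r, j) →
      ψ i = φ (Q.conf i h.length j)) :
    ∑ x, Q.f h r x * φ x =
      ∑ i, if (h ++ [r]) <+: Q.req i then Q.p i * ψ i else 0 := by
  unfold Prior.f
  simp_rw [Finset.sum_mul]
  rw [Finset.sum_comm]
  refine Finset.sum_congr rfl fun i _ => ?_
  by_cases hp : (h ++ [r]) <+: Q.req i
  · obtain ⟨j, hj, hs⟩ := exists_of_prefix hp
    simp only [if_pos hp]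
    simp_rw [mul_assoc]
    rw [← Finset.mul_sum, hs, hψ i j hp hj]
    simp
  · simp [hp]

/-! ### disintegration of the sum over all steps -/

theorem sum_steps_ite (i : Q.ι) (F : List X → X → ℝ) :
    ∑ a ∈ Q.steps, (if (a.1 ++ [a.2]) <+: Q.req i then F a.1 a.2 else 0) =
      ∑ n : Fin (Q.q i).length, F ((Q.req i).take n) ((Q.q i)[n]).1 := by
  rw [← Finset.sum_filter]
  symm
  refine Finset.sum_bij (fun n _ => ((Q.req i).take n, ((Q.q i)[n]).1)) ?_ ?_ ?_ ?_
  · intro n _
    have hp : (List.take n (Q.req i) ++ [((Q.q i)[n]).1]) <+: Q.req i := by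
      rw [prefix_snoc_iff]
      refine ⟨List.take_prefix _ _, ?_⟩
      have hl : (List.take n (Q.req i)).length = n := by
        rw [List.length_take]
        have : (n : ℕ) < (Q.req i).length := by simp [Prior.req]
        omega
      rw [hl, req_getElem?]
      simp
    rw [Finset.mem_filter]
    exact ⟨mem_steps.2 (mem_hist.2 ⟨i, hp⟩), hp⟩
  · intro n _ n' _ he
    have he1 := congrArg (fun a => a.1.length) he
    simp only [List.length_take] at he1
    have h1 : (n : ℕ) < (Q.req i).length := by simp [Prior.req]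
    have h2 : (n' : ℕ) < (Q.req i).length := by simp [Prior.req]
    exact Fin.ext (by omega)
  · rintro ⟨h, r⟩ ha
    rw [Finset.mem_filter] at ha
    have hp := ha.2
    simp only at hp
    obtain ⟨j, hj, _⟩ := exists_of_prefix hp
    have hlt : h.length < (Q.q i).length := by
      by_contra hc
      rw [List.getElem?_eq_none (by omega)] at hj
      exact absurd hj (by simp)
    refine ⟨⟨h.length, hlt⟩, Finset.mem_univ _, ?_⟩
    have h1 : List.take h.length (Q.req i) = h := by
      obtain ⟨t, ht⟩ := ((prefix_snoc_iff _ _ _).1 hp).1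
      rw [← ht]; simp
    have h2 : (Q.q i)[h.length] = (r, j) := by
      rw [List.getElem?_eq_getElem hlt] at hj
      exact Option.some.inj hj
    simp only [Fin.getElem_fin, h1, h2]
  · intro n _; rfl

theorem length_take_req (i : Q.ι) (n : Fin (Q.q i).length) :
    (List.take n (Q.req i)).length = n := by
  rw [List.length_take]
  have : (n : ℕ) < (Q.req i).length := by simp [Prior.req]
  omega

theorem take_snoc_prefix (i : Q.ι) (n : Fin (Q.q i).length) :
    (List.take n (Q.req i) ++ [((Q.q i)[n]).1]) <+: Q.req i := by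
  rw [prefix_snoc_iff]
  refine ⟨List.take_prefix _ _, ?_⟩
  rw [length_take_req, req_getElem?]
  simp

/-- **Disintegration (stationary masses).** -/
theorem sum_steps_mm (φ : List X → X → X → ℝ) :
    ∑ a ∈ Q.steps, ∑ x, Q.mm a.1 a.2 x * φ a.1 a.2 x =
      ∑ i, Q.p i * ∑ n : Fin (Q.q i).length,
        ∑ j, φ ((Q.req i).take n) ((Q.q i)[n]).1 (Q.conf i n j) := by
  have h1 : ∀ a ∈ Q.steps, ∑ x, Q.mm a.1 a.2 x * φ a.1 a.2 x =
      ∑ i, if (a.1 ++ [a.2]) <+: Q.req i then
        Q.p i * ∑ j, φ a.1 a.2 (Q.conf i a.1.length j) else 0 := fun a _ =>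
    sum_mm_mul a.1 a.2 _
  rw [Finset.sum_congr rfl h1, Finset.sum_comm]
  refine Finset.sum_congr rfl fun i _ => ?_
  have h2 := sum_steps_ite i (fun h r => Q.p i * ∑ j, φ h r (Q.conf i h.length j))
  rw [h2, Finset.mul_sum]
  refine Finset.sum_congr rfl fun n _ => ?_
  rw [length_take_req]

/-- **Disintegration (flows).** -/
theorem sum_steps_f (φ : List X → X → X → ℝ) :
    ∑ a ∈ Q.steps, ∑ x, Q.f a.1 a.2 x * φ a.1 a.2 x =
      ∑ i, Q.p i * ∑ n : Fin (Q.q i).length,
        φ ((Q.req i).take n) ((Q.q i)[n]).1 (Q.conf i n ((Q.q i)[n]).2) := by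
  have h1 : ∀ a ∈ Q.steps, ∑ x, Q.f a.1 a.2 x * φ a.1 a.2 x =
      ∑ i, if (a.1 ++ [a.2]) <+: Q.req i then
        Q.p i * (((Q.q i)[a.1.length]?).elim 0
          fun b => φ a.1 a.2 (Q.conf i a.1.length b.2)) else 0 := by
    intro a _
    refine sum_f_mul a.1 a.2 _ _ ?_
    intro i j _ hj
    rw [hj]; rfl
  rw [Finset.sum_congr rfl h1, Finset.sum_comm]
  refine Finset.sum_congr rfl fun i _ => ?_
  have h2 := sum_steps_ite i (fun h r => Q.p i * (((Q.q i)[h.length]?).elim 0
          fun b => φ h r (Q.conf i h.length b.2)))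
  rw [h2, Finset.mul_sum]
  refine Finset.sum_congr rfl fun n _ => ?_
  rw [length_take_req]
  simp

theorem sum_steps_P (φ : List X → X → ℝ) :
    ∑ a ∈ Q.steps, Q.P (a.1 ++ [a.2]) * φ a.1 a.2 =
      ∑ i, Q.p i * ∑ n : Fin (Q.q i).length, φ ((Q.req i).take n) ((Q.q i)[n]).1 := by
  have h1 : ∀ a ∈ Q.steps, Q.P (a.1 ++ [a.2]) * φ a.1 a.2 =
      ∑ i, if (a.1 ++ [a.2]) <+: Q.req i then Q.p i * φ a.1 a.2 else 0 := by
    intro a _
    unfold Prior.P
    rw [Finset.sum_mul]
    refine Finset.sum_congr rfl fun i _ => ?_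
    split_ifs <;> simp
  rw [Finset.sum_congr rfl h1, Finset.sum_comm]
  refine Finset.sum_congr rfl fun i _ => ?_
  rw [sum_steps_ite i (fun h r => Q.p i * φ h r), Finset.mul_sum]

/-! ### the cost of the comparator -/

theorem pathCost_eq_sum [MetricSpace X] (l : List (X × Fin k)) : ∀ c : Fin k → X,
    pathCost c l = ∑ n : Fin l.length, dist (endConf c (l.take n) (l[n]).2) (l[n]).1 := by
  induction l with
  | nil => intro c; simp [pathCost]
  | cons a l ih =>
    intro c
    simp only [List.length_cons]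
    rw [Fin.sum_univ_succ]
    rw [pathCost_cons, ih]
    simp

/-- **The total flow bill is the expected cost of the comparator.** -/
theorem flow_bill [MetricSpace X] :
    ∑ a ∈ Q.steps, ∑ x, Q.f a.1 a.2 x * dist x a.2 = ∑ i, Q.p i * pathCost Q.s (Q.q i) := by
  rw [sum_steps_f (fun _ r x => dist x r)]
  refine Finset.sum_congr rfl fun i _ => ?_
  rw [pathCost_eq_sum]
  rfl

/-! ### telescoping -/

theorem sum_steps_succ (V : List X → ℝ) :
    ∑ a ∈ Q.steps, V (a.1 ++ [a.2]) = ∑ h ∈ Q.hist.erase [], V h := by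
  refine Finset.sum_bij (fun a _ => a.1 ++ [a.2]) ?_ ?_ ?_ ?_
  · rintro ⟨h, r⟩ ha
    exact Finset.mem_erase.2 ⟨by simp, mem_steps.1 ha⟩
  · rintro ⟨h, r⟩ _ ⟨h', r'⟩ _ he
    have he' : h ++ [r] = h' ++ [r'] := he
    obtain ⟨h1, h2⟩ := List.append_inj' he' rfl
    simp only [List.cons.injEq, and_true] at h2
    simp [h1, h2]
  · intro h hh
    obtain ⟨h1, h2⟩ := Finset.mem_erase.1 hh
    refine ⟨(h.dropLast, h.getLast h1), ?_, ?_⟩
    · rw [mem_steps, List.dropLast_append_getLast]; exact h2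
    · simp only [List.dropLast_append_getLast]
  · intro a _; rfl

theorem sum_steps_le (W : List X → X → ℝ) (V : List X → ℝ) (hW0 : ∀ h r, 0 ≤ W h r)
    (hW : ∀ h, ∑ r, W h r ≤ V h) : ∑ a ∈ Q.steps, W a.1 a.2 ≤ ∑ h ∈ Q.hist, V h := by
  calc ∑ a ∈ Q.steps, W a.1 a.2 ≤ ∑ a ∈ Q.hist ×ˢ (Finset.univ : Finset X), W a.1 a.2 :=
        Finset.sum_le_sum_of_subset_of_nonneg (Finset.filter_subset _ _) fun _ _ _ => hW0 _ _
    _ = ∑ h ∈ Q.hist, ∑ r, W h r := Finset.sum_product _ _ _
    _ ≤ ∑ h ∈ Q.hist, V h := Finset.sum_le_sum fun h _ => hW h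

/-- **Telescoping.** `V h` : potential at the history `h`; `W h r` : the potential of the state of
`h` evaluated at the masses after the information `r`; `c` : prices; `e` : bills. -/
theorem telescope (V : List X → ℝ) (W c e : List X → X → ℝ) (hV : 0 ≤ V [])
    (hW0 : ∀ h r, 0 ≤ W h r) (hW : ∀ h, ∑ r, W h r ≤ V h)
    (step : ∀ h r, (h, r) ∈ Q.steps → V (h ++ [r]) + c h r ≤ W h r + e h r) :
    ∑ a ∈ Q.steps, c a.1 a.2 ≤ V [] + ∑ a ∈ Q.steps, e a.1 a.2 := by
  have h1 : ∑ a ∈ Q.steps, (V (a.1 ++ [a.2]) + c a.1 a.2) ≤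
      ∑ a ∈ Q.steps, (W a.1 a.2 + e a.1 a.2) :=
    Finset.sum_le_sum fun a ha => step a.1 a.2 ha
  rw [Finset.sum_add_distrib, Finset.sum_add_distrib, sum_steps_succ] at h1
  have h2 := sum_steps_le (Q := Q) W V hW0 hW
  by_cases hn : ([] : List X) ∈ Q.hist
  · have h3 := Finset.add_sum_erase Q.hist V hn
    linarith
  · have he : Q.hist = ∅ := by
      rw [Finset.eq_empty_iff_forall_notMem]
      intro h hh
      obtain ⟨i, hi⟩ := mem_hist.1 hh
      exact hn (mem_hist.2 ⟨i, List.nil_prefix⟩)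
    have hs : Q.steps = ∅ := by simp [Prior.steps, he]
    simp [hs, hV]

/-- **Telescoping of a linear potential** `Φ_h(m) = ∑ m x * U h x`, `U ≥ 0`. The state of the
history `h ++ [r]` is chosen after the information and before the move. -/
theorem telescope_lin (U : List X → X → ℝ) (c e : List X → X → ℝ) (hU : ∀ h x, 0 ≤ U h x)
    (step : ∀ h r, (h, r) ∈ Q.steps →
      ∑ x, Q.mm h r x * U (h ++ [r]) x + c h r ≤ ∑ x, Q.mm h r x * U h x + e h r) :
    ∑ a ∈ Q.steps, c a.1 a.2 ≤ ∑ x, Q.m [] x * U [] x +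
      ∑ a ∈ Q.steps, (e a.1 a.2 +
        ∑ x, Q.f a.1 a.2 x * (U (a.1 ++ [a.2]) a.2 - U (a.1 ++ [a.2]) x)) := by
  refine telescope (fun h => ∑ x, Q.m h x * U h x) (fun h r => ∑ x, Q.mm h r x * U h x) c
    (fun h r => e h r + ∑ x, Q.f h r x * (U (h ++ [r]) r - U (h ++ [r]) x)) ?_ ?_ ?_ ?_
  · exact Finset.sum_nonneg fun x _ => mul_nonneg (m_nonneg _ _) (hU _ _)
  · exact fun h r => Finset.sum_nonneg fun x _ => mul_nonneg (mm_nonneg _ _ _) (hU _ _)
  · intro h
    rw [Finset.sum_comm]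
    refine Finset.sum_le_sum fun x _ => ?_
    rw [← Finset.sum_mul]
    exact mul_le_mul_of_nonneg_right (sum_mm_le h x) (hU _ _)
  · intro h r hs
    have h1 := step h r hs
    have h2 : ∑ x, Q.m (h ++ [r]) x * U (h ++ [r]) x =
        ∑ x, Q.mm h r x * U (h ++ [r]) x +
          ∑ x, Q.f h r x * (U (h ++ [r]) r - U (h ++ [r]) x) := by
      have e1 : ∀ x, Q.m (h ++ [r]) x * U (h ++ [r]) x =
          Q.mm h r x * U (h ++ [r]) x - Q.f h r x * U (h ++ [r]) x +
            (if x = r then Q.P (h ++ [r]) * U (h ++ [r]) x else 0) := by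
        intro x
        rw [m_append]
        split_ifs <;> ring
      simp_rw [e1]
      rw [Finset.sum_add_distrib, Finset.sum_sub_distrib]
      simp only [Finset.sum_ite_eq', Finset.mem_univ, if_true]
      simp_rw [mul_sub]
      rw [Finset.sum_sub_distrib, ← Finset.sum_mul, sum_f]
      ring
    rw [h2]
    linarith

end Crest.Agent.R314.By
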