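import Mathlib

/-!
R314, module C (static part), definitions.

Nodes of the label tree are lists of labels, DEEPEST label first: the parent is the tail, the root
is `[]`.  `key u j` is the node of depth `j` of a point with labels `u 0, u 1, ...`.
Every node carries a state `NS`: a kind (`sp` = spine, `inf` / `fin c` = charged), a birth id, a
centre and a travel counter.  Only nodes with kind `fin c` are noise nodes of Theorem A.
-/

set_option autoImplicit false
set_option linter.unusedSectionVars false

namespace Crest.Agent.R314.C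

open Finset

section Keys

variable {Y Lab : Type*}

/-- The node of depth `j`. -/
def key (u : ℕ → Lab) : ℕ → List Lab
  | 0 => []
  | j + 1 => u j :: key u j

@[simp] theorem key_zero (u : ℕ → Lab) : key u 0 = [] := rfl

theorem key_succ (u : ℕ → Lab) (j : ℕ) : key u (j + 1) = u j :: key u j := rfl

@[simp] theorem key_length (u : ℕ → Lab) (j : ℕ) : (key u j).length = j := by
  induction j with
  | zero => rfl
  | succ j ih => rw [key_succ, List.length_cons, ih]

/-- The point `x` belongs to the node `N`. -/
def Mem (lab : Y → ℕ → Lab) (x : Y) (N : List Lab) : Prop := key (lab x) N.length = N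

theorem mem_nil (lab : Y → ℕ → Lab) (x : Y) : Mem lab x [] := rfl

theorem mem_key (lab : Y → ℕ → Lab) (x : Y) (j : ℕ) : Mem lab x (key (lab x) j) := by
  unfold Mem
  rw [key_length]

theorem Mem.eq {lab : Y → ℕ → Lab} {x : Y} {N : List Lab} (h : Mem lab x N) :
    key (lab x) N.length = N := h

theorem mem_cons {lab : Y → ℕ → Lab} {x : Y} {a : Lab} {N : List Lab} :
    Mem lab x (a :: N) ↔ lab x N.length = a ∧ Mem lab x N := by
  unfold Mem
  rw [List.length_cons, key_succ, List.cons.injEq]

theorem Mem.tail {lab : Y → ℕ → Lab} {x : Y} {a : Lab} {N : List Lab} (h : Mem lab x (a :: N)) :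
    Mem lab x N := (mem_cons.1 h).2

/-- Members of a node are members of its ancestors. -/
theorem Mem.anc {lab : Y → ℕ → Lab} {x : Y} {N H : List Lab} (h : Mem lab x H) (hN : N <:+ H) :
    Mem lab x N := by
  induction H with
  | nil =>
    rw [List.suffix_nil] at hN
    subst hN
    exact mem_nil lab x
  | cons a H ih =>
    rcases List.suffix_cons_iff.1 hN with rfl | hN
    · exact h
    · exact ih h.tail hN

/-- Two nodes with a common member are comparable. -/
theorem Mem.suffix {lab : Y → ℕ → Lab} {x : Y} {N H : List Lab} (hN : Mem lab x N)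
    (hH : Mem lab x H) (hl : N.length ≤ H.length) : N <:+ H := by
  induction H with
  | nil =>
    rw [List.length_nil, Nat.le_zero, List.length_eq_zero_iff] at hl
    rw [hl]
  | cons a H ih =>
    rcases Nat.lt_or_ge H.length N.length with h | h
    · have e : N.length = H.length + 1 := le_antisymm (by simpa using hl) h
      have h1 : N = a :: H := by
        rw [← hN.eq, ← hH.eq, e, List.length_cons]
      rw [h1]
    · exact (ih hH.tail h).trans (List.suffix_cons a H)

end Keys

/-- Kinds of a node: spine, charged with class `∞`, charged with class `c`. -/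
inductive Kind
  | sp
  | inf
  | fin (c : ℕ)
  deriving DecidableEq

/-- State of one node. -/
structure NS (Y : Type*) where
  kind : Kind
  birth : ℕ
  ctr : Y
  trav : ℝ

/-- State of the tree. -/
abbrev St (Y Lab : Type*) := List Lab → NS Y

section Up
variable {Y Lab : Type*}

/-- Nearest strict ancestor which is charged or the root. -/
def up (S : St Y Lab) : List Lab → List Lab
  | [] => []
  | _ :: N => if (S N).kind = Kind.sp then up S N else N

@[simp] theorem up_nil (S : St Y Lab) : up S [] = [] := rfl

theorem up_cons (S : St Y Lab) (a : Lab) (N : List Lab) :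
    up S (a :: N) = if (S N).kind = Kind.sp then up S N else N := rfl

theorem up_suffix (S : St Y Lab) (N : List Lab) : up S N <:+ N := by
  induction N with
  | nil => simp
  | cons a N ih =>
    rw [up_cons]
    split_ifs
    · exact ih.trans (List.suffix_cons a N)
    · exact List.suffix_cons a N

end Up

/-- Parameters: base `B`, weight `W` of depth `0`, geometry constant `CG`, depth `I`, maximal class
`cm`. -/
structure Par where
  B : ℝ
  hB : 64 ≤ B
  W : ℝ
  hW : 0 < W
  CG : ℝ
  hCG : 1 ≤ CG
  I : ℕ
  cm : ℕ

/-- Noise parameter of the class `c`. -/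
noncomputable def eta (c : ℕ) : ℝ := 16 * 2 ^ c

namespace Par

variable (P : Par)

/-- Weight of a node of depth `j`. -/
noncomputable def w (j : ℕ) : ℝ := P.W / P.B ^ j

noncomputable def A : ℝ := 16 * P.CG + 1

/-- Potential of a node of kind `inf` per unit of mass and weight, with a centre in the region. -/
noncomputable def Q : ℝ := 2 * P.A + 8 * P.CG

noncomputable def A' : ℝ := 31 / 10 * P.Q

/-- Coefficient of `w m(N)`. -/
noncomputable def al : Kind → ℝ
  | Kind.sp => -P.A'
  | Kind.inf => 2 * P.A
  | Kind.fin c => P.A * (2 - (1 / 2) ^ c)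

/-- Coefficient of `w m(up N)`. -/
noncomputable def be : Kind → ℝ
  | Kind.sp => P.A'
  | Kind.inf => 0
  | Kind.fin c => P.A / 8 * (1 / 2) ^ c * Real.exp (-eta c / 4)

/-- Allowed kinds. -/
def ok : Kind → Prop
  | Kind.sp => True
  | Kind.inf => True
  | Kind.fin c => c ≤ P.cm

end Par

/-- Price of a new node of the given kind, per unit of mass and weight. -/
noncomputable def pr : Kind → ℝ
  | Kind.sp => 0
  | Kind.inf => 0
  | Kind.fin c => 3 / (4 * eta c)

/-- Noise parameter of a kind (`0` if there is no noise node). -/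
noncomputable def etaK : Kind → ℝ
  | Kind.sp => 0
  | Kind.inf => 0
  | Kind.fin c => eta c

/-- `exp (-η/2)` of a kind (`0` if there is no noise node). -/
noncomputable def expK : Kind → ℝ
  | Kind.sp => 0
  | Kind.inf => 0
  | Kind.fin c => Real.exp (-eta c / 2)

section Static

variable {Y Lab : Type*} [Fintype Y] [MetricSpace Y] [Fintype Lab] (P : Par)

/-- All nodes of depth `1, ..., I`. -/
noncomputable def nodes (Lab : Type*) [Fintype Lab] (I : ℕ) : Finset (List Lab) :=
  open Classical in (List.finite_length_le Lab I).toFinset.filter (fun N => N ≠ [])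

theorem mem_nodes {I : ℕ} {N : List Lab} : N ∈ nodes Lab I ↔ N ≠ [] ∧ N.length ≤ I := by
  classical
  unfold nodes
  rw [Finset.mem_filter, Set.Finite.mem_toFinset, and_comm]
  rfl

/-- Mass of a node. -/
noncomputable def mass (m : Y → ℝ) (lab : Y → ℕ → Lab) (N : List Lab) : ℝ :=
  open Classical in ∑ x, if Mem lab x N then m x else 0

/-- `Σ_{x ∈ N} m x * dist x a`. -/
noncomputable def fd (m : Y → ℝ) (lab : Y → ℕ → Lab) (N : List Lab) (a : Y) : ℝ :=
  open Classical in ∑ x, if Mem lab x N then m x * dist x a else 0

/-- Valid labelling. -/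
structure Valid (lab : Y → ℕ → Lab) : Prop where
  dist_le : ∀ x y j, j ≤ P.I → key (lab x) j = key (lab y) j → dist x y ≤ P.CG * P.w j
  sep : ∀ x y, key (lab x) P.I = key (lab y) P.I → x = y

/-- Potential per unit of mass at `x`. -/
noncomputable def ps (S : St Y Lab) (lab : Y → ℕ → Lab) (x : Y) : ℝ :=
  open Classical in
  8 * dist x (S []).ctr + ∑ N ∈ nodes Lab P.I,
    ((if Mem lab x N then P.w N.length * P.al (S N).kind +
        (if (S N).kind = Kind.sp then 0 else 8 * dist x (S N).ctr + (S N).trav) else 0) +
      (if Mem lab x (up S N) then P.w N.length * P.be (S N).kind else 0))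

/-- The potential. -/
noncomputable def Phi (S : St Y Lab) (m : Y → ℝ) (lab : Y → ℕ → Lab) : ℝ :=
  ∑ x, m x * ps P S lab x

/-- Potential of one node. -/
noncomputable def phiN (S : St Y Lab) (m : Y → ℝ) (lab : Y → ℕ → Lab) (N : List Lab) : ℝ :=
  P.w N.length * (P.al (S N).kind * mass m lab N + P.be (S N).kind * mass m lab (up S N)) +
    (if (S N).kind = Kind.sp then 0 else 8 * fd m lab N (S N).ctr + (S N).trav * mass m lab N)

/-- Admissible change of one node at time `now`. -/
def OkN (now : ℕ) (a b : NS Y) : Prop :=
  (b.kind = a.kind ∧ b.birth = a.birth ∧ b.trav = a.trav + dist a.ctr b.ctr) ∨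
    (b.birth = now ∧ b.trav = 0)

/-- Admissible change of the state at time `now`. -/
structure Trans (now : ℕ) (S S' : St Y Lab) : Prop where
  node : ∀ N ∈ nodes Lab P.I, OkN now (S N) (S' N)
  kinds : ∀ N ∈ nodes Lab P.I, P.ok (S N).kind → P.ok (S' N).kind
  flip : ∀ N ∈ nodes Lab P.I, ((S N).kind = Kind.sp ↔ (S' N).kind = Kind.sp) ∨
    ∀ H ∈ nodes Lab P.I, N <:+ H → N ≠ H → (S' H).birth = now
  root : (S' []).kind = (S []).kind ∧ (S' []).birth = (S []).birth ∧
    (S' []).trav = (S []).trav + dist (S []).ctr (S' []).ctr

/-- Price of a change of state, per unit of mass at `x`. -/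
noncomputable def prx (S S' : St Y Lab) (lab : Y → ℕ → Lab) (x : Y) : ℝ :=
  open Classical in
  dist (S []).ctr (S' []).ctr + ∑ N ∈ nodes Lab P.I,
    (if Mem lab x N then
      (if (S' N).kind = (S N).kind ∧ (S' N).birth = (S N).birth then 0
        else P.w N.length * pr (S' N).kind) else 0)

/-- Price of a change of state. -/
noncomputable def Price (S S' : St Y Lab) (m : Y → ℝ) (lab : Y → ℕ → Lab) : ℝ :=
  ∑ x, m x * prx P S S' lab x

/-- Comparison inequalities satisfied by an updated state. -/
structure Stuck (S : St Y Lab) (m : Y → ℝ) (lab : Y → ℕ → Lab) : Prop where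
  /-- renew a charged node with another kind and another centre -/
  renew : ∀ N ∈ nodes Lab P.I, (S N).kind ≠ Kind.sp → ∀ κ, κ ≠ Kind.sp → P.ok κ → ∀ a : Y,
    P.w N.length * (P.al (S N).kind * mass m lab N + P.be (S N).kind * mass m lab (up S N)) +
        (8 * fd m lab N (S N).ctr + (S N).trav * mass m lab N) ≤
      P.w N.length * (P.al κ * mass m lab N + P.be κ * mass m lab (up S N)) +
        8 * fd m lab N a + P.w N.length * pr κ * mass m lab N
  /-- move the centre of a charged node -/
  move : ∀ N ∈ nodes Lab P.I, (S N).kind ≠ Kind.sp → ∀ a : Y,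
    8 * fd m lab N (S N).ctr ≤ 8 * fd m lab N a + dist (S N).ctr a * mass m lab N
  /-- move the centre of the root -/
  root : ∀ a : Y, 8 * fd m lab [] (S []).ctr ≤
    8 * fd m lab [] a + dist (S []).ctr a * mass m lab []
  /-- spine to charged -/
  charge : ∀ N ∈ nodes Lab P.I, (S N).kind = Kind.sp → ∀ a : List Lab → Y,
    P.w N.length * (P.A' * (mass m lab (up S N) - mass m lab N)) ≤
      open Classical in ∑ H ∈ (nodes Lab P.I).filter (fun H => N <:+ H),
        (P.w H.length * (2 * P.A) * mass m lab H + 8 * fd m lab H (a H))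
  /-- charged to spine -/
  spine : ∀ N ∈ nodes Lab P.I, (S N).kind ≠ Kind.sp → ∀ a : List Lab → Y,
    P.w N.length * (P.A * mass m lab N) ≤
      P.w N.length * (P.A' * (mass m lab (up S N) - mass m lab N)) +
      open Classical in ∑ H ∈ (nodes Lab P.I).filter (fun H => N <:+ H ∧ N ≠ H),
        (P.w H.length * (2 * P.A) * mass m lab H + 8 * fd m lab H (a H))

/-- Invariants of the states. -/
structure Inv (n : ℕ) (S : St Y Lab) : Prop where
  kinds : ∀ N ∈ nodes Lab P.I, P.ok (S N).kind
  trav : ∀ N, 0 ≤ (S N).trav
  birth : ∀ N, (S N).birth ≤ n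

/-- The key distance: total weight of the depths where the nodes differ. -/
noncomputable def dk (u v : ℕ → Lab) : ℝ :=
  open Classical in ∑ j ∈ range P.I, if key u (j + 1) = key v (j + 1) then 0 else P.w (j + 1)

/-- Re-initialisation of the nodes which do not satisfy `keep`; `g` gives the new centres. -/
noncomputable def reinit (now : ℕ) (keep : List Lab → Prop) (g : List Lab → Y) (S : St Y Lab) :
    St Y Lab := fun N =>
  open Classical in
  if N = [] ∨ keep N then S N else ⟨Kind.inf, now, g N, 0⟩

end Static

end Crest.Agent.R314.C
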