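import Crest.Agent.R314.C0

/-!
R314, module C, block C1 (helper477), part 1: basic facts on masses, `Phi`, `Price`, finiteness of
the set of admissible states and existence of a minimiser.
-/

set_option autoImplicit false
set_option linter.unusedSectionVars false

namespace Crest.Agent.R314.C.Ex

open Finset

section Basic

variable {Y Lab : Type*} [Fintype Y] [MetricSpace Y] [Fintype Lab] (P : Par)

theorem _root_.Crest.Agent.R314.C.Par.ex_B_pos : 0 < P.B := by linarith [P.hB]

theorem _root_.Crest.Agent.R314.C.Par.ex_w_pos (j : ℕ) : 0 < P.w j := by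
  have := P.ex_B_pos
  have := P.hW
  unfold Par.w
  positivity

theorem _root_.Crest.Agent.R314.C.Par.ex_w_succ (j : ℕ) : P.w j = P.B * P.w (j + 1) := by
  have := P.ex_B_pos
  unfold Par.w
  rw [pow_succ]
  field_simp

theorem _root_.Crest.Agent.R314.C.Par.ex_w_succ_le (j : ℕ) : 64 * P.w (j + 1) ≤ P.w j := by
  rw [P.ex_w_succ j]
  exact mul_le_mul_of_nonneg_right P.hB (P.ex_w_pos _).le

theorem _root_.Crest.Agent.R314.C.Par.ex_w_anti {i j : ℕ} (h : i ≤ j) : P.w j ≤ P.w i := by
  induction j, h using Nat.le_induction with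
  | base => exact le_rfl
  | succ j _ ih => linarith [P.ex_w_succ_le j, P.ex_w_pos (j + 1)]

theorem _root_.Crest.Agent.R314.C.Par.ex_A_ge : 17 ≤ P.A := by unfold Par.A; linarith [P.hCG]

theorem _root_.Crest.Agent.R314.C.Par.ex_A_pos : 0 < P.A := by linarith [P.ex_A_ge]

theorem _root_.Crest.Agent.R314.C.Par.ex_Q_pos : 0 < P.Q := by unfold Par.Q; linarith [P.hCG, P.ex_A_ge]

theorem _root_.Crest.Agent.R314.C.Par.ex_A'_pos : 0 < P.A' := by unfold Par.A'; linarith [P.ex_Q_pos]

theorem eta_pos (c : ℕ) : 0 < eta c := by unfold eta; positivity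

theorem eta_ge (c : ℕ) : 16 ≤ eta c := by
  unfold eta
  have : (1 : ℝ) ≤ 2 ^ c := one_le_pow₀ (by norm_num)
  linarith

theorem eta_succ (c : ℕ) : eta (c + 1) = 2 * eta c := by unfold eta; rw [pow_succ]; ring

theorem _root_.Crest.Agent.R314.C.Par.ex_al_ge {κ : Kind} (h : κ ≠ Kind.sp) : P.A ≤ P.al κ := by
  have hA := P.ex_A_pos
  rcases κ with _ | _ | c
  · exact absurd rfl h
  · show P.A ≤ 2 * P.A; linarith
  · show P.A ≤ P.A * (2 - (1 / 2) ^ c)
    have : ((1 : ℝ) / 2) ^ c ≤ 1 := pow_le_one₀ (by norm_num) (by norm_num)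
    nlinarith

theorem _root_.Crest.Agent.R314.C.Par.ex_al_le {κ : Kind} (h : κ ≠ Kind.sp) : P.al κ ≤ 2 * P.A := by
  have hA := P.ex_A_pos
  rcases κ with _ | _ | c
  · exact absurd rfl h
  · exact le_rfl
  · show P.A * (2 - (1 / 2) ^ c) ≤ 2 * P.A
    have : (0 : ℝ) < (1 / 2) ^ c := by positivity
    nlinarith

theorem _root_.Crest.Agent.R314.C.Par.ex_be_nonneg (κ : Kind) : 0 ≤ P.be κ := by
  have hA := P.ex_A_pos
  rcases κ with _ | _ | c
  · exact P.ex_A'_pos.le
  · exact le_rfl
  · show 0 ≤ P.A / 8 * (1 / 2) ^ c * Real.exp (-eta c / 4)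
    positivity

theorem pr_nonneg (κ : Kind) : 0 ≤ pr κ := by
  rcases κ with _ | _ | c
  · exact le_rfl
  · exact le_rfl
  · show 0 ≤ 3 / (4 * eta c)
    have := eta_pos c
    positivity

variable {P}
variable {m : Y → ℝ} {lab : Y → ℕ → Lab}

theorem mass_nonneg (hm : ∀ x, 0 ≤ m x) (N : List Lab) : 0 ≤ mass m lab N := by
  classical
  unfold mass
  exact sum_nonneg fun x _ => by split_ifs <;> [exact hm x; exact le_rfl]

theorem fd_nonneg (hm : ∀ x, 0 ≤ m x) (N : List Lab) (a : Y) : 0 ≤ fd m lab N a := by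
  classical
  unfold fd
  exact sum_nonneg fun x _ => by
    split_ifs <;> [exact mul_nonneg (hm x) dist_nonneg; exact le_rfl]

/-- Masses decrease along the tree. -/
theorem mass_anti (hm : ∀ x, 0 ≤ m x) {N H : List Lab} (h : N <:+ H) :
    mass m lab H ≤ mass m lab N := by
  classical
  unfold mass
  refine sum_le_sum fun x _ => ?_
  by_cases hx : Mem lab x H
  · rw [if_pos hx, if_pos (hx.anc h)]
  · rw [if_neg hx]
    split_ifs <;> [exact hm x; exact le_rfl]

theorem mass_le_up (hm : ∀ x, 0 ≤ m x) (S : St Y Lab) (N : List Lab) :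
    mass m lab N ≤ mass m lab (up S N) := mass_anti hm (up_suffix S N)

theorem mass_nil : mass m lab ([] : List Lab) = ∑ x, m x := by
  classical
  unfold mass
  exact sum_congr rfl fun x _ => if_pos (mem_nil lab x)

theorem fd_le (hm : ∀ x, 0 ≤ m x) (N : List Lab) (a b : Y) :
    fd m lab N a ≤ fd m lab N b + dist a b * mass m lab N := by
  classical
  unfold fd mass
  rw [mul_sum, ← sum_add_distrib]
  refine sum_le_sum fun x _ => ?_
  by_cases hx : Mem lab x N
  · simp only [if_pos hx]
    have := dist_triangle x b a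
    rw [dist_comm b a] at this
    have := mul_le_mul_of_nonneg_left this (hm x)
    linarith
  · simp [if_neg hx]

variable (P)

/-- The potential as a sum over nodes. -/
theorem Phi_eq (S : St Y Lab) (m : Y → ℝ) (lab : Y → ℕ → Lab) :
    Phi P S m lab = 8 * fd m lab [] (S []).ctr + ∑ N ∈ nodes Lab P.I, phiN P S m lab N := by
  classical
  unfold Phi ps
  have h1 : ∀ x : Y, m x * (8 * dist x (S []).ctr + ∑ N ∈ nodes Lab P.I,
      ((if Mem lab x N then P.w N.length * P.al (S N).kind +
        (if (S N).kind = Kind.sp then 0 else 8 * dist x (S N).ctr + (S N).trav) else 0) +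
      (if Mem lab x (up S N) then P.w N.length * P.be (S N).kind else 0))) =
      8 * (m x * dist x (S []).ctr) + ∑ N ∈ nodes Lab P.I,
        m x * ((if Mem lab x N then P.w N.length * P.al (S N).kind +
        (if (S N).kind = Kind.sp then 0 else 8 * dist x (S N).ctr + (S N).trav) else 0) +
      (if Mem lab x (up S N) then P.w N.length * P.be (S N).kind else 0)) := by
    intro x
    rw [mul_add, mul_sum]
    ring
  rw [sum_congr rfl fun x _ => h1 x, sum_add_distrib, ← mul_sum, sum_comm]
  congr 1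
  · unfold fd
    congr 1
    exact sum_congr rfl fun x _ => by rw [if_pos (mem_nil lab x)]
  · refine sum_congr rfl fun N _ => ?_
    unfold phiN mass fd
    rw [mul_sum, mul_sum, ← sum_add_distrib, mul_sum]
    by_cases hk : (S N).kind = Kind.sp
    · simp only [if_pos hk, add_zero]
      refine sum_congr rfl fun x _ => ?_
      by_cases h1 : Mem lab x N <;> by_cases h2 : Mem lab x (up S N) <;> simp [h1, h2] <;> ring
    · simp only [if_neg hk]
      rw [mul_sum, mul_sum, ← sum_add_distrib, ← sum_add_distrib]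
      refine sum_congr rfl fun x _ => ?_
      by_cases h1 : Mem lab x N <;> by_cases h2 : Mem lab x (up S N) <;> simp [h1, h2] <;> ring

/-- The price of one node. -/
noncomputable def prN (S S' : St Y Lab) (m : Y → ℝ) (lab : Y → ℕ → Lab) (N : List Lab) : ℝ :=
  open Classical in
  if (S' N).kind = (S N).kind ∧ (S' N).birth = (S N).birth then 0
    else P.w N.length * pr (S' N).kind * mass m lab N

/-- The price as a sum over nodes. -/
theorem Price_eq (S S' : St Y Lab) (m : Y → ℝ) (lab : Y → ℕ → Lab) :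
    Price P S S' m lab = dist (S []).ctr (S' []).ctr * mass m lab [] +
      ∑ N ∈ nodes Lab P.I, prN P S S' m lab N := by
  classical
  unfold Price prx
  have h1 : ∀ x : Y, m x * (dist (S []).ctr (S' []).ctr + ∑ N ∈ nodes Lab P.I,
    (if Mem lab x N then
      (if (S' N).kind = (S N).kind ∧ (S' N).birth = (S N).birth then 0
        else P.w N.length * pr (S' N).kind) else 0)) =
      dist (S []).ctr (S' []).ctr * m x + ∑ N ∈ nodes Lab P.I, m x *
    (if Mem lab x N then
      (if (S' N).kind = (S N).kind ∧ (S' N).birth = (S N).birth then 0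
        else P.w N.length * pr (S' N).kind) else 0) := by
    intro x
    rw [mul_add, mul_sum]
    ring
  rw [sum_congr rfl fun x _ => h1 x, sum_add_distrib, ← mul_sum, sum_comm, mass_nil]
  congr 1
  refine sum_congr rfl fun N _ => ?_
  unfold prN mass
  by_cases h : (S' N).kind = (S N).kind ∧ (S' N).birth = (S N).birth
  · simp [h]
  · simp only [if_neg h]
    rw [mul_sum]
    refine sum_congr rfl fun x _ => ?_
    by_cases h1 : Mem lab x N <;> simp [h1]
    ring

theorem prN_nonneg (hm : ∀ x, 0 ≤ m x) (S S' : St Y Lab) (N : List Lab) :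
    0 ≤ prN P S S' m lab N := by
  classical
  unfold prN
  split_ifs
  · exact le_rfl
  · exact mul_nonneg (mul_nonneg (P.ex_w_pos _).le (pr_nonneg _)) (mass_nonneg hm N)

theorem phiN_charged_ge (hm : ∀ x, 0 ≤ m x) {S : St Y Lab} {N : List Lab}
    (hN : (S N).kind ≠ Kind.sp) (ht : 0 ≤ (S N).trav) :
    P.w N.length * (P.A * mass m lab N) ≤ phiN P S m lab N := by
  unfold phiN
  rw [if_neg hN]
  have h1 := P.ex_al_ge hN
  have h2 := mass_nonneg (lab := lab) hm N
  have h3 := mass_nonneg (lab := lab) hm (up S N)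
  have h4 := P.ex_be_nonneg (S N).kind
  have h5 := fd_nonneg (lab := lab) hm N (S N).ctr
  have h6 := P.ex_w_pos N.length
  have h7 : P.A * mass m lab N ≤
      P.al (S N).kind * mass m lab N + P.be (S N).kind * mass m lab (up S N) := by
    nlinarith [mul_le_mul_of_nonneg_right h1 h2, mul_nonneg h4 h3]
  have h8 := mul_le_mul_of_nonneg_left h7 h6.le
  have h9 := mul_nonneg ht h2
  linarith

theorem phiN_nonneg (hm : ∀ x, 0 ≤ m x) {S : St Y Lab} {N : List Lab}
    (ht : 0 ≤ (S N).trav) : 0 ≤ phiN P S m lab N := by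
  by_cases hN : (S N).kind = Kind.sp
  · unfold phiN
    rw [if_pos hN, hN]
    show 0 ≤ P.w N.length * (-P.A' * mass m lab N + P.A' * mass m lab (up S N)) + 0
    have h1 := mass_le_up (lab := lab) hm S N
    have h2 := P.ex_A'_pos
    have h3 := P.ex_w_pos N.length
    have h4 : 0 ≤ P.A' * (mass m lab (up S N) - mass m lab N) :=
      mul_nonneg h2.le (by linarith)
    have h5 := mul_nonneg h3.le h4
    linarith
  · refine le_trans ?_ (phiN_charged_ge P hm hN ht)
    exact mul_nonneg (P.ex_w_pos _).le (mul_nonneg P.ex_A_pos.le (mass_nonneg hm N))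

/-! ### Finiteness -/

/-- Admissible states of one node. -/
def Fn (now : ℕ) (a : NS Y) : Set (NS Y) :=
  Set.range (fun y : Y => (⟨a.kind, a.birth, y, a.trav + dist a.ctr y⟩ : NS Y)) ∪
    (fun p : Kind × Y => (⟨p.1, now, p.2, 0⟩ : NS Y)) '' ({κ | P.ok κ} ×ˢ Set.univ)

theorem ok_finite : {κ | P.ok κ}.Finite := by
  apply Set.Finite.subset (s := {Kind.sp, Kind.inf} ∪ (fun c => Kind.fin c) '' Set.Iic P.cm)
  · exact (Set.toFinite _).union ((Set.finite_Iic _).image _)
  · intro κ hκ
    rcases κ with _ | _ | c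
    · left; simp
    · left; simp
    · right; exact ⟨c, hκ, rfl⟩

theorem Fn_finite (now : ℕ) (a : NS Y) : (Fn P now a).Finite :=
  (Set.finite_range _).union (((ok_finite P).prod Set.finite_univ).image _)

/-- Admissible states at time `now` which agree with `S0` off the nodes. -/
structure Adm (now : ℕ) (S0 S : St Y Lab) : Prop where
  trans : Trans P now S0 S
  off : ∀ N, N ≠ [] → N ∉ nodes Lab P.I → S N = S0 N

theorem Adm.mem_Fn {now : ℕ} {S0 S : St Y Lab} (h : Adm P now S0 S)
    (hk : ∀ N ∈ nodes Lab P.I, P.ok (S0 N).kind) {N : List Lab} (hN : N ∈ nodes Lab P.I) :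
    S N ∈ Fn P now (S0 N) := by
  rcases h.trans.node N hN with h1 | h1
  · left
    refine ⟨(S N).ctr, ?_⟩
    rcases hS : S N with ⟨κ, b, y, t⟩
    rw [hS] at h1
    simp only at h1 ⊢
    rw [h1.1, h1.2.1, h1.2.2]
  · right
    refine ⟨((S N).kind, (S N).ctr), ⟨h.trans.kinds N hN (hk N hN), Set.mem_univ _⟩, ?_⟩
    rcases hS : S N with ⟨κ, b, y, t⟩
    rw [hS] at h1
    simp only at h1 ⊢
    rw [h1.1, h1.2]

theorem adm_finite (now : ℕ) (S0 : St Y Lab) (hk : ∀ N ∈ nodes Lab P.I, P.ok (S0 N).kind) :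
    {S | Adm P now S0 S}.Finite := by
  classical
  set D : Finset (List Lab) := insert [] (nodes Lab P.I) with hD
  set F : D → Set (NS Y) := fun N => if N.1 = [] then
    Set.range (fun y : Y => (⟨(S0 []).kind, (S0 []).birth, y, (S0 []).trav + dist (S0 []).ctr y⟩ :
      NS Y)) else Fn P now (S0 N.1) with hF
  have hFfin : ∀ N, (F N).Finite := by
    intro N
    rw [hF]
    simp only
    split_ifs
    · exact Set.finite_range _
    · exact Fn_finite P now _
  have h1 := Set.Finite.pi' hFfin
  apply (h1.image (fun f : D → NS Y => fun N => if h : N ∈ D then f ⟨N, h⟩ else S0 N)).subset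
  intro S hS
  refine ⟨fun N => S N.1, ?_, ?_⟩
  · rintro ⟨N, hN⟩
    rw [hF]
    simp only
    by_cases h0 : N = []
    · rw [if_pos h0]
      refine ⟨(S []).ctr, ?_⟩
      subst h0
      have hr := hS.trans.root
      rcases hSS : S [] with ⟨κ, b, y, t⟩
      rw [hSS] at hr
      simp only at hr ⊢
      rw [hr.1, hr.2.1, hr.2.2]
    · rw [if_neg h0]
      rw [hD, mem_insert] at hN
      exact hS.mem_Fn P hk (hN.resolve_left h0)
  · funext N
    by_cases h : N ∈ D
    · simp only [dif_pos h]
    · simp only [dif_neg h]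
      rw [hD, mem_insert, not_or] at h
      exact (hS.off N h.1 h.2).symm

theorem Trans.refl (now : ℕ) (S : St Y Lab) : Trans P now S S where
  node := fun N _ => Or.inl ⟨rfl, rfl, by rw [dist_self, add_zero]⟩
  kinds := fun N _ h => h
  flip := fun N _ => Or.inl Iff.rfl
  root := ⟨rfl, rfl, by rw [dist_self, add_zero]⟩

theorem Adm.refl (now : ℕ) (S : St Y Lab) : Adm P now S S :=
  ⟨Trans.refl P now S, fun _ _ _ => rfl⟩

/-- A minimiser of potential plus price. -/
theorem exists_adm_min (now : ℕ) (S0 : St Y Lab) (hk : ∀ N ∈ nodes Lab P.I, P.ok (S0 N).kind)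
    (m : Y → ℝ) (lab : Y → ℕ → Lab) :
    ∃ S, Adm P now S0 S ∧ ∀ S', Adm P now S0 S' →
      Phi P S m lab + Price P S0 S m lab ≤ Phi P S' m lab + Price P S0 S' m lab := by
  obtain ⟨S, hS, hmin⟩ := Set.exists_min_image {S | Adm P now S0 S}
    (fun S => Phi P S m lab + Price P S0 S m lab) (adm_finite P now S0 hk)
    ⟨S0, Adm.refl P now S0⟩
  exact ⟨S, hS, fun S' hS' => hmin S' hS'⟩

end Basic

end Crest.Agent.R314.C.Ex
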