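import Crest.Agent.R314.C1_1

/-!
R314, module C, block C1 (helper477), part 2: a minimiser of potential plus price is stuck.
-/

set_option autoImplicit false
set_option linter.unusedSectionVars false

namespace Crest.Agent.R314.C.Ex

open Finset

section Stuck

variable {Y Lab : Type*} [Fintype Y] [MetricSpace Y] [Fintype Lab] (P : Par)

theorem up_congr {S S' : St Y Lab} {N : List Lab}
    (h : ∀ M, M <:+ N → M ≠ N → ((S M).kind = Kind.sp ↔ (S' M).kind = Kind.sp)) :
    up S N = up S' N := by
  induction N with
  | nil => rfl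
  | cons a N ih =>
    have h1 := h N (List.suffix_cons a N) (fun e => by
      have := congrArg List.length e
      simp at this)
    have h2 : up S N = up S' N := ih fun M hM hne =>
      h M (hM.trans (List.suffix_cons a N)) (fun e => by
        have := hM.length_le
        rw [e, List.length_cons] at this
        omega)
    rw [up_cons, up_cons]
    by_cases h3 : (S N).kind = Kind.sp
    · rw [if_pos h3, if_pos (h1.1 h3), h2]
    · rw [if_neg h3, if_neg (fun h4 => h3 (h1.2 h4))]

variable {P}

theorem trans_mod {now : ℕ} {S0 S : St Y Lab} (hS : Trans P now S0 S) (D : List Lab → Prop)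
    [DecidablePred D] (v : List Lab → NS Y)
    (hv : ∀ N, (v N).birth = now ∧ (v N).trav = 0 ∧ P.ok (v N).kind) (hD0 : ¬ D [])
    (hflip : ∀ N ∈ nodes Lab P.I, ((S N).kind = Kind.sp ↔
      (if D N then v N else S N).kind = Kind.sp) ∨
      ∀ H ∈ nodes Lab P.I, N <:+ H → N ≠ H → D H) :
    Trans P now S0 (fun N => if D N then v N else S N) where
  node N hN := by
    by_cases h : D N
    · simp only [if_pos h]
      exact Or.inr ⟨(hv N).1, (hv N).2.1⟩
    · simp only [if_neg h]
      exact hS.node N hN
  kinds N hN hk := by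
    by_cases h : D N
    · simp only [if_pos h]
      exact (hv N).2.2
    · simp only [if_neg h]
      exact hS.kinds N hN hk
  flip N hN := by
    rcases hflip N hN with h | h
    · rcases hS.flip N hN with h' | h'
      · left
        exact h'.trans h
      · right
        intro H hH h1 h2
        by_cases hD : D H
        · simp only [if_pos hD]; exact (hv H).1
        · simp only [if_neg hD]; exact h' H hH h1 h2
    · right
      intro H hH h1 h2
      simp only [if_pos (h H hH h1 h2)]
      exact (hv H).1
  root := by
    simp only [if_neg hD0]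
    exact hS.root

variable {now : ℕ} {S0 S : St Y Lab} {m : Y → ℝ} {lab : Y → ℕ → Lab}

/-- `S` minimises potential plus price. -/
def IsMin (P : Par) (now : ℕ) (S0 S : St Y Lab) (m : Y → ℝ) (lab : Y → ℕ → Lab) : Prop :=
  ∀ S', Adm P now S0 S' →
      Phi P S m lab + Price P S0 S m lab ≤ Phi P S' m lab + Price P S0 S' m lab

theorem adm_mod (hS : Adm P now S0 S) (D : List Lab → Prop)
    [DecidablePred D] (v : List Lab → NS Y) (hDn : ∀ N, D N → N ∈ nodes Lab P.I)
    (hv : ∀ N, (v N).birth = now ∧ (v N).trav = 0 ∧ P.ok (v N).kind)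
    (hflip : ∀ N ∈ nodes Lab P.I, ((S N).kind = Kind.sp ↔
      (if D N then v N else S N).kind = Kind.sp) ∨
      ∀ H ∈ nodes Lab P.I, N <:+ H → N ≠ H → D H) :
    Adm P now S0 (fun N => if D N then v N else S N) where
  trans := trans_mod hS.trans D v hv (fun h => (mem_nodes.1 (hDn [] h)).1 rfl) hflip
  off N h1 h2 := by
    rw [if_neg (fun h => h2 (hDn N h))]
    exact hS.off N h1 h2

/-- Comparison with a modified state: only the modified nodes matter. -/
theorem min_mod (hS : Adm P now S0 S) (hmin : IsMin P now S0 S m lab) (D : List Lab → Prop)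
    [DecidablePred D] (v : List Lab → NS Y) (hDn : ∀ N, D N → N ∈ nodes Lab P.I)
    (hv : ∀ N, (v N).birth = now ∧ (v N).trav = 0 ∧ P.ok (v N).kind)
    (hflip : ∀ N ∈ nodes Lab P.I, ((S N).kind = Kind.sp ↔
      (if D N then v N else S N).kind = Kind.sp) ∨
      ∀ H ∈ nodes Lab P.I, N <:+ H → N ≠ H → D H)
    (hup : ∀ N ∈ nodes Lab P.I, ¬ D N → up (fun N => if D N then v N else S N) N = up S N) :
    ∑ N ∈ (nodes Lab P.I).filter D, (phiN P S m lab N + prN P S0 S m lab N) ≤
      ∑ N ∈ (nodes Lab P.I).filter D, (phiN P (fun N => if D N then v N else S N) m lab N +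
        prN P S0 (fun N => if D N then v N else S N) m lab N) := by
  classical
  set S' : St Y Lab := fun N => if D N then v N else S N with hS'
  have h1 := hmin S' (adm_mod hS D v hDn hv hflip)
  rw [Phi_eq, Phi_eq, Price_eq, Price_eq] at h1
  have h0 : S' [] = S [] := by
    rw [hS']
    simp only
    rw [if_neg (fun h => (mem_nodes.1 (hDn [] h)).1 rfl)]
  rw [h0] at h1
  have h2 : ∑ N ∈ nodes Lab P.I, (phiN P S m lab N + prN P S0 S m lab N) ≤
      ∑ N ∈ nodes Lab P.I, (phiN P S' m lab N + prN P S0 S' m lab N) := by
    rw [sum_add_distrib, sum_add_distrib]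
    linarith
  rw [← sum_filter_add_sum_filter_not (nodes Lab P.I) D (fun N => phiN P S m lab N + _),
    ← sum_filter_add_sum_filter_not (nodes Lab P.I) D (fun N => phiN P S' m lab N + _)] at h2
  have h3 : ∑ N ∈ (nodes Lab P.I).filter (fun N => ¬ D N), (phiN P S m lab N + prN P S0 S m lab N) =
      ∑ N ∈ (nodes Lab P.I).filter (fun N => ¬ D N),
        (phiN P S' m lab N + prN P S0 S' m lab N) := by
    refine sum_congr rfl fun N hN => ?_
    rw [mem_filter] at hN
    have e : S' N = S N := by rw [hS']; simp only; rw [if_neg hN.2]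
    unfold phiN prN
    rw [e, hup N hN.1 hN.2]
  linarith

/-- Comparison with one renewed charged node. -/
theorem stuck_renew (hS : Adm P now S0 S) (hmin : IsMin P now S0 S m lab) (hm : ∀ x, 0 ≤ m x)
    {N : List Lab} (hN : N ∈ nodes Lab P.I) (hk : (S N).kind ≠ Kind.sp) {κ : Kind}
    (hκ : κ ≠ Kind.sp) (hok : P.ok κ) (a : Y) :
    P.w N.length * (P.al (S N).kind * mass m lab N + P.be (S N).kind * mass m lab (up S N)) +
        (8 * fd m lab N (S N).ctr + (S N).trav * mass m lab N) ≤
      P.w N.length * (P.al κ * mass m lab N + P.be κ * mass m lab (up S N)) +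
        8 * fd m lab N a + P.w N.length * pr κ * mass m lab N := by
  classical
  set D : List Lab → Prop := fun H => H = N with hD
  set v : List Lab → NS Y := fun _ => ⟨κ, now, a, 0⟩ with hv
  have hsp : ∀ H : List Lab, ((S H).kind = Kind.sp ↔
      (if D H then v H else S H).kind = Kind.sp) := by
    intro H
    by_cases h : D H
    · rw [if_pos h]
      have h' : H = N := h
      subst h'
      exact ⟨fun e => absurd e hk, fun e => absurd e hκ⟩
    · rw [if_neg h]
  have h1 := min_mod hS hmin D v (fun H h => by
      have h' : H = N := h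
      rw [h']; exact hN)
    (fun _ => ⟨rfl, rfl, hok⟩) (fun H _ => Or.inl (hsp H))
    (fun H _ _ => (up_congr fun M _ _ => hsp M).symm)
  have h2 : (nodes Lab P.I).filter D = {N} := by
    ext H
    rw [mem_filter, mem_singleton]
    constructor
    · exact fun h => h.2
    · rintro rfl; exact ⟨hN, rfl⟩
  rw [h2, sum_singleton, sum_singleton] at h1
  have h3 := prN_nonneg P (lab := lab) hm S0 S N
  have h4 : prN P S0 (fun H => if D H then v H else S H) m lab N ≤
      P.w N.length * pr κ * mass m lab N := by
    have h5 : 0 ≤ P.w N.length * pr κ * mass m lab N :=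
      mul_nonneg (mul_nonneg (P.ex_w_pos _).le (pr_nonneg _)) (mass_nonneg hm N)
    unfold prN
    have e : (if D N then v N else S N) = ⟨κ, now, a, 0⟩ := if_pos rfl
    simp only [e]
    split_ifs
    · exact h5
    · exact le_rfl
  have h6 : phiN P (fun H => if D H then v H else S H) m lab N =
      P.w N.length * (P.al κ * mass m lab N + P.be κ * mass m lab (up S N)) +
        8 * fd m lab N a := by
    unfold phiN
    have e : (if D N then v N else S N) = ⟨κ, now, a, 0⟩ := if_pos rfl
    rw [(up_congr fun M _ _ => hsp M : up S N = up (fun H => if D H then v H else S H) N).symm]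
    simp only [e]
    rw [if_neg hκ]
    ring
  have h7 : phiN P S m lab N =
      P.w N.length * (P.al (S N).kind * mass m lab N + P.be (S N).kind * mass m lab (up S N)) +
        (8 * fd m lab N (S N).ctr + (S N).trav * mass m lab N) := by
    unfold phiN
    rw [if_neg hk]
  linarith

theorem suffix_antisymm {N H : List Lab} (h1 : N <:+ H) (h2 : H <:+ N) : N = H :=
  h1.eq_of_length (le_antisymm h1.length_le h2.length_le)

/-- Comparison with a spine node turned into a charged one. -/
theorem stuck_charge (hS : Adm P now S0 S) (hmin : IsMin P now S0 S m lab) (hm : ∀ x, 0 ≤ m x)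
    (htr : ∀ N, 0 ≤ (S N).trav)
    {N : List Lab} (hN : N ∈ nodes Lab P.I) (hk : (S N).kind = Kind.sp) (a : List Lab → Y) :
    P.w N.length * (P.A' * (mass m lab (up S N) - mass m lab N)) ≤
      open Classical in ∑ H ∈ (nodes Lab P.I).filter (fun H => N <:+ H),
        (P.w H.length * (2 * P.A) * mass m lab H + 8 * fd m lab H (a H)) := by
  classical
  set D : List Lab → Prop := fun H => H ∈ nodes Lab P.I ∧ N <:+ H with hD
  set v : List Lab → NS Y := fun H => ⟨Kind.inf, now, a H, 0⟩ with hv
  have hsp : ∀ H : List Lab, ¬ N <:+ H → ((S H).kind = Kind.sp ↔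
      (if D H then v H else S H).kind = Kind.sp) := by
    intro H hH
    rw [if_neg (fun h => hH h.2)]
  have h1 := min_mod hS hmin D v (fun H h => h.1)
    (fun _ => ⟨rfl, rfl, trivial⟩) (fun H hH => by
      by_cases h : N <:+ H
      · right
        intro K hK h1 _
        exact ⟨hK, h.trans h1⟩
      · left
        exact hsp H h)
    (fun H hH h => by
      apply (up_congr fun M hM _ => (hsp M fun h' => h ⟨hH, h'.trans hM⟩)).symm)
  have e1 : (nodes Lab P.I).filter D = (nodes Lab P.I).filter (fun H => N <:+ H) := by
    apply filter_congr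
    intro H hH
    exact ⟨fun h => h.2, fun h => ⟨hH, h⟩⟩
  rw [e1] at h1
  have h2 : phiN P S m lab N ≤
      ∑ H ∈ (nodes Lab P.I).filter (fun H => N <:+ H), (phiN P S m lab H + prN P S0 S m lab H) := by
    have h3 : phiN P S m lab N ≤ phiN P S m lab N + prN P S0 S m lab N := by
      linarith [prN_nonneg P (lab := lab) hm S0 S N]
    refine h3.trans (single_le_sum (f := fun H => phiN P S m lab H + prN P S0 S m lab H)
      (fun H _ => add_nonneg (phiN_nonneg P hm (htr H)) (prN_nonneg P hm S0 S H)) ?_)
    rw [mem_filter]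
    exact ⟨hN, List.suffix_rfl⟩
  have h3 : P.w N.length * (P.A' * (mass m lab (up S N) - mass m lab N)) ≤ phiN P S m lab N := by
    unfold phiN
    rw [if_pos hk, hk]
    show _ ≤ P.w N.length * (-P.A' * mass m lab N + P.A' * mass m lab (up S N)) + 0
    apply le_of_eq
    ring
  refine h3.trans (h2.trans (h1.trans (sum_le_sum fun H hH => ?_)))
  rw [mem_filter] at hH
  have e : (if D H then v H else S H) = ⟨Kind.inf, now, a H, 0⟩ := if_pos hH
  have h4 : prN P S0 (fun H => if D H then v H else S H) m lab H ≤ 0 := by
    unfold prN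
    simp only [e]
    split_ifs
    · exact le_rfl
    · show P.w H.length * 0 * mass m lab H ≤ 0
      simp
  have h5 : phiN P (fun H => if D H then v H else S H) m lab H =
      P.w H.length * (2 * P.A) * mass m lab H + 8 * fd m lab H (a H) := by
    unfold phiN
    simp only [e]
    rw [if_neg (by simp)]
    show P.w H.length * (2 * P.A * mass m lab H + 0 * _) + (8 * fd m lab H (a H) + 0 * _) = _
    ring
  linarith

/-- Comparison with a charged node turned into a spine node. -/
theorem stuck_spine (hS : Adm P now S0 S) (hmin : IsMin P now S0 S m lab) (hm : ∀ x, 0 ≤ m x)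
    (htr : ∀ N, 0 ≤ (S N).trav)
    {N : List Lab} (hN : N ∈ nodes Lab P.I) (hk : (S N).kind ≠ Kind.sp) (a : List Lab → Y) :
    P.w N.length * (P.A * mass m lab N) ≤
      P.w N.length * (P.A' * (mass m lab (up S N) - mass m lab N)) +
      open Classical in ∑ H ∈ (nodes Lab P.I).filter (fun H => N <:+ H ∧ N ≠ H),
        (P.w H.length * (2 * P.A) * mass m lab H + 8 * fd m lab H (a H)) := by
  classical
  set D : List Lab → Prop := fun H => H ∈ nodes Lab P.I ∧ N <:+ H with hD
  set v : List Lab → NS Y := fun H =>
    ⟨if H = N then Kind.sp else Kind.inf, now, a H, 0⟩ with hv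
  have hsp : ∀ H : List Lab, ¬ N <:+ H → ((S H).kind = Kind.sp ↔
      (if D H then v H else S H).kind = Kind.sp) := by
    intro H hH
    rw [if_neg (fun h => hH h.2)]
  have h1 := min_mod hS hmin D v (fun H h => h.1)
    (fun H => ⟨rfl, rfl, by rw [hv]; simp only; split_ifs <;> trivial⟩) (fun H hH => by
      by_cases h : N <:+ H
      · right
        intro K hK h1 _
        exact ⟨hK, h.trans h1⟩
      · left
        exact hsp H h)
    (fun H hH h => by
      apply (up_congr fun M hM _ => (hsp M fun h' => h ⟨hH, h'.trans hM⟩)).symm)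
  have e1 : (nodes Lab P.I).filter D = insert N
      ((nodes Lab P.I).filter (fun H => N <:+ H ∧ N ≠ H)) := by
    ext H
    rw [mem_filter, mem_insert, mem_filter]
    constructor
    · rintro ⟨h1, _, h2⟩
      by_cases h : H = N
      · exact Or.inl h
      · exact Or.inr ⟨h1, h2, fun h' => h h'.symm⟩
    · rintro (rfl | ⟨h1, h2, _⟩)
      · exact ⟨hN, hN, List.suffix_rfl⟩
      · exact ⟨h1, h1, h2⟩
  have hnot : N ∉ (nodes Lab P.I).filter (fun H => N <:+ H ∧ N ≠ H) := by
    rw [mem_filter]
    rintro ⟨_, _, h⟩
    exact h rfl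
  have h2 : P.w N.length * (P.A * mass m lab N) ≤
      ∑ H ∈ (nodes Lab P.I).filter D, (phiN P S m lab H + prN P S0 S m lab H) := by
    have h3 : P.w N.length * (P.A * mass m lab N) ≤ phiN P S m lab N + prN P S0 S m lab N := by
      linarith [prN_nonneg P (lab := lab) hm S0 S N,
        phiN_charged_ge P (lab := lab) hm hk (htr N)]
    refine h3.trans (single_le_sum (f := fun H => phiN P S m lab H + prN P S0 S m lab H)
      (fun H _ => add_nonneg (phiN_nonneg P hm (htr H)) (prN_nonneg P hm S0 S H)) ?_)
    rw [mem_filter]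
    exact ⟨hN, hN, List.suffix_rfl⟩
  refine h2.trans (h1.trans ?_)
  rw [e1, sum_insert hnot]
  have hpr : ∀ H, H ∈ nodes Lab P.I ∧ N <:+ H →
      prN P S0 (fun H => if D H then v H else S H) m lab H ≤ 0 := by
    intro H hH
    have e : (if D H then v H else S H) = v H := if_pos hH
    unfold prN
    simp only [e]
    split_ifs
    · exact le_rfl
    · rw [hv]
      simp only
      split_ifs
      · show P.w H.length * 0 * mass m lab H ≤ 0
        simp
      · show P.w H.length * 0 * mass m lab H ≤ 0
        simp
  have hupN : up (fun H => if D H then v H else S H) N = up S N := by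
    apply (up_congr fun M hM hne => (hsp M fun h' => hne (suffix_antisymm hM h'))).symm
  apply add_le_add
  · have h3 := hpr N ⟨hN, List.suffix_rfl⟩
    have h4 : phiN P (fun H => if D H then v H else S H) m lab N =
        P.w N.length * (P.A' * (mass m lab (up S N) - mass m lab N)) := by
      have e : (if D N then v N else S N) = ⟨Kind.sp, now, a N, 0⟩ := by
        rw [if_pos (show D N from ⟨hN, List.suffix_rfl⟩), hv]
        simp
      unfold phiN
      rw [hupN]
      simp only [e, if_true]
      show P.w N.length * (-P.A' * mass m lab N + P.A' * mass m lab (up S N)) + 0 = _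
      ring
    linarith
  · refine sum_le_sum fun H hH => ?_
    rw [mem_filter] at hH
    have h3 := hpr H ⟨hH.1, hH.2.1⟩
    have h4 : phiN P (fun H => if D H then v H else S H) m lab H =
        P.w H.length * (2 * P.A) * mass m lab H + 8 * fd m lab H (a H) := by
      have e : (if D H then v H else S H) = ⟨Kind.inf, now, a H, 0⟩ := by
        rw [if_pos (show D H from ⟨hH.1, hH.2.1⟩), hv]
        simp only
        rw [if_neg (fun h => hH.2.2 h.symm)]
      unfold phiN
      simp only [e]
      rw [if_neg (by simp)]
      show P.w H.length * (2 * P.A * mass m lab H + 0 * _) + (8 * fd m lab H (a H) + 0 * _) = _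
      ring
    linarith

end Stuck

end Crest.Agent.R314.C.Ex
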