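import Crest.Agent.R314.C1_2

/-!
R314, module C, block C1 (helper477), part 3: centre moves and existence of a stuck state.
-/

set_option autoImplicit false
set_option linter.unusedSectionVars false
set_option linter.unusedVariables false

namespace Crest.Agent.R314.C.Ex

open Finset

section Stuck

variable {Y Lab : Type*} [Fintype Y] [MetricSpace Y] [Fintype Lab] {P : Par}
variable {now : ℕ} {S0 S : St Y Lab} {m : Y → ℝ} {lab : Y → ℕ → Lab}

/-- Comparison with another centre of a charged node. -/
theorem stuck_move (hS : Adm P now S0 S) (hmin : IsMin P now S0 S m lab) (hm : ∀ x, 0 ≤ m x)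
    {N : List Lab} (hN : N ∈ nodes Lab P.I) (hk : (S N).kind ≠ Kind.sp) (a : Y) :
    8 * fd m lab N (S N).ctr ≤ 8 * fd m lab N a + dist (S N).ctr a * mass m lab N := by
  classical
  set t : ℝ := if (S N).kind = (S0 N).kind ∧ (S N).birth = (S0 N).birth ∧
    (S N).trav = (S0 N).trav + dist (S0 N).ctr (S N).ctr then
    (S0 N).trav + dist (S0 N).ctr a else 0 with ht
  set b : NS Y := ⟨(S N).kind, (S N).birth, a, t⟩ with hb
  set S' : St Y Lab := fun H => if H = N then b else S H with hS'
  have hN0 : N ≠ [] := (mem_nodes.1 hN).1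
  have hkind : ∀ H, (S' H).kind = (S H).kind := by
    intro H
    rw [hS']; simp only
    by_cases h : H = N
    · rw [if_pos h, h]
    · rw [if_neg h]
  have hbirth : ∀ H, (S' H).birth = (S H).birth := by
    intro H
    rw [hS']; simp only
    by_cases h : H = N
    · rw [if_pos h, h]
    · rw [if_neg h]
  have hup : ∀ H, up S' H = up S H := fun H => up_congr fun M _ _ => by rw [hkind]
  have hSN : S' N = b := if_pos rfl
  have hSne : ∀ H, H ≠ N → S' H = S H := fun H h => if_neg h
  have hS0 : S' [] = S [] := hSne _ (fun h => hN0 h.symm)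
  have htle : t ≤ (S N).trav + dist (S N).ctr a := by
    rcases hS.trans.node N hN with h | h
    · rw [ht, if_pos h, h.2.2]
      linarith [dist_triangle (S0 N).ctr (S N).ctr a]
    · rw [ht]
      split_ifs with h1
      · rw [h1.2.2]
        linarith [dist_triangle (S0 N).ctr (S N).ctr a]
      · rw [h.2]
        linarith [dist_nonneg (x := (S N).ctr) (y := a)]
  have hadm : Adm P now S0 S' := by
    refine ⟨⟨?_, ?_, ?_, ?_⟩, ?_⟩
    · intro H hH
      by_cases h : H = N
      · subst h
        rw [hSN]
        by_cases h1 : (S H).kind = (S0 H).kind ∧ (S H).birth = (S0 H).birth ∧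
          (S H).trav = (S0 H).trav + dist (S0 H).ctr (S H).ctr
        · left
          exact ⟨h1.1, h1.2.1, by rw [hb]; simp only; rw [ht, if_pos h1]⟩
        · right
          rcases hS.trans.node H hH with h | h
          · exact absurd h h1
          · exact ⟨h.1, by rw [hb]; simp only; rw [ht, if_neg h1]⟩
      · rw [hSne H h]
        exact hS.trans.node H hH
    · intro H hH
      rw [hkind]
      exact hS.trans.kinds H hH
    · intro H hH
      rw [hkind]
      rcases hS.trans.flip H hH with h | h
      · exact Or.inl h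
      · exact Or.inr fun K hK h1 h2 => by rw [hbirth]; exact h K hK h1 h2
    · rw [hS0]; exact hS.trans.root
    · intro H h1 h2
      rw [hSne H (fun h => h2 (h ▸ hN))]
      exact hS.off H h1 h2
  have h1 := hmin S' hadm
  rw [Phi_eq, Phi_eq, Price_eq, Price_eq, hS0] at h1
  have hpr : ∀ H, prN P S0 S' m lab H = prN P S0 S m lab H := by
    intro H
    unfold prN
    rw [hkind, hbirth]
  rw [sum_congr rfl fun H _ => hpr H] at h1
  have h2 : ∑ H ∈ nodes Lab P.I, phiN P S m lab H ≤ ∑ H ∈ nodes Lab P.I, phiN P S' m lab H := by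
    linarith
  rw [← add_sum_erase _ _ hN, ← add_sum_erase _ (fun H => phiN P S' m lab H) hN] at h2
  have h3 : ∑ H ∈ (nodes Lab P.I).erase N, phiN P S' m lab H =
      ∑ H ∈ (nodes Lab P.I).erase N, phiN P S m lab H := by
    refine sum_congr rfl fun H hH => ?_
    unfold phiN
    rw [hup, hSne H (ne_of_mem_erase hH)]
  rw [h3] at h2
  have h4 : phiN P S m lab N ≤ phiN P S' m lab N := by linarith
  unfold phiN at h4
  rw [hup, hSN, if_neg hk, if_neg (show ¬ b.kind = Kind.sp from hk)] at h4
  have h5 := mul_le_mul_of_nonneg_right htle (mass_nonneg (lab := lab) hm N)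
  have e1 : b.kind = (S N).kind := rfl
  have e2 : b.ctr = a := rfl
  have e3 : b.trav = t := rfl
  rw [e1, e2, e3] at h4
  linarith

/-- Comparison with another centre of the root. -/
theorem stuck_root (hS : Adm P now S0 S) (hmin : IsMin P now S0 S m lab) (hm : ∀ x, 0 ≤ m x)
    (a : Y) : 8 * fd m lab [] (S []).ctr ≤
    8 * fd m lab [] a + dist (S []).ctr a * mass m lab [] := by
  classical
  set b : NS Y := ⟨(S []).kind, (S []).birth, a, (S0 []).trav + dist (S0 []).ctr a⟩ with hb
  set S' : St Y Lab := fun H => if H = [] then b else S H with hS'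
  have hkind : ∀ H, (S' H).kind = (S H).kind := by
    intro H
    rw [hS']; simp only
    by_cases h : H = []
    · rw [if_pos h, h]
    · rw [if_neg h]
  have hup : ∀ H, up S' H = up S H := fun H => up_congr fun M _ _ => by rw [hkind]
  have hSN : S' [] = b := if_pos rfl
  have hSne : ∀ H, H ≠ [] → S' H = S H := fun H h => if_neg h
  have hadm : Adm P now S0 S' := by
    refine ⟨⟨?_, ?_, ?_, ?_⟩, ?_⟩
    · intro H hH
      rw [hSne H (mem_nodes.1 hH).1]
      exact hS.trans.node H hH
    · intro H hH
      rw [hkind]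
      exact hS.trans.kinds H hH
    · intro H hH
      rw [hkind]
      rcases hS.trans.flip H hH with h | h
      · exact Or.inl h
      · exact Or.inr fun K hK h1 h2 => by
          rw [hSne K (mem_nodes.1 hK).1]; exact h K hK h1 h2
    · rw [hSN]
      exact ⟨hS.trans.root.1, hS.trans.root.2.1, rfl⟩
    · intro H h1 h2
      rw [hSne H h1]
      exact hS.off H h1 h2
  have h1 := hmin S' hadm
  rw [Phi_eq, Phi_eq, Price_eq, Price_eq, hSN] at h1
  have hpr : ∀ H ∈ nodes Lab P.I, prN P S0 S' m lab H = prN P S0 S m lab H := by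
    intro H hH
    unfold prN
    rw [hSne H (mem_nodes.1 hH).1]
  have hph : ∀ H ∈ nodes Lab P.I, phiN P S' m lab H = phiN P S m lab H := by
    intro H hH
    unfold phiN
    rw [hup, hSne H (mem_nodes.1 hH).1]
  rw [sum_congr rfl hpr, sum_congr rfl hph] at h1
  have e2 : b.ctr = a := rfl
  rw [e2] at h1
  have h5 := mul_le_mul_of_nonneg_right (dist_triangle (S0 []).ctr (S []).ctr a)
    (mass_nonneg (lab := lab) hm [])
  linarith

/-- A minimiser is stuck. -/
theorem stuck_of_min (hS : Adm P now S0 S) (hmin : IsMin P now S0 S m lab) (hm : ∀ x, 0 ≤ m x)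
    (htr : ∀ N, 0 ≤ (S N).trav) : Stuck P S m lab where
  renew N hN hk κ hκ hok a := stuck_renew hS hmin hm hN hk hκ hok a
  move N hN hk a := stuck_move hS hmin hm hN hk a
  root a := stuck_root hS hmin hm a
  charge N hN hk a := stuck_charge hS hmin hm htr hN hk a
  spine N hN hk a := stuck_spine hS hmin hm htr hN hk a

theorem Adm.inv {n : ℕ} (hS : Adm P now S0 S) (hI : Inv P n S0) (hn : n ≤ now) :
    Inv P now S := by
  have hnode : ∀ N, N ∈ nodes Lab P.I → 0 ≤ (S N).trav ∧ (S N).birth ≤ now := by
    intro N hN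
    rcases hS.trans.node N hN with h | h
    · rw [h.2.2, h.2.1]
      exact ⟨add_nonneg (hI.trav N) dist_nonneg, (hI.birth N).trans hn⟩
    · rw [h.1, h.2]
      exact ⟨le_rfl, le_rfl⟩
  have hroot : 0 ≤ (S []).trav ∧ (S []).birth ≤ now := by
    rw [hS.trans.root.2.2, hS.trans.root.2.1]
    exact ⟨add_nonneg (hI.trav []) dist_nonneg, (hI.birth []).trans hn⟩
  have hall : ∀ N, 0 ≤ (S N).trav ∧ (S N).birth ≤ now := by
    intro N
    by_cases h0 : N = []
    · rw [h0]; exact hroot
    · by_cases h1 : N ∈ nodes Lab P.I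
      · exact hnode N h1
      · rw [hS.off N h0 h1]
        exact ⟨hI.trav N, (hI.birth N).trans hn⟩
  exact ⟨fun N hN => hS.trans.kinds N hN (hI.kinds N hN), fun N => (hall N).1,
    fun N => (hall N).2⟩

/-- **Existence of the updated state.** -/
theorem exists_stuck {n : ℕ} (hI : Inv P n S0) (hn : n ≤ now) (hm : ∀ x, 0 ≤ m x) :
    ∃ S, Adm P now S0 S ∧ Inv P now S ∧ Stuck P S m lab ∧
      Phi P S m lab + Price P S0 S m lab ≤ Phi P S0 m lab := by
  obtain ⟨S, hS, hmin⟩ := exists_adm_min P now S0 hI.kinds m lab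
  have hInv := hS.inv hI hn
  refine ⟨S, hS, hInv, stuck_of_min hS hmin hm hInv.trav, ?_⟩
  have h1 := hmin S0 (Adm.refl P now S0)
  have h2 : Price P S0 S0 m lab = 0 := by
    rw [Price_eq, dist_self, zero_mul, zero_add]
    apply sum_eq_zero
    intro N _
    unfold prN
    rw [if_pos ⟨rfl, rfl⟩]
  linarith

end Stuck

end Crest.Agent.R314.C.Ex
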