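import Crest.Agent.R314.C0

/-!
R314, module C, block C1a: basic API (no `Stuck`).  Author: helper529.
-/

set_option autoImplicit false
set_option linter.unusedSectionVars false

namespace Crest.Agent.R314.C

open Finset Classical

variable {Y Lab : Type*} [Fintype Y] [MetricSpace Y] [Fintype Lab] {P : Par}

theorem mass_nonneg {m : Y → ℝ} (hm : ∀ x, 0 ≤ m x) (lab : Y → ℕ → Lab) (N : List Lab) :
    0 ≤ mass m lab N := by
  unfold mass
  refine sum_nonneg fun x _ => ?_
  split_ifs
  · exact hm x
  · exact le_rfl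

theorem mass_anc {m : Y → ℝ} (hm : ∀ x, 0 ≤ m x) (lab : Y → ℕ → Lab) {N H : List Lab}
    (h : N <:+ H) : mass m lab H ≤ mass m lab N := by
  unfold mass
  refine sum_le_sum fun x _ => ?_
  by_cases h1 : Mem lab x H
  · rw [if_pos h1, if_pos (h1.anc h)]
  · rw [if_neg h1]
    split_ifs
    · exact hm x
    · exact le_rfl

theorem le_mass {m : Y → ℝ} (hm : ∀ x, 0 ≤ m x) {lab : Y → ℕ → Lab} {N : List Lab} {x : Y}
    (h : Mem lab x N) : m x ≤ mass m lab N := by
  unfold mass
  have := single_le_sum (f := fun x => if Mem lab x N then m x else 0)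
    (fun y _ => by
      show 0 ≤ (if Mem lab y N then m y else 0)
      split_ifs
      · exact hm y
      · exact le_rfl) (mem_univ x)
  simpa [h] using this

theorem mass_nil (m : Y → ℝ) (lab : Y → ℕ → Lab) : mass m lab [] = ∑ x, m x := by
  unfold mass
  refine sum_congr rfl fun x _ => ?_
  rw [if_pos (mem_nil lab x)]

/-- chain sums -/
theorem sum_mem (lab : Y → ℕ → Lab) (x : Y) (I : ℕ) (f : List Lab → ℝ) :
    ∑ N ∈ nodes Lab I, (if Mem lab x N then f N else 0) =
      ∑ j ∈ range I, f (key (lab x) (j + 1)) := by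
  rw [← sum_filter]
  symm
  refine sum_bij (fun j _ => key (lab x) (j + 1)) ?_ ?_ ?_ ?_
  · intro j hj
    rw [mem_filter, mem_nodes]
    rw [mem_range] at hj
    refine ⟨⟨?_, ?_⟩, mem_key lab x _⟩
    · rw [key_succ]; exact List.cons_ne_nil _ _
    · rw [key_length]; omega
  · intro j _ j' _ h
    have := congrArg List.length h
    rw [key_length, key_length] at this
    omega
  · intro N hN
    rw [mem_filter, mem_nodes] at hN
    obtain ⟨⟨h0, h1⟩, h2⟩ := hN
    have hpos : 0 < N.length := List.length_pos_iff.2 h0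
    refine ⟨N.length - 1, mem_range.2 (by omega), ?_⟩
    have e : N.length - 1 + 1 = N.length := by omega
    show key (lab x) (N.length - 1 + 1) = N
    rw [e]
    exact h2.eq
  · intro j _
    rfl

theorem phiN_eq (P : Par) (S : St Y Lab) (m : Y → ℝ) (lab : Y → ℕ → Lab) (N : List Lab) :
    phiN P S m lab N = ∑ x, m x *
      ((if Mem lab x N then P.w N.length * P.al (S N).kind +
        (if (S N).kind = Kind.sp then 0 else 8 * dist x (S N).ctr + (S N).trav) else 0) +
      (if Mem lab x (up S N) then P.w N.length * P.be (S N).kind else 0)) := by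
  unfold phiN mass fd
  by_cases h : (S N).kind = Kind.sp
  · simp only [h, if_true, add_zero, mul_sum, mul_add]
    rw [← sum_add_distrib]
    refine sum_congr rfl fun x _ => ?_
    by_cases h1 : Mem lab x N <;> by_cases h2 : Mem lab x (up S N) <;> simp [h1, h2] <;> ring
  · simp only [if_neg h, mul_sum, mul_add]
    rw [← sum_add_distrib, ← sum_add_distrib, ← sum_add_distrib]
    refine sum_congr rfl fun x _ => ?_
    by_cases h1 : Mem lab x N <;> by_cases h2 : Mem lab x (up S N) <;> simp [h1, h2] <;> ring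

theorem Phi_eq (P : Par) (S : St Y Lab) (m : Y → ℝ) (lab : Y → ℕ → Lab) :
    Phi P S m lab = 8 * fd m lab [] (S []).ctr + ∑ N ∈ nodes Lab P.I, phiN P S m lab N := by
  simp_rw [phiN_eq]
  unfold Phi ps fd
  rw [sum_comm, mul_sum, ← sum_add_distrib]
  refine sum_congr rfl fun x _ => ?_
  rw [if_pos (mem_nil lab x), mul_add, mul_sum]
  ring

theorem Price_eq (P : Par) (S S' : St Y Lab) (m : Y → ℝ) (lab : Y → ℕ → Lab) :
    Price P S S' m lab = dist (S []).ctr (S' []).ctr * mass m lab [] +
      ∑ N ∈ nodes Lab P.I, (if (S' N).kind = (S N).kind ∧ (S' N).birth = (S N).birth then 0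
        else P.w N.length * pr (S' N).kind * mass m lab N) := by
  have key : ∀ N, (if (S' N).kind = (S N).kind ∧ (S' N).birth = (S N).birth then 0
        else P.w N.length * pr (S' N).kind * mass m lab N) = ∑ x, m x *
      (if Mem lab x N then (if (S' N).kind = (S N).kind ∧ (S' N).birth = (S N).birth then 0
        else P.w N.length * pr (S' N).kind) else 0) := by
    intro N
    unfold mass
    by_cases h : (S' N).kind = (S N).kind ∧ (S' N).birth = (S N).birth
    · simp only [if_pos h, ite_self, mul_zero, sum_const_zero]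
    · simp only [if_neg h, mul_sum]
      refine sum_congr rfl fun x _ => ?_
      by_cases h1 : Mem lab x N
      · simp only [if_pos h1]; ring
      · simp only [if_neg h1]; ring
  simp_rw [key]
  unfold Price prx
  rw [sum_comm, mass_nil, mul_sum, ← sum_add_distrib]
  refine sum_congr rfl fun x _ => ?_
  rw [mul_add, mul_sum]
  ring

theorem fd_le {m : Y → ℝ} (hm : ∀ x, 0 ≤ m x) {lab : Y → ℕ → Lab} (hv : Valid P lab)
    {N : List Lab} (hN : N.length ≤ P.I) {a : Y} (ha : Mem lab a N) :
    fd m lab N a ≤ P.CG * P.w N.length * mass m lab N := by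
  unfold fd mass
  rw [mul_sum]
  refine sum_le_sum fun x _ => ?_
  split_ifs with h
  · have h1 : dist x a ≤ P.CG * P.w N.length := hv.dist_le x a N.length hN (by rw [h.eq, ha.eq])
    have := mul_le_mul_of_nonneg_left h1 (hm x)
    linarith
  · simp

theorem w_pos (P : Par) (j : ℕ) : 0 < P.w j := by
  unfold Par.w
  have h1 := P.hB
  have h2 := P.hW
  positivity

theorem w_succ_le (P : Par) (j : ℕ) : P.w (j + 1) ≤ P.w j / 64 := by
  have h1 := P.hB
  have h2 := w_pos P j
  have h0 : 0 < P.B := by linarith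
  have e : P.w (j + 1) = P.w j / P.B := by
    unfold Par.w
    rw [pow_succ]
    field_simp
  rw [e]
  gcongr

theorem geo_w (P : Par) (n0 I : ℕ) :
    ∑ j ∈ range I, (if n0 ≤ j + 1 then P.w (j + 1) else 0) + 1 / 63 * P.w (max I n0) ≤
      64 / 63 * P.w n0 := by
  induction I with
  | zero =>
    have := w_pos P n0
    simp only [range_zero, sum_empty, Nat.zero_max]
    linarith
  | succ I ih =>
    rw [sum_range_succ]
    by_cases h : n0 ≤ I + 1
    · rw [if_pos h, max_eq_left h]
      rcases Nat.lt_or_ge I n0 with h2 | h2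
      · have e : I + 1 = n0 := by omega
        have h0 : ∑ j ∈ range I, (if n0 ≤ j + 1 then P.w (j + 1) else 0) = 0 := by
          refine sum_eq_zero fun j hj => ?_
          rw [mem_range] at hj
          rw [if_neg (by omega)]
        rw [h0, e]
        linarith
      · rw [max_eq_left h2] at ih
        have := w_succ_le P I
        linarith
    · rw [if_neg h]
      have e1 : max (I + 1) n0 = max I n0 := by omega
      rw [e1]
      linarith

theorem sum_below_aux {m : Y → ℝ} (hm : ∀ x, 0 ≤ m x) (lab : Y → ℕ → Lab) (N : List Lab)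
    (n0 I : ℕ) :
    ∑ H ∈ (nodes Lab I).filter (fun H => N <:+ H ∧ n0 ≤ H.length),
      P.w H.length * mass m lab H ≤ 64 / 63 * (P.w n0 * mass m lab N) := by
  have h1 : ∑ H ∈ (nodes Lab I).filter (fun H => N <:+ H ∧ n0 ≤ H.length),
      P.w H.length * mass m lab H = ∑ x, m x * ∑ H ∈ nodes Lab I,
        (if Mem lab x H then (if N <:+ H ∧ n0 ≤ H.length then P.w H.length else 0) else 0) := by
    unfold mass
    simp_rw [mul_sum]
    rw [sum_comm]
    refine sum_congr rfl fun x _ => ?_
    rw [sum_filter]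
    refine sum_congr rfl fun H _ => ?_
    by_cases h2 : N <:+ H ∧ n0 ≤ H.length
    · simp only [if_pos h2]
      by_cases h3 : Mem lab x H
      · simp only [if_pos h3]; ring
      · simp only [if_neg h3]; ring
    · simp only [if_neg h2, ite_self, mul_zero]
  rw [h1]
  have h4 : 64 / 63 * (P.w n0 * mass m lab N) =
      ∑ x, m x * (if Mem lab x N then 64 / 63 * P.w n0 else 0) := by
    unfold mass
    simp_rw [mul_sum]
    refine sum_congr rfl fun x _ => ?_
    by_cases h3 : Mem lab x N
    · simp only [if_pos h3]; ring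
    · simp only [if_neg h3]; ring
  rw [h4]
  refine sum_le_sum fun x _ => mul_le_mul_of_nonneg_left ?_ (hm x)
  rw [sum_mem]
  by_cases hx : Mem lab x N
  · rw [if_pos hx]
    have h5 := geo_w P n0 I
    have h6 := w_pos P (max I n0)
    refine le_trans (sum_le_sum fun j _ => ?_) (by linarith : ∑ j ∈ range I,
      (if n0 ≤ j + 1 then P.w (j + 1) else 0) ≤ 64 / 63 * P.w n0)
    rw [key_length]
    by_cases h7 : n0 ≤ j + 1
    · rw [if_pos h7]
      split_ifs
      · exact le_rfl
      · exact (w_pos P _).le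
    · rw [if_neg h7, if_neg (fun h => h7 h.2)]
  · rw [if_neg hx]
    refine le_of_eq (sum_eq_zero fun j _ => ?_)
    rw [if_neg]
    intro h
    exact hx ((mem_key lab x (j + 1)).anc h.1)

theorem sum_below {m : Y → ℝ} (hm : ∀ x, 0 ≤ m x) (lab : Y → ℕ → Lab) {N : List Lab}
    (_hN : N ∈ nodes Lab P.I) :
    ∑ H ∈ (nodes Lab P.I).filter (fun H => N <:+ H), P.w H.length * mass m lab H ≤
      64 / 63 * (P.w N.length * mass m lab N) := by
  refine le_trans (le_of_eq ?_) (sum_below_aux hm lab N N.length P.I)
  refine sum_congr (filter_congr fun H _ => ?_) fun _ _ => rfl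
  exact ⟨fun h => ⟨h, h.length_le⟩, fun h => h.1⟩

theorem sum_below' {m : Y → ℝ} (hm : ∀ x, 0 ≤ m x) (lab : Y → ℕ → Lab) {N : List Lab}
    (_hN : N ∈ nodes Lab P.I) :
    ∑ H ∈ (nodes Lab P.I).filter (fun H => N <:+ H ∧ N ≠ H), P.w H.length * mass m lab H ≤
      1 / 63 * (P.w N.length * mass m lab N) := by
  have h1 : ∑ H ∈ (nodes Lab P.I).filter (fun H => N <:+ H ∧ N ≠ H),
      P.w H.length * mass m lab H ≤ 64 / 63 * (P.w (N.length + 1) * mass m lab N) := by
    refine le_trans (le_of_eq ?_) (sum_below_aux hm lab N (N.length + 1) P.I)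
    refine sum_congr (filter_congr fun H _ => ?_) fun _ _ => rfl
    constructor
    · rintro ⟨h, h'⟩
      refine ⟨h, ?_⟩
      rcases Nat.lt_or_ge N.length H.length with h2 | h2
      · exact h2
      · exact absurd (h.eq_of_length (le_antisymm h.length_le h2)) h'
    · rintro ⟨h, h'⟩
      refine ⟨h, ?_⟩
      rintro rfl
      omega
  have h2 := w_succ_le P N.length
  have h3 := mass_nonneg hm lab N
  have h4 : P.w (N.length + 1) * mass m lab N ≤ P.w N.length / 64 * mass m lab N :=
    mul_le_mul_of_nonneg_right h2 h3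
  linarith

end Crest.Agent.R314.C
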