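import Crest.Agent.R314.C0

/-!
R314, module C, block C1b: existence of the update (finite minimisation of potential + price).
-/

set_option autoImplicit false
set_option linter.unusedSectionVars false

namespace Crest.Agent.R314.C

open Finset Classical

variable {Y Lab : Type*} [Fintype Y] [MetricSpace Y] [Fintype Lab] {P : Par}

namespace Upd

theorem mass_nonneg {m : Y → ℝ} (hm : ∀ x, 0 ≤ m x) (lab : Y → ℕ → Lab) (N : List Lab) :
    0 ≤ mass m lab N := by
  unfold mass
  refine Finset.sum_nonneg fun x _ => ?_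
  split_ifs
  · exact hm x
  · exact le_rfl

theorem fd_nonneg {m : Y → ℝ} (hm : ∀ x, 0 ≤ m x) (lab : Y → ℕ → Lab) (N : List Lab) (a : Y) :
    0 ≤ fd m lab N a := by
  unfold fd
  refine Finset.sum_nonneg fun x _ => ?_
  split_ifs
  · exact mul_nonneg (hm x) dist_nonneg
  · exact le_rfl

theorem mass_anc {m : Y → ℝ} (hm : ∀ x, 0 ≤ m x) (lab : Y → ℕ → Lab) {N H : List Lab}
    (h : N <:+ H) : mass m lab H ≤ mass m lab N := by
  unfold mass
  refine Finset.sum_le_sum fun x _ => ?_
  by_cases hH : Mem lab x H
  · rw [if_pos hH, if_pos (hH.anc h)]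
  · rw [if_neg hH]
    split_ifs
    · exact hm x
    · exact le_rfl

theorem w_pos (P : Par) (j : ℕ) : 0 < P.w j := by
  unfold Par.w
  have hB : (0 : ℝ) < P.B := lt_of_lt_of_le (by norm_num) P.hB
  exact div_pos P.hW (pow_pos hB j)

theorem A_pos (P : Par) : 0 < P.A := by
  unfold Par.A
  linarith [P.hCG]

theorem A'_pos (P : Par) : 0 < P.A' := by
  unfold Par.A' Par.Q
  linarith [P.hCG, A_pos P]

theorem le_al (P : Par) {κ : Kind} (h : κ ≠ Kind.sp) : P.A ≤ P.al κ := by
  have hA := A_pos P
  cases κ with
  | sp => exact absurd rfl h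
  | inf => simp only [Par.al]; linarith
  | fin c =>
    simp only [Par.al]
    have h1 : ((1 : ℝ) / 2) ^ c ≤ 1 := pow_le_one₀ (by norm_num) (by norm_num)
    nlinarith

theorem be_nonneg (P : Par) (κ : Kind) : 0 ≤ P.be κ := by
  have hA := A_pos P
  cases κ with
  | sp => exact (A'_pos P).le
  | inf => exact le_rfl
  | fin c =>
    simp only [Par.be]
    positivity

theorem eta_pos (c : ℕ) : 0 < eta c := by
  unfold eta
  positivity

theorem pr_nonneg (κ : Kind) : 0 ≤ pr κ := by
  cases κ with
  | sp => exact le_rfl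
  | inf => exact le_rfl
  | fin c =>
    have := eta_pos c
    simp only [pr]
    positivity

theorem phiN_sp (P : Par) (S : St Y Lab) (m : Y → ℝ) (lab : Y → ℕ → Lab) {N : List Lab}
    (h : (S N).kind = Kind.sp) :
    phiN P S m lab N = P.w N.length * (P.A' * (mass m lab (up S N) - mass m lab N)) := by
  unfold phiN
  rw [if_pos h, h]
  simp only [Par.al, Par.be]
  ring

theorem phiN_ch (P : Par) (S : St Y Lab) (m : Y → ℝ) (lab : Y → ℕ → Lab) {N : List Lab}
    (h : (S N).kind ≠ Kind.sp) :
    phiN P S m lab N =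
      P.w N.length * (P.al (S N).kind * mass m lab N + P.be (S N).kind * mass m lab (up S N)) +
        (8 * fd m lab N (S N).ctr + (S N).trav * mass m lab N) := by
  unfold phiN
  rw [if_neg h]

theorem le_phiN_ch (P : Par) (S : St Y Lab) {m : Y → ℝ} (hm : ∀ x, 0 ≤ m x) (lab : Y → ℕ → Lab)
    {N : List Lab} (h : (S N).kind ≠ Kind.sp) (ht : 0 ≤ (S N).trav) :
    P.w N.length * (P.A * mass m lab N) ≤ phiN P S m lab N := by
  rw [phiN_ch P S m lab h]
  have h1 := mass_nonneg hm lab N
  have h2 := mass_nonneg hm lab (up S N)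
  have h3 := fd_nonneg hm lab N (S N).ctr
  have h4 := le_al P h
  have h5 := be_nonneg P (S N).kind
  have h6 := w_pos P N.length
  have h7 : P.A * mass m lab N ≤
      P.al (S N).kind * mass m lab N + P.be (S N).kind * mass m lab (up S N) := by
    nlinarith [mul_nonneg h5 h2, mul_le_mul_of_nonneg_right h4 h1]
  have h8 := mul_le_mul_of_nonneg_left h7 h6.le
  have h9 := mul_nonneg ht h1
  linarith

theorem phiN_nonneg (P : Par) (S : St Y Lab) {m : Y → ℝ} (hm : ∀ x, 0 ≤ m x)
    (lab : Y → ℕ → Lab) {N : List Lab} (ht : 0 ≤ (S N).trav) : 0 ≤ phiN P S m lab N := by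
  by_cases h : (S N).kind = Kind.sp
  · rw [phiN_sp P S m lab h]
    have h1 := mass_anc hm lab (up_suffix S N)
    exact mul_nonneg (w_pos P _).le (mul_nonneg (A'_pos P).le (by linarith))
  · refine le_trans ?_ (le_phiN_ch P S hm lab h ht)
    exact mul_nonneg (w_pos P _).le (mul_nonneg (A_pos P).le (mass_nonneg hm lab N))

theorem up_congr {S S' : St Y Lab} {N : List Lab}
    (h : ∀ J, J <:+ N → J ≠ N → ((S J).kind = Kind.sp ↔ (S' J).kind = Kind.sp)) :
    up S N = up S' N := by
  induction N with
  | nil => rfl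
  | cons a N ih =>
    have h1 := h N (List.suffix_cons a N) (fun e => by
      have := congrArg List.length e
      simp at this)
    have h2 : up S N = up S' N := ih fun J hJ hne => h J (hJ.trans (List.suffix_cons a N))
      (fun e => by
        have h3 := hJ.length_le
        have := congrArg List.length e
        simp at this
        omega)
    rw [up_cons, up_cons, h2]
    by_cases hk : (S N).kind = Kind.sp
    · rw [if_pos hk, if_pos (h1.1 hk)]
    · rw [if_neg hk, if_neg (fun e => hk (h1.2 e))]

/-- price of one node -/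
noncomputable def prN (P : Par) (S S' : St Y Lab) (m : Y → ℝ) (lab : Y → ℕ → Lab)
    (N : List Lab) : ℝ :=
  if (S' N).kind = (S N).kind ∧ (S' N).birth = (S N).birth then 0
    else P.w N.length * pr (S' N).kind * mass m lab N

theorem prN_nonneg (P : Par) (S S' : St Y Lab) {m : Y → ℝ} (hm : ∀ x, 0 ≤ m x)
    (lab : Y → ℕ → Lab) (N : List Lab) : 0 ≤ prN P S S' m lab N := by
  unfold prN
  split_ifs
  · exact le_rfl
  · exact mul_nonneg (mul_nonneg (w_pos P _).le (pr_nonneg _)) (mass_nonneg hm lab N)

theorem prN_le (P : Par) (S S' : St Y Lab) {m : Y → ℝ} (hm : ∀ x, 0 ≤ m x)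
    (lab : Y → ℕ → Lab) (N : List Lab) :
    prN P S S' m lab N ≤ P.w N.length * pr (S' N).kind * mass m lab N := by
  unfold prN
  split_ifs
  · exact mul_nonneg (mul_nonneg (w_pos P _).le (pr_nonneg _)) (mass_nonneg hm lab N)
  · exact le_rfl

theorem Phi_eq (P : Par) (S : St Y Lab) (m : Y → ℝ) (lab : Y → ℕ → Lab) :
    Phi P S m lab = 8 * fd m lab [] (S []).ctr + ∑ N ∈ nodes Lab P.I, phiN P S m lab N := by
  unfold Phi ps
  simp only [mul_add, Finset.mul_sum]
  rw [Finset.sum_add_distrib]
  congr 1
  · unfold fd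
    rw [Finset.mul_sum]
    refine Finset.sum_congr rfl fun x _ => ?_
    rw [if_pos (mem_nil lab x)]
    ring
  · rw [Finset.sum_comm]
    refine Finset.sum_congr rfl fun N _ => ?_
    unfold phiN mass fd
    by_cases h : (S N).kind = Kind.sp
    · simp only [h, if_true, add_zero]
      rw [mul_add, mul_comm (P.al Kind.sp), mul_comm (P.be Kind.sp), Finset.sum_mul,
        Finset.sum_mul, Finset.mul_sum, Finset.mul_sum, ← Finset.sum_add_distrib]
      refine Finset.sum_congr rfl fun x _ => ?_
      split_ifs <;> ring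
    · simp only [h, if_false]
      rw [mul_add, mul_comm (P.al _), mul_comm (P.be _), Finset.sum_mul,
        Finset.sum_mul, Finset.mul_sum, Finset.mul_sum, Finset.mul_sum, Finset.mul_sum,
        ← Finset.sum_add_distrib, ← Finset.sum_add_distrib, ← Finset.sum_add_distrib]
      refine Finset.sum_congr rfl fun x _ => ?_
      split_ifs <;> ring

theorem Price_eq (P : Par) (S S' : St Y Lab) (m : Y → ℝ) (lab : Y → ℕ → Lab) :
    Price P S S' m lab = dist (S []).ctr (S' []).ctr * mass m lab [] +
      ∑ N ∈ nodes Lab P.I, prN P S S' m lab N := by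
  unfold Price prx
  simp only [mul_add, Finset.mul_sum]
  rw [Finset.sum_add_distrib]
  congr 1
  · unfold mass
    rw [Finset.mul_sum]
    refine Finset.sum_congr rfl fun x _ => ?_
    rw [if_pos (mem_nil lab x)]
    ring
  · rw [Finset.sum_comm]
    refine Finset.sum_congr rfl fun N _ => ?_
    unfold prN mass
    split_ifs with h
    · simp
    · rw [Finset.mul_sum]
      refine Finset.sum_congr rfl fun x _ => ?_
      split_ifs <;> ring

/-- total value of a candidate -/
noncomputable def val (P : Par) (S S' : St Y Lab) (m : Y → ℝ) (lab : Y → ℕ → Lab) : ℝ :=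
  Phi P S' m lab + Price P S S' m lab

theorem val_eq (P : Par) (S S' : St Y Lab) (m : Y → ℝ) (lab : Y → ℕ → Lab) :
    val P S S' m lab = (8 * fd m lab [] (S' []).ctr + dist (S []).ctr (S' []).ctr * mass m lab []) +
      ∑ N ∈ nodes Lab P.I, (phiN P S' m lab N + prN P S S' m lab N) := by
  unfold val
  rw [Phi_eq, Price_eq, Finset.sum_add_distrib]
  ring

theorem val_self (P : Par) (S : St Y Lab) (m : Y → ℝ) (lab : Y → ℕ → Lab) :
    val P S S m lab = Phi P S m lab := by
  unfold val
  rw [Price_eq]
  simp [prN]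

/-- comparison: two candidates with the same root which agree outside of `D` -/
theorem compare {S S' S'' : St Y Lab} {m : Y → ℝ} {lab : Y → ℕ → Lab}
    (hmin : val P S S' m lab ≤ val P S S'' m lab) {D : Finset (List Lab)}
    (hD : D ⊆ nodes Lab P.I) (hroot : (S'' []).ctr = (S' []).ctr)
    (hout : ∀ N ∈ nodes Lab P.I, N ∉ D → phiN P S'' m lab N + prN P S S'' m lab N =
      phiN P S' m lab N + prN P S S' m lab N) :
    ∑ N ∈ D, (phiN P S' m lab N + prN P S S' m lab N) ≤
      ∑ N ∈ D, (phiN P S'' m lab N + prN P S S'' m lab N) := by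
  rw [val_eq, val_eq, hroot, ← Finset.sum_sdiff hD,
    ← Finset.sum_sdiff (f := fun N => phiN P S'' m lab N + prN P S S'' m lab N) hD] at hmin
  have h : ∑ N ∈ nodes Lab P.I \ D, (phiN P S'' m lab N + prN P S S'' m lab N) =
      ∑ N ∈ nodes Lab P.I \ D, (phiN P S' m lab N + prN P S S' m lab N) := by
    refine Finset.sum_congr rfl fun N hN => ?_
    rw [Finset.mem_sdiff] at hN
    exact hout N hN.1 hN.2
  linarith

/-- a node whose state and whose ancestors' spine status do not change has the same terms -/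
theorem term_congr {S S' S'' : St Y Lab} {m : Y → ℝ} {lab : Y → ℕ → Lab} {N : List Lab}
    (h : S'' N = S' N)
    (hup : ∀ J, J <:+ N → J ≠ N → ((S'' J).kind = Kind.sp ↔ (S' J).kind = Kind.sp)) :
    phiN P S'' m lab N + prN P S S'' m lab N = phiN P S' m lab N + prN P S S' m lab N := by
  unfold phiN prN
  rw [h, up_congr hup]

/-- admissible candidates -/
def Adm (P : Par) (now : ℕ) (S S' : St Y Lab) : Prop :=
  Trans P now S S' ∧ ∀ N, N ≠ [] → N ∉ nodes Lab P.I → S' N = S N

theorem OkN_self (now : ℕ) (a : NS Y) : OkN now a a := Or.inl ⟨rfl, rfl, by simp⟩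

theorem Adm_self (P : Par) (now : ℕ) (S : St Y Lab) : Adm P now S S :=
  ⟨⟨fun N _ => OkN_self now _, fun _ _ h => h, fun _ _ => Or.inl Iff.rfl, rfl, rfl, by simp⟩,
    fun _ _ _ => rfl⟩

theorem finite_ok (P : Par) : {κ : Kind | P.ok κ}.Finite := by
  refine Set.Finite.subset (((Finset.range (P.cm + 1)).image Kind.fin ∪
    {Kind.sp, Kind.inf} : Finset Kind).finite_toSet) ?_
  intro κ hκ
  cases κ with
  | sp => simp
  | inf => simp
  | fin c =>
    have h : c ≤ P.cm := hκ
    simp only [Finset.coe_union, Set.mem_union, Finset.mem_coe, Finset.mem_image,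
      Finset.mem_range]
    exact Or.inl ⟨c, by omega, rfl⟩

theorem finite_OkN (P : Par) (now : ℕ) (a : NS Y) :
    {b : NS Y | OkN now a b ∧ P.ok b.kind}.Finite := by
  have h1 : ((fun q : Kind × Y => (⟨q.1, now, q.2, 0⟩ : NS Y)) ''
      ({κ : Kind | P.ok κ} ×ˢ (Set.univ : Set Y))).Finite :=
    Set.Finite.image _ ((finite_ok P).prod Set.finite_univ)
  have h2 : ((fun y : Y => (⟨a.kind, a.birth, y, a.trav + dist a.ctr y⟩ : NS Y)) ''
      (Set.univ : Set Y)).Finite := Set.Finite.image _ Set.finite_univ
  refine Set.Finite.subset (h1.union h2) ?_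
  rintro ⟨κ, b, c, t⟩ ⟨h, hk⟩
  rcases h with ⟨e1, e2, e3⟩ | ⟨e1, e2⟩
  · right
    refine ⟨c, Set.mem_univ _, ?_⟩
    simp only at e1 e2 e3
    subst e1 e2 e3
    rfl
  · left
    refine ⟨(κ, c), ⟨hk, Set.mem_univ _⟩, ?_⟩
    simp only at e1 e2
    subst e1 e2
    rfl

theorem finite_Adm (P : Par) (now : ℕ) (S : St Y Lab)
    (hk : ∀ N ∈ nodes Lab P.I, P.ok (S N).kind) : {S' : St Y Lab | Adm P now S S'}.Finite := by
  set E : Finset (List Lab) := insert [] (nodes Lab P.I) with hE
  have hmemE : ∀ N : List Lab, N ∈ E → N ≠ [] → N ∈ nodes Lab P.I := fun N h1 h2 => by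
    rw [hE, Finset.mem_insert] at h1
    exact h1.resolve_left h2
  let r : St Y Lab → (E → NS Y) := fun S' N => S' N.1
  have hinj : Set.InjOn r {S' : St Y Lab | Adm P now S S'} := by
    intro S₁ h₁ S₂ h₂ e
    funext N
    by_cases hN : N ∈ E
    · exact congrFun e ⟨N, hN⟩
    · rw [hE, Finset.mem_insert, not_or] at hN
      rw [h₁.2 N hN.1 hN.2, h₂.2 N hN.1 hN.2]
  refine Set.Finite.of_finite_image ?_ hinj
  let T : E → Set (NS Y) := fun N =>
    if N.1 = [] then (fun y : Y => (⟨(S []).kind, (S []).birth, y,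
      (S []).trav + dist (S []).ctr y⟩ : NS Y)) '' (Set.univ : Set Y)
    else {b : NS Y | OkN now (S N.1) b ∧ P.ok b.kind}
  have hT : (Set.pi Set.univ T).Finite := by
    refine Set.Finite.pi fun N => ?_
    by_cases h : N.1 = []
    · simp only [T, h, if_true]
      exact Set.Finite.image _ Set.finite_univ
    · simp only [T, h, if_false]
      exact finite_OkN P now _
  refine hT.subset ?_
  rintro _ ⟨S', hS', rfl⟩ N -
  by_cases h : N.1 = []
  · simp only [T, h, if_true, r]
    refine ⟨(S' []).ctr, Set.mem_univ _, ?_⟩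
    obtain ⟨e1, e2, e3⟩ := hS'.1.root
    have : S' [] = ⟨(S' []).kind, (S' []).birth, (S' []).ctr, (S' []).trav⟩ := rfl
    rw [this, e1, e2, e3]
  · simp only [T, h, if_false, r]
    have hN : N.1 ∈ nodes Lab P.I := hmemE N.1 N.2 h
    exact ⟨hS'.1.node _ hN, hS'.1.kinds _ hN (hk _ hN)⟩

theorem exists_min (P : Par) (now : ℕ) (S : St Y Lab) (m : Y → ℝ) (lab : Y → ℕ → Lab)
    (hk : ∀ N ∈ nodes Lab P.I, P.ok (S N).kind) :
    ∃ S', Adm P now S S' ∧ ∀ S'', Adm P now S S'' → val P S S' m lab ≤ val P S S'' m lab := by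
  obtain ⟨S', h1, h2⟩ := Set.exists_min_image _ (fun S' => val P S S' m lab)
    (finite_Adm P now S hk) ⟨S, Adm_self P now S⟩
  exact ⟨S', h1, fun S'' h => h2 S'' h⟩

/-- modification of an admissible candidate -/
theorem Adm.modify {now : ℕ} {S S' S'' : St Y Lab} (h : Adm P now S S')
    (hnode : ∀ N ∈ nodes Lab P.I, OkN now (S N) (S'' N))
    (hkinds : ∀ N ∈ nodes Lab P.I, P.ok (S N).kind → P.ok (S'' N).kind)
    (hflip : ∀ N ∈ nodes Lab P.I, ((S' N).kind = Kind.sp ↔ (S'' N).kind = Kind.sp) ∨
      ∀ H ∈ nodes Lab P.I, N <:+ H → N ≠ H → (S'' H).birth = now)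
    (hbirth : ∀ H ∈ nodes Lab P.I, (S' H).birth = now → (S'' H).birth = now)
    (hroot : (S'' []).kind = (S []).kind ∧ (S'' []).birth = (S []).birth ∧
      (S'' []).trav = (S []).trav + dist (S []).ctr (S'' []).ctr)
    (hout : ∀ N, N ≠ [] → N ∉ nodes Lab P.I → S'' N = S' N) : Adm P now S S'' := by
  refine ⟨⟨hnode, hkinds, fun N hN => ?_, hroot⟩, fun N h1 h2 => (hout N h1 h2).trans (h.2 N h1 h2)⟩
  rcases hflip N hN with h1 | h1
  · rcases h.1.flip N hN with h2 | h2
    · exact Or.inl (h2.trans h1)
    · exact Or.inr fun H hH h3 h4 => hbirth H hH (h2 H hH h3 h4)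
  · exact Or.inr h1

theorem trav_nonneg {now : ℕ} {S S' : St Y Lab} (h : Adm P now S S')
    (ht : ∀ N, 0 ≤ (S N).trav) {N : List Lab} (hN : N ∈ nodes Lab P.I) : 0 ≤ (S' N).trav := by
  rcases h.1.node N hN with ⟨_, _, e⟩ | ⟨_, e⟩
  · rw [e]
    exact add_nonneg (ht N) dist_nonneg
  · rw [e]

theorem ne_nil {N : List Lab} (hN : N ∈ nodes Lab P.I) : N ≠ [] := (mem_nodes.1 hN).1

/-- replacing the state of one charged node by another charged state -/
theorem single {now : ℕ} {S S' : St Y Lab} {m : Y → ℝ} {lab : Y → ℕ → Lab}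
    (h : Adm P now S S')
    (hmin : ∀ S'', Adm P now S S'' → val P S S' m lab ≤ val P S S'' m lab)
    {N : List Lab} (hN : N ∈ nodes Lab P.I) {b : NS Y} (hb : OkN now (S N) b)
    (hok : P.ok b.kind) (hs : (S' N).kind = Kind.sp ↔ b.kind = Kind.sp)
    (hbirth : (S' N).birth = now → b.birth = now) :
    phiN P S' m lab N + prN P S S' m lab N ≤
      phiN P (Function.update S' N b) m lab N + prN P S (Function.update S' N b) m lab N := by
  have hne := ne_nil hN
  have hroot : Function.update S' N b [] = S' [] := Function.update_of_ne hne.symm _ _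
  have hsp : ∀ J, ((Function.update S' N b J).kind = Kind.sp ↔ (S' J).kind = Kind.sp) := by
    intro J
    by_cases hJ : J = N
    · subst hJ
      rw [Function.update_self]
      exact hs.symm
    · rw [Function.update_of_ne hJ]
  have hadm : Adm P now S (Function.update S' N b) := by
    refine h.modify (fun J hJ => ?_) (fun J hJ hk => ?_) (fun J _ => Or.inl (hsp J).symm)
      (fun J hJ hb' => ?_) (by rw [hroot]; exact h.1.root) (fun J h1 h2 => ?_)
    · by_cases hJN : J = N
      · subst hJN
        rw [Function.update_self]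
        exact hb
      · rw [Function.update_of_ne hJN]
        exact h.1.node J hJ
    · by_cases hJN : J = N
      · subst hJN
        rw [Function.update_self]
        exact hok
      · rw [Function.update_of_ne hJN]
        exact h.1.kinds J hJ hk
    · by_cases hJN : J = N
      · subst hJN
        rw [Function.update_self]
        exact hbirth hb'
      · rw [Function.update_of_ne hJN]
        exact hb'
    · have hJN : J ≠ N := by
        rintro rfl
        exact h2 hN
      exact Function.update_of_ne hJN _ _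
  have := compare (hmin _ hadm) (D := {N}) (Finset.singleton_subset_iff.2 hN)
    (by rw [hroot]) (fun J hJ hJN => term_congr
      (Function.update_of_ne (fun e => hJN (Finset.mem_singleton.2 e)) _ _)
      (fun K _ _ => hsp K))
  simpa using this

/-- replacing the states of a whole subtree -/
theorem subtree {now : ℕ} {S S' : St Y Lab} {m : Y → ℝ} {lab : Y → ℕ → Lab}
    (h : Adm P now S S')
    (hmin : ∀ S'', Adm P now S S'' → val P S S' m lab ≤ val P S S'' m lab)
    {N : List Lab} (hN : N ∈ nodes Lab P.I) (κ : List Lab → Kind) (hκ : ∀ H, P.ok (κ H))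
    (a : List Lab → Y) :
    ∑ H ∈ (nodes Lab P.I).filter (fun H => N <:+ H), (phiN P S' m lab H + prN P S S' m lab H) ≤
      ∑ H ∈ (nodes Lab P.I).filter (fun H => N <:+ H),
        (phiN P (fun H => if H ∈ nodes Lab P.I ∧ N <:+ H then ⟨κ H, now, a H, 0⟩ else S' H) m lab H +
        prN P S (fun H => if H ∈ nodes Lab P.I ∧ N <:+ H then ⟨κ H, now, a H, 0⟩ else S' H)
          m lab H) := by
  set S'' : St Y Lab := fun H => if H ∈ nodes Lab P.I ∧ N <:+ H then ⟨κ H, now, a H, 0⟩ else S' H
    with hS''
  have hin : ∀ H, H ∈ nodes Lab P.I → N <:+ H → S'' H = ⟨κ H, now, a H, 0⟩ := fun H h1 h2 => by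
    rw [hS'']
    exact if_pos ⟨h1, h2⟩
  have hnin : ∀ H, ¬ (N <:+ H) → S'' H = S' H := fun H h1 => by
    rw [hS'']
    exact if_neg fun h2 => h1 h2.2
  have hnil : ¬ (N <:+ ([] : List Lab)) := fun e => ne_nil hN (List.suffix_nil.1 e)
  have hroot : S'' [] = S' [] := hnin [] hnil
  have hadm : Adm P now S S'' := by
    refine h.modify (fun J hJ => ?_) (fun J hJ hk => ?_) (fun J hJ => ?_)
      (fun J hJ hb' => ?_) (by rw [hroot]; exact h.1.root) (fun J h1 h2 => ?_)
    · by_cases hJN : N <:+ J
      · rw [hin J hJ hJN]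
        exact Or.inr ⟨rfl, rfl⟩
      · rw [hnin J hJN]
        exact h.1.node J hJ
    · by_cases hJN : N <:+ J
      · rw [hin J hJ hJN]
        exact hκ J
      · rw [hnin J hJN]
        exact h.1.kinds J hJ hk
    · by_cases hJN : N <:+ J
      · right
        intro H hH h1 _
        rw [hin H hH (hJN.trans h1)]
      · left
        rw [hnin J hJN]
    · by_cases hJN : N <:+ J
      · rw [hin J hJ hJN]
      · rw [hnin J hJN]
        exact hb'
    · rw [hS'']
      exact if_neg fun h3 => h2 h3.1
  refine compare (hmin _ hadm) (Finset.filter_subset _ _) (by rw [hroot]) (fun J hJ hJN => ?_)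
  have hJN' : ¬ (N <:+ J) := fun e => hJN (Finset.mem_filter.2 ⟨hJ, e⟩)
  exact term_congr (hnin J hJN') (fun K hK _ => by rw [hnin K fun e => hJN' (e.trans hK)])

end Upd

open Upd in
theorem exists_upd [Nonempty Y] (P : Par) {m : Y → ℝ} (hm : ∀ x, 0 ≤ m x) (lab : Y → ℕ → Lab)
    (S : St Y Lab) (now : ℕ) (hk : ∀ N ∈ nodes Lab P.I, P.ok (S N).kind)
    (ht : ∀ N, 0 ≤ (S N).trav) :
    ∃ S' : St Y Lab, Trans P now S S' ∧ (∀ N, N ≠ [] → N ∉ nodes Lab P.I → S' N = S N) ∧
      Stuck P S' m lab ∧ Phi P S' m lab + Price P S S' m lab ≤ Phi P S m lab := by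
  obtain ⟨S', hadm, hmin⟩ := Upd.exists_min P now S m lab hk
  refine ⟨S', hadm.1, hadm.2, ?_, ?_⟩
  swap
  · have := hmin S (Adm_self P now S)
    rwa [val_self] at this
  refine ⟨?_, ?_, ?_, ?_, ?_⟩
  · -- renew
    intro N hN hsp κ hκ hok a
    have h1 := single hadm hmin hN (b := ⟨κ, now, a, 0⟩) (Or.inr ⟨rfl, rfl⟩) hok
      ⟨fun e => absurd e hsp, fun e => absurd e hκ⟩ (fun _ => rfl)
    have hu : up (Function.update S' N ⟨κ, now, a, 0⟩) N = up S' N := by
      refine up_congr fun J _ hJ => ?_
      rw [Function.update_of_ne hJ]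
    have h2 : phiN P (Function.update S' N ⟨κ, now, a, 0⟩) m lab N =
        P.w N.length * (P.al κ * mass m lab N + P.be κ * mass m lab (up S' N)) +
          8 * fd m lab N a := by
      rw [phiN_ch _ _ _ _ (by rw [Function.update_self]; exact hκ), hu, Function.update_self]
      ring
    have h3 : prN P S (Function.update S' N ⟨κ, now, a, 0⟩) m lab N ≤
        P.w N.length * pr κ * mass m lab N := by
      refine (prN_le P S _ hm lab N).trans ?_
      rw [Function.update_self]
    have h4 := prN_nonneg P S S' hm lab N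
    rw [phiN_ch _ _ _ _ hsp, h2] at h1
    linarith
  · -- move
    intro N hN hsp a
    have hmass := mass_nonneg hm lab N
    rcases hadm.1.node N hN with ⟨e1, e2, e3⟩ | ⟨e1, e2⟩
    · have h1 := single hadm hmin hN
        (b := ⟨(S' N).kind, (S' N).birth, a, (S N).trav + dist (S N).ctr a⟩)
        (Or.inl ⟨e1, e2, rfl⟩) (hadm.1.kinds N hN (hk N hN)) Iff.rfl (fun e => e)
      set b : NS Y := ⟨(S' N).kind, (S' N).birth, a, (S N).trav + dist (S N).ctr a⟩ with hb
      have hu : up (Function.update S' N b) N = up S' N := by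
        refine up_congr fun J _ hJ => ?_
        rw [Function.update_of_ne hJ]
      have h2 : phiN P (Function.update S' N b) m lab N =
          P.w N.length * (P.al (S' N).kind * mass m lab N +
            P.be (S' N).kind * mass m lab (up S' N)) +
            (8 * fd m lab N a + ((S N).trav + dist (S N).ctr a) * mass m lab N) := by
        rw [phiN_ch _ _ _ _ (by rw [Function.update_self]; exact hsp), hu, Function.update_self]
      have h3 : prN P S (Function.update S' N b) m lab N = prN P S S' m lab N := by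
        unfold prN
        rw [Function.update_self]
      rw [phiN_ch _ _ _ _ hsp, h2, h3, e3] at h1
      have h4 := dist_triangle (S N).ctr (S' N).ctr a
      have h5 := mul_le_mul_of_nonneg_right h4 hmass
      nlinarith [h1, h5]
    · have h1 := single hadm hmin hN (b := ⟨(S' N).kind, (S' N).birth, a, 0⟩)
        (Or.inr ⟨e1, rfl⟩) (hadm.1.kinds N hN (hk N hN)) Iff.rfl (fun e => e)
      set b : NS Y := ⟨(S' N).kind, (S' N).birth, a, 0⟩ with hb
      have hu : up (Function.update S' N b) N = up S' N := by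
        refine up_congr fun J _ hJ => ?_
        rw [Function.update_of_ne hJ]
      have h2 : phiN P (Function.update S' N b) m lab N =
          P.w N.length * (P.al (S' N).kind * mass m lab N +
            P.be (S' N).kind * mass m lab (up S' N)) +
            (8 * fd m lab N a + 0 * mass m lab N) := by
        rw [phiN_ch _ _ _ _ (by rw [Function.update_self]; exact hsp), hu, Function.update_self]
      have h3 : prN P S (Function.update S' N b) m lab N = prN P S S' m lab N := by
        unfold prN
        rw [Function.update_self]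
      rw [phiN_ch _ _ _ _ hsp, h2, h3, e2] at h1
      have h5 : 0 ≤ dist (S' N).ctr a * mass m lab N := mul_nonneg dist_nonneg hmass
      linarith
  · -- root
    intro a
    have hmass := mass_nonneg hm lab []
    set b : NS Y := ⟨(S []).kind, (S []).birth, a, (S []).trav + dist (S []).ctr a⟩ with hb
    have hsp : ∀ J, J ≠ [] → Function.update S' [] b J = S' J := fun J hJ =>
      Function.update_of_ne hJ _ _
    have hsp' : ∀ J, ((Function.update S' [] b J).kind = Kind.sp ↔ (S' J).kind = Kind.sp) := by
      intro J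
      by_cases hJ : J = []
      · subst hJ
        rw [Function.update_self, hb, hadm.1.root.1]
      · rw [hsp J hJ]
    have hadm' : Adm P now S (Function.update S' [] b) := by
      refine hadm.modify (fun J hJ => ?_) (fun J hJ hk' => ?_) (fun J hJ => Or.inl (hsp' J).symm)
        (fun J hJ hb' => ?_) ?_ (fun J h1 h2 => hsp J h1)
      · rw [hsp J (ne_nil hJ)]
        exact hadm.1.node J hJ
      · rw [hsp J (ne_nil hJ)]
        exact hadm.1.kinds J hJ hk'
      · rw [hsp J (ne_nil hJ)]
        exact hb'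
      · rw [Function.update_self]
        exact ⟨rfl, rfl, rfl⟩
    have h1 := hmin _ hadm'
    rw [val_eq, val_eq] at h1
    have h2 : ∑ N ∈ nodes Lab P.I, (phiN P (Function.update S' [] b) m lab N +
        prN P S (Function.update S' [] b) m lab N) =
        ∑ N ∈ nodes Lab P.I, (phiN P S' m lab N + prN P S S' m lab N) :=
      Finset.sum_congr rfl fun N hN => term_congr (hsp N (ne_nil hN)) (fun K _ _ => hsp' K)
    rw [h2, Function.update_self] at h1
    have h4 := dist_triangle (S []).ctr (S' []).ctr a
    have h5 := mul_le_mul_of_nonneg_right h4 hmass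
    simp only [hb] at h1
    nlinarith [h1, h5]
  · -- charge
    intro N hN hsp a
    have h1 := subtree hadm hmin hN (fun _ => Kind.inf) (fun _ => trivial) a
    have h2 : P.w N.length * (P.A' * (mass m lab (up S' N) - mass m lab N)) ≤
        ∑ H ∈ (nodes Lab P.I).filter (fun H => N <:+ H),
          (phiN P S' m lab H + prN P S S' m lab H) := by
      have h3 : phiN P S' m lab N + prN P S S' m lab N ≤
        ∑ H ∈ (nodes Lab P.I).filter (fun H => N <:+ H),
          (phiN P S' m lab H + prN P S S' m lab H) :=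
        Finset.single_le_sum (f := fun H => phiN P S' m lab H + prN P S S' m lab H)
          (fun H hH => add_nonneg (phiN_nonneg P S' hm lab
            (trav_nonneg hadm ht (Finset.mem_filter.1 hH).1)) (prN_nonneg P S S' hm lab H))
          (Finset.mem_filter.2 ⟨hN, List.suffix_refl N⟩)
      rw [phiN_sp _ _ _ _ hsp] at h3
      linarith [prN_nonneg P S S' hm lab N]
    refine h2.trans (h1.trans (le_of_eq (Finset.sum_congr rfl fun H hH => ?_)))
    rw [Finset.mem_filter] at hH
    unfold phiN prN
    simp only [hH.1, hH.2, and_self, if_true]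
    rw [if_neg (by simp)]
    simp only [Par.al, Par.be, pr]
    split_ifs <;> ring
  · -- spine
    intro N hN hsp a
    have h1 := subtree hadm hmin hN (fun H => if H = N then Kind.sp else Kind.inf)
      (fun H => by split_ifs <;> trivial) a
    set S'' : St Y Lab := fun H => if H ∈ nodes Lab P.I ∧ N <:+ H then
      ⟨if H = N then Kind.sp else Kind.inf, now, a H, 0⟩ else S' H with hS''
    have hdec : (nodes Lab P.I).filter (fun H => N <:+ H) =
        insert N ((nodes Lab P.I).filter (fun H => N <:+ H ∧ N ≠ H)) := by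
      ext H
      simp only [Finset.mem_filter, Finset.mem_insert]
      constructor
      · rintro ⟨h2, h3⟩
        by_cases e : H = N
        · exact Or.inl e
        · exact Or.inr ⟨h2, h3, fun e' => e e'.symm⟩
      · rintro (rfl | ⟨h2, h3, _⟩)
        · exact ⟨hN, List.suffix_refl _⟩
        · exact ⟨h2, h3⟩
    have hnot : N ∉ (nodes Lab P.I).filter (fun H => N <:+ H ∧ N ≠ H) := by
      simp
    have h2 : P.w N.length * (P.A * mass m lab N) ≤
        ∑ H ∈ (nodes Lab P.I).filter (fun H => N <:+ H),
          (phiN P S' m lab H + prN P S S' m lab H) := by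
      have h3 : phiN P S' m lab N + prN P S S' m lab N ≤
        ∑ H ∈ (nodes Lab P.I).filter (fun H => N <:+ H),
          (phiN P S' m lab H + prN P S S' m lab H) :=
        Finset.single_le_sum (f := fun H => phiN P S' m lab H + prN P S S' m lab H)
          (fun H hH => add_nonneg (phiN_nonneg P S' hm lab
            (trav_nonneg hadm ht (Finset.mem_filter.1 hH).1)) (prN_nonneg P S S' hm lab H))
          (Finset.mem_filter.2 ⟨hN, List.suffix_refl N⟩)
      linarith [prN_nonneg P S S' hm lab N, le_phiN_ch P S' hm lab hsp (trav_nonneg hadm ht hN)]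
    refine h2.trans (h1.trans (le_of_eq ?_))
    rw [hdec, Finset.sum_insert hnot]
    congr 1
    · have hS''N : S'' N = ⟨Kind.sp, now, a N, 0⟩ := by
        rw [hS'']
        simp [hN]
      have hu : up S'' N = up S' N := by
        refine up_congr fun J hJ hne => ?_
        have : ¬ (N <:+ J) := fun e => hne (hJ.eq_of_length (le_antisymm hJ.length_le e.length_le))
        rw [hS'']
        simp only [this, and_false, if_false]
      rw [phiN_sp _ _ _ _ (by rw [hS''N]), hu]
      unfold prN
      rw [hS''N]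
      simp [pr]
    · refine Finset.sum_congr rfl fun H hH => ?_
      rw [Finset.mem_filter] at hH
      have hS''H : S'' H = ⟨Kind.inf, now, a H, 0⟩ := by
        rw [hS'']
        simp [hH.1, hH.2.1, hH.2.2.symm]
      rw [phiN_ch _ _ _ _ (by rw [hS''H]; simp)]
      unfold prN
      rw [hS''H]
      simp only [Par.al, Par.be, pr]
      split_ifs <;> ring

end Crest.Agent.R314.C
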