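import Crest.Agent.R314.C0

/-!
R314, module C, block s10, s11 (count of charged nodes, H1) and the flow count.  Author: helper334.
Everything is proved from the consequences `s2`, `s3` of stuckness, which are hypotheses here.
-/

set_option autoImplicit false
set_option linter.unusedSectionVars false

namespace Crest.Agent.R314.C

open Finset Classical

section up

variable {Y Lab : Type*}

/-- The nearest charged ancestor along the keys of a point. -/
theorem up_key (S : St Y Lab) (u : ℕ → Lab) (j : ℕ) :
    ∃ i ≤ j, up S (key u (j + 1)) = key u i ∧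
      ∀ l, i < l → l ≤ j → (S (key u l)).kind = Kind.sp := by
  induction j with
  | zero =>
    refine ⟨0, le_rfl, ?_, fun l h1 h2 => by omega⟩
    rw [key_succ, key_zero, up_cons, up_nil]
    split_ifs <;> rfl
  | succ j ih =>
    rw [key_succ, up_cons]
    by_cases h : (S (key u (j + 1))).kind = Kind.sp
    · rw [if_pos h]
      obtain ⟨i, hi, h1, h2⟩ := ih
      refine ⟨i, by omega, h1, fun l hl1 hl2 => ?_⟩
      rcases Nat.lt_or_ge j l with h3 | h3
      · have : l = j + 1 := by omega
        rw [this]; exact h
      · exact h2 l hl1 h3
    · rw [if_neg h]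
      exact ⟨j + 1, le_rfl, rfl, fun l h1 h2 => by omega⟩

end up

variable {Y Lab : Type*} [Fintype Y] [MetricSpace Y] [Fintype Lab] {P : Par}

theorem key_injective_aux (u : ℕ → Lab) {i j : ℕ} (h : key u i = key u j) : i = j := by
  have := congrArg List.length h
  simpa using this

/-- Sums over the nodes containing `x` are sums along the keys. -/
theorem sum_mem_key (lab : Y → ℕ → Lab) (x : Y) (I : ℕ) (f : List Lab → ℝ) :
    ∑ N ∈ (nodes Lab I).filter (fun N => Mem lab x N), f N =
      ∑ j ∈ range I, f (key (lab x) (j + 1)) := by
  symm
  apply sum_bij (fun j _ => key (lab x) (j + 1))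
  · intro j hj
    rw [mem_range] at hj
    rw [mem_filter, mem_nodes]
    refine ⟨⟨?_, by rw [key_length]; omega⟩, mem_key lab x _⟩
    rw [key_succ]
    exact List.cons_ne_nil _ _
  · intro i _ j _ h
    have := key_injective_aux (lab x) h
    omega
  · intro N hN
    rw [mem_filter, mem_nodes] at hN
    obtain ⟨⟨h1, h2⟩, h3⟩ := hN
    have h4 : 0 < N.length := List.length_pos_iff.2 h1
    refine ⟨N.length - 1, mem_range.2 (by omega), ?_⟩
    have : N.length - 1 + 1 = N.length := by omega
    rw [this]
    exact h3
  · intro j _
    rfl

theorem mass_anti {m : Y → ℝ} (hm : ∀ x, 0 ≤ m x) (lab : Y → ℕ → Lab) {N H : List Lab}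
    (h : N <:+ H) : mass m lab H ≤ mass m lab N := by
  unfold mass
  apply sum_le_sum
  intro x _
  by_cases hx : Mem lab x H
  · rw [if_pos hx, if_pos (hx.anc h)]
  · rw [if_neg hx]
    split_ifs
    · exact hm x
    · exact le_rfl

theorem le_mass' {m : Y → ℝ} (hm : ∀ x, 0 ≤ m x) {lab : Y → ℕ → Lab} {N : List Lab} {x : Y}
    (h : Mem lab x N) : m x ≤ mass m lab N := by
  unfold mass
  have := single_le_sum (f := fun x => if Mem lab x N then m x else 0)
    (fun z _ => by
      show (0 : ℝ) ≤ if Mem lab z N then m z else 0
      split_ifs
      · exact hm z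
      · exact le_rfl) (mem_univ x)
  simpa [h] using this

/-- charged ancestors along a chain, an abstract weight version -/
theorem chain_le {m : Y → ℝ} (hm : ∀ x, 0 ≤ m x) {lab : Y → ℕ → Lab} {S : St Y Lab} (x : Y)
    (g : List Lab → ℝ) (K : ℝ) (hK : 0 ≤ K)
    (hsp : ∀ N, (S N).kind = Kind.sp → g N = 0)
    (hg : ∀ N ∈ nodes Lab P.I, Mem lab x N → (S N).kind ≠ Kind.sp → 0 < mass m lab N →
      0 < mass m lab (up S N) → g N ≤ K * Real.log (mass m lab (up S N) / mass m lab N))
    (j : ℕ) (hj : j ≤ P.I) (hpos : 0 < mass m lab (key (lab x) j)) :
    ∑ i ∈ range j, g (key (lab x) (i + 1)) ≤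
      K * Real.log (mass m lab [] / mass m lab (key (lab x) j)) := by
  induction j using Nat.strong_induction_on with
  | _ j ih =>
    rcases Nat.eq_zero_or_pos j with h | h
    · subst h
      rw [range_zero, sum_empty, key_zero, div_self]
      · simp
      · rw [key_zero] at hpos
        exact hpos.ne'
    · obtain ⟨j', rfl⟩ : ∃ j', j = j' + 1 := ⟨j - 1, by omega⟩
      have hmono : ∀ i l, i ≤ l → mass m lab (key (lab x) l) ≤ mass m lab (key (lab x) i) := by
        intro i l hil
        apply mass_anti hm
        exact (mem_key lab x i).suffix (mem_key lab x l) (by simpa using hil)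
      have hpos0 : 0 < mass m lab ([] : List Lab) := by
        have := hmono 0 (j' + 1) (by omega)
        rw [key_zero] at this
        linarith
      have hposj : 0 < mass m lab (key (lab x) j') := by
        have := hmono j' (j' + 1) (by omega)
        linarith
      by_cases hk : (S (key (lab x) (j' + 1))).kind = Kind.sp
      · rw [sum_range_succ, hsp _ hk, add_zero]
        refine (ih j' (by omega) (by omega) hposj).trans ?_
        apply mul_le_mul_of_nonneg_left _ hK
        apply Real.log_le_log (by positivity)
        exact div_le_div_of_nonneg_left hpos0.le hpos (hmono j' (j' + 1) (by omega))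
      · obtain ⟨i, hi, h1, h2⟩ := up_key S (lab x) j'
        have hposi : 0 < mass m lab (key (lab x) i) := by
          have := hmono i (j' + 1) (by omega)
          linarith
        have h3 := hg (key (lab x) (j' + 1)) (by
          rw [mem_nodes]
          refine ⟨?_, by rw [key_length]; exact hj⟩
          rw [key_succ]
          exact List.cons_ne_nil _ _) (mem_key lab x _) hk hpos (by rw [h1]; exact hposi)
        rw [h1] at h3
        have h4 := ih i (by omega) (by omega) hposi
        have h5 : ∑ l ∈ range j', g (key (lab x) (l + 1)) =
            ∑ l ∈ range i, g (key (lab x) (l + 1)) := by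
          symm
          apply sum_subset
          · intro l hl
            rw [mem_range] at hl ⊢
            omega
          · intro l hl hl'
            rw [mem_range] at hl hl'
            apply hsp
            exact h2 (l + 1) (by omega) (by omega)
        rw [sum_range_succ, h5]
        have h6 : Real.log (mass m lab [] / mass m lab (key (lab x) (j' + 1))) =
            Real.log (mass m lab [] / mass m lab (key (lab x) i)) +
              Real.log (mass m lab (key (lab x) i) / mass m lab (key (lab x) (j' + 1))) := by
          rw [← Real.log_mul (by positivity) (by positivity)]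
          congr 1
          field_simp
        rw [h6]
        linarith

theorem log_ten_ninths_pos : 0 < Real.log (10 / 9) := Real.log_pos (by norm_num)

theorem log_ten_ninths_ge : (1 : ℝ) / 10 ≤ Real.log (10 / 9) := by
  have := Real.one_sub_inv_le_log_of_pos (show (0 : ℝ) < 10 / 9 by norm_num)
  norm_num at this ⊢
  linarith

section

variable {m : Y → ℝ} {lab : Y → ℕ → Lab} {S : St Y Lab}

/-- positivity of the masses above a point of positive mass -/
theorem mass_pos_of {x : Y} (hm : ∀ x, 0 ≤ m x) (hx : 0 < m x) {N : List Lab}
    (h : Mem lab x N) : 0 < mass m lab N := hx.trans_le (le_mass' hm h)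

/-- `s10` from `s2`. -/
theorem s10_of (hm : ∀ x, 0 ≤ m x)
    (h2 : ∀ N ∈ nodes Lab P.I, (S N).kind ≠ Kind.sp →
      mass m lab N ≤ 9 / 10 * mass m lab (up S N)) {T : ℝ} (hT : 0 < T) (x : Y) :
    (((nodes Lab P.I).filter (fun N => Mem lab x N ∧ (S N).kind ≠ Kind.sp ∧
      T ≤ mass m lab N)).card : ℝ) * Real.log (10 / 9) ≤
        max 0 (Real.log (mass m lab [] / T)) := by
  set F := (nodes Lab P.I).filter (fun N => Mem lab x N ∧ (S N).kind ≠ Kind.sp ∧
      T ≤ mass m lab N) with hF
  by_cases hne : F.Nonempty
  swap
  · rw [not_nonempty_iff_eq_empty] at hne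
    rw [hne, card_empty, Nat.cast_zero, zero_mul]
    exact le_max_left _ _
  obtain ⟨N, hN, hmax⟩ := exists_max_image F List.length hne
  rw [hF, mem_filter, mem_nodes] at hN
  obtain ⟨⟨hN1, hN2⟩, hN3, hN4, hN5⟩ := hN
  set j := N.length with hj
  have hkey : key (lab x) j = N := hN3
  have hposN : 0 < mass m lab (key (lab x) j) := by
    rw [hkey]; linarith
  -- chain inequality with `g = log (10/9)` on charged nodes
  have h3 := chain_le (P := P) hm (lab := lab) (S := S) x
    (fun N => if (S N).kind = Kind.sp then 0 else Real.log (10 / 9)) 1 zero_le_one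
    (fun N h => by simp [h])
    (fun N hN _ hk h0 h0' => by
      rw [if_neg hk, one_mul]
      apply Real.log_le_log (by norm_num)
      have := h2 N hN hk
      rw [le_div_iff₀ h0]
      linarith) j hN2 hposN
  rw [one_mul, hkey] at h3
  refine le_trans ?_ (le_max_right _ _)
  have h4 : (F.card : ℝ) * Real.log (10 / 9) ≤
      ∑ i ∈ range j, (if (S (key (lab x) (i + 1))).kind = Kind.sp then 0 else
        Real.log (10 / 9)) := by
    have h5 : F.card ≤ ((range j).filter
        (fun i => ¬ (S (key (lab x) (i + 1))).kind = Kind.sp)).card := by
      apply card_le_card_of_injOn (fun H => H.length - 1)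
      · intro H hH
        rw [mem_coe] at hH
        have hH' := hmax H hH
        rw [hF, mem_filter, mem_nodes] at hH
        obtain ⟨⟨h6, h7⟩, h8, h9, h10⟩ := hH
        have h11 : 0 < H.length := List.length_pos_iff.2 h6
        show H.length - 1 ∈ _
        rw [mem_coe, mem_filter, mem_range]
        refine ⟨by omega, ?_⟩
        have : H.length - 1 + 1 = H.length := by omega
        simp only [this]
        rw [h8.eq]
        exact h9
      · intro H hH H' hH' heq
        rw [mem_coe, hF, mem_filter, mem_nodes] at hH hH'
        have h11 : 0 < H.length := List.length_pos_iff.2 hH.1.1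
        have h12 : 0 < H'.length := List.length_pos_iff.2 hH'.1.1
        simp only at heq
        have h13 : H.length = H'.length := by omega
        rw [← hH.2.1.eq, ← hH'.2.1.eq, h13]
    rw [sum_ite, sum_const_zero, zero_add, sum_const, nsmul_eq_mul]
    apply mul_le_mul_of_nonneg_right _ log_ten_ninths_pos.le
    exact_mod_cast h5
  refine h4.trans (h3.trans ?_)
  apply Real.log_le_log
  · have : mass m lab N ≤ mass m lab [] := mass_anti hm lab List.nil_suffix
    have h5 : 0 < mass m lab N := by linarith
    have h6 : 0 < mass m lab ([] : List Lab) := by linarith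
    positivity
  · have h5 : 0 ≤ mass m lab [] := by
      have : mass m lab N ≤ mass m lab [] := mass_anti hm lab List.nil_suffix
      linarith
    exact div_le_div_of_nonneg_left h5 hT hN5

/-- `s11` (H1) from `s2`, `s3`. -/
theorem s11_of (hm : ∀ x, 0 ≤ m x)
    (h2 : ∀ N ∈ nodes Lab P.I, (S N).kind ≠ Kind.sp →
      mass m lab N ≤ 9 / 10 * mass m lab (up S N))
    (h3 : ∀ N ∈ nodes Lab P.I, ∀ c, (S N).kind = Kind.fin (c + 1) →
      mass m lab N ≤ Real.exp (-eta (c + 1) / 8) * mass m lab (up S N)) {x : Y} (hx : 0 < m x) :
    ∑ N ∈ (nodes Lab P.I).filter (fun N => Mem lab x N),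
      etaK (S N).kind ≤ 200 * Real.log (mass m lab [] / m x) := by
  rw [sum_mem_key lab x P.I (fun N => etaK (S N).kind)]
  have hposI : 0 < mass m lab (key (lab x) P.I) := mass_pos_of hm hx (mem_key lab x _)
  have h4 := chain_le (P := P) hm (lab := lab) (S := S) x (fun N => etaK (S N).kind) 200
    (by norm_num) (fun N h => by simp only [h, etaK]) ?_ P.I le_rfl hposI
  · refine h4.trans ?_
    apply mul_le_mul_of_nonneg_left _ (by norm_num)
    have h5 : 0 < mass m lab ([] : List Lab) := mass_pos_of hm hx (mem_nil lab x)
    apply Real.log_le_log (by positivity)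
    exact div_le_div_of_nonneg_left h5.le hx (le_mass' hm (mem_key lab x _))
  · intro N hN hxN hk h0 h0'
    have h5 : Real.log (10 / 9) ≤ Real.log (mass m lab (up S N) / mass m lab N) := by
      apply Real.log_le_log (by norm_num)
      have := h2 N hN hk
      rw [le_div_iff₀ h0]
      linarith
    have h6 := log_ten_ninths_ge
    rcases hkind : (S N).kind with _ | _ | c
    · exact absurd hkind hk
    · simp only [etaK]
      linarith
    · simp only [etaK]
      rcases c with _ | c
      · have : eta 0 = 16 := by unfold eta; norm_num
        rw [this]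
        linarith
      · have h7 := h3 N hN c hkind
        have h8 : eta (c + 1) / 8 ≤ Real.log (mass m lab (up S N) / mass m lab N) := by
          rw [Real.le_log_iff_exp_le (by positivity), le_div_iff₀ h0]
          calc Real.exp (eta (c + 1) / 8) * mass m lab N ≤
                Real.exp (eta (c + 1) / 8) *
                  (Real.exp (-eta (c + 1) / 8) * mass m lab (up S N)) := by gcongr
            _ = mass m lab (up S N) := by
              rw [← mul_assoc, ← Real.exp_add]
              have : eta (c + 1) / 8 + -eta (c + 1) / 8 = 0 := by ring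
              rw [this, Real.exp_zero, one_mul]
        linarith

/-- the flow count, from `s2` -/
theorem flow_count_of {f : Y → ℝ} (hm : ∀ x, 0 ≤ m x) (hv : Valid P lab)
    (h2 : ∀ N ∈ nodes Lab P.I, (S N).kind ≠ Kind.sp →
      mass m lab N ≤ 9 / 10 * mass m lab (up S N))
    (hf : ∀ x, 0 ≤ f x) (hfm : ∀ x, f x ≤ m x) (r : Y) {T : ℝ} (hT : 0 < T)
    (hr : T ≤ m r - f r + ∑ x, f x) :
    ∑ N ∈ (nodes Lab P.I).filter (fun N => Mem lab r N ∧ (S N).kind ≠ Kind.sp),
      ∑ x, (if Mem lab x N then f x * dist x r else 0) ≤
      (max 0 (Real.log (2 * mass m lab [] / T)) / Real.log (10 / 9)) * ∑ x, f x * dist x r +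
        P.CG * ∑ x, f x * dk P (lab x) (lab r) := by
  have hCG : 0 ≤ P.CG := zero_le_one.trans P.hCG
  have hw : ∀ j, 0 ≤ P.w j := by
    intro j
    unfold Par.w
    have h1 := P.hW
    have h2 := P.hB
    positivity
  set A := (nodes Lab P.I).filter (fun N => Mem lab r N ∧ (S N).kind ≠ Kind.sp) with hA
  rw [← sum_filter_add_sum_filter_not A (fun N => T / 2 ≤ mass m lab N)]
  apply add_le_add
  · -- large nodes
    have h3 : ∀ N ∈ A.filter (fun N => T / 2 ≤ mass m lab N),
        ∑ x, (if Mem lab x N then f x * dist x r else 0) ≤ ∑ x, f x * dist x r := by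
      intro N _
      apply sum_le_sum
      intro x _
      split_ifs
      · exact le_rfl
      · exact mul_nonneg (hf x) dist_nonneg
    refine (sum_le_sum h3).trans ?_
    rw [sum_const, nsmul_eq_mul]
    apply mul_le_mul_of_nonneg_right _ (sum_nonneg fun x _ => mul_nonneg (hf x) dist_nonneg)
    rw [le_div_iff₀ log_ten_ninths_pos]
    have h4 := s10_of (P := P) (S := S) (lab := lab) hm h2 (T := T / 2) (by linarith) r
    have h5 : A.filter (fun N => T / 2 ≤ mass m lab N) =
        (nodes Lab P.I).filter (fun N => Mem lab r N ∧ (S N).kind ≠ Kind.sp ∧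
          T / 2 ≤ mass m lab N) := by
      rw [hA, filter_filter]
      apply filter_congr
      intro N _
      tauto
    rw [h5]
    have h6 : mass m lab [] / (T / 2) = 2 * mass m lab [] / T := by field_simp
    rw [h6] at h4
    exact h4
  · -- small nodes
    have h3 : ∀ N ∈ A.filter (fun N => ¬ T / 2 ≤ mass m lab N),
        ∑ x, (if Mem lab x N then f x * dist x r else 0) ≤
          P.CG * ∑ x, f x * (if Mem lab x N then 0 else P.w N.length) := by
      intro N hN
      rw [mem_filter, hA, mem_filter, mem_nodes] at hN
      obtain ⟨⟨⟨h4, h5⟩, h6, h7⟩, h8⟩ := hN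
      push Not at h8
      have hwN := hw N.length
      -- inner flow
      have h9 : ∑ x, (if Mem lab x N then f x * dist x r else 0) ≤
          P.CG * P.w N.length * ∑ x, (if Mem lab x N then f x else 0) := by
        rw [mul_sum]
        apply sum_le_sum
        intro x _
        split_ifs with hx
        · have h10 : dist x r ≤ P.CG * P.w N.length := by
            apply hv.dist_le x r N.length h5
            rw [hx.eq, h6.eq]
          calc f x * dist x r ≤ f x * (P.CG * P.w N.length) :=
                mul_le_mul_of_nonneg_left h10 (hf x)
            _ = P.CG * P.w N.length * f x := by ring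
        · rw [mul_zero]
      have h10 : ∑ x, (if Mem lab x N then f x else 0) ≤ mass m lab N := by
        unfold mass
        apply sum_le_sum
        intro x _
        split_ifs
        · exact hfm x
        · exact le_rfl
      -- outer flow
      have h11 : ∑ x, f x = ∑ x, (if Mem lab x N then f x else 0) +
          ∑ x, (if Mem lab x N then 0 else f x) := by
        rw [← sum_add_distrib]
        apply sum_congr rfl
        intro x _
        split_ifs <;> ring
      have h12 : m r - f r + ∑ x, (if Mem lab x N then f x else 0) ≤ mass m lab N := by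
        have h13 : mass m lab N - ∑ x, (if Mem lab x N then f x else 0) =
            ∑ x, (if Mem lab x N then m x - f x else 0) := by
          unfold mass
          rw [← sum_sub_distrib]
          apply sum_congr rfl
          intro x _
          split_ifs <;> ring
        have h14 : m r - f r ≤ ∑ x, (if Mem lab x N then m x - f x else 0) := by
          have := single_le_sum (f := fun x => if Mem lab x N then m x - f x else 0)
            (fun z _ => by
              show (0 : ℝ) ≤ if Mem lab z N then m z - f z else 0
              split_ifs
              · linarith [hfm z]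
              · exact le_rfl) (mem_univ r)
          simpa [h6] using this
        linarith
      have h13 : ∑ x, (if Mem lab x N then f x else 0) ≤
          ∑ x, (if Mem lab x N then 0 else f x) := by linarith
      have h14 : ∑ x, f x * (if Mem lab x N then 0 else P.w N.length) =
          P.w N.length * ∑ x, (if Mem lab x N then 0 else f x) := by
        rw [mul_sum]
        apply sum_congr rfl
        intro x _
        split_ifs <;> ring
      rw [h14]
      calc _ ≤ P.CG * P.w N.length * ∑ x, (if Mem lab x N then f x else 0) := h9
        _ ≤ P.CG * P.w N.length * ∑ x, (if Mem lab x N then 0 else f x) := by gcongr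
        _ = _ := by ring
    refine (sum_le_sum h3).trans ?_
    rw [← mul_sum]
    apply mul_le_mul_of_nonneg_left _ hCG
    rw [sum_comm]
    apply sum_le_sum
    intro x _
    rw [← mul_sum]
    apply mul_le_mul_of_nonneg_left _ (hf x)
    -- the key distance
    calc ∑ N ∈ A.filter (fun N => ¬ T / 2 ≤ mass m lab N),
          (if Mem lab x N then 0 else P.w N.length)
        ≤ ∑ N ∈ (nodes Lab P.I).filter (fun N => Mem lab r N),
            (if Mem lab x N then 0 else P.w N.length) := by
          apply sum_le_sum_of_subset_of_nonneg
          · intro N hN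
            rw [mem_filter, hA, mem_filter] at hN
            rw [mem_filter]
            exact ⟨hN.1.1, hN.1.2.1⟩
          · intro N _ _
            split_ifs
            · exact le_rfl
            · exact hw _
      _ = dk P (lab x) (lab r) := by
          rw [sum_mem_key lab r P.I (fun N => if Mem lab x N then 0 else P.w N.length)]
          unfold dk
          apply sum_congr rfl
          intro j _
          have : Mem lab x (key (lab r) (j + 1)) ↔ key (lab x) (j + 1) = key (lab r) (j + 1) := by
            unfold Mem
            rw [key_length]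
          rw [key_length]
          by_cases h : key (lab x) (j + 1) = key (lab r) (j + 1)
          · rw [if_pos h, if_pos (this.2 h)]
          · rw [if_neg h, if_neg (fun h' => h (this.1 h'))]

end

end Crest.Agent.R314.C
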