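import Crest.Agent.R314.C2s
import Crest.Agent.R314.C2h1

/-!
R314, module C: `s10`, `s11` (H1) and `flow_count` with the signatures of post 8945.
Author: helper334.
-/

set_option autoImplicit false
set_option linter.unusedSectionVars false

namespace Crest.Agent.R314.C

open Finset Classical

variable {Y Lab : Type*} [Fintype Y] [MetricSpace Y] [Fintype Lab] {P : Par}

section
variable {m : Y → ℝ} {lab : Y → ℕ → Lab} {S : St Y Lab}
  (hs : Stuck P S m lab) (hm : ∀ x, 0 ≤ m x) (hv : Valid P lab)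
  (hk : ∀ N ∈ nodes Lab P.I, P.ok (S N).kind) (ht : ∀ N, 0 ≤ (S N).trav)
include hs hm hv hk ht

/-- number of charged nodes of mass `≥ T` containing `x` -/
theorem s10 {T : ℝ} (hT : 0 < T) (x : Y) :
    (((nodes Lab P.I).filter (fun N => Mem lab x N ∧ (S N).kind ≠ Kind.sp ∧
      T ≤ mass m lab N)).card : ℝ) * Real.log (10 / 9) ≤ max 0 (Real.log (mass m lab [] / T)) :=
  s10_of hm (fun _ hN h => s2 hs hm hv hk ht hN h) hT x

/-- (H1) -/
theorem s11 {x : Y} (hx : 0 < m x) :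
    ∑ N ∈ (nodes Lab P.I).filter (fun N => Mem lab x N),
      etaK (S N).kind ≤ 200 * Real.log (mass m lab [] / m x) :=
  s11_of hm (fun _ hN h => s2 hs hm hv hk ht hN h)
    (fun _ hN _ h => s3 hs hm hv hk ht hN h) hx

end

/-- (C4) number of charged nodes before a flow into `r`. -/
theorem flow_count {m f : Y → ℝ} {lab : Y → ℕ → Lab} {S : St Y Lab}
    (hs : Stuck P S m lab) (hm : ∀ x, 0 ≤ m x) (hv : Valid P lab)
    (hk : ∀ N ∈ nodes Lab P.I, P.ok (S N).kind) (ht : ∀ N, 0 ≤ (S N).trav)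
    (hf : ∀ x, 0 ≤ f x) (hfm : ∀ x, f x ≤ m x) (r : Y) {T : ℝ} (hT : 0 < T)
    (hr : T ≤ m r - f r + ∑ x, f x) :
    ∑ N ∈ (nodes Lab P.I).filter (fun N => Mem lab r N ∧ (S N).kind ≠ Kind.sp),
      ∑ x, (if Mem lab x N then f x * dist x r else 0) ≤
      (max 0 (Real.log (2 * mass m lab [] / T)) / Real.log (10 / 9)) * ∑ x, f x * dist x r +
        P.CG * ∑ x, f x * dk P (lab x) (lab r) :=
  flow_count_of hm hv (fun _ hN h => s2 hs hm hv hk ht hN h) hf hfm r hT hr

end Crest.Agent.R314.C
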