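import Crest.Agent.R314.C0

/-!
R314, module C: coefficients of the children (`s9`), (H2) (`s12`) and centres along the chain
(`s13`), with the consequences `s1, s4, s7, s8` of `Stuck` as hypotheses.  (helper183)
-/

set_option autoImplicit false
set_option linter.unusedSectionVars false

namespace Crest.Agent.R314.C.C2p

open Finset Classical
open Crest.Agent.R314.C

section UpLemmas

variable {Y Lab : Type*}

theorem up_length_lt (S : St Y Lab) {N : List Lab} (hN : N ≠ []) :
    (up S N).length < N.length := by
  induction N with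
  | nil => exact absurd rfl hN
  | cons a N ih =>
    rw [up_cons]
    split_ifs with h
    · by_cases h0 : N = []
      · subst h0; simp
      · exact lt_trans (ih h0) (by simp)
    · simp

/-- A charged strict ancestor is an ancestor of `up`. -/
theorem suffix_up (S : St Y Lab) {N H : List Lab} (h : N <:+ H) (hne : N ≠ H)
    (hk : (S N).kind ≠ Kind.sp) : N <:+ up S H := by
  induction H with
  | nil =>
    rw [List.suffix_nil] at h
    exact absurd h hne
  | cons a H ih =>
    rw [up_cons]
    rcases List.suffix_cons_iff.1 h with rfl | h'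
    · exact absurd rfl hne
    · split_ifs with hs
      · exact ih h' (by rintro rfl; exact hk hs)
      · exact h'

/-- `up` is the root or charged. -/
theorem up_kind (S : St Y Lab) (N : List Lab) : up S N = [] ∨ (S (up S N)).kind ≠ Kind.sp := by
  induction N with
  | nil => left; rfl
  | cons a N ih =>
    rw [up_cons]
    split_ifs with h
    · exact ih
    · right; exact h

theorem up_eq_of (S : St Y Lab) {U T : List Lab} (h : U <:+ T) (hne : U ≠ T)
    (hU : U = [] ∨ (S U).kind ≠ Kind.sp)
    (hs : ∀ N, N <:+ T → N ≠ T → U.length < N.length → (S N).kind = Kind.sp) : up S T = U := by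
  have hT : T ≠ [] := by
    rintro rfl
    rw [List.suffix_nil] at h
    exact hne h
  have hlt := up_length_lt S hT
  have hsuf := up_suffix S T
  -- `up S T` is not longer than `U`
  have h1 : (up S T).length ≤ U.length := by
    by_contra hc
    push Not at hc
    rcases up_kind S T with h2 | h2
    · rw [h2] at hc; simp at hc
    · exact h2 (hs _ hsuf (by intro e; rw [e] at hlt; exact lt_irrefl _ hlt) hc)
  rcases hU with rfl | hU
  · have : (up S T).length = 0 := by simpa using h1
    exact List.length_eq_zero_iff.1 this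
  · have h2 := suffix_up S h hne hU
    exact (h2.eq_of_length (le_antisymm h2.length_le h1)).symm

end UpLemmas

section Sums

variable {Y Lab : Type*} [Fintype Y] [MetricSpace Y] [Fintype Lab] {P : Par}

/-- Nodes without a common member have total mass at most the mass of a common ancestor. -/
theorem sum_mass_le {m : Y → ℝ} (hm : ∀ x, 0 ≤ m x) (lab : Y → ℕ → Lab) (s : Finset (List Lab))
    (U : List Lab) (hsub : ∀ N ∈ s, U <:+ N)
    (hdisj : ∀ N ∈ s, ∀ H ∈ s, ∀ x, Mem lab x N → Mem lab x H → N = H) :
    ∑ N ∈ s, mass m lab N ≤ mass m lab U := by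
  unfold mass
  rw [Finset.sum_comm]
  apply Finset.sum_le_sum
  intro x _
  by_cases hx : ∃ N ∈ s, Mem lab x N
  · obtain ⟨N, hN, hxN⟩ := hx
    rw [Finset.sum_eq_single N]
    · rw [if_pos hxN, if_pos (hxN.anc (hsub N hN))]
    · intro H hH hne
      rw [if_neg]
      intro hxH
      exact hne (hdisj N hN H hH x hxN hxH).symm
    · intro h; exact absurd hN h
  · push Not at hx
    rw [Finset.sum_eq_zero (fun N hN => if_neg (hx N hN))]
    split_ifs
    · exact hm x
    · exact le_rfl

theorem mass_nonneg' {m : Y → ℝ} (hm : ∀ x, 0 ≤ m x) (lab : Y → ℕ → Lab) (N : List Lab) :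
    0 ≤ mass m lab N := by
  unfold mass
  exact Finset.sum_nonneg (fun x _ => by split_ifs; exacts [hm x, le_rfl])

theorem le_mass' {m : Y → ℝ} (hm : ∀ x, 0 ≤ m x) {lab : Y → ℕ → Lab} {N : List Lab} {x : Y}
    (h : Mem lab x N) : m x ≤ mass m lab N := by
  unfold mass
  have := Finset.single_le_sum (f := fun x => if Mem lab x N then m x else 0)
    (fun y _ => by split_ifs; exacts [hm y, le_rfl]) (Finset.mem_univ x)
  simpa [h] using this

/-- Two charged nodes with the same `up` and a common member are equal. -/
theorem charged_disj (S : St Y Lab) (lab : Y → ℕ → Lab) {U N H : List Lab} (hN0 : N ≠ [])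
    (hH0 : H ≠ [])
    (hN : up S N = U) (hH : up S H = U) (kN : (S N).kind ≠ Kind.sp) (kH : (S H).kind ≠ Kind.sp)
    {x : Y} (hxN : Mem lab x N) (hxH : Mem lab x H) : N = H := by
  by_contra hne
  rcases le_total N.length H.length with h | h
  · have h1 := hxN.suffix hxH h
    have h2 := (suffix_up S h1 hne kN).length_le
    have h3 := up_length_lt S hN0
    rw [hH] at h2
    rw [hN] at h3
    omega
  · have h1 := hxH.suffix hxN h
    have h2 := (suffix_up S h1 (Ne.symm hne) kH).length_le
    have h3 := up_length_lt S hH0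
    rw [hN] at h2
    rw [hH] at h3
    omega

theorem sum_charged_mass_le {m : Y → ℝ} (hm : ∀ x, 0 ≤ m x) (lab : Y → ℕ → Lab) (S : St Y Lab)
    (I : ℕ) (U : List Lab) :
    ∑ N ∈ (nodes Lab I).filter (fun N => up S N = U ∧ (S N).kind ≠ Kind.sp), mass m lab N ≤
      mass m lab U := by
  apply sum_mass_le hm
  · intro N hN
    rw [Finset.mem_filter] at hN
    rw [← hN.2.1]
    exact up_suffix S N
  · intro N hN H hH x hxN hxH
    rw [Finset.mem_filter] at hN hH
    exact charged_disj S lab (mem_nodes.1 hN.1).1 (mem_nodes.1 hH.1).1 hN.2.1 hH.2.1 hN.2.2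
      hH.2.2 hxN hxH

theorem eta_ge (c : ℕ) : 16 ≤ eta c := by
  unfold eta
  have : (1 : ℝ) ≤ 2 ^ c := one_le_pow₀ (by norm_num)
  linarith

theorem exp_neg_four_le : Real.exp (-4) ≤ 1 / 16 := by
  have h1 : (2 : ℝ) ≤ Real.exp 1 := by
    have := Real.add_one_le_exp (1 : ℝ)
    linarith
  have h2 : Real.exp 4 = Real.exp 1 ^ 4 := by
    rw [← Real.exp_nat_mul]; norm_num
  have h3 : (16 : ℝ) ≤ Real.exp 4 := by
    rw [h2]
    calc (16 : ℝ) = 2 ^ 4 := by norm_num
      _ ≤ Real.exp 1 ^ 4 := pow_le_pow_left₀ (by norm_num) h1 4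
  rw [Real.exp_neg, one_div]
  exact inv_anti₀ (by norm_num) h3

theorem exp_eta_le (c : ℕ) : Real.exp (-eta c / 4) ≤ 1 / 16 := by
  refine le_trans (Real.exp_le_exp.2 ?_) exp_neg_four_le
  have := eta_ge c
  linarith

/-- (H2), with `s4` as hypothesis. -/
theorem s12_core {m : Y → ℝ} (hm : ∀ x, 0 ≤ m x) {lab : Y → ℕ → Lab} {S : St Y Lab} {I : ℕ}
    (h4 : ∀ N ∈ nodes Lab I, ∀ c, (S N).kind = Kind.fin c →
      Real.exp (-eta c / 4) * mass m lab (up S N) ≤ 8 * mass m lab N)
    {U : List Lab} (h0 : 0 < mass m lab U) :
    ∑ N ∈ (nodes Lab I).filter (fun N => up S N = U), expK (S N).kind ≤ 1 := by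
  have key : ∑ N ∈ (nodes Lab I).filter (fun N => up S N = U), expK (S N).kind ≤
      ∑ N ∈ (nodes Lab I).filter (fun N => up S N = U),
        (if (S N).kind ≠ Kind.sp then 1 / 16 * (8 * mass m lab N / mass m lab U) else 0) := by
    apply Finset.sum_le_sum
    intro N hN
    rw [Finset.mem_filter] at hN
    have hNm := mass_nonneg' hm lab N
    cases hk : (S N).kind with
    | sp => simp [expK]
    | inf =>
      simp only [expK, ne_eq, reduceCtorEq, not_false_eq_true, if_true]
      positivity
    | fin c =>
      simp only [expK, ne_eq, reduceCtorEq, not_false_eq_true, if_true]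
      have h := h4 N hN.1 c hk
      rw [hN.2] at h
      have e : Real.exp (-eta c / 2) = Real.exp (-eta c / 4) * Real.exp (-eta c / 4) := by
        rw [← Real.exp_add]; ring_nf
      rw [e]
      apply mul_le_mul (exp_eta_le c) _ (Real.exp_nonneg _) (by norm_num)
      rw [le_div_iff₀ h0]
      exact h
  refine key.trans ?_
  rw [← Finset.sum_filter, Finset.filter_filter, ← Finset.mul_sum, ← Finset.sum_div,
    ← Finset.mul_sum]
  have h1 := sum_charged_mass_le hm lab S I U
  have h2 : 8 * (∑ N ∈ (nodes Lab I).filter (fun N => up S N = U ∧ (S N).kind ≠ Kind.sp),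
      mass m lab N) / mass m lab U ≤ 8 := by
    rw [div_le_iff₀ h0]
    linarith
  linarith

theorem B_pos (P : Par) : 0 < P.B := lt_of_lt_of_le (by norm_num) P.hB

theorem w_pos (P : Par) (j : ℕ) : 0 < P.w j := div_pos P.hW (pow_pos (B_pos P) j)

theorem w_succ (P : Par) (j : ℕ) : P.w j = P.B * P.w (j + 1) := by
  unfold Par.w
  have := (B_pos P).ne'
  rw [pow_succ]
  field_simp

theorem w_succ_le (P : Par) (j : ℕ) : 64 * P.w (j + 1) ≤ P.w j := by
  rw [w_succ P j]
  exact mul_le_mul_of_nonneg_right P.hB (w_pos P _).le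

theorem w_anti (P : Par) {i j : ℕ} (h : i ≤ j) : P.w j ≤ P.w i := by
  induction j, h using Nat.le_induction with
  | base => exact le_rfl
  | succ j _ ih =>
    have h1 := w_succ_le P j
    have h2 := w_pos P (j + 1)
    linarith

theorem w_lt_le (P : Par) {i j : ℕ} (h : i < j) : 64 * P.w j ≤ P.w i :=
  (mul_le_mul_of_nonneg_left (w_anti P (Nat.succ_le_of_lt h)) (by norm_num)).trans
    (w_succ_le P i)

/-- The sum of the weights of the depths `i+1, ..., n` is at most `w i / 63`. -/
theorem sum_w_le (P : Par) (i n : ℕ) :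
    ∑ j ∈ Finset.Ioc i n, P.w j ≤ 1 / 63 * P.w i := by
  have key : ∀ n, i ≤ n → ∑ j ∈ Finset.Ioc i n, P.w j ≤ 1 / 63 * (P.w i - P.w n) := by
    intro n hn
    induction n, hn using Nat.le_induction with
    | base => simp
    | succ n hn ih =>
      rw [← Finset.insert_Ioc_right_eq_Ioc_add_one hn, Finset.sum_insert (by simp)]
      have h1 := w_succ_le P n
      linarith
  rcases le_total i n with h | h
  · refine (key n h).trans ?_
    have := w_pos P n
    linarith
  · rw [Finset.Ioc_eq_empty (by omega), Finset.sum_empty]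
    have := w_pos P i
    positivity

/-- Two spine nodes of the same depth with the same `up` of positive mass are equal. -/
theorem spine_unique {m : Y → ℝ} (hm : ∀ x, 0 ≤ m x) {lab : Y → ℕ → Lab} {S : St Y Lab}
    {U N H : List Lab} (h0 : 0 < mass m lab U) (hN : up S N = U) (hH : up S H = U)
    (hl : N.length = H.length) (h1 : 3 / 4 * mass m lab U ≤ mass m lab N)
    (h2 : 3 / 4 * mass m lab U ≤ mass m lab H) : N = H := by
  by_contra hne
  have h3 := sum_mass_le hm lab {N, H} U (by
    intro K hK
    rw [Finset.mem_insert, Finset.mem_singleton] at hK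
    rcases hK with rfl | rfl
    · rw [← hN]; exact up_suffix S _
    · rw [← hH]; exact up_suffix S _) (by
    intro K hK L hL x hx hx'
    rw [Finset.mem_insert, Finset.mem_singleton] at hK hL
    have e : K.length = L.length := by
      rcases hK with rfl | rfl <;> rcases hL with rfl | rfl <;> simp [hl]
    exact (hx.suffix hx' e.le).eq_of_length e)
  rw [Finset.sum_pair hne] at h3
  linarith

/-- Coefficients of the children, with `s1` and `s4` as hypotheses. -/
theorem s9_core {m : Y → ℝ} (hm : ∀ x, 0 ≤ m x) {lab : Y → ℕ → Lab} {S : St Y Lab}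
    (h1 : ∀ N ∈ nodes Lab P.I, (S N).kind = Kind.sp →
      3 / 4 * mass m lab (up S N) ≤ mass m lab N)
    (h4 : ∀ N ∈ nodes Lab P.I, ∀ c, (S N).kind = Kind.fin c →
      Real.exp (-eta c / 4) * mass m lab (up S N) ≤ 8 * mass m lab N)
    {U : List Lab} (h0 : 0 < mass m lab U) :
    ∑ N ∈ (nodes Lab P.I).filter (fun N => up S N = U), P.w N.length * P.be (S N).kind ≤
      (P.A + P.A') / 63 * P.w U.length := by
  have hA : 0 < P.A := by unfold Par.A; have := P.hCG; linarith
  have hA' : 0 < P.A' := by
    unfold Par.A' Par.Q; have := P.hCG; positivity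
  have hwU := w_pos P U.length
  -- pointwise bound
  have key : ∀ N ∈ (nodes Lab P.I).filter (fun N => up S N = U),
      P.w N.length * P.be (S N).kind ≤
        (if (S N).kind ≠ Kind.sp then P.w U.length / 64 * (P.A * (mass m lab N / mass m lab U))
          else 0) + (if (S N).kind = Kind.sp then P.A' * P.w N.length else 0) := by
    intro N hN
    rw [Finset.mem_filter] at hN
    have hlt := up_length_lt S (mem_nodes.1 hN.1).1
    rw [hN.2] at hlt
    have hw := w_lt_le P hlt
    have hwN := w_pos P N.length
    have hNm := mass_nonneg' hm lab N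
    cases hk : (S N).kind with
    | sp => simp [Par.be, mul_comm]
    | inf =>
      simp only [Par.be, ne_eq, reduceCtorEq, not_false_eq_true, if_true, if_false, mul_zero,
        add_zero]
      positivity
    | fin c =>
      simp only [Par.be, ne_eq, reduceCtorEq, not_false_eq_true, if_true, if_false, add_zero]
      have h := h4 N hN.1 c hk
      rw [hN.2] at h
      have h5 : Real.exp (-eta c / 4) ≤ 8 * (mass m lab N / mass m lab U) := by
        rw [← mul_div_assoc, le_div_iff₀ h0]; exact h
      have h6 : (1 / 2 : ℝ) ^ c ≤ 1 := pow_le_one₀ (by norm_num) (by norm_num)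
      have h7 : P.A / 8 * (1 / 2) ^ c * Real.exp (-eta c / 4) ≤
          P.A * (mass m lab N / mass m lab U) := by
        calc P.A / 8 * (1 / 2) ^ c * Real.exp (-eta c / 4)
            ≤ P.A / 8 * 1 * (8 * (mass m lab N / mass m lab U)) := by
              apply mul_le_mul _ h5 (Real.exp_nonneg _) (by positivity)
              exact mul_le_mul_of_nonneg_left h6 (by positivity)
          _ = P.A * (mass m lab N / mass m lab U) := by ring
      apply mul_le_mul _ h7 (by positivity) (by positivity)
      linarith
  refine (Finset.sum_le_sum key).trans ?_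
  rw [Finset.sum_add_distrib, ← Finset.sum_filter, ← Finset.sum_filter, Finset.filter_filter,
    Finset.filter_filter]
  have hch : ∑ N ∈ (nodes Lab P.I).filter (fun N => up S N = U ∧ (S N).kind ≠ Kind.sp),
      P.w U.length / 64 * (P.A * (mass m lab N / mass m lab U)) ≤ P.w U.length / 64 * P.A := by
    rw [← Finset.mul_sum, ← Finset.mul_sum, ← Finset.sum_div]
    apply mul_le_mul_of_nonneg_left _ (by positivity)
    have := sum_charged_mass_le hm lab S P.I U
    have h5 : (∑ N ∈ (nodes Lab P.I).filter (fun N => up S N = U ∧ (S N).kind ≠ Kind.sp),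
        mass m lab N) / mass m lab U ≤ 1 := by
      rw [div_le_one h0]; exact this
    calc P.A * _ ≤ P.A * 1 := mul_le_mul_of_nonneg_left h5 hA.le
      _ = P.A := mul_one _
  have hsp : ∑ N ∈ (nodes Lab P.I).filter (fun N => up S N = U ∧ (S N).kind = Kind.sp),
      P.A' * P.w N.length ≤ P.A' * (1 / 63 * P.w U.length) := by
    rw [← Finset.mul_sum]
    apply mul_le_mul_of_nonneg_left _ hA'.le
    refine le_trans ?_ (sum_w_le P U.length P.I)
    rw [← Finset.sum_image (f := P.w) (g := List.length)]
    · apply Finset.sum_le_sum_of_subset_of_nonneg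
      · intro j hj
        rw [Finset.mem_image] at hj
        obtain ⟨N, hN, rfl⟩ := hj
        rw [Finset.mem_filter] at hN
        rw [Finset.mem_Ioc]
        have hlt := up_length_lt S (mem_nodes.1 hN.1).1
        rw [hN.2.1] at hlt
        exact ⟨hlt, (mem_nodes.1 hN.1).2⟩
      · intro j _ _
        exact (w_pos P j).le
    · intro N hN H hH hl
      rw [Finset.mem_coe, Finset.mem_filter] at hN hH
      have e1 := h1 N hN.1 hN.2.2
      have e2 := h1 H hH.1 hH.2.2
      rw [hN.2.1] at e1
      rw [hH.2.1] at e2
      exact spine_unique hm h0 hN.2.1 hH.2.1 hl e1 e2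
  have : P.w U.length / 64 * P.A ≤ P.A / 63 * P.w U.length := by
    have : 0 ≤ P.A * P.w U.length := by positivity
    nlinarith
  calc _ ≤ P.w U.length / 64 * P.A + P.A' * (1 / 63 * P.w U.length) := add_le_add hch hsp
    _ ≤ P.A / 63 * P.w U.length + P.A' * (1 / 63 * P.w U.length) := by linarith
    _ = (P.A + P.A') / 63 * P.w U.length := by ring

/-- Centres along the chain of `x`, with `s1`, `s7`, `s8` as hypotheses. -/
theorem s13_core {m : Y → ℝ} (hm : ∀ x, 0 ≤ m x) {lab : Y → ℕ → Lab} {S : St Y Lab}
    (hv : Valid P lab)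
    (h1 : ∀ N ∈ nodes Lab P.I, (S N).kind = Kind.sp →
      3 / 4 * mass m lab (up S N) ≤ mass m lab N)
    (h7 : ∀ N ∈ nodes Lab P.I, (S N).kind ≠ Kind.sp → 0 < mass m lab N → ∀ x, Mem lab x N →
      dist x (S N).ctr ≤ (2 * P.CG + 1) * P.w N.length)
    (h8 : ∀ U H : List Lab, (U = [] ∨ (U ∈ nodes Lab P.I ∧ (S U).kind ≠ Kind.sp)) →
      U <:+ H → 0 < mass m lab U → 3 / 4 * mass m lab U ≤ mass m lab H → ∀ D : ℝ,
      (∀ x y, Mem lab x H → Mem lab y H → dist x y ≤ D) → ∀ x, Mem lab x H →
      dist x (S U).ctr ≤ 8 * D)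
    {x : Y} (hx : 0 < m x) {U : List Lab}
    (hU : U = [] ∨ (U ∈ nodes Lab P.I ∧ (S U).kind ≠ Kind.sp)) (hxU : Mem lab x U) :
    dist x (S U).ctr ≤ 8 * P.CG * P.B *
      ∑ N ∈ (nodes Lab P.I).filter (fun N => Mem lab x N ∧ U.length < N.length ∧
        (S N).kind ≠ Kind.sp), P.w N.length := by
  have hCG := P.hCG
  have hB := (B_pos P)
  have hUm : 0 < mass m lab U := lt_of_lt_of_le hx (le_mass' hm hxU)
  have hUlen : U.length ≤ P.I := by
    rcases hU with rfl | hU
    · simp
    · exact (mem_nodes.1 hU.1).2
  have hU' : U = [] ∨ (S U).kind ≠ Kind.sp := hU.imp id And.right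
  -- a spine node strictly below `U`, all of whose ancestors strictly below `U` are spine
  have hspine : ∀ T : List Lab, Mem lab x T → T.length ≤ P.I → U.length < T.length →
      (S T).kind = Kind.sp →
      (∀ N, N <:+ T → N ≠ T → U.length < N.length → (S N).kind = Kind.sp) →
      3 / 4 * mass m lab U ≤ mass m lab T := by
    intro T hxT hTl hUT hTk hTs
    have hsuf : U <:+ T := hxU.suffix hxT hUT.le
    have hne : U ≠ T := by rintro rfl; exact lt_irrefl _ hUT
    have hup := up_eq_of S hsuf hne hU' hTs
    have hTn : T ∈ nodes Lab P.I :=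
      mem_nodes.2 ⟨by rintro rfl; simp at hUT, hTl⟩
    have := h1 T hTn hTk
    rwa [hup] at this
  set F := (nodes Lab P.I).filter (fun N => Mem lab x N ∧ U.length < N.length ∧
        (S N).kind ≠ Kind.sp) with hF
  have hsum0 : ∀ N ∈ F, P.w N.length ≤ ∑ N ∈ F, P.w N.length := fun N hN =>
    Finset.single_le_sum (f := fun N : List Lab => P.w N.length)
      (fun N _ => (w_pos P N.length).le) hN
  by_cases hne : F.Nonempty
  · -- highest charged node below `U`
    obtain ⟨N, hN, hmin⟩ := Finset.exists_min_image F List.length hne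
    have hN' := hN
    rw [hF, Finset.mem_filter] at hN'
    obtain ⟨hNn, hxN, hUN, hNk⟩ := hN'
    obtain ⟨hN0, hNI⟩ := mem_nodes.1 hNn
    obtain ⟨a, T, rfl⟩ := List.exists_cons_of_ne_nil hN0
    have hxT : Mem lab x T := hxN.tail
    have hlen : (a :: T).length = T.length + 1 := rfl
    have hTI : T.length ≤ P.I := by rw [hlen] at hNI; omega
    have hUT : U.length ≤ T.length := by rw [hlen] at hUN; omega
    have hbig : P.w T.length = P.B * P.w (a :: T).length := by rw [hlen]; exact w_succ P _
    have hfin : 8 * P.CG * P.w T.length ≤ 8 * P.CG * P.B * ∑ N ∈ F, P.w N.length := by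
      rw [hbig]
      have := hsum0 _ hN
      have h8c : 0 ≤ 8 * P.CG * P.B := by positivity
      calc 8 * P.CG * (P.B * P.w (a :: T).length) = 8 * P.CG * P.B * P.w (a :: T).length := by
            ring
        _ ≤ _ := mul_le_mul_of_nonneg_left this h8c
    rcases eq_or_lt_of_le hUT with he | hlt
    · -- `T = U`
      have hTU : U = T := (hxU.suffix hxT hUT).eq_of_length he
      rcases hU with hU | hU
      · -- root
        subst hU
        have h := h8 [] [] (Or.inl rfl) (List.suffix_refl _) hUm
          (by have := hUm.le; linarith) (P.CG * P.w 0)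
          (fun x y _ _ => hv.dist_le x y 0 (Nat.zero_le _) rfl) x (mem_nil lab x)
        refine h.trans (le_trans (le_of_eq ?_) hfin)
        rw [← hTU]
        simp only [List.length_nil]
        ring
      · have h := h7 U hU.1 hU.2 hUm x hxU
        refine h.trans (le_trans ?_ hfin)
        rw [← hTU]
        have := w_pos P U.length
        apply mul_le_mul_of_nonneg_right _ this.le
        linarith
    · -- `T` is a spine node
      have hTs : ∀ K, K <:+ (a :: T) → K ≠ (a :: T) → U.length < K.length →
          (S K).kind = Kind.sp := by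
        intro K hK hKne hUK
        by_contra hKk
        have hKF : K ∈ F := by
          rw [hF, Finset.mem_filter]
          refine ⟨mem_nodes.2 ⟨by rintro rfl; simp at hUK, hK.length_le.trans hNI⟩,
            hxN.anc hK, hUK, hKk⟩
        have := hmin K hKF
        exact hKne (hK.eq_of_length (le_antisymm hK.length_le this))
      have hTk := hTs T (List.suffix_cons a T) (by
        intro e
        have := congrArg List.length e
        simp at this) hlt
      have h34 := hspine T hxT hTI hlt hTk (fun K hK hKne hUK =>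
        hTs K (hK.trans (List.suffix_cons a T)) (by
          intro e
          have h1 := hK.length_le
          rw [e] at h1
          simp at h1) hUK)
      have h := h8 U T hU (hxU.suffix hxT hUT) hUm h34 (P.CG * P.w T.length)
        (fun y z hy hz => hv.dist_le y z T.length hTI (hy.eq.trans hz.eq.symm)) x hxT
      refine h.trans (le_trans (le_of_eq ?_) hfin)
      ring
  · -- no charged node below `U`
    rw [Finset.not_nonempty_iff_eq_empty] at hne
    rw [hne, Finset.sum_empty, mul_zero]
    have hTs : ∀ K : List Lab, Mem lab x K → K.length ≤ P.I → U.length < K.length →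
        (S K).kind = Kind.sp := by
      intro K hK hKI hUK
      by_contra hKk
      have hKF : K ∈ F := by
        rw [hF, Finset.mem_filter]
        exact ⟨mem_nodes.2 ⟨by rintro rfl; simp at hUK, hKI⟩, hK, hUK, hKk⟩
      rw [hne] at hKF
      simp at hKF
    have hTm : Mem lab x (key (lab x) P.I) := mem_key lab x P.I
    have hTl : (key (lab x) P.I).length = P.I := key_length _ _
    have hsuf : U <:+ key (lab x) P.I := hxU.suffix hTm (by rw [hTl]; exact hUlen)
    have h34 : 3 / 4 * mass m lab U ≤ mass m lab (key (lab x) P.I) := by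
      rcases eq_or_lt_of_le hUlen with he | hlt
      · have : U = key (lab x) P.I := hsuf.eq_of_length (by rw [hTl]; exact he)
        rw [← this]
        linarith
      · apply hspine _ hTm hTl.le (by rw [hTl]; exact hlt)
          (hTs _ hTm hTl.le (by rw [hTl]; exact hlt))
        intro K hK _ hUK
        exact hTs K (hTm.anc hK) (hK.length_le.trans hTl.le) hUK
    have h := h8 U _ hU hsuf hUm h34 0 (by
      intro y z hy hz
      have e : y = z := hv.sep y z (by
        have := hy.eq; have h2 := hz.eq
        rw [hTl] at this h2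
        rw [this, h2])
      rw [e, dist_self]) x hTm
    simpa using h

end Sums

end Crest.Agent.R314.C.C2p
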