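import Mathlib
import Crest.Agent.R314.C2s
import Crest.Agent.R314.C2p

/-!
R314, module C: the statements s9, s12, s13 (wrappers of `C2p`).
-/

set_option autoImplicit false
set_option linter.unusedSectionVars false

namespace Crest.Agent.R314.C

open Finset Classical

variable {Y Lab : Type*} [Fintype Y] [MetricSpace Y] [Fintype Lab] {P : Par}

section
variable {m : Y → ℝ} {lab : Y → ℕ → Lab} {S : St Y Lab}
  (hs : Stuck P S m lab) (hm : ∀ x, 0 ≤ m x) (hv : Valid P lab)
  (hk : ∀ N ∈ nodes Lab P.I, P.ok (S N).kind) (ht : ∀ N, 0 ≤ (S N).trav)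
include hs hm hv hk ht

/-- coefficients of the children -/
theorem s9 {U : List Lab} (hU : U.length ≤ P.I) (h0 : 0 < mass m lab U) :
    ∑ N ∈ (nodes Lab P.I).filter (fun N => up S N = U), P.w N.length * P.be (S N).kind ≤
      (P.A + P.A') / 63 * P.w U.length := by
  have _ := hU
  have h := C2p.s9_core (P := P) hm (fun N hN h => s1 hs hm hv hk ht hN h)
    (fun N hN c h => s4 hs hm hv hk ht hN h) h0
  convert h using 2

/-- (H2) -/
theorem s12 {U : List Lab} (h0 : 0 < mass m lab U) :
    ∑ N ∈ (nodes Lab P.I).filter (fun N => up S N = U),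
      expK (S N).kind ≤ 1 := by
  have h := C2p.s12_core (I := P.I) hm (fun N hN c h => s4 hs hm hv hk ht hN h) h0
  convert h using 2

/-- centres along the chain of `x`: `U` charged or the root, `x ∈ U`; the right-hand side is the
sum over the charged nodes strictly below `U` containing `x`. -/
theorem s13 {x : Y} (hx : 0 < m x) {U : List Lab} (hU : U = [] ∨ (U ∈ nodes Lab P.I ∧
    (S U).kind ≠ Kind.sp)) (hxU : Mem lab x U) :
    dist x (S U).ctr ≤ 8 * P.CG * P.B *
      ∑ N ∈ (nodes Lab P.I).filter (fun N => Mem lab x N ∧ U.length < N.length ∧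
        (S N).kind ≠ Kind.sp), P.w N.length := by
  have h := C2p.s13_core (P := P) hm hv (fun N hN h => s1 hs hm hv hk ht hN h)
    (fun N hN h h0 x hx => s7 hs hm hv hk ht hN h h0 hx)
    (fun U H hU hH h0 h34 D hD x hx => s8 hs hm hv hk ht hU hH h0 h34 hD hx) hx hU hxU
  convert h using 2

end

end Crest.Agent.R314.C
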