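import Mathlib
import Crest.Agent.R314.C0

/-!
R314, module C, block C3 (helper555's #8945): the move lemma `move_pt'`, from (s6), (s7), (s9).
-/

set_option autoImplicit false
set_option linter.unusedSectionVars false

namespace Crest.Agent.R314.C

open Finset Classical

variable {Y Lab : Type*} [Fintype Y] [MetricSpace Y] [Fintype Lab] {P : Par}

namespace C3

theorem w_pos (P : Par) (j : ℕ) : 0 < P.w j := by
  have := P.hW
  have := P.hB
  unfold Par.w
  positivity

theorem A_pos (P : Par) : 0 < P.A := by
  have := P.hCG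
  unfold Par.A; linarith

theorem A'_pos (P : Par) : 0 < P.A' := by
  have := P.hCG
  have := A_pos P
  unfold Par.A' Par.Q; linarith

theorem be_nonneg (P : Par) (κ : Kind) : 0 ≤ P.be κ := by
  have h1 := A_pos P
  cases κ with
  | sp => exact (A'_pos P).le
  | inf => exact le_rfl
  | fin c =>
    unfold Par.be
    positivity

theorem al_le (P : Par) (κ : Kind) : P.al κ ≤ 2 * P.A := by
  have h1 := A_pos P
  have h2 := A'_pos P
  cases κ with
  | sp => unfold Par.al; linarith
  | inf => exact le_rfl
  | fin c =>
    unfold Par.al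
    have : 0 ≤ P.A * (1 / 2 : ℝ) ^ c := by positivity
    linarith

theorem al_nonneg (P : Par) {κ : Kind} (h : κ ≠ Kind.sp) : 0 ≤ P.al κ := by
  have h1 := A_pos P
  cases κ with
  | sp => exact absurd rfl h
  | inf => unfold Par.al; linarith
  | fin c =>
    unfold Par.al
    have h2 : (1 / 2 : ℝ) ^ c ≤ 1 := pow_le_one₀ (by norm_num) (by norm_num)
    apply mul_nonneg h1.le
    linarith

theorem neg_al_le (P : Par) (κ : Kind) : - P.A' ≤ P.al κ := by
  have h2 := A'_pos P
  by_cases h : κ = Kind.sp
  · rw [h]; exact le_rfl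
  · have := al_nonneg P h; linarith

theorem mass_anc {m : Y → ℝ} (hm : ∀ x, 0 ≤ m x) (lab : Y → ℕ → Lab) {N H : List Lab}
    (h : N <:+ H) : mass m lab H ≤ mass m lab N := by
  unfold mass
  apply sum_le_sum
  intro x _
  by_cases h1 : Mem lab x H
  · rw [if_pos h1, if_pos (h1.anc h)]
  · rw [if_neg h1]
    split_ifs
    · exact hm x
    · exact le_rfl

theorem mass_pos {m : Y → ℝ} (hm : ∀ x, 0 ≤ m x) {lab : Y → ℕ → Lab} {N : List Lab} {x : Y}
    (hx : 0 < m x) (h : Mem lab x N) : 0 < mass m lab N := by
  unfold mass
  have := single_le_sum (f := fun x => if Mem lab x N then m x else 0) (s := univ)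
    (fun z _ => by split_ifs <;> [exact hm z; exact le_rfl]) (mem_univ x)
  simp only [h, if_true] at this
  linarith

/-- chain sums -/
theorem sum_mem (lab : Y → ℕ → Lab) (x : Y) (I : ℕ) (f : List Lab → ℝ) :
    ∑ N ∈ nodes Lab I, (if Mem lab x N then f N else 0) =
      ∑ j ∈ range I, f (key (lab x) (j + 1)) := by
  rw [← sum_filter]
  apply sum_nbij' (fun N => N.length - 1) (fun j => key (lab x) (j + 1))
  · intro N hN
    rw [mem_filter, mem_nodes] at hN
    have h1 : N.length ≠ 0 := by
      rw [Ne, List.length_eq_zero_iff]; exact hN.1.1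
    rw [mem_range]
    have := hN.1.2
    omega
  · intro j hj
    rw [mem_range] at hj
    rw [mem_filter, mem_nodes]
    refine ⟨⟨by rw [key_succ]; exact List.cons_ne_nil _ _, by rw [key_length]; omega⟩,
      mem_key lab x _⟩
  · intro N hN
    rw [mem_filter, mem_nodes] at hN
    have h1 : N.length ≠ 0 := by
      rw [Ne, List.length_eq_zero_iff]; exact hN.1.1
    have h2 : N.length - 1 + 1 = N.length := by omega
    simp only [h2]
    exact hN.2
  · intro j hj
    simp
  · intro N hN
    rw [mem_filter, mem_nodes] at hN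
    have h1 : N.length ≠ 0 := by
      rw [Ne, List.length_eq_zero_iff]; exact hN.1.1
    have h2 : N.length - 1 + 1 = N.length := by omega
    simp only [h2]
    rw [hN.2.eq]

theorem sum_diff (P : Par) (lab lab' : Y → ℕ → Lab) (x y : Y) :
    ∑ N ∈ nodes Lab P.I, (if Mem lab x N ∧ ¬ Mem lab' y N then P.w N.length else 0) =
      dk P (lab x) (lab' y) := by
  have e : ∀ N ∈ nodes Lab P.I, (if Mem lab x N ∧ ¬ Mem lab' y N then P.w N.length else 0) =
      if Mem lab x N then (if Mem lab' y N then 0 else P.w N.length) else 0 := by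
    intro N _
    by_cases h1 : Mem lab x N <;> by_cases h2 : Mem lab' y N <;> simp [h1, h2]
  rw [sum_congr rfl e, sum_mem]
  unfold dk
  apply sum_congr rfl
  intro j _
  have h : Mem lab' y (key (lab x) (j + 1)) ↔ key (lab x) (j + 1) = key (lab' y) (j + 1) := by
    unfold Mem
    rw [key_length]
    exact eq_comm
  rw [key_length]
  by_cases h1 : key (lab x) (j + 1) = key (lab' y) (j + 1)
  · rw [if_pos (h.2 h1), if_pos h1]
  · rw [if_neg (fun h2 => h1 (h.1 h2)), if_neg h1]

theorem dk_comm (P : Par) (u v : ℕ → Lab) : dk P u v = dk P v u := by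
  unfold dk
  apply sum_congr rfl
  intro j _
  by_cases h : key u (j + 1) = key v (j + 1)
  · rw [if_pos h, if_pos h.symm]
  · rw [if_neg h, if_neg (fun h' => h h'.symm)]

theorem dk_nonneg (P : Par) (u v : ℕ → Lab) : 0 ≤ dk P u v := by
  unfold dk
  apply sum_nonneg
  intro j _
  split_ifs
  · exact le_rfl
  · exact (w_pos P _).le

/-- the nearest charged ancestor is not changed by the re-initialisation, for kept nodes -/
theorem up_reinit {now : ℕ} {keep : List Lab → Prop} {g : List Lab → Y} {S : St Y Lab}
    (hk : ∀ a N, keep (a :: N) → N = [] ∨ keep N) {N : List Lab} (hN : keep N) :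
    up (reinit now keep g S) N = up S N := by
  induction N with
  | nil => rfl
  | cons a N ih =>
    rw [up_cons, up_cons]
    rcases hk a N hN with h | h
    · subst h
      have : reinit now keep g S [] = S [] := by unfold reinit; rw [if_pos (Or.inl rfl)]
      rw [this]; rfl
    · have : reinit now keep g S N = S N := by unfold reinit; rw [if_pos (Or.inr h)]
      rw [this, ih h]

end C3

open C3 in
/-- **Move lemma** (C3), from (s6), (s7), (s9). -/
theorem move_pt' {m : Y → ℝ} {lab : Y → ℕ → Lab} {S : St Y Lab}
    (hm : ∀ x, 0 ≤ m x)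
    (h6 : ∀ N ∈ nodes Lab P.I, (S N).kind ≠ Kind.sp → 0 < mass m lab N →
      (S N).trav ≤ 3 / 64 * P.w N.length)
    (h7 : ∀ N ∈ nodes Lab P.I, (S N).kind ≠ Kind.sp → 0 < mass m lab N → ∀ x, Mem lab x N →
      dist x (S N).ctr ≤ (2 * P.CG + 1) * P.w N.length)
    (h9 : ∀ U : List Lab, U.length ≤ P.I → 0 < mass m lab U →
      ∑ N ∈ (nodes Lab P.I).filter (fun N => up S N = U), P.w N.length * P.be (S N).kind ≤
      (P.A + P.A') / 63 * P.w U.length)
    (ht : ∀ N, 0 ≤ (S N).trav)
    {lab' : Y → ℕ → Lab} (hv' : Valid P lab') {keep : List Lab → Prop}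
    (hkeep : ∀ N, keep N ↔ 0 < mass m lab N ∧ ∃ z, Mem lab z N ∧ Mem lab' z N)
    {g : List Lab → Y} (hg : ∀ N, (∃ z, Mem lab' z N) → Mem lab' (g N) N) (now : ℕ) {x y : Y}
    (hx : 0 < m x) (hxy : x = y ∨ lab = lab') :
    ps P (reinit now keep g S) lab' y ≤ ps P S lab x +
      (3 * P.A + 2 * P.A' + 33 * P.CG) * dk P (lab x) (lab' y) +
      8 * (dist y (S []).ctr - dist x (S []).ctr) +
      8 * ∑ N ∈ (nodes Lab P.I).filter (fun N => Mem lab x N ∧ Mem lab' y N ∧
        (S N).kind ≠ Kind.sp), (dist y (S N).ctr - dist x (S N).ctr) := by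
  have hA := A_pos P
  have hA' := A'_pos P
  have hCG := P.hCG
  set S' := reinit now keep g S with hS'
  have hroot : S' [] = S [] := by rw [hS']; unfold reinit; rw [if_pos (Or.inl rfl)]
  have hkept : ∀ N, keep N → S' N = S N := by
    intro N hN; rw [hS']; unfold reinit; rw [if_pos (Or.inr hN)]
  have hnot : ∀ N ∈ nodes Lab P.I, ¬ keep N → S' N = ⟨Kind.inf, now, g N, 0⟩ := by
    intro N hN hk
    rw [mem_nodes] at hN
    rw [hS']; unfold reinit; rw [if_neg (by rintro (h | h) <;> [exact hN.1 h; exact hk h])]
  have hclosed : ∀ a N, keep (a :: N) → N = [] ∨ keep N := by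
    intro a N h
    rw [hkeep] at h
    obtain ⟨h1, z, h2, h3⟩ := h
    right
    rw [hkeep]
    exact ⟨h1.trans_le (mass_anc hm lab (List.suffix_cons a N)), z, h2.tail, h3.tail⟩
  -- a kept node in the chain of both points
  have hboth : ∀ N, Mem lab x N → Mem lab' y N → keep N := by
    intro N h1 h2
    rw [hkeep]
    refine ⟨mass_pos hm hx h1, ?_⟩
    rcases hxy with h | h
    · subst h; exact ⟨x, h1, h2⟩
    · exact ⟨x, h1, by rw [← h]; exact h1⟩
  -- the excess of the coefficients of the parents
  set G : List Lab → ℝ := fun N => if keep N ∧ Mem lab' y (up S N) ∧ ¬ Mem lab x (up S N) then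
    P.w N.length * P.be (S N).kind else 0 with hG
  have hGsum : ∑ N ∈ nodes Lab P.I, G N ≤ (P.A + P.A') / 63 * dk P (lab x) (lab' y) := by
    rw [hG, ← sum_filter]
    set R := (nodes Lab P.I).filter (fun U => Mem lab' y U ∧ ¬ Mem lab x U ∧ 0 < mass m lab U)
      with hR
    have hmaps : ∀ N ∈ (nodes Lab P.I).filter (fun N => keep N ∧ Mem lab' y (up S N) ∧
        ¬ Mem lab x (up S N)), up S N ∈ R := by
      intro N hN
      rw [mem_filter, mem_nodes] at hN
      obtain ⟨⟨h1, h2⟩, h3, h4, h5⟩ := hN
      rw [hR, mem_filter, mem_nodes]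
      refine ⟨⟨?_, (up_suffix S N).length_le.trans h2⟩, h4, h5, ?_⟩
      · intro h; rw [h] at h5; exact h5 (mem_nil lab x)
      · exact ((hkeep N).1 h3).1.trans_le (mass_anc hm lab (up_suffix S N))
    rw [← sum_fiberwise_of_maps_to hmaps]
    have h1 : ∀ U ∈ R, ∑ N ∈ ((nodes Lab P.I).filter (fun N => keep N ∧ Mem lab' y (up S N) ∧
        ¬ Mem lab x (up S N))).filter (fun N => up S N = U), P.w N.length * P.be (S N).kind ≤
        (P.A + P.A') / 63 * P.w U.length := by
      intro U hU
      rw [hR, mem_filter, mem_nodes] at hU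
      refine le_trans ?_ (h9 U hU.1.2 hU.2.2.2)
      apply sum_le_sum_of_subset_of_nonneg
      · intro N hN
        rw [mem_filter, mem_filter] at hN
        rw [mem_filter]
        exact ⟨hN.1.1, hN.2⟩
      · intro N _ _
        exact mul_nonneg (w_pos P _).le (be_nonneg P _)
    refine (sum_le_sum h1).trans ?_
    rw [← mul_sum]
    apply mul_le_mul_of_nonneg_left _ (by linarith)
    rw [dk_comm, ← sum_diff P lab' lab y x, ← sum_filter]
    apply sum_le_sum_of_subset_of_nonneg
    · intro N hN
      rw [hR, mem_filter] at hN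
      rw [mem_filter]
      exact ⟨hN.1, hN.2.1, hN.2.2.1⟩
    · intro N _ _
      exact (w_pos P _).le
  -- per node, first part
  have hfirst : ∀ N ∈ nodes Lab P.I,
      (if Mem lab' y N then P.w N.length * P.al (S' N).kind +
        (if (S' N).kind = Kind.sp then 0 else 8 * dist y (S' N).ctr + (S' N).trav) else 0) ≤
      (if Mem lab x N then P.w N.length * P.al (S N).kind +
        (if (S N).kind = Kind.sp then 0 else 8 * dist x (S N).ctr + (S N).trav) else 0) +
      8 * (if Mem lab x N ∧ Mem lab' y N ∧ (S N).kind ≠ Kind.sp then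
        dist y (S N).ctr - dist x (S N).ctr else 0) +
      (2 * P.A + 33 * P.CG) * (if Mem lab' y N ∧ ¬ Mem lab x N then P.w N.length else 0) +
      P.A' * (if Mem lab x N ∧ ¬ Mem lab' y N then P.w N.length else 0) := by
    intro N hN
    have hw := w_pos P N.length
    by_cases h1 : Mem lab x N
    · by_cases h2 : Mem lab' y N
      · rw [hkept N (hboth N h1 h2)]
        by_cases h3 : (S N).kind = Kind.sp
        · simp [h1, h2, h3]
        · simp only [h1, h2, h3, if_true, if_false, ne_eq, not_false_eq_true, and_true, and_self,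
            not_true_eq_false, and_false, mul_zero, add_zero]
          linarith
      · simp only [h1, h2, if_true, if_false, true_and, false_and, and_false, mul_zero, add_zero,
          not_false_eq_true]
        have h3 := mul_le_mul_of_nonneg_left (neg_al_le P (S N).kind) hw.le
        by_cases h4 : (S N).kind = Kind.sp
        · rw [if_pos h4]; linarith
        · rw [if_neg h4]
          have := ht N
          have := dist_nonneg (x := x) (y := (S N).ctr)
          linarith
    · by_cases h2 : Mem lab' y N
      · simp only [h1, h2, if_true, if_false, false_and, not_false_eq_true, and_self, mul_zero,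
          add_zero, zero_add]
        have h3 := mul_le_mul_of_nonneg_left (al_le P (S' N).kind) hw.le
        have hCw : 1 * P.w N.length ≤ P.CG * P.w N.length :=
          mul_le_mul_of_nonneg_right hCG hw.le
        have hlen := (mem_nodes.1 hN).2
        by_cases h4 : keep N
        · rw [hkept N h4] at h3 ⊢
          by_cases h5 : (S N).kind = Kind.sp
          · rw [if_pos h5]
            nlinarith
          · rw [if_neg h5]
            obtain ⟨h6', z, h7', h8'⟩ := (hkeep N).1 h4
            have h10 := h6 N hN h5 h6'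
            have h11 := h7 N hN h5 h6' z h7'
            have h12 : dist y z ≤ P.CG * P.w N.length := by
              apply hv'.dist_le y z N.length hlen
              rw [h2.eq, h8'.eq]
            have h13 := dist_triangle y z (S N).ctr
            nlinarith
        · rw [hnot N hN h4] at h3 ⊢
          rw [if_neg (by simp)]
          have h12 : dist y (g N) ≤ P.CG * P.w N.length := by
            apply hv'.dist_le y (g N) N.length hlen
            rw [h2.eq, (hg N ⟨y, h2⟩).eq]
          simp only at h3 ⊢
          nlinarith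
      · simp [h1, h2]
  -- per node, second part
  have hsecond : ∀ N ∈ nodes Lab P.I,
      (if Mem lab' y (up S' N) then P.w N.length * P.be (S' N).kind else 0) ≤
      (if Mem lab x (up S N) then P.w N.length * P.be (S N).kind else 0) + G N := by
    intro N hN
    have hw := w_pos P N.length
    have hbe := mul_nonneg hw.le (be_nonneg P (S N).kind)
    have hG0 : 0 ≤ G N := by
      simp only [hG]
      split_ifs
      · exact hbe
      · exact le_rfl
    have hx0 : 0 ≤ (if Mem lab x (up S N) then P.w N.length * P.be (S N).kind else 0) := by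
      split_ifs
      · exact hbe
      · exact le_rfl
    by_cases h4 : keep N
    · rw [hkept N h4, hS', up_reinit hclosed h4]
      by_cases h1 : Mem lab' y (up S N)
      · by_cases h2 : Mem lab x (up S N)
        · rw [if_pos h1, if_pos h2]; linarith
        · rw [if_pos h1, if_neg h2]
          simp only [hG, h4, h1, h2, not_false_eq_true, and_self, if_true, zero_add]
          exact le_rfl
      · rw [if_neg h1]; linarith
    · rw [hnot N hN h4]
      have : P.be Kind.inf = 0 := rfl
      simp only [this, mul_zero, ite_self]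
      linarith
  -- summation
  have hsum := sum_le_sum hfirst
  have hsum2 := sum_le_sum hsecond
  rw [sum_add_distrib, sum_add_distrib, sum_add_distrib, ← mul_sum, ← mul_sum, ← mul_sum,
    sum_diff P lab lab' x y, sum_diff P lab' lab y x, dk_comm P (lab' y) (lab x), ← sum_filter
      (fun N => Mem lab x N ∧ Mem lab' y N ∧ (S N).kind ≠ Kind.sp)] at hsum
  rw [sum_add_distrib] at hsum2
  unfold ps
  rw [hroot, sum_add_distrib, sum_add_distrib]
  have hd := dk_nonneg P (lab x) (lab' y)
  nlinarith

end Crest.Agent.R314.C
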