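import Mathlib
import Crest.Agent.R314.C2q
import Crest.Agent.R314.C3

/-!
R314, module C, block C3 (helper555's #8945): the move lemma `move_pt`.
-/

set_option autoImplicit false
set_option linter.unusedSectionVars false

namespace Crest.Agent.R314.C

open Finset Classical

variable {Y Lab : Type*} [Fintype Y] [MetricSpace Y] [Fintype Lab] {P : Par}

section
variable {m : Y → ℝ} {lab : Y → ℕ → Lab} {S : St Y Lab}
  (hs : Stuck P S m lab) (hm : ∀ x, 0 ≤ m x) (hv : Valid P lab)
  (hk : ∀ N ∈ nodes Lab P.I, P.ok (S N).kind) (ht : ∀ N, 0 ≤ (S N).trav)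
include hs hm hv hk ht

/-- **Move lemma** (C3).  `S` stuck for `(m, lab)`; `x` a point with positive mass; either the
point is relabelled (`y = x`) or moves (`lab' = lab`). -/
theorem move_pt {lab' : Y → ℕ → Lab} (hv' : Valid P lab') {keep : List Lab → Prop}
    (hkeep : ∀ N, keep N ↔ 0 < mass m lab N ∧ ∃ z, Mem lab z N ∧ Mem lab' z N)
    {g : List Lab → Y} (hg : ∀ N, (∃ z, Mem lab' z N) → Mem lab' (g N) N) (now : ℕ) {x y : Y}
    (hx : 0 < m x) (hxy : x = y ∨ lab = lab') :
    ps P (reinit now keep g S) lab' y ≤ ps P S lab x +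
      (3 * P.A + 2 * P.A' + 33 * P.CG) * dk P (lab x) (lab' y) +
      8 * (dist y (S []).ctr - dist x (S []).ctr) +
      8 * ∑ N ∈ (nodes Lab P.I).filter (fun N => Mem lab x N ∧ Mem lab' y N ∧
        (S N).kind ≠ Kind.sp), (dist y (S N).ctr - dist x (S N).ctr) :=
  move_pt' hm (fun _ hN h h0 => s6 hs hm hv hk ht hN h h0)
    (fun _ hN h h0 _ hz => s7 hs hm hv hk ht hN h h0 hz)
    (fun _ hU h0 => s9 hs hm hv hk ht hU h0) ht hv' hkeep hg now hx hxy

end

end Crest.Agent.R314.C
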