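import Mathlib
import Crest.Agent.R314.C0
import Crest.Agent.R314.Bay2

/-!
R314, module C, dynamics part 1: the process.  One step of a history `h ≠ []`:
relabelling (`reinit`), update for the masses `mm h`, flow (`reinit`), update for `mp h`.
-/

set_option autoImplicit false
set_option linter.unusedSectionVars false

namespace Crest.Agent.R314.C

open Finset Classical Crest.Agent.R314.Bay

section Basic

variable {Y Lab : Type*} [Fintype Y] [MetricSpace Y] [Fintype Lab] (P : Par)

/-- Nodes which survive a change of masses / labels. -/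
def Keep (m : Y → ℝ) (lab lab' : Y → ℕ → Lab) (N : List Lab) : Prop :=
  0 < mass m lab N ∧ ∃ z, Mem lab z N ∧ Mem lab' z N

/-- A member of the node (junk `a0` if there is none). -/
noncomputable def gctr (a0 : Y) (lab : Y → ℕ → Lab) (N : List Lab) : Y :=
  if h : ∃ z, Mem lab z N then h.choose else a0

theorem gctr_mem (a0 : Y) {lab : Y → ℕ → Lab} {N : List Lab} (h : ∃ z, Mem lab z N) :
    Mem lab (gctr a0 lab N) N := by
  unfold gctr
  rw [dif_pos h]
  exact h.choose_spec

/-- Specification of an update. -/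
structure Upd (m : Y → ℝ) (lab : Y → ℕ → Lab) (now : ℕ) (S S' : St Y Lab) : Prop where
  trans : Trans P now S S'
  out : ∀ N, N ≠ [] → N ∉ nodes Lab P.I → S' N = S N
  stuck : Stuck P S' m lab
  pays : Phi P S' m lab + Price P S S' m lab ≤ Phi P S m lab

/-- The update. -/
noncomputable def upd (m : Y → ℝ) (lab : Y → ℕ → Lab) (now : ℕ) (S : St Y Lab) : St Y Lab :=
  if h : ∃ S', Upd P m lab now S S' then h.choose else S

theorem upd_spec {m : Y → ℝ} {lab : Y → ℕ → Lab} {now : ℕ} {S : St Y Lab}
    (h : ∃ S', Upd P m lab now S S') : Upd P m lab now S (upd P m lab now S) := by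
  unfold upd
  rw [dif_pos h]
  exact h.choose_spec

/-- Existence of updates (C1b, as a hypothesis of this file). -/
def UpdEx (P : Par) (Y Lab : Type*) [Fintype Y] [MetricSpace Y] [Fintype Lab] : Prop :=
  ∀ (m : Y → ℝ), (∀ x, 0 ≤ m x) → ∀ (lab : Y → ℕ → Lab) (now : ℕ) (S : St Y Lab),
    (∀ N ∈ nodes Lab P.I, P.ok (S N).kind) → (∀ N, 0 ≤ (S N).trav) →
    ∃ S', Upd P m lab now S S'

variable {P}

theorem Inv.reinit {n now : ℕ} {S : St Y Lab} (h : Inv P n S) (hn : n ≤ now)
    (keep : List Lab → Prop) (g : List Lab → Y) : Inv P now (reinit now keep g S) := by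
  refine ⟨?_, ?_, ?_⟩
  · intro N hN
    unfold C.reinit
    split_ifs
    · exact h.kinds N hN
    · exact trivial
  · intro N
    unfold C.reinit
    split_ifs
    · exact h.trav N
    · exact le_rfl
  · intro N
    unfold C.reinit
    split_ifs
    · exact (h.birth N).trans hn
    · exact le_rfl

theorem Inv.upd {n now : ℕ} {S S' : St Y Lab} (h : Inv P n S) (hn : n ≤ now) {m : Y → ℝ}
    {lab : Y → ℕ → Lab} (hu : Upd P m lab now S S') : Inv P now S' := by
  refine ⟨?_, ?_, ?_⟩
  · intro N hN
    exact hu.trans.kinds N hN (h.kinds N hN)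
  · intro N
    by_cases h0 : N = []
    · subst h0
      rw [hu.trans.root.2.2]
      exact add_nonneg (h.trav _) dist_nonneg
    by_cases hN : N ∈ nodes Lab P.I
    · rcases hu.trans.node N hN with h1 | h1
      · rw [h1.2.2]
        exact add_nonneg (h.trav _) dist_nonneg
      · rw [h1.2]
    · rw [hu.out N h0 hN]
      exact h.trav N
  · intro N
    by_cases h0 : N = []
    · subst h0
      rw [hu.trans.root.2.1]
      exact (h.birth _).trans hn
    by_cases hN : N ∈ nodes Lab P.I
    · rcases hu.trans.node N hN with h1 | h1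
      · rw [h1.2.1]
        exact (h.birth _).trans hn
      · rw [h1.1]
    · rw [hu.out N h0 hN]
      exact (h.birth _).trans hn

/-- If the status (spine or not) of all strict ancestors agrees, so does `up`. -/
theorem up_congr {S S' : St Y Lab} {N : List Lab}
    (h : ∀ M, M <:+ N → M ≠ N → M ≠ [] → ((S M).kind = Kind.sp ↔ (S' M).kind = Kind.sp)) :
    up S N = up S' N := by
  induction N with
  | nil => rfl
  | cons a N ih =>
    have ih' := ih fun M hM hMN h0 => h M (hM.trans (List.suffix_cons a N)) (by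
      rintro rfl
      have := hM.length_le
      simp at this) h0
    rw [up_cons, up_cons, ih']
    by_cases h0 : N = []
    · subst h0; simp
    · have h1 := h N (List.suffix_cons a N) (by
        intro e
        have := congrArg List.length e
        simp at this) h0
      by_cases h2 : (S N).kind = Kind.sp
      · rw [if_pos h2, if_pos (h1.1 h2)]
      · rw [if_neg h2, if_neg fun h3 => h2 (h1.2 h3)]

theorem mem_nodes_of_suffix {I : ℕ} {M N : List Lab} (hN : N ∈ nodes Lab I) (h : M <:+ N)
    (h0 : M ≠ []) : M ∈ nodes Lab I := by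
  rw [mem_nodes] at *
  exact ⟨h0, h.length_le.trans hN.2⟩

/-- A node which is not renewed by an update. -/
theorem Upd.old {m : Y → ℝ} {lab : Y → ℕ → Lab} {now : ℕ} {S S' : St Y Lab}
    (hu : Upd P m lab now S S') {N : List Lab} (hN : N ∈ nodes Lab P.I)
    (h : (S' N).birth ≠ now) :
    (S' N).kind = (S N).kind ∧ (S' N).birth = (S N).birth ∧
      (S' N).trav = (S N).trav + dist (S N).ctr (S' N).ctr ∧ up S' N = up S N := by
  rcases hu.trans.node N hN with h1 | h1
  · refine ⟨h1.1, h1.2.1, h1.2.2, ?_⟩
    apply up_congr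
    intro M hM hMN h0
    rcases hu.trans.flip M (mem_nodes_of_suffix hN hM h0) with h2 | h2
    · exact h2.symm
    · exact absurd (h2 N hN hM hMN) h
  · exact absurd h1.1 h

theorem reinit_keep {now : ℕ} {keep : List Lab → Prop} {g : List Lab → Y} {S : St Y Lab}
    {N : List Lab} (h : keep N) : reinit now keep g S N = S N := by
  unfold reinit
  rw [if_pos (Or.inr h)]

@[simp] theorem reinit_nil {now : ℕ} {keep : List Lab → Prop} {g : List Lab → Y} {S : St Y Lab} :
    reinit now keep g S [] = S [] := by
  unfold reinit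
  rw [if_pos (Or.inl rfl)]

theorem reinit_not {now : ℕ} {keep : List Lab → Prop} {g : List Lab → Y} {S : St Y Lab}
    {N : List Lab} (h0 : N ≠ []) (h : ¬ keep N) :
    reinit now keep g S N = ⟨Kind.inf, now, g N, 0⟩ := by
  unfold reinit
  rw [if_neg]
  rintro (h1 | h1)
  · exact h0 h1
  · exact h h1

/-- A node which is not renewed by a reinitialisation. -/
theorem reinit_old {now : ℕ} {keep : List Lab → Prop} {g : List Lab → Y} {S : St Y Lab}
    {N : List Lab} (h0 : N ≠ []) (h : (reinit now keep g S N).birth ≠ now) : keep N := by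
  by_contra hk
  rw [reinit_not h0 hk] at h
  exact h rfl

theorem reinit_up {now : ℕ} {keep : List Lab → Prop} {g : List Lab → Y} {S : St Y Lab}
    (hkeep : ∀ M N, M <:+ N → keep N → keep M) {N : List Lab} (h : keep N) :
    up (reinit now keep g S) N = up S N := by
  apply up_congr
  intro M hM _ _
  rw [reinit_keep (hkeep M N hM h)]

end Basic

section Process

variable {Y Lab : Type*} [Fintype Y] [MetricSpace Y] [Fintype Lab] {k : ℕ} [NeZero k]
  (P : Par) (Q : Prior Y k) (lab : List Y → Y → ℕ → Lab)

/-- Relabelling. -/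
noncomputable def f1 (h : List Y) (S : St Y Lab) : St Y Lab :=
  reinit (2 * h.length - 1) (Keep (Q.mp h.dropLast) (lab h.dropLast) (lab h))
    (gctr (Q.s 0) (lab h)) S

/-- Update before the flow. -/
noncomputable def f2 (h : List Y) (S : St Y Lab) : St Y Lab :=
  upd P (Q.mm h) (lab h) (2 * h.length - 1) (f1 Q lab h S)

/-- Flow. -/
noncomputable def f3 (h : List Y) (S : St Y Lab) : St Y Lab :=
  reinit (2 * h.length) (Keep (Q.mm h) (lab h) (lab h)) (gctr (Q.s 0) (lab h)) (f2 P Q lab h S)

/-- Update after the flow. -/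
noncomputable def f4 (h : List Y) (S : St Y Lab) : St Y Lab :=
  upd P (Q.mp h) (lab h) (2 * h.length) (f3 P Q lab h S)

/-- Initial state before the first update. -/
noncomputable def st0 : St Y Lab := fun N => ⟨Kind.inf, 0, gctr (Q.s 0) (lab []) N, 0⟩

/-- The states along the prefixes of `h`. -/
noncomputable def stN (h : List Y) : ℕ → St Y Lab
  | 0 => upd P (Q.mp []) (lab []) 0 (st0 Q lab)
  | t + 1 => f4 P Q lab (h.take (t + 1)) (stN h t)

/-- The state at the end of the step `h`. -/
noncomputable def st (h : List Y) : St Y Lab := stN P Q lab h h.length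

theorem stN_take (h : List Y) {n t : ℕ} (ht : t ≤ n) :
    stN P Q lab (h.take n) t = stN P Q lab h t := by
  induction t with
  | zero => rfl
  | succ t ih => rw [stN, stN, ih (by omega), List.take_take, min_eq_left ht]

theorem st_nil : st P Q lab [] = upd P (Q.mp []) (lab []) 0 (st0 Q lab) := rfl

theorem st_eq {h : List Y} (h0 : h ≠ []) :
    st P Q lab h = f4 P Q lab h (st P Q lab h.dropLast) := by
  have hpos : 0 < h.length := List.length_pos_iff.2 h0
  obtain ⟨n, hn⟩ : ∃ n, h.length = n + 1 := ⟨h.length - 1, by omega⟩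
  unfold st
  rw [hn, stN, ← hn, List.take_length]
  congr 1
  rw [List.length_dropLast, hn, Nat.add_sub_cancel, List.dropLast_eq_take, hn,
    Nat.add_sub_cancel, stN_take P Q lab h le_rfl]

/-- The state between update 1 and the flow. -/
noncomputable def stm (h : List Y) : St Y Lab := f2 P Q lab h (st P Q lab h.dropLast)

theorem st_eq' {h : List Y} (h0 : h ≠ []) :
    st P Q lab h = upd P (Q.mp h) (lab h) (2 * h.length)
      (reinit (2 * h.length) (Keep (Q.mm h) (lab h) (lab h)) (gctr (Q.s 0) (lab h))
        (stm P Q lab h)) := by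
  rw [st_eq P Q lab h0]; rfl

theorem stm_eq (h : List Y) :
    stm P Q lab h = upd P (Q.mm h) (lab h) (2 * h.length - 1) (f1 Q lab h (st P Q lab h.dropLast)) :=
  rfl

variable {P Q lab}

theorem inv_st0 : Inv P 0 (st0 Q lab) :=
  ⟨fun _ _ => trivial, fun _ => le_rfl, fun _ => le_rfl⟩

variable (hex : UpdEx P Y Lab)
include hex

theorem st_nil_upd : Upd P (Q.mp []) (lab []) 0 (st0 Q lab) (st P Q lab []) :=
  upd_spec P (hex _ (Q.mp_nonneg _) _ _ _ (inv_st0 (P := P)).kinds (inv_st0 (P := P)).trav)

theorem inv_st (h : List Y) : Inv P (2 * h.length) (st P Q lab h) := by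
  induction h using List.reverseRecOn with
  | nil => exact inv_st0.upd le_rfl (st_nil_upd hex)
  | append_singleton h x ih =>
    have e : (h ++ [x]).dropLast = h := by simp
    have hl : (h ++ [x]).length = h.length + 1 := by simp
    have h1 : Inv P (2 * (h ++ [x]).length - 1) (f1 Q lab (h ++ [x]) (st P Q lab h)) :=
      ih.reinit (by omega) _ _
    have h2 : Inv P (2 * (h ++ [x]).length - 1) (f2 P Q lab (h ++ [x]) (st P Q lab h)) :=
      h1.upd le_rfl (upd_spec P (hex _ (Q.mm_nonneg _) _ _ _ h1.kinds h1.trav))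
    have h3 : Inv P (2 * (h ++ [x]).length) (f3 P Q lab (h ++ [x]) (st P Q lab h)) :=
      h2.reinit (by omega) _ _
    have h4 := h3.upd le_rfl (upd_spec P (hex _ (Q.mp_nonneg (h ++ [x])) (lab (h ++ [x]))
      (2 * (h ++ [x]).length) _ h3.kinds h3.trav))
    rw [st_eq P Q lab (by simp), e]
    exact h4

theorem inv_f1 {h : List Y} (h0 : h ≠ []) :
    Inv P (2 * h.length - 1) (f1 Q lab h (st P Q lab h.dropLast)) := by
  have hpos : 0 < h.length := List.length_pos_iff.2 h0
  exact (inv_st hex h.dropLast).reinit (by rw [List.length_dropLast]; omega) _ _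

theorem upd1 {h : List Y} (h0 : h ≠ []) :
    Upd P (Q.mm h) (lab h) (2 * h.length - 1) (f1 Q lab h (st P Q lab h.dropLast))
      (stm P Q lab h) :=
  upd_spec P (hex _ (Q.mm_nonneg _) _ _ _ (inv_f1 hex h0).kinds (inv_f1 hex h0).trav)

theorem inv_stm {h : List Y} (h0 : h ≠ []) : Inv P (2 * h.length - 1) (stm P Q lab h) :=
  (inv_f1 hex h0).upd le_rfl (upd1 hex h0)

theorem inv_f3 {h : List Y} (h0 : h ≠ []) :
    Inv P (2 * h.length) (f3 P Q lab h (st P Q lab h.dropLast)) :=
  (inv_stm hex h0).reinit (by omega) _ _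

theorem upd2 {h : List Y} (h0 : h ≠ []) :
    Upd P (Q.mp h) (lab h) (2 * h.length) (f3 P Q lab h (st P Q lab h.dropLast))
      (st P Q lab h) := by
  rw [st_eq P Q lab h0]
  exact upd_spec P (hex _ (Q.mp_nonneg _) _ _ _ (inv_f3 hex h0).kinds (inv_f3 hex h0).trav)

theorem stuck_st (h : List Y) : Stuck P (st P Q lab h) (Q.mp h) (lab h) := by
  by_cases h0 : h = []
  · subst h0
    exact (st_nil_upd hex).stuck
  · exact (upd2 hex h0).stuck

theorem stuck_stm {h : List Y} (h0 : h ≠ []) : Stuck P (stm P Q lab h) (Q.mm h) (lab h) :=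
  (upd1 hex h0).stuck

end Process

end Crest.Agent.R314.C
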