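import Mathlib
import Crest.Agent.R314.C5

/-!
R314, module C, dynamics part 2: the noise nodes (entities) of the process.
-/

set_option autoImplicit false
set_option linter.unusedSectionVars false

namespace Crest.Agent.R314.C

open Finset Classical Crest.Agent.R314.Bay

/-- Names of the noise nodes: region, birth id, class. -/
abbrev VN (P : Par) (Lab : Type*) [Fintype Lab] (T : ℕ) :=
  {N : List Lab // N ∈ nodes Lab P.I} × Fin (2 * T + 1) × Fin (P.cm + 1)

section

variable {Y Lab : Type*} [Fintype Y] [MetricSpace Y] [Fintype Lab] {P : Par} {T : ℕ}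

/-- `v` is current in the state `S`. -/
def Cur (S : St Y Lab) (v : VN P Lab T) : Prop :=
  (S v.1.1).kind = Kind.fin v.2.2.1 ∧ (S v.1.1).birth = v.2.1.1

/-- Current nodes of positive mass. -/
noncomputable def liveS (S : St Y Lab) (m : Y → ℝ) (lab : Y → ℕ → Lab) : Finset (VN P Lab T) :=
  univ.filter fun v => Cur S v ∧ 0 < mass m lab v.1.1

/-- Current nodes of positive mass containing `z`. -/
noncomputable def ptS (S : St Y Lab) (m : Y → ℝ) (lab : Y → ℕ → Lab) (z : Y) :
    Finset (VN P Lab T) :=
  (liveS S m lab).filter fun v => Mem lab z v.1.1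

/-- Weight of a noise node. -/
noncomputable def vw (v : VN P Lab T) : ℝ := P.w v.1.1.length

/-- Noise parameter of a noise node. -/
noncomputable def vη (v : VN P Lab T) : ℝ := eta v.2.2.1

/-- Index of the request at which the node is born. -/
def vb (v : VN P Lab T) : ℕ := (v.2.1.1 - 1) / 2

variable {k : ℕ} [NeZero k] (P) (Q : Prior Y k) (lab : List Y → Y → ℕ → Lab) (T)

noncomputable def live (h : List Y) : Finset (VN P Lab T) :=
  if h = [] then ∅ else liveS (st P Q lab h) (Q.mp h) (lab h)

noncomputable def pt (h : List Y) (z : Y) : Finset (VN P Lab T) :=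
  if h = [] then ∅ else ptS (st P Q lab h) (Q.mp h) (lab h) z

/-- `key distance` bill at the nonempty history `h`. -/
noncomputable def dbill (h : List Y) : ℝ :=
  ∑ x, Q.mm h x * dk P (lab h.dropLast x) (lab h x) +
    ∑ i ∈ Q.I h, Q.p i *
      dk P (lab h (Q.src i (h.length - 1))) (lab h (Q.rq i (h.length - 1)))

/-- Prices of the two updates at the nonempty history `h`. -/
noncomputable def pr1 (h : List Y) : ℝ :=
  Price P (f1 Q lab h (st P Q lab h.dropLast)) (stm P Q lab h) (Q.mm h) (lab h)

noncomputable def pr2 (h : List Y) : ℝ :=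
  Price P (f3 P Q lab h (st P Q lab h.dropLast)) (st P Q lab h) (Q.mp h) (lab h)

end

end Crest.Agent.R314.C
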