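import Mathlib
import Crest.Agent.R314.C6
import Crest.Agent.R314.C1a
import Crest.Agent.R314.Asm1

/-!
R314, module C, dynamics part 3: persistence of the noise nodes, the `TreeSys` instance.
-/

set_option autoImplicit false
set_option linter.unusedSectionVars false

namespace Crest.Agent.R314.C

open Finset Classical Crest.Agent.R314.Bay

section Up

variable {Y Lab : Type*} [Fintype Y] [MetricSpace Y] [Fintype Lab] {P : Par}

theorem up_length_lt (S : St Y Lab) {N : List Lab} (h : N ≠ []) : (up S N).length < N.length := by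
  cases N with
  | nil => exact absurd rfl h
  | cons a N =>
    rw [up_cons, List.length_cons]
    split_ifs
    · have := (up_suffix S N).length_le
      omega
    · omega

/-- `up` is the deepest charged strict ancestor. -/
theorem suffix_up (S : St Y Lab) {M N : List Lab} (h : M <:+ N) (hne : M ≠ N)
    (hM : M = [] ∨ (S M).kind ≠ Kind.sp) : M <:+ up S N := by
  induction N with
  | nil =>
    rw [List.suffix_nil] at h
    exact absurd h hne
  | cons a N ih =>
    rcases List.suffix_cons_iff.1 h with h | h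
    · exact absurd h hne
    · rw [up_cons]
      split_ifs with hN
      · by_cases e : M = N
        · rcases hM with hM | hM
          · rw [hM]; exact List.nil_suffix
          · rw [e] at hM; exact absurd hN hM
        · exact ih h e
      · exact h

theorem up_spec (S : St Y Lab) (N : List Lab) : up S N = [] ∨ (S (up S N)).kind ≠ Kind.sp := by
  induction N with
  | nil => exact Or.inl rfl
  | cons a N ih =>
    rw [up_cons]
    split_ifs with hN
    · exact ih
    · exact Or.inr hN

theorem up_mem (S : St Y Lab) {I : ℕ} {N : List Lab} (hN : N ∈ nodes Lab I) :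
    up S N = [] ∨ (up S N ∈ nodes Lab I ∧ (S (up S N)).kind ≠ Kind.sp) := by
  rcases up_spec S N with h | h
  · exact Or.inl h
  · by_cases h0 : up S N = []
    · exact Or.inl h0
    · exact Or.inr ⟨mem_nodes_of_suffix hN (up_suffix S N) h0, h⟩

/-- Two charged nodes with a common member and the same `up` are equal. -/
theorem chain_eq {S : St Y Lab} {lab : Y → ℕ → Lab} {x : Y} {N N' : List Lab} (h0 : N ≠ [])
    (h0' : N' ≠ []) (hx : Mem lab x N) (hx' : Mem lab x N') (hk : (S N).kind ≠ Kind.sp)
    (hk' : (S N').kind ≠ Kind.sp) (h : up S N = up S N') : N = N' := by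
  have key : ∀ M M' : List Lab, M ≠ [] → M' ≠ [] → Mem lab x M → Mem lab x M' →
      (S M).kind ≠ Kind.sp → up S M = up S M' → M.length ≤ M'.length → M = M' := by
    intro M M' hM0 _ hM hM' hkM hup hl
    by_contra hne
    have h1 := hM.suffix hM' hl
    have h2 := (suffix_up S h1 hne (Or.inr hkM)).length_le
    have h3 := up_length_lt S hM0
    rw [hup] at h3
    omega
  rcases le_total N.length N'.length with hl | hl
  · exact key N N' h0 h0' hx hx' hk h hl
  · exact (key N' N h0' h0 hx' hx hk' h.symm hl).symm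

theorem Keep.anc {m : Y → ℝ} (hm : ∀ x, 0 ≤ m x) {lab lab' : Y → ℕ → Lab} {M N : List Lab}
    (h : M <:+ N) (hN : Keep m lab lab' N) : Keep m lab lab' M := by
  obtain ⟨h1, z, hz, hz'⟩ := hN
  exact ⟨lt_of_lt_of_le h1 (mass_anc hm lab h), z, hz.anc h, hz'.anc h⟩

end Up

section Persist

variable {Y Lab : Type*} [Fintype Y] [MetricSpace Y] [Fintype Lab] {k : ℕ} [NeZero k]
  {P : Par} {Q : Prior Y k} {lab : List Y → Y → ℕ → Lab} (hex : UpdEx P Y Lab)
include hex

/-- A node which is old after the step `h` was there before. -/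
theorem cur_back {h : List Y} (h0 : h ≠ []) {N : List Lab} (hN : N ∈ nodes Lab P.I)
    (hb : (st P Q lab h N).birth ≤ 2 * (h.length - 1)) :
    Keep (Q.mp h.dropLast) (lab h.dropLast) (lab h) N ∧ Keep (Q.mm h) (lab h) (lab h) N ∧
    (st P Q lab h N).kind = (stm P Q lab h N).kind ∧
    (st P Q lab h N).birth = (stm P Q lab h N).birth ∧
    (stm P Q lab h N).kind = (st P Q lab h.dropLast N).kind ∧
    (stm P Q lab h N).birth = (st P Q lab h.dropLast N).birth ∧
    (st P Q lab h.dropLast N).trav +
      dist (st P Q lab h.dropLast N).ctr (st P Q lab h N).ctr ≤ (st P Q lab h N).trav ∧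
    up (st P Q lab h) N = up (st P Q lab h.dropLast) N := by
  have hpos : 0 < h.length := List.length_pos_iff.2 h0
  have hN0 : N ≠ [] := (mem_nodes.1 hN).1
  obtain ⟨a1, a2, a3, a4⟩ := (upd2 hex h0 (Q := Q) (lab := lab)).old hN (by omega)
  have a5 : (f3 P Q lab h (st P Q lab h.dropLast) N).birth ≠ 2 * h.length := by
    rw [← a2]; omega
  have k2 : Keep (Q.mm h) (lab h) (lab h) N := reinit_old hN0 a5
  have e2 : f3 P Q lab h (st P Q lab h.dropLast) N = stm P Q lab h N := reinit_keep k2
  have u2 : up (f3 P Q lab h (st P Q lab h.dropLast)) N = up (stm P Q lab h) N :=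
    reinit_up (fun M N hM hK => hK.anc (Q.mm_nonneg h) hM) k2
  rw [e2] at a1 a2 a3
  have hb2 : (stm P Q lab h N).birth ≤ 2 * (h.length - 1) := by rw [← a2]; exact hb
  obtain ⟨b1, b2, b3, b4⟩ := (upd1 hex h0 (Q := Q) (lab := lab)).old hN (by omega)
  have b5 : (f1 Q lab h (st P Q lab h.dropLast) N).birth ≠ 2 * h.length - 1 := by
    rw [← b2]; omega
  have k1 : Keep (Q.mp h.dropLast) (lab h.dropLast) (lab h) N := reinit_old hN0 b5
  have e1 : f1 Q lab h (st P Q lab h.dropLast) N = st P Q lab h.dropLast N := reinit_keep k1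
  have u1 : up (f1 Q lab h (st P Q lab h.dropLast)) N = up (st P Q lab h.dropLast) N :=
    reinit_up (fun M N hM hK => hK.anc (Q.mp_nonneg h.dropLast) hM) k1
  rw [e1] at b1 b2 b3
  refine ⟨k1, k2, a1, a2, b1, b2, ?_, ?_⟩
  · have := dist_triangle (st P Q lab h.dropLast N).ctr (stm P Q lab h N).ctr
      (st P Q lab h N).ctr
    linarith
  · rw [a4, u2, b4, u1]

/-- Persistence along prefixes. -/
theorem persist {h₁ : List Y} (l : List Y) {N : List Lab} (hN : N ∈ nodes Lab P.I)
    (hb : (st P Q lab (h₁ ++ l) N).birth ≤ 2 * h₁.length) :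
    (st P Q lab (h₁ ++ l) N).kind = (st P Q lab h₁ N).kind ∧
    (st P Q lab (h₁ ++ l) N).birth = (st P Q lab h₁ N).birth ∧
    up (st P Q lab (h₁ ++ l)) N = up (st P Q lab h₁) N := by
  induction l using List.reverseRecOn with
  | nil => simp
  | append_singleton l x ih =>
    have e : (h₁ ++ (l ++ [x])).dropLast = h₁ ++ l := by
      rw [← List.append_assoc]; simp
    have hl : (h₁ ++ (l ++ [x])).length = h₁.length + l.length + 1 := by simp; omega
    obtain ⟨_, _, a1, a2, a3, a4, _, a5⟩ := cur_back hex (Q := Q) (lab := lab)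
      (h := h₁ ++ (l ++ [x])) (by simp) hN (by omega)
    rw [e] at a3 a4 a5
    have hb' : (st P Q lab (h₁ ++ l) N).birth ≤ 2 * h₁.length := by
      rw [← a4, ← a2]; exact hb
    obtain ⟨b1, b2, b3⟩ := ih hb'
    exact ⟨by rw [a1, a3, b1], by rw [a2, a4, b2], by rw [a5, b3]⟩

theorem root_step {h : List Y} (h0 : h ≠ []) :
    (st P Q lab h.dropLast []).trav + dist (st P Q lab h.dropLast []).ctr (stm P Q lab h []).ctr +
      dist (stm P Q lab h []).ctr (st P Q lab h []).ctr = (st P Q lab h []).trav := by
  have a := (upd2 hex h0 (Q := Q) (lab := lab)).trans.root.2.2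
  have b := (upd1 hex h0 (Q := Q) (lab := lab)).trans.root.2.2
  have e2 : f3 P Q lab h (st P Q lab h.dropLast) [] = stm P Q lab h [] := reinit_nil
  have e1 : f1 Q lab h (st P Q lab h.dropLast) [] = st P Q lab h.dropLast [] := reinit_nil
  rw [e2] at a
  rw [e1] at b
  linarith

end Persist

end Crest.Agent.R314.C
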