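import Mathlib
import Crest.Agent.R314.C6
import Crest.Agent.R314.C1a

/-!
R314, module C, block C7d: travel of the root.
-/

set_option autoImplicit false
set_option linter.unusedSectionVars false

namespace Crest.Agent.R314.C

open Finset Classical Crest.Agent.R314.Bay

variable {Y Lab : Type*} [Fintype Y] [MetricSpace Y] [Fintype Lab] {k : ℕ} [NeZero k] {P : Par}
  {Q : Prior Y k} {lab : List Y → Y → ℕ → Lab}

theorem C7d.w_pos (j : ℕ) : 0 < P.w j := by
  unfold Par.w
  have h1 := P.hW
  have h2 := P.hB
  have h3 : 0 < P.B := by linarith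
  positivity

theorem C7d.pr_nonneg (κ : Kind) : 0 ≤ pr κ := by
  cases κ with
  | sp => exact le_rfl
  | inf => exact le_rfl
  | fin c =>
    unfold pr eta
    positivity

/-- The price of a change of state pays for the move of the root. -/
theorem C7d.root_le_Price {m : Y → ℝ} (hm : ∀ x, 0 ≤ m x) (S S' : St Y Lab) (lab : Y → ℕ → Lab) :
    dist (S []).ctr (S' []).ctr * ∑ x, m x ≤ Price P S S' m lab := by
  rw [Price_eq, mass_nil]
  have : 0 ≤ ∑ N ∈ nodes Lab P.I, (if (S' N).kind = (S N).kind ∧ (S' N).birth = (S N).birth then 0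
        else P.w N.length * pr (S' N).kind * mass m lab N) := by
    apply sum_nonneg
    intro N _
    split_ifs
    · exact le_rfl
    · exact mul_nonneg (mul_nonneg (C7d.w_pos _).le (C7d.pr_nonneg _)) (mass_nonneg hm lab N)
  linarith

/-- Travel of the root in one step. -/
theorem C7d.root_step (hex : UpdEx P Y Lab) {h : List Y} (h0 : h ≠ []) :
    (st P Q lab h []).trav = (st P Q lab h.dropLast []).trav +
      (dist (st P Q lab h.dropLast []).ctr (stm P Q lab h []).ctr +
        dist (stm P Q lab h []).ctr (st P Q lab h []).ctr) := by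
  have h1 := (upd1 (P := P) (Q := Q) (lab := lab) hex h0).trans.root.2.2
  have h2 := (upd2 (P := P) (Q := Q) (lab := lab) hex h0).trans.root.2.2
  have e1 : f1 Q lab h (st P Q lab h.dropLast) [] = st P Q lab h.dropLast [] := by
    unfold f1; exact reinit_nil
  have e3 : f3 P Q lab h (st P Q lab h.dropLast) [] = stm P Q lab h [] := by
    unfold f3 stm; exact reinit_nil
  rw [e1] at h1
  rw [e3] at h2
  rw [h2, h1]
  ring

/-- Prices of one step pay for the move of the root. -/
theorem C7d.root_le_pr (hex : UpdEx P Y Lab) {h : List Y} (h0 : h ≠ []) :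
    (k * Q.P h) * ((st P Q lab h []).trav - (st P Q lab h.dropLast []).trav) ≤
      pr1 P Q lab h + pr2 P Q lab h := by
  rw [C7d.root_step hex h0]
  have e1 : f1 Q lab h (st P Q lab h.dropLast) [] = st P Q lab h.dropLast [] := by
    unfold f1; exact reinit_nil
  have e3 : f3 P Q lab h (st P Q lab h.dropLast) [] = stm P Q lab h [] := by
    unfold f3 stm; exact reinit_nil
  have h1 := C7d.root_le_Price (P := P) (Q.mm_nonneg h) (f1 Q lab h (st P Q lab h.dropLast))
    (stm P Q lab h) (lab h)
  have h2 := C7d.root_le_Price (P := P) (Q.mp_nonneg h) (f3 P Q lab h (st P Q lab h.dropLast))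
    (st P Q lab h) (lab h)
  rw [e1, Q.sum_mm_one] at h1
  rw [e3, Q.sum_mp_one] at h2
  unfold pr1 pr2
  linarith

/-- C7d: travel of the root. -/
theorem sum_root_le (hex : UpdEx P Y Lab) (hval : ∀ h, Valid P (lab h)) :
    k * ∑ i, Q.p i * (st P Q lab (Q.req i) []).trav ≤
      ∑ h ∈ Q.H, (pr1 P Q lab h + pr2 P Q lab h) + (∑ i, Q.p i) * (k * (P.CG * P.W)) := by
  have h0 : (st P Q lab [] []).trav ≤ P.CG * P.W := by
    have h1 := (st_nil_upd (P := P) (Q := Q) (lab := lab) hex).trans.root.2.2
    rw [h1]
    have h2 : (st0 Q lab []).trav = 0 := rfl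
    have h3 := (hval []).dist_le (st0 Q lab []).ctr (st P Q lab [] []).ctr 0 (Nat.zero_le _) rfl
    have h4 : P.w 0 = P.W := by unfold Par.w; simp
    rw [h4] at h3
    linarith
  have key : ∑ h ∈ Q.H, ∑ i ∈ Q.I h, k * (Q.p i *
      ((st P Q lab h []).trav - (st P Q lab h.dropLast []).trav)) ≤
      ∑ h ∈ Q.H, (pr1 P Q lab h + pr2 P Q lab h) := by
    apply sum_le_sum
    intro h hh
    have := C7d.root_le_pr (Q := Q) (lab := lab) hex (Q.ne_nil_of_mem_H hh)
    refine le_trans (le_of_eq ?_) this
    unfold Prior.P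
    rw [mul_assoc, sum_mul, mul_sum]
  rw [Q.sum_H (fun h i => k * (Q.p i *
      ((st P Q lab h []).trav - (st P Q lab h.dropLast []).trav)))] at key
  have e : ∀ i, ∑ t ∈ range (Q.req i).length, (k : ℝ) * (Q.p i *
      ((st P Q lab ((Q.req i).take (t + 1)) []).trav -
        (st P Q lab ((Q.req i).take (t + 1)).dropLast []).trav)) =
      k * (Q.p i * ((st P Q lab (Q.req i) []).trav - (st P Q lab [] []).trav)) := by
    intro i
    rw [← mul_sum, ← mul_sum]
    congr 2
    have e1 : ∀ t ∈ range (Q.req i).length,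
        (st P Q lab ((Q.req i).take (t + 1)) []).trav -
        (st P Q lab ((Q.req i).take (t + 1)).dropLast []).trav =
        (fun t => (st P Q lab ((Q.req i).take t) []).trav) (t + 1) -
        (fun t => (st P Q lab ((Q.req i).take t) []).trav) t := by
      intro t ht
      rw [mem_range] at ht
      simp only
      congr 4
      rw [List.dropLast_eq_take, List.take_take, List.length_take]
      congr 1
      omega
    rw [sum_congr rfl e1,
      sum_range_sub (fun t => (st P Q lab ((Q.req i).take t) []).trav)]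
    simp only [List.take_length, List.take_zero]
  rw [sum_congr rfl fun i _ => e i] at key
  have h5 : ∑ i, (k : ℝ) * (Q.p i * ((st P Q lab (Q.req i) []).trav - (st P Q lab [] []).trav)) =
      k * ∑ i, Q.p i * (st P Q lab (Q.req i) []).trav -
        (∑ i, Q.p i) * (k * (st P Q lab [] []).trav) := by
    rw [← mul_sum, sum_mul, mul_sum, mul_sum, ← sum_sub_distrib]
    exact sum_congr rfl fun i _ => by ring
  rw [h5] at key
  have h6 : (∑ i, Q.p i) * (k * (st P Q lab [] []).trav) ≤ (∑ i, Q.p i) * (k * (P.CG * P.W)) := by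
    have : 0 ≤ ∑ i, Q.p i := sum_nonneg fun i _ => Q.p_nonneg i
    gcongr
  linarith

end Crest.Agent.R314.C
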