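import Mathlib
import Crest.Agent.R314.C7d
import Crest.Agent.R314.C3q
import Crest.Agent.R314.C2h2

/-!
R314, module C, block C7a: the potential pays for the updates.
-/

set_option autoImplicit false
set_option linter.unusedSectionVars false

namespace Crest.Agent.R314.C

open Finset Classical Crest.Agent.R314.Bay

variable {Y Lab : Type*} [Fintype Y] [MetricSpace Y] [Fintype Lab] {k : ℕ} [NeZero k] {P : Par}
  {Q : Prior Y k} {lab : List Y → Y → ℕ → Lab}

theorem C7a.ps_nonneg {S : St Y Lab} (ht : ∀ N, 0 ≤ (S N).trav) (lab : Y → ℕ → Lab) (x : Y) :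
    0 ≤ ps P S lab x := by
  unfold ps
  apply add_nonneg (mul_nonneg (by norm_num) dist_nonneg)
  apply sum_nonneg
  intro N _
  have hw := C3.w_pos P N.length
  have hbe := C3.be_nonneg P (S N).kind
  have hd : 0 ≤ dist x (S N).ctr := dist_nonneg
  by_cases hk : (S N).kind = Kind.sp
  · rw [hk]
    by_cases h1 : Mem lab x N
    · have h2 : Mem lab x (up S N) := h1.anc (up_suffix S N)
      rw [if_pos h1, if_pos h2]
      simp [Par.al, Par.be]
    · rw [if_neg h1, zero_add]
      split_ifs
      · rw [hk] at hbe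
        exact mul_nonneg hw.le hbe
      · exact le_rfl
  · have hal := C3.al_nonneg P hk
    apply add_nonneg
    · split_ifs
      have := ht N
      · positivity
      · exact le_rfl
    · split_ifs
      · exact mul_nonneg hw.le hbe
      · exact le_rfl

theorem C7a.Price_nonneg {m : Y → ℝ} (hm : ∀ x, 0 ≤ m x) (S S' : St Y Lab) (lab : Y → ℕ → Lab) :
    0 ≤ Price P S S' m lab :=
  le_trans (mul_nonneg dist_nonneg (sum_nonneg fun x _ => hm x)) (C7d.root_le_Price hm S S' lab)

theorem C7a.dk_self (u : ℕ → Lab) : dk P u u = 0 := by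
  unfold dk
  simp

theorem C7a.mm_le (Q : Prior Y k) {h : List Y} (_h0 : h ≠ []) (x : Y) :
    Q.mm h x ≤ Q.mp h.dropLast x := by
  unfold Prior.mm Prior.mp Prior.Em Prior.Ep
  rw [List.length_dropLast]
  apply sum_le_sum_of_subset_of_nonneg
  · exact Q.I_mono (List.dropLast_prefix h)
  · intro i _ _
    apply mul_nonneg (Q.p_nonneg i)
    apply sum_nonneg
    intro j _
    split_ifs <;> norm_num

theorem C7a.p_le_mm (Q : Prior Y k) {h : List Y} {i : Q.ι} (hi : i ∈ Q.I h) (j : Fin k) :
    Q.p i ≤ Q.mm h (Q.conf i (h.length - 1) j) := by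
  unfold Prior.mm Prior.Em
  have h1 : Q.p i * 1 ≤ Q.p i * ∑ j', (if Q.conf i (h.length - 1) j' =
      Q.conf i (h.length - 1) j then (1 : ℝ) else 0) := by
    apply mul_le_mul_of_nonneg_left _ (Q.p_nonneg i)
    have := single_le_sum (f := fun j' => if Q.conf i (h.length - 1) j' =
      Q.conf i (h.length - 1) j then (1 : ℝ) else 0) (fun j _ => by split_ifs <;> norm_num)
      (mem_univ j)
    simpa using this
  rw [mul_one] at h1
  refine h1.trans ?_
  exact single_le_sum (f := fun i' => Q.p i' * ∑ j', (if Q.conf i' (h.length - 1) j' =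
      Q.conf i (h.length - 1) j then (1 : ℝ) else 0)) (fun i' _ => mul_nonneg (Q.p_nonneg i')
      (sum_nonneg fun j _ => by split_ifs <;> norm_num)) hi

/-- The relabelling. -/
theorem C7a.step1 (hex : UpdEx P Y Lab) (hval : ∀ h, Valid P (lab h)) {h : List Y} (h0 : h ≠ []) :
    Phi P (f1 Q lab h (st P Q lab h.dropLast)) (Q.mm h) (lab h) ≤
      Q.Em h (fun c => ∑ j, ps P (st P Q lab h.dropLast) (lab h.dropLast) (c j)) +
        (3 * P.A + 2 * P.A' + 33 * P.CG) *
          ∑ x, Q.mm h x * dk P (lab h.dropLast x) (lab h x) := by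
  rw [← Q.sum_mm h (fun x => ps P (st P Q lab h.dropLast) (lab h.dropLast) x), mul_sum,
    ← sum_add_distrib]
  unfold Phi
  apply sum_le_sum
  intro x _
  rcases (Q.mm_nonneg h x).eq_or_lt with hx | hx
  · rw [← hx]; simp
  · have hx' : 0 < Q.mp h.dropLast x := lt_of_lt_of_le hx (C7a.mm_le Q h0 x)
    have hi := inv_st (P := P) (Q := Q) (lab := lab) hex h.dropLast
    have := move_pt (stuck_st (P := P) (Q := Q) (lab := lab) hex h.dropLast)
      (Q.mp_nonneg h.dropLast) (hval h.dropLast) hi.kinds hi.trav (hval h)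
      (keep := Keep (Q.mp h.dropLast) (lab h.dropLast) (lab h)) (fun N => Iff.rfl)
      (g := gctr (Q.s 0) (lab h)) (fun N hN => gctr_mem (Q.s 0) hN) (2 * h.length - 1)
      hx' (Or.inl rfl)
    simp only [sub_self, mul_zero, sum_const_zero, add_zero] at this
    have h2 := mul_le_mul_of_nonneg_left this hx.le
    unfold f1
    linarith

/-- Extra of the flow for the mover (source `x`, target `r`). -/
noncomputable def C7a.X (P : Par) (S : St Y Lab) (lab : Y → ℕ → Lab) (x r : Y) : ℝ :=
  (3 * P.A + 2 * P.A' + 33 * P.CG) * dk P (lab x) (lab r) + 8 * dist x r +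
    8 * ∑ N ∈ (nodes Lab P.I).filter (fun N => Mem lab r N ∧ (S N).kind ≠ Kind.sp),
      (if Mem lab x N then dist x r else 0)

theorem C7a.X_ge {S : St Y Lab} {lab : Y → ℕ → Lab} (x r : Y) :
    (3 * P.A + 2 * P.A' + 33 * P.CG) * dk P (lab x) (lab r) +
      8 * (dist r (S []).ctr - dist x (S []).ctr) +
      8 * ∑ N ∈ (nodes Lab P.I).filter (fun N => Mem lab x N ∧ Mem lab r N ∧
        (S N).kind ≠ Kind.sp), (dist r (S N).ctr - dist x (S N).ctr) ≤ C7a.X P S lab x r := by
  unfold C7a.X
  have h1 : ∀ z : Y, dist r z - dist x z ≤ dist x r := by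
    intro z
    have := dist_triangle r x z
    rw [dist_comm r x] at this
    linarith
  have h2 : ∑ N ∈ (nodes Lab P.I).filter (fun N => Mem lab x N ∧ Mem lab r N ∧
        (S N).kind ≠ Kind.sp), (dist r (S N).ctr - dist x (S N).ctr) ≤
      ∑ N ∈ (nodes Lab P.I).filter (fun N => Mem lab r N ∧ (S N).kind ≠ Kind.sp),
      (if Mem lab x N then dist x r else 0) := by
    rw [← sum_filter, filter_filter]
    have e : (nodes Lab P.I).filter (fun N => (Mem lab r N ∧ (S N).kind ≠ Kind.sp) ∧
        Mem lab x N) = (nodes Lab P.I).filter (fun N => Mem lab x N ∧ Mem lab r N ∧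
        (S N).kind ≠ Kind.sp) := by
      apply filter_congr
      intro N _
      tauto
    rw [e]
    exact sum_le_sum fun N _ => h1 _
  have h3 := h1 (S []).ctr
  linarith

/-- The flow. -/
theorem C7a.step2 (hex : UpdEx P Y Lab) (hval : ∀ h, Valid P (lab h)) {h : List Y} (h0 : h ≠ []) :
    Phi P (f3 P Q lab h (st P Q lab h.dropLast)) (Q.mp h) (lab h) ≤
      Phi P (stm P Q lab h) (Q.mm h) (lab h) +
        ∑ i ∈ Q.I h, Q.p i * C7a.X P (stm P Q lab h) (lab h) (Q.src i (h.length - 1))
          (Q.rq i (h.length - 1)) := by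
  have hi := inv_stm (P := P) (Q := Q) (lab := lab) hex h0
  have hmv : ∀ x y : Y, 0 < Q.mm h x →
      ps P (f3 P Q lab h (st P Q lab h.dropLast)) (lab h) y ≤ ps P (stm P Q lab h) (lab h) x +
        ((3 * P.A + 2 * P.A' + 33 * P.CG) * dk P (lab h x) (lab h y) +
      8 * (dist y (stm P Q lab h []).ctr - dist x (stm P Q lab h []).ctr) +
      8 * ∑ N ∈ (nodes Lab P.I).filter (fun N => Mem (lab h) x N ∧ Mem (lab h) y N ∧
        (stm P Q lab h N).kind ≠ Kind.sp),
          (dist y (stm P Q lab h N).ctr - dist x (stm P Q lab h N).ctr)) := by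
    intro x y hx
    have := move_pt (stuck_stm (P := P) (Q := Q) (lab := lab) hex h0)
      (Q.mm_nonneg h) (hval h) hi.kinds hi.trav (hval h)
      (keep := Keep (Q.mm h) (lab h) (lab h)) (fun N => Iff.rfl)
      (g := gctr (Q.s 0) (lab h)) (fun N hN => gctr_mem (Q.s 0) hN) (2 * h.length)
      hx (y := y) (Or.inr rfl)
    have e : f3 P Q lab h (st P Q lab h.dropLast) = reinit (2 * h.length)
        (Keep (Q.mm h) (lab h) (lab h)) (gctr (Q.s 0) (lab h)) (stm P Q lab h) := rfl
    rw [e]
    linarith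
  unfold Phi
  rw [Q.sum_mp h (fun x => ps P (f3 P Q lab h (st P Q lab h.dropLast)) (lab h) x),
    Q.sum_mm h (fun x => ps P (stm P Q lab h) (lab h) x)]
  unfold Prior.Ep Prior.Em
  rw [← sum_add_distrib]
  apply sum_le_sum
  intro i hi'
  rw [← mul_add]
  rcases (Q.p_nonneg i).eq_or_lt with hp | hp
  · rw [← hp]; simp
  apply mul_le_mul_of_nonneg_left _ hp.le
  have hlen : h.length = (h.length - 1) + 1 := by
    have := List.length_pos_iff.2 h0
    omega
  have hpos : ∀ j, 0 < Q.mm h (Q.conf i (h.length - 1) j) := fun j =>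
    lt_of_lt_of_le hp (C7a.p_le_mm Q hi' j)
  have h3 : ∀ j, ps P (f3 P Q lab h (st P Q lab h.dropLast)) (lab h) (Q.conf i h.length j) ≤
      ps P (stm P Q lab h) (lab h) (Q.conf i (h.length - 1) j) +
        (if j = Q.jj i (h.length - 1) then C7a.X P (stm P Q lab h) (lab h)
          (Q.src i (h.length - 1)) (Q.rq i (h.length - 1)) else 0) := by
    intro j
    have hc := Q.conf_succ i (h.length - 1)
    rw [← hlen] at hc
    rw [hc]
    by_cases hj : j = Q.jj i (h.length - 1)
    · rw [if_pos hj, hj, Function.update_self]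
      have h4 := hmv _ (Q.rq i (h.length - 1)) (hpos (Q.jj i (h.length - 1)))
      have h5 := C7a.X_ge (P := P) (S := stm P Q lab h) (lab := lab h)
        (Q.src i (h.length - 1)) (Q.rq i (h.length - 1))
      change _ ≤ ps P (stm P Q lab h) (lab h) (Q.src i (h.length - 1)) + _ at h4
      change _ ≤ ps P (stm P Q lab h) (lab h) (Q.src i (h.length - 1)) + _
      refine h4.trans ?_
      exact add_le_add le_rfl h5
    · rw [if_neg hj, Function.update_of_ne hj, add_zero]
      have h4 := hmv _ (Q.conf i (h.length - 1) j) (hpos j)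
      simpa [C7a.dk_self] using h4
  calc _ ≤ ∑ j, (ps P (stm P Q lab h) (lab h) (Q.conf i (h.length - 1) j) +
        (if j = Q.jj i (h.length - 1) then C7a.X P (stm P Q lab h) (lab h)
          (Q.src i (h.length - 1)) (Q.rq i (h.length - 1)) else 0)) := sum_le_sum fun j _ => h3 j
    _ = _ := by rw [sum_add_distrib, sum_ite_eq' univ]; simp

/-- The number of charged nodes crossed by the flow. -/
theorem C7a.step3 (hex : UpdEx P Y Lab) (hval : ∀ h, Valid P (lab h)) {h : List Y} (h0 : h ≠ []) :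
    ∑ i ∈ Q.I h, Q.p i * C7a.X P (stm P Q lab h) (lab h) (Q.src i (h.length - 1))
          (Q.rq i (h.length - 1)) ≤
      (3 * P.A + 2 * P.A' + 41 * P.CG) * ∑ i ∈ Q.I h, Q.p i *
        dk P (lab h (Q.src i (h.length - 1))) (lab h (Q.rq i (h.length - 1))) +
      8 * (1 + Real.log (2 * k) / Real.log (10 / 9)) * ∑ i ∈ Q.I h,
        Q.p i * dist (Q.src i (h.length - 1)) (Q.rq i (h.length - 1)) := by
  set r := h.getLast h0 with hr
  have hrq : ∀ i ∈ Q.I h, Q.rq i (h.length - 1) = r := fun i hi => Q.rq_of_mem_I hi h0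
  have e1 : ∑ i ∈ Q.I h, Q.p i * C7a.X P (stm P Q lab h) (lab h) (Q.src i (h.length - 1))
          (Q.rq i (h.length - 1)) = ∑ i ∈ Q.I h, Q.p i * C7a.X P (stm P Q lab h) (lab h)
          (Q.src i (h.length - 1)) r := sum_congr rfl fun i hi => by rw [hrq i hi]
  have e2 : ∑ i ∈ Q.I h, Q.p i *
        dk P (lab h (Q.src i (h.length - 1))) (lab h (Q.rq i (h.length - 1))) =
      ∑ i ∈ Q.I h, Q.p i * dk P (lab h (Q.src i (h.length - 1))) (lab h r) :=
    sum_congr rfl fun i hi => by rw [hrq i hi]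
  have e3 : ∑ i ∈ Q.I h, Q.p i * dist (Q.src i (h.length - 1)) (Q.rq i (h.length - 1)) =
      ∑ i ∈ Q.I h, Q.p i * dist (Q.src i (h.length - 1)) r :=
    sum_congr rfl fun i hi => by rw [hrq i hi]
  rw [e1, e2, e3]
  -- the flow
  set f : Y → ℝ := fun x => ∑ i ∈ Q.I h, Q.p i * (if Q.src i (h.length - 1) = x then 1 else 0)
    with hf
  have hsum : ∀ U : Y → ℝ, ∑ x, f x * U x = ∑ i ∈ Q.I h, Q.p i * U (Q.src i (h.length - 1)) := by
    intro U
    simp only [hf, sum_mul]
    rw [sum_comm]
    apply sum_congr rfl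
    intro i _
    simp
  have hf0 : ∀ x, 0 ≤ f x := fun x => sum_nonneg fun i _ => mul_nonneg (Q.p_nonneg i)
    (by split_ifs <;> norm_num)
  have hfm : ∀ x, f x ≤ Q.mm h x := by
    intro x
    apply sum_le_sum
    intro i _
    apply mul_le_mul_of_nonneg_left _ (Q.p_nonneg i)
    have := single_le_sum (f := fun j' => if Q.conf i (h.length - 1) j' = x then (1 : ℝ) else 0)
      (fun j _ => by split_ifs <;> norm_num) (mem_univ (Q.jj i (h.length - 1)))
    exact this
  have hfone : ∑ x, f x = Q.P h := by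
    have := hsum fun _ => 1
    simp only [mul_one] at this
    rw [this]; rfl
  rcases (Q.P_nonneg h).eq_or_lt with hP | hP
  · have hp0 : ∀ i ∈ Q.I h, Q.p i = 0 := (sum_eq_zero_iff_of_nonneg fun i _ => Q.p_nonneg i).1
      hP.symm
    have z : ∀ F : Q.ι → ℝ, ∑ i ∈ Q.I h, Q.p i * F i = 0 := fun F =>
      sum_eq_zero fun i hi => by rw [hp0 i hi, zero_mul]
    rw [z, z, z]
    simp
  have hi := inv_stm (P := P) (Q := Q) (lab := lab) hex h0
  have hfc := flow_count (stuck_stm (P := P) (Q := Q) (lab := lab) hex h0) (Q.mm_nonneg h)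
    (hval h) hi.kinds hi.trav hf0 hfm r hP (by have := hfm r; linarith)
  have hk1 : (1 : ℝ) ≤ k := by
    have := Nat.one_le_iff_ne_zero.2 (NeZero.ne k)
    exact_mod_cast this
  have elog : max 0 (Real.log (2 * mass (Q.mm h) (lab h) [] / Q.P h)) = Real.log (2 * k) := by
    rw [mass_nil, Q.sum_mm_one]
    have : 2 * ((k : ℝ) * Q.P h) / Q.P h = 2 * k := by
      field_simp
    rw [this]
    exact max_eq_right (Real.log_nonneg (by linarith))
  rw [elog, hsum (fun x => dist x r), hsum (fun x => dk P (lab h x) (lab h r))] at hfc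
  have e4 : ∑ N ∈ (nodes Lab P.I).filter (fun N => Mem (lab h) r N ∧
      (stm P Q lab h N).kind ≠ Kind.sp), ∑ x, (if Mem (lab h) x N then f x * dist x r else 0) =
      ∑ i ∈ Q.I h, Q.p i * ∑ N ∈ (nodes Lab P.I).filter (fun N => Mem (lab h) r N ∧
      (stm P Q lab h N).kind ≠ Kind.sp), (if Mem (lab h) (Q.src i (h.length - 1)) N then
        dist (Q.src i (h.length - 1)) r else 0) := by
    simp only [mul_sum]
    rw [sum_comm (s := Q.I h)]
    apply sum_congr rfl
    intro N _
    have := hsum fun x => if Mem (lab h) x N then dist x r else 0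
    rw [← this]
    apply sum_congr rfl
    intro x _
    rw [mul_ite, mul_zero]
  rw [e4] at hfc
  have e5 : ∑ i ∈ Q.I h, Q.p i * C7a.X P (stm P Q lab h) (lab h) (Q.src i (h.length - 1)) r =
      (3 * P.A + 2 * P.A' + 33 * P.CG) * ∑ i ∈ Q.I h, Q.p i *
        dk P (lab h (Q.src i (h.length - 1))) (lab h r) +
      8 * ∑ i ∈ Q.I h, Q.p i * dist (Q.src i (h.length - 1)) r +
      8 * ∑ i ∈ Q.I h, Q.p i * ∑ N ∈ (nodes Lab P.I).filter (fun N => Mem (lab h) r N ∧
      (stm P Q lab h N).kind ≠ Kind.sp), (if Mem (lab h) (Q.src i (h.length - 1)) N then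
        dist (Q.src i (h.length - 1)) r else 0) := by
    rw [mul_sum, mul_sum, mul_sum, ← sum_add_distrib, ← sum_add_distrib]
    apply sum_congr rfl
    intro i _
    unfold C7a.X
    ring
  rw [e5]
  linarith

theorem C7a.sum_w_le (P : Par) (I : ℕ) : ∑ j ∈ range I, P.w (j + 1) ≤ 1 / 63 * P.W := by
  have key : ∀ n, ∑ j ∈ range n, P.w (j + 1) + 1 / 63 * P.w n ≤ 1 / 63 * P.W := by
    intro n
    induction n with
    | zero => simp [Par.w]
    | succ n ih =>
      rw [sum_range_succ]
      have := w_succ_le P n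
      linarith
  have := key I
  have := (C3.w_pos P I).le
  linarith

/-- The initial potential. -/
theorem C7a.init (hex : UpdEx P Y Lab) (hval : ∀ h, Valid P (lab h)) :
    (∑ i, Q.p i) * ∑ j, ps P (st P Q lab []) (lab []) (Q.s j) ≤
      (∑ i, Q.p i) * (k * ((8 * P.CG + P.Q) * P.W)) := by
  have hu := st_nil_upd (P := P) (Q := Q) (lab := lab) hex
  have h1 : Phi P (st P Q lab []) (Q.mp []) (lab []) =
      (∑ i, Q.p i) * ∑ j, ps P (st P Q lab []) (lab []) (Q.s j) := by
    unfold Phi
    rw [Q.sum_mp [] (fun x => ps P (st P Q lab []) (lab []) x)]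
    unfold Prior.Ep
    have : Q.I [] = univ := by
      ext i
      simp [Q.mem_I]
    rw [this, sum_mul]
    apply sum_congr rfl
    intro i _
    simp
  have h2 := hu.pays
  have h3 := C7a.Price_nonneg (P := P) (Q.mp_nonneg []) (st0 Q lab) (st P Q lab []) (lab [])
  have h4 : Phi P (st0 Q lab) (Q.mp []) (lab []) ≤
      (∑ i, Q.p i) * (k * ((8 * P.CG + P.Q) * P.W)) := by
    have hCG := P.hCG
    have hW := P.hW
    have hps : ∀ x, ps P (st0 Q lab) (lab []) x ≤ (8 * P.CG + P.Q) * P.W := by
      intro x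
      have a1 : dist x (st0 Q lab []).ctr ≤ P.CG * P.W := by
        have := (hval []).dist_le x (st0 Q lab []).ctr 0 (Nat.zero_le _) rfl
        have h4 : P.w 0 = P.W := by unfold Par.w; simp
        rwa [h4] at this
      have a2 : ∀ N ∈ nodes Lab P.I, ((if Mem (lab []) x N then P.w N.length *
          P.al (st0 Q lab N).kind + (if (st0 Q lab N).kind = Kind.sp then 0 else
            8 * dist x (st0 Q lab N).ctr + (st0 Q lab N).trav) else 0) +
          (if Mem (lab []) x (up (st0 Q lab) N) then P.w N.length * P.be (st0 Q lab N).kind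
            else 0)) ≤ (if Mem (lab []) x N then P.Q * P.w N.length else 0) := by
        intro N hN
        have b1 : P.be (st0 Q lab N).kind = 0 := rfl
        have b2 : P.al (st0 Q lab N).kind = 2 * P.A := rfl
        have b3 : (st0 Q lab N).trav = 0 := rfl
        have b4 : (st0 Q lab N).kind ≠ Kind.sp := by
          intro h
          exact absurd h (by simp [st0])
        rw [b1, mul_zero, ite_self, add_zero, b2, b3, if_neg b4, add_zero]
        by_cases hx : Mem (lab []) x N
        · rw [if_pos hx, if_pos hx]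
          have b5 : Mem (lab []) (st0 Q lab N).ctr N := gctr_mem (Q.s 0) ⟨x, hx⟩
          have b6 := (hval []).dist_le x (st0 Q lab N).ctr N.length (mem_nodes.1 hN).2
            (by rw [hx.eq, b5.eq])
          unfold Par.Q
          linarith
        · rw [if_neg hx, if_neg hx]
      have a3 : ∑ N ∈ nodes Lab P.I, (if Mem (lab []) x N then P.Q * P.w N.length else 0) ≤
          P.Q * P.W := by
        rw [sum_mem (lab []) x P.I (fun N => P.Q * P.w N.length)]
        simp only [key_length]
        rw [← mul_sum]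
        have hQ : 0 ≤ P.Q := by
          have := C3.A_pos P
          unfold Par.Q; linarith
        apply mul_le_mul_of_nonneg_left _ hQ
        have := C7a.sum_w_le P P.I
        linarith
      have a4 := (sum_le_sum a2).trans a3
      unfold ps
      linarith
    unfold Phi
    calc ∑ x, Q.mp [] x * ps P (st0 Q lab) (lab []) x ≤
        ∑ x, Q.mp [] x * ((8 * P.CG + P.Q) * P.W) :=
          sum_le_sum fun x _ => mul_le_mul_of_nonneg_left (hps x) (Q.mp_nonneg [] x)
      _ = (∑ i, Q.p i) * (k * ((8 * P.CG + P.Q) * P.W)) := by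
        rw [← sum_mul, Q.sum_mp_one]
        have : Q.P [] = ∑ i, Q.p i := by
          unfold Prior.P
          congr 1
          ext i
          simp [Q.mem_I]
        rw [this]; ring
  linarith

/-- **C7a**: the potential. -/
theorem sum_pr_le (hex : UpdEx P Y Lab) (hval : ∀ h, Valid P (lab h)) :
    ∑ h ∈ Q.H, (pr1 P Q lab h + pr2 P Q lab h) ≤
      (∑ i, Q.p i) * (k * ((8 * P.CG + P.Q) * P.W)) +
      (3 * P.A + 2 * P.A' + 41 * P.CG) * ∑ h ∈ Q.H, dbill P Q lab h +
      8 * (1 + Real.log (2 * k) / Real.log (10 / 9)) * Q.opt := by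
  have htel := Q.telescope (fun h c => ∑ j, ps P (st P Q lab h) (lab h) (c j))
    (fun h c => sum_nonneg fun j _ => C7a.ps_nonneg (inv_st hex h).trav _ _)
    (fun h => pr1 P Q lab h + pr2 P Q lab h)
    (fun h => (3 * P.A + 2 * P.A' + 41 * P.CG) * dbill P Q lab h +
      8 * (1 + Real.log (2 * k) / Real.log (10 / 9)) * ∑ i ∈ Q.I h,
        Q.p i * dist (Q.src i (h.length - 1)) (Q.rq i (h.length - 1)))
    (by
      intro h hh
      have h0 := Q.ne_nil_of_mem_H hh
      have s1 := C7a.step1 (Q := Q) (lab := lab) hex hval h0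
      have s2 := C7a.step2 (Q := Q) (lab := lab) hex hval h0
      have s3 := C7a.step3 (Q := Q) (lab := lab) hex hval h0
      have u1 := (upd1 (P := P) (Q := Q) (lab := lab) hex h0).pays
      have u2 := (upd2 (P := P) (Q := Q) (lab := lab) hex h0).pays
      have e1 : Q.Ep h (fun c => ∑ j, ps P (st P Q lab h) (lab h) (c j)) =
          Phi P (st P Q lab h) (Q.mp h) (lab h) := by
        unfold Phi
        rw [Q.sum_mp h (fun x => ps P (st P Q lab h) (lab h) x)]
      have hCG : 0 ≤ 8 * P.CG := by have := P.hCG; linarith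
      have hdk : 0 ≤ ∑ x, Q.mm h x * dk P (lab h.dropLast x) (lab h x) :=
        sum_nonneg fun x _ => mul_nonneg (Q.mm_nonneg h x) (C3.dk_nonneg P _ _)
      have h8 := mul_nonneg hCG hdk
      rw [e1]
      unfold dbill pr1 pr2
      linarith)
  have hinit := C7a.init (Q := Q) (lab := lab) hex hval
  have e : ∑ h ∈ Q.H, ((3 * P.A + 2 * P.A' + 41 * P.CG) * dbill P Q lab h +
      8 * (1 + Real.log (2 * k) / Real.log (10 / 9)) * ∑ i ∈ Q.I h,
        Q.p i * dist (Q.src i (h.length - 1)) (Q.rq i (h.length - 1))) =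
      (3 * P.A + 2 * P.A' + 41 * P.CG) * ∑ h ∈ Q.H, dbill P Q lab h +
      8 * (1 + Real.log (2 * k) / Real.log (10 / 9)) * Q.opt := by
    rw [sum_add_distrib, ← mul_sum, ← mul_sum, Q.opt_eq]
  rw [e] at htel
  linarith

end Crest.Agent.R314.C
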