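import Mathlib
import Crest.Agent.R314.C6
import Crest.Agent.R314.C1a
import Crest.Agent.R314.C3
import Crest.Agent.R314.Asm1

/-!
R314, module C, block C7b (helper555's #9116): the price of one comparator server in one step.
-/

set_option autoImplicit false
set_option linter.unusedSectionVars false

namespace Crest.Agent.R314.C

open Finset Classical Crest.Agent.R314.Bay

namespace C7

section

variable {Y Lab : Type*} [Fintype Y] [MetricSpace Y] [Fintype Lab] {P : Par} {T : ℕ}

theorem cur_inj {S : St Y Lab} {v v' : VN P Lab T} (h : Cur S v) (h' : Cur S v')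
    (e : v.1.1 = v'.1.1) : v = v' := by
  obtain ⟨h1, h2⟩ := h
  obtain ⟨h1', h2'⟩ := h'
  rw [e] at h1 h2
  have e1 : v.2.2.1 = v'.2.2.1 := by
    have := h1.symm.trans h1'
    exact Kind.fin.inj this
  have e2 : v.2.1.1 = v'.2.1.1 := h2.symm.trans h2'
  refine Prod.ext (Subtype.ext e) (Prod.ext (Fin.ext e2) (Fin.ext e1))

/-- A sum over current nodes is at most a sum over regions. -/
theorem sum_cur_le {S : St Y Lab} (A : Finset (VN P Lab T)) (hA : ∀ v ∈ A, Cur S v)
    (f : VN P Lab T → ℝ) (g : List Lab → ℝ) (hfg : ∀ v ∈ A, f v ≤ g v.1.1)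
    (hg : ∀ N ∈ nodes Lab P.I, 0 ≤ g N) :
    ∑ v ∈ A, f v ≤ ∑ N ∈ nodes Lab P.I, g N := by
  calc ∑ v ∈ A, f v ≤ ∑ v ∈ A, g v.1.1 := sum_le_sum hfg
    _ = ∑ N ∈ A.image (fun v => v.1.1), g N := by
        rw [sum_image]
        intro v hv v' hv' e
        exact cur_inj (hA v hv) (hA v' hv') e
    _ ≤ ∑ N ∈ nodes Lab P.I, g N := by
        apply sum_le_sum_of_subset_of_nonneg
        · intro N hN
          rw [mem_image] at hN
          obtain ⟨v, _, rfl⟩ := hN
          exact v.1.2
        · intro N hN _
          exact hg N hN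

theorem eta_ge (c : ℕ) : 16 ≤ eta c := by
  unfold eta
  have : (1 : ℝ) ≤ 2 ^ c := one_le_pow₀ (by norm_num)
  linarith

theorem vw_nonneg (v : VN P Lab T) : 0 ≤ vw v := (C3.w_pos P _).le

theorem enter_le (v : VN P Lab T) : 3 / vη v * (vw v / 4) ≤ 3 / 64 * P.w v.1.1.length := by
  have h1 := eta_ge v.2.2.1
  have h2 := C3.w_pos P v.1.1.length
  unfold vη vw
  have h3 : 3 / eta v.2.2.1 ≤ 3 / 16 := by gcongr
  nlinarith

theorem enter_eq {S : St Y Lab} {v : VN P Lab T} (h : Cur S v) :
    3 / vη v * (vw v / 4) = P.w v.1.1.length * pr (S v.1.1).kind := by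
  rw [h.1]
  unfold vη vw pr
  have h1 := eta_ge v.2.2.1
  have h2 : eta v.2.2.1 ≠ 0 := by linarith
  field_simp

theorem pr_nonneg (κ : Kind) : 0 ≤ pr κ := by
  cases κ with
  | sp => exact le_rfl
  | inf => exact le_rfl
  | fin c =>
    have := eta_ge c
    unfold pr
    positivity

theorem sum_mem_w_le (lab : Y → ℕ → Lab) (z : Y) :
    ∑ N ∈ nodes Lab P.I, (if Mem lab z N then P.w N.length else 0) ≤ P.W := by
  rw [C3.sum_mem lab z P.I (fun N => P.w N.length)]
  have h1 := geo_w P 1 P.I
  have h2 := w_succ_le P 0
  have h3 : P.w 0 = P.W := by unfold Par.w; simp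
  have h4 := C3.w_pos P (max P.I 1)
  have h5 : ∑ j ∈ range P.I, (if 1 ≤ j + 1 then P.w (j + 1) else 0) =
      ∑ j ∈ range P.I, P.w (key (lab z) (j + 1)).length := by
    apply sum_congr rfl
    intro j _
    rw [if_pos (by omega), key_length]
  rw [← h5]
  rw [zero_add, h3] at h2
  have := P.hW
  linarith

theorem mem_ptS {S : St Y Lab} {m : Y → ℝ} {lab : Y → ℕ → Lab} {z : Y} {v : VN P Lab T} :
    v ∈ ptS S m lab z ↔ Cur S v ∧ 0 < mass m lab v.1.1 ∧ Mem lab z v.1.1 := by
  unfold ptS liveS
  rw [mem_filter, mem_filter]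
  simp only [mem_univ, true_and, and_assoc]

theorem mem_liveS {S : St Y Lab} {m : Y → ℝ} {lab : Y → ℕ → Lab} {v : VN P Lab T} :
    v ∈ liveS S m lab ↔ Cur S v ∧ 0 < mass m lab v.1.1 := by
  unfold liveS
  rw [mem_filter]
  simp only [mem_univ, true_and]

/-- Price of a change of position in the same state. -/
theorem price_flow (S : St Y Lab) (m : Y → ℝ) (lab : Y → ℕ → Lab) (z z' : Y)
    (L : Finset (VN P Lab T)) :
    Asm.price vw vη (ptS S m lab z) (ptS S m lab z') L ≤ dk P (lab z) (lab z') := by
  unfold Asm.price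
  have h1 : ∑ v ∈ (ptS S m lab z' : Finset (VN P Lab T)) \ ptS S m lab z,
      3 / vη v * (vw v / 4) ≤ 3 / 64 * dk P (lab z') (lab z) := by
    rw [← C3.sum_diff P lab lab z' z, mul_sum]
    apply sum_cur_le (S := S)
    · intro v hv
      rw [mem_sdiff, mem_ptS] at hv
      exact hv.1.1
    · intro v hv
      rw [mem_sdiff, mem_ptS, mem_ptS] at hv
      obtain ⟨⟨a1, a2, a3⟩, a4⟩ := hv
      have a5 : ¬ Mem lab z v.1.1 := fun h => a4 ⟨a1, a2, h⟩
      rw [if_pos ⟨a3, a5⟩]
      exact enter_le v
    · intro N _
      have := C3.w_pos P N.length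
      split_ifs <;> positivity
  have h2 : ∑ v ∈ ((ptS S m lab z : Finset (VN P Lab T)) \ ptS S m lab z') ∩ L, vw v / 4 ≤
      1 / 4 * dk P (lab z) (lab z') := by
    rw [← C3.sum_diff P lab lab z z', mul_sum]
    apply sum_cur_le (S := S)
    · intro v hv
      rw [mem_inter, mem_sdiff, mem_ptS] at hv
      exact hv.1.1.1
    · intro v hv
      rw [mem_inter, mem_sdiff, mem_ptS, mem_ptS] at hv
      obtain ⟨⟨⟨a1, a2, a3⟩, a4⟩, -⟩ := hv
      have a5 : ¬ Mem lab z' v.1.1 := fun h => a4 ⟨a1, a2, h⟩
      rw [if_pos ⟨a3, a5⟩]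
      unfold vw
      linarith
    · intro N _
      have := C3.w_pos P N.length
      split_ifs <;> positivity
  rw [C3.dk_comm P (lab z') (lab z)] at h1
  have h3 := C3.dk_nonneg P (lab z) (lab z')
  linarith

end

section Step

variable {Y Lab : Type*} [Fintype Y] [MetricSpace Y] [Fintype Lab] {k : ℕ} [NeZero k]
  {P : Par} {Q : Prior Y k} {lab : List Y → Y → ℕ → Lab} {T : ℕ}
  (hex : UpdEx P Y Lab)

/-- `prx` dominates the sum of the prices of the renewed nodes containing `z`. -/
theorem sum_prx_le (S S' : St Y Lab) (lab : Y → ℕ → Lab) (z : Y) :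
    ∑ N ∈ nodes Lab P.I,
    (if Mem lab z N then
      (if (S' N).kind = (S N).kind ∧ (S' N).birth = (S N).birth then 0
        else P.w N.length * pr (S' N).kind) else 0) ≤ prx P S S' lab z := by
  unfold prx
  exact le_add_of_nonneg_left dist_nonneg

include hex in
/-- Update after the flow. -/
theorem price_two {h : List Y} (h0 : h ≠ []) (z' : Y) :
    Asm.price vw vη (ptS (stm P Q lab h) (Q.mm h) (lab h) z' : Finset (VN P Lab T))
      (pt P T Q lab h z') (live P T Q lab h) ≤
      prx P (f3 P Q lab h (st P Q lab h.dropLast)) (st P Q lab h) (lab h) z' := by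
  have hu := upd2 (Q := Q) (lab := lab) hex h0
  have hi := inv_stm (Q := Q) (lab := lab) hex h0
  have hpt : pt P T Q lab h z' = ptS (st P Q lab h) (Q.mp h) (lab h) z' := by
    unfold pt; rw [if_neg h0]
  have hlive : live P T Q lab h = liveS (st P Q lab h) (Q.mp h) (lab h) := by
    unfold live; rw [if_neg h0]
  have hpos : 0 < h.length := List.length_pos_iff.2 h0
  rw [hpt, hlive]
  unfold Asm.price
  have h2 : ((ptS (stm P Q lab h) (Q.mm h) (lab h) z' : Finset (VN P Lab T)) \
      ptS (st P Q lab h) (Q.mp h) (lab h) z') ∩ liveS (st P Q lab h) (Q.mp h) (lab h) = ∅ := by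
    rw [eq_empty_iff_forall_notMem]
    intro v hv
    rw [mem_inter, mem_sdiff, mem_ptS, mem_ptS, mem_liveS] at hv
    obtain ⟨⟨⟨-, -, a3⟩, a4⟩, a5, a6⟩ := hv
    exact a4 ⟨a5, a6, a3⟩
  rw [h2, sum_empty, add_zero]
  refine le_trans ?_ (sum_prx_le _ _ _ _)
  apply sum_cur_le (S := st P Q lab h)
  · intro v hv
    rw [mem_sdiff, mem_ptS] at hv
    exact hv.1.1
  · intro v hv
    rw [mem_sdiff, mem_ptS, mem_ptS] at hv
    obtain ⟨⟨a1, a2, a3⟩, a4⟩ := hv
    rw [if_pos a3]
    have hN := v.1.2
    have hne : v.1.1 ≠ [] := (mem_nodes.1 hN).1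
    by_cases hb : (st P Q lab h v.1.1).birth = 2 * h.length
    · rw [if_neg]
      · exact (enter_eq a1).le
      · rintro ⟨c1, c2⟩
        by_cases hk : Keep (Q.mm h) (lab h) (lab h) v.1.1
        · have e : f3 P Q lab h (st P Q lab h.dropLast) v.1.1 = stm P Q lab h v.1.1 :=
            reinit_keep hk
          rw [e] at c2
          have := hi.birth v.1.1
          omega
        · have e : f3 P Q lab h (st P Q lab h.dropLast) v.1.1 =
              ⟨Kind.inf, 2 * h.length, gctr (Q.s 0) (lab h) v.1.1, 0⟩ := reinit_not hne hk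
          rw [e, a1.1] at c1
          exact absurd c1 (by simp)
    · exfalso
      obtain ⟨b1, b2, -, -⟩ := hu.old hN hb
      have hk : Keep (Q.mm h) (lab h) (lab h) v.1.1 := by
        apply reinit_old hne (now := 2 * h.length) (g := gctr (Q.s 0) (lab h))
          (S := stm P Q lab h)
        rw [b2] at hb
        exact hb
      have e : f3 P Q lab h (st P Q lab h.dropLast) v.1.1 = stm P Q lab h v.1.1 :=
        reinit_keep hk
      rw [e] at b1 b2
      apply a4
      refine ⟨⟨b1.symm.trans a1.1, b2.symm.trans a1.2⟩, hk.1, a3⟩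
  · intro N _
    have := C3.w_pos P N.length
    have := pr_nonneg (st P Q lab h N).kind
    split_ifs <;> positivity

include hex in
/-- Relabelling and update before the flow. -/
theorem price_one {h : List Y} (h0 : h ≠ []) (z : Y) :
    Asm.price vw vη (pt P T Q lab h.dropLast z)
      (ptS (stm P Q lab h) (Q.mm h) (lab h) z : Finset (VN P Lab T)) (live P T Q lab h) ≤
      dk P (lab h.dropLast z) (lab h z) +
      prx P (f1 Q lab h (st P Q lab h.dropLast)) (stm P Q lab h) (lab h) z +
      (if h.length = 1 then P.W else 0) := by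
  have hu1 := upd1 (Q := Q) (lab := lab) hex h0
  have hu2 := upd2 (Q := Q) (lab := lab) hex h0
  have hi := inv_st (Q := Q) (lab := lab) hex h.dropLast
  have hi1 := inv_f1 (Q := Q) (lab := lab) hex h0
  have hpos : 0 < h.length := List.length_pos_iff.2 h0
  have hlive : live P T Q lab h = liveS (st P Q lab h) (Q.mp h) (lab h) := by
    unfold live; rw [if_neg h0]
  have hdl : h.dropLast.length = h.length - 1 := List.length_dropLast
  -- entering nodes
  have hE : ∑ v ∈ (ptS (stm P Q lab h) (Q.mm h) (lab h) z : Finset (VN P Lab T)) \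
        pt P T Q lab h.dropLast z, 3 / vη v * (vw v / 4) ≤
      3 / 64 * dk P (lab h z) (lab h.dropLast z) +
      prx P (f1 Q lab h (st P Q lab h.dropLast)) (stm P Q lab h) (lab h) z +
      (if h.length = 1 then P.W else 0) := by
    have h3 : (if h.length = 1 then ∑ N ∈ nodes Lab P.I,
        (if Mem (lab h) z N then P.w N.length else 0) else 0) ≤
        (if h.length = 1 then P.W else 0) := by
      split_ifs
      · exact sum_mem_w_le (lab h) z
      · exact le_rfl
    have h4 : ∑ v ∈ (ptS (stm P Q lab h) (Q.mm h) (lab h) z : Finset (VN P Lab T)) \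
        pt P T Q lab h.dropLast z, 3 / vη v * (vw v / 4) ≤
        ∑ N ∈ nodes Lab P.I, (3 / 64 *
          (if Mem (lab h) z N ∧ ¬ Mem (lab h.dropLast) z N then P.w N.length else 0) +
        (if Mem (lab h) z N then
          (if (stm P Q lab h N).kind = (f1 Q lab h (st P Q lab h.dropLast) N).kind ∧
            (stm P Q lab h N).birth = (f1 Q lab h (st P Q lab h.dropLast) N).birth then 0
          else P.w N.length * pr (stm P Q lab h N).kind) else 0) +
        (if h.length = 1 then (if Mem (lab h) z N then P.w N.length else 0) else 0)) := by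
      apply sum_cur_le (S := stm P Q lab h)
      · intro v hv
        rw [mem_sdiff, mem_ptS] at hv
        exact hv.1.1
      · intro v hv
        rw [mem_sdiff, mem_ptS] at hv
        obtain ⟨⟨a1, a2, a3⟩, a4⟩ := hv
        have hN := v.1.2
        have hne : v.1.1 ≠ [] := (mem_nodes.1 hN).1
        have hw := C3.w_pos P v.1.1.length
        rw [if_pos a3]
        have n1 : (0 : ℝ) ≤ 3 / 64 *
            (if Mem (lab h) z v.1.1 ∧ ¬ Mem (lab h.dropLast) z v.1.1 then
              P.w v.1.1.length else 0) := by
          split_ifs <;> positivity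
        have n3 : (0 : ℝ) ≤ (if h.length = 1 then
            (if Mem (lab h) z v.1.1 then P.w v.1.1.length else 0) else 0) := by
          split_ifs <;> positivity
        have n2 : (0 : ℝ) ≤ (if (stm P Q lab h v.1.1).kind =
            (f1 Q lab h (st P Q lab h.dropLast) v.1.1).kind ∧
            (stm P Q lab h v.1.1).birth = (f1 Q lab h (st P Q lab h.dropLast) v.1.1).birth then 0
          else P.w v.1.1.length * pr (stm P Q lab h v.1.1).kind) := by
          have := pr_nonneg (stm P Q lab h v.1.1).kind
          split_ifs <;> positivity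
        by_cases hb : (stm P Q lab h v.1.1).birth = 2 * h.length - 1
        · have hneg : ¬ ((stm P Q lab h v.1.1).kind =
              (f1 Q lab h (st P Q lab h.dropLast) v.1.1).kind ∧
              (stm P Q lab h v.1.1).birth =
                (f1 Q lab h (st P Q lab h.dropLast) v.1.1).birth) := by
            rintro ⟨c1, c2⟩
            by_cases hk : Keep (Q.mp h.dropLast) (lab h.dropLast) (lab h) v.1.1
            · have e : f1 Q lab h (st P Q lab h.dropLast) v.1.1 =
                  st P Q lab h.dropLast v.1.1 := reinit_keep hk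
              rw [e] at c2
              have := hi.birth v.1.1
              omega
            · have e : f1 Q lab h (st P Q lab h.dropLast) v.1.1 =
                  ⟨Kind.inf, 2 * h.length - 1, gctr (Q.s 0) (lab h) v.1.1, 0⟩ :=
                reinit_not hne hk
              rw [e, a1.1] at c1
              exact absurd c1 (by simp)
          rw [if_neg hneg, enter_eq a1]
          linarith
        · obtain ⟨b1, b2, -, -⟩ := hu1.old hN hb
          have hk : Keep (Q.mp h.dropLast) (lab h.dropLast) (lab h) v.1.1 := by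
            apply reinit_old hne (now := 2 * h.length - 1) (g := gctr (Q.s 0) (lab h))
              (S := st P Q lab h.dropLast)
            rw [b2] at hb
            exact hb
          have e : f1 Q lab h (st P Q lab h.dropLast) v.1.1 =
              st P Q lab h.dropLast v.1.1 := reinit_keep hk
          rw [e] at b1 b2
          have hent := enter_le v
          by_cases hl : h.length = 1
          · rw [if_pos hl] at n3 ⊢
            rw [if_pos a3]
            linarith
          · have hd0 : h.dropLast ≠ [] := by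
              intro hd
              have := congrArg List.length hd
              rw [hdl, List.length_nil] at this
              omega
            have hm : ¬ Mem (lab h.dropLast) z v.1.1 := by
              intro hm
              apply a4
              unfold pt
              rw [if_neg hd0, mem_ptS]
              exact ⟨⟨b1.symm.trans a1.1, b2.symm.trans a1.2⟩, hk.1, hm⟩
            rw [if_pos ⟨a3, hm⟩]
            linarith
      · intro N _
        have hw := C3.w_pos P N.length
        have := pr_nonneg (stm P Q lab h N).kind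
        split_ifs <;> positivity
    rw [sum_add_distrib, sum_add_distrib, ← mul_sum, C3.sum_diff P (lab h) (lab h.dropLast)] at h4
    have h5 := sum_prx_le (P := P) (f1 Q lab h (st P Q lab h.dropLast)) (stm P Q lab h) (lab h) z
    have h6 : ∑ N ∈ nodes Lab P.I,
        (if h.length = 1 then (if Mem (lab h) z N then P.w N.length else 0) else 0) =
        (if h.length = 1 then ∑ N ∈ nodes Lab P.I,
        (if Mem (lab h) z N then P.w N.length else 0) else 0) := by
      split_ifs
      · rfl
      · simp
    rw [h6] at h4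
    linarith
  -- leaving nodes
  have hX : ∑ v ∈ (pt P T Q lab h.dropLast z \
        (ptS (stm P Q lab h) (Q.mm h) (lab h) z : Finset (VN P Lab T))) ∩ live P T Q lab h,
        vw v / 4 ≤ 1 / 4 * dk P (lab h.dropLast z) (lab h z) := by
    rw [← C3.sum_diff P (lab h.dropLast) (lab h) z z, mul_sum]
    apply sum_cur_le (S := st P Q lab h)
    · intro v hv
      rw [mem_inter, hlive, mem_liveS] at hv
      exact hv.2.1
    · intro v hv
      rw [mem_inter, hlive, mem_liveS, mem_sdiff] at hv
      obtain ⟨⟨a1, a2⟩, a3, a4⟩ := hv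
      have hN := v.1.2
      have hne : v.1.1 ≠ [] := (mem_nodes.1 hN).1
      have hd0 : h.dropLast ≠ [] := by
        intro hd
        unfold pt at a1
        rw [if_pos hd] at a1
        simp at a1
      unfold pt at a1
      rw [if_neg hd0, mem_ptS] at a1
      obtain ⟨c1, c2, c3⟩ := a1
      have hbv : (v.2.1.1 : ℕ) ≤ 2 * h.dropLast.length := by
        have := hi.birth v.1.1
        rw [c1.2] at this
        exact this
      have hb : (st P Q lab h v.1.1).birth ≠ 2 * h.length := by
        rw [a3.2]; omega
      obtain ⟨b1, b2, -, -⟩ := hu2.old hN hb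
      have hk : Keep (Q.mm h) (lab h) (lab h) v.1.1 := by
        apply reinit_old hne (now := 2 * h.length) (g := gctr (Q.s 0) (lab h))
          (S := stm P Q lab h)
        rw [b2] at hb
        exact hb
      have e : f3 P Q lab h (st P Q lab h.dropLast) v.1.1 = stm P Q lab h v.1.1 :=
        reinit_keep hk
      rw [e] at b1 b2
      have hm : ¬ Mem (lab h) z v.1.1 := by
        intro hm
        apply a2
        rw [mem_ptS]
        exact ⟨⟨b1.symm.trans a3.1, b2.symm.trans a3.2⟩, hk.1, hm⟩
      rw [if_pos ⟨c3, hm⟩]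
      unfold vw
      linarith
    · intro N _
      have := C3.w_pos P N.length
      split_ifs <;> positivity
  unfold Asm.price
  rw [C3.dk_comm P (lab h z) (lab h.dropLast z)] at hE
  have hd := C3.dk_nonneg P (lab h.dropLast z) (lab h z)
  linarith

end Step

end C7

section

variable {Y Lab : Type*} [Fintype Y] [MetricSpace Y] [Fintype Lab] {k : ℕ} [NeZero k]
  {P : Par} {Q : Prior Y k} {lab : List Y → Y → ℕ → Lab} {T : ℕ}

/-- C7b: price of one comparator server in one step. -/
theorem price_step (hex : UpdEx P Y Lab) {h : List Y} (h0 : h ≠ []) (z z' : Y) :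
    Asm.price vw vη (pt P T Q lab h.dropLast z) (pt P T Q lab h z') (live P T Q lab h) ≤
      dk P (lab h.dropLast z) (lab h z) + dk P (lab h z) (lab h z') +
      prx P (f1 Q lab h (st P Q lab h.dropLast)) (stm P Q lab h) (lab h) z +
      prx P (f3 P Q lab h (st P Q lab h.dropLast)) (st P Q lab h) (lab h) z' +
      (if h.length = 1 then P.W else 0) := by
  have hw : ∀ v : VN P Lab T, 0 ≤ vw v := fun v => C7.vw_nonneg v
  have hη : ∀ v : VN P Lab T, 0 ≤ vη v := fun v => by
    have := C7.eta_ge v.2.2.1
    unfold vη; linarith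
  have t1 := Asm.price_triangle hw hη (pt P T Q lab h.dropLast z)
    (ptS (stm P Q lab h) (Q.mm h) (lab h) z) (pt P T Q lab h z') (live P T Q lab h)
    (live P T Q lab h) inter_subset_right
  have t2 := Asm.price_triangle hw hη (ptS (stm P Q lab h) (Q.mm h) (lab h) z)
    (ptS (stm P Q lab h) (Q.mm h) (lab h) z') (pt P T Q lab h z') (live P T Q lab h)
    (live P T Q lab h) inter_subset_right
  have p1 := C7.price_one (Q := Q) (lab := lab) (T := T) hex h0 z
  have p2 := C7.price_flow (P := P) (T := T) (stm P Q lab h) (Q.mm h) (lab h) z z'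
    (live P T Q lab h)
  have p3 := C7.price_two (Q := Q) (lab := lab) (T := T) hex h0 z'
  linarith

end

end Crest.Agent.R314.C
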