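import Mathlib
import Crest.Agent.R314.C7b
import Crest.Agent.R314.Asm3

/-!
R314, module C, block C7c (helper555's #9116): the total label bill of the comparators.
-/

set_option autoImplicit false
set_option linter.unusedSectionVars false

namespace Crest.Agent.R314.C

open Finset Classical Crest.Agent.R314.Bay Crest.LogicCS.KServer

namespace C7

section

variable {Y : Type*} [MetricSpace Y] {k : ℕ} [NeZero k] (Q : Prior Y k)

theorem endConf_eq_conf (i : Q.ι) {t : ℕ} (ht : t ≤ (Q.q i).length) :
    endConf Q.s ((Q.q i).take t) = Q.conf i t := by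
  induction t with
  | zero => rw [List.take_zero, Q.conf_zero]; rfl
  | succ t ih =>
    have ht' : t < (Q.q i).length := by omega
    rw [Asm.endConf_take_succ Q.s (Q.q i) ht', ih (by omega), Q.conf_succ]
    have e1 : Q.jj i t = (Q.q i)[t].2 := Asm.srvs_getElem (Q.q i) ht'
    have e2 : Q.rq i t = (Q.q i)[t].1 := by
      unfold Prior.rq Prior.req
      rw [List.getD_eq_getElem?_getD, List.getElem?_map, List.getElem?_eq_getElem ht']
      rfl
    rw [e1, e2]

/-- One term per scenario and time as a term per history. -/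
theorem sum_H_take (F : List Y → Q.ι → ℝ) :
    ∑ i, ∑ t ∈ range (Q.req i).length, F ((Q.req i).take (t + 1)) i =
      ∑ h ∈ Q.H, ∑ i ∈ Q.I h, F h i := (Q.sum_H F).symm

theorem length_take_succ (i : Q.ι) {t : ℕ} (ht : t < (Q.req i).length) :
    ((Q.req i).take (t + 1)).length = t + 1 := by rw [List.length_take]; omega

theorem dropLast_take_succ (i : Q.ι) {t : ℕ} (ht : t < (Q.req i).length) :
    ((Q.req i).take (t + 1)).dropLast = (Q.req i).take t := by
  rw [List.dropLast_eq_take, length_take_succ Q i ht, List.take_take]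
  congr 1
  omega

theorem sum_P_one :
    ∑ h ∈ Q.H, (if h.length = 1 then Q.P h else 0) ≤ ∑ i, Q.p i := by
  have h1 : ∀ h ∈ Q.H, (if h.length = 1 then Q.P h else 0) =
      ∑ i ∈ Q.I h, if h.length = 1 then Q.p i else 0 := by
    intro h _
    split_ifs
    · rfl
    · simp
  rw [sum_congr rfl h1, Q.sum_H (fun h i => if h.length = 1 then Q.p i else 0)]
  apply sum_le_sum
  intro i _
  have h2 : ∀ t ∈ range (Q.req i).length,
      (if ((Q.req i).take (t + 1)).length = 1 then Q.p i else 0) =
      if t = 0 then Q.p i else 0 := by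
    intro t ht
    rw [mem_range] at ht
    rw [length_take_succ Q i ht]
    by_cases h0 : t = 0
    · simp [h0]
    · simp [h0]
  rw [sum_congr rfl h2, sum_ite_eq']
  split_ifs
  · exact le_rfl
  · exact Q.p_nonneg i

end

end C7

section

variable {Y Lab : Type*} [Fintype Y] [MetricSpace Y] [Fintype Lab] {k : ℕ} [NeZero k]
  {P : Par} {Q : Prior Y k} {lab : List Y → Y → ℕ → Lab} {T : ℕ}

theorem C7.dk_self (u : ℕ → Lab) : dk P u u = 0 := by
  unfold dk
  apply sum_eq_zero
  intro j _
  rw [if_pos rfl]

/-- C7c: total label bill of the comparators (form of `Asm.bill`, without `TreeSys`). -/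
theorem sum_bill_le (hex : UpdEx P Y Lab) :
    ∑ i, Q.p i * ∑ t ∈ range (Q.q i).length, ∑ l : Fin k,
      Asm.price vw vη
        (pt P T Q lab ((Q.req i).take t) (endConf Q.s ((Q.q i).take t) l))
        (pt P T Q lab ((Q.req i).take (t + 1)) (endConf Q.s ((Q.q i).take (t + 1)) l))
        (live P T Q lab ((Q.req i).take (t + 1))) ≤
      ∑ h ∈ Q.H, (dbill P Q lab h + pr1 P Q lab h + pr2 P Q lab h) +
        (∑ i, Q.p i) * (k * P.W) := by
  -- the bound per scenario and history
  set F : List Y → Q.ι → ℝ := fun h i => Q.p i *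
    ((∑ l, dk P (lab h.dropLast (Q.conf i (h.length - 1) l)) (lab h (Q.conf i (h.length - 1) l))) +
    dk P (lab h (Q.src i (h.length - 1))) (lab h (Q.rq i (h.length - 1))) +
    (∑ l, prx P (f1 Q lab h (st P Q lab h.dropLast)) (stm P Q lab h) (lab h)
      (Q.conf i (h.length - 1) l)) +
    (∑ l, prx P (f3 P Q lab h (st P Q lab h.dropLast)) (st P Q lab h) (lab h)
      (Q.conf i h.length l)) +
    (if h.length = 1 then k * P.W else 0)) with hF
  have h1 : ∑ i, Q.p i * ∑ t ∈ range (Q.q i).length, ∑ l : Fin k,
      Asm.price vw vη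
        (pt P T Q lab ((Q.req i).take t) (endConf Q.s ((Q.q i).take t) l))
        (pt P T Q lab ((Q.req i).take (t + 1)) (endConf Q.s ((Q.q i).take (t + 1)) l))
        (live P T Q lab ((Q.req i).take (t + 1))) ≤
      ∑ i, ∑ t ∈ range (Q.req i).length, F ((Q.req i).take (t + 1)) i := by
    apply sum_le_sum
    intro i _
    rw [mul_sum, ← Q.length_req i]
    apply sum_le_sum
    intro t ht
    rw [mem_range] at ht
    have htq : t < (Q.q i).length := by rw [← Q.length_req i]; exact ht
    have hl := C7.length_take_succ Q i ht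
    have hd := C7.dropLast_take_succ Q i ht
    have hne : (Q.req i).take (t + 1) ≠ [] := by
      intro h0
      rw [h0] at hl
      simp at hl
    simp only [hF]
    rw [hl, hd, Nat.add_sub_cancel]
    apply mul_le_mul_of_nonneg_left _ (Q.p_nonneg i)
    rw [C7.endConf_eq_conf Q i htq.le, C7.endConf_eq_conf Q i htq]
    have hstep : ∀ l : Fin k, Asm.price vw vη
        (pt P T Q lab ((Q.req i).take t) (Q.conf i t l))
        (pt P T Q lab ((Q.req i).take (t + 1)) (Q.conf i (t + 1) l))
        (live P T Q lab ((Q.req i).take (t + 1))) ≤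
        dk P (lab ((Q.req i).take t) (Q.conf i t l))
          (lab ((Q.req i).take (t + 1)) (Q.conf i t l)) +
        dk P (lab ((Q.req i).take (t + 1)) (Q.conf i t l))
          (lab ((Q.req i).take (t + 1)) (Q.conf i (t + 1) l)) +
        prx P (f1 Q lab ((Q.req i).take (t + 1)) (st P Q lab ((Q.req i).take t)))
          (stm P Q lab ((Q.req i).take (t + 1))) (lab ((Q.req i).take (t + 1)))
          (Q.conf i t l) +
        prx P (f3 P Q lab ((Q.req i).take (t + 1)) (st P Q lab ((Q.req i).take t)))
          (st P Q lab ((Q.req i).take (t + 1))) (lab ((Q.req i).take (t + 1)))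
          (Q.conf i (t + 1) l) + (if t + 1 = 1 then P.W else 0) := by
      intro l
      have := price_step (T := T) (Q := Q) (lab := lab) hex hne (Q.conf i t l)
        (Q.conf i (t + 1) l)
      rw [hd, hl] at this
      exact this
    refine (sum_le_sum fun l _ => hstep l).trans (le_of_eq ?_)
    rw [sum_add_distrib, sum_add_distrib, sum_add_distrib, sum_add_distrib]
    have hflow : ∑ l : Fin k, dk P (lab ((Q.req i).take (t + 1)) (Q.conf i t l))
          (lab ((Q.req i).take (t + 1)) (Q.conf i (t + 1) l)) =
        dk P (lab ((Q.req i).take (t + 1)) (Q.src i t))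
          (lab ((Q.req i).take (t + 1)) (Q.rq i t)) := by
      rw [← add_sum_erase univ _ (mem_univ (Q.jj i t))]
      rw [sum_eq_zero, add_zero, Q.conf_succ_self]
      · rfl
      · intro l hl
        rw [Q.conf_succ, Function.update_of_ne (ne_of_mem_erase hl), C7.dk_self]
    have hW : ∑ _l : Fin k, (if t + 1 = 1 then P.W else 0) =
        if t + 1 = 1 then (k : ℝ) * P.W else 0 := by
      rw [sum_const, card_univ, Fintype.card_fin, nsmul_eq_mul]
      split_ifs <;> simp
    rw [hflow, hW]
  refine h1.trans ?_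
  rw [C7.sum_H_take Q F]
  -- the sum per history
  have h2 : ∀ h ∈ Q.H, ∑ i ∈ Q.I h, F h i =
      (dbill P Q lab h + pr1 P Q lab h + pr2 P Q lab h) +
        (if h.length = 1 then Q.P h else 0) * (k * P.W) := by
    intro h _
    have e1 := Q.sum_mm h (fun x => dk P (lab h.dropLast x) (lab h x))
    have e2 := Q.sum_mm h (fun x => prx P (f1 Q lab h (st P Q lab h.dropLast)) (stm P Q lab h)
      (lab h) x)
    have e3 := Q.sum_mp h (fun x => prx P (f3 P Q lab h (st P Q lab h.dropLast)) (st P Q lab h)
      (lab h) x)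
    unfold dbill pr1 pr2 Price
    rw [e1, e2, e3]
    unfold Prior.Em Prior.Ep Prior.P
    have e4 : (if h.length = 1 then ∑ i ∈ Q.I h, Q.p i else 0) * (k * P.W) =
        ∑ i ∈ Q.I h, Q.p i * (if h.length = 1 then k * P.W else 0) := by
      split_ifs
      · rw [sum_mul]
      · simp
    rw [e4]
    simp only [hF]
    simp only [mul_add, sum_add_distrib]
  rw [sum_congr rfl h2, sum_add_distrib, ← sum_mul]
  have h3 := C7.sum_P_one Q
  have h4 : (0 : ℝ) ≤ k * P.W := by
    have := P.hW
    positivity
  have h5 := mul_le_mul_of_nonneg_right h3 h4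
  linarith

end

end Crest.Agent.R314.C
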