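import Mathlib
import Crest.Agent.R314.C7
import Crest.Agent.R314.C2s
import Crest.Agent.R314.C2p
import Crest.Agent.R314.C2h1

/-!
R314, module C, dynamics part 4: the `TreeSys` instance.
-/

set_option autoImplicit false
set_option linter.unusedSectionVars false

namespace Crest.Agent.R314.C

open Finset Classical Crest.Agent.R314.Bay

section Sums

variable {Y Lab : Type*} [Fintype Y] [MetricSpace Y] [Fintype Lab] {P : Par} {T : ℕ}

theorem etaK_nonneg (κ : Kind) : 0 ≤ etaK κ := by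
  cases κ with
  | sp => exact le_rfl
  | inf => exact le_rfl
  | fin c => exact (C2s.eta_pos c).le

theorem expK_nonneg (κ : Kind) : 0 ≤ expK κ := by
  cases κ with
  | sp => exact le_rfl
  | inf => exact le_rfl
  | fin c => exact (Real.exp_pos _).le

theorem Cur.ext {S : St Y Lab} {v v' : VN P Lab T} (h : Cur S v) (h' : Cur S v')
    (e : v.1.1 = v'.1.1) : v = v' := by
  obtain ⟨⟨N, hN⟩, ⟨b, hb⟩, ⟨c, hc⟩⟩ := v
  obtain ⟨⟨N', hN'⟩, ⟨b', hb'⟩, ⟨c', hc'⟩⟩ := v'
  simp only at e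
  subst e
  have h1 := h.1.symm.trans h'.1
  have h2 := h.2.symm.trans h'.2
  simp only [Kind.fin.injEq] at h1 h2
  subst h1
  subst h2
  rfl

/-- Sums over current noise nodes are sums over nodes. -/
theorem sum_cur_le {S : St Y Lab} {A : Finset (VN P Lab T)} (hA : ∀ v ∈ A, Cur S v)
    {p : List Lab → Prop} (hp : ∀ v ∈ A, p v.1.1) {g : List Lab → ℝ} (hg : ∀ N, 0 ≤ g N) :
    ∑ v ∈ A, g v.1.1 ≤ ∑ N ∈ (nodes Lab P.I).filter p, g N := by
  have e : ∑ v ∈ A, g v.1.1 = ∑ N ∈ A.image (fun v => v.1.1), g N := by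
    rw [sum_image]
    intro v hv v' hv' h
    exact (hA v hv).ext (hA v' hv') h
  rw [e]
  apply sum_le_sum_of_subset_of_nonneg
  · intro N hN
    rw [mem_image] at hN
    obtain ⟨v, hv, rfl⟩ := hN
    exact mem_filter.2 ⟨v.1.2, hp v hv⟩
  · intro N _ _
    exact hg N

/-- The current noise node of a region. -/
theorem exists_cur {S : St Y Lab} {n : ℕ} (hi : Inv P n S) (hn : n ≤ 2 * T) {N : List Lab}
    (hN : N ∈ nodes Lab P.I) (h1 : (S N).kind ≠ Kind.sp) (h2 : (S N).kind ≠ Kind.inf) :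
    ∃ v : VN P Lab T, v.1.1 = N ∧ Cur S v := by
  cases hk : (S N).kind with
  | sp => exact absurd hk h1
  | inf => exact absurd hk h2
  | fin c =>
    have h3 := hi.kinds N hN
    rw [hk] at h3
    have h4 : c ≤ P.cm := h3
    have h5 := hi.birth N
    exact ⟨⟨⟨N, hN⟩, ⟨(S N).birth, by omega⟩, ⟨c, by omega⟩⟩, rfl, hk, rfl⟩

end Sums

section Static

variable {Y Lab : Type*} [Fintype Y] [MetricSpace Y] [Fintype Lab] {P : Par}
  {m : Y → ℝ} {lab : Y → ℕ → Lab} {S : St Y Lab}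
  (hs : Stuck P S m lab) (hm : ∀ x, 0 ≤ m x) (hv : Valid P lab)
  (hk : ∀ N ∈ nodes Lab P.I, P.ok (S N).kind) (ht : ∀ N, 0 ≤ (S N).trav)
include hs hm hv hk ht

theorem a10 {T : ℝ} (hT : 0 < T) (x : Y) :
    (((nodes Lab P.I).filter (fun N => Mem lab x N ∧ (S N).kind ≠ Kind.sp ∧
      T ≤ mass m lab N)).card : ℝ) * Real.log (10 / 9) ≤
        max 0 (Real.log (mass m lab [] / T)) :=
  s10_of hm (fun _ hN h => s2 hs hm hv hk ht hN h) hT x

theorem a11 {x : Y} (hx : 0 < m x) :
    ∑ N ∈ (nodes Lab P.I).filter (fun N => Mem lab x N),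
      etaK (S N).kind ≤ 200 * Real.log (mass m lab [] / m x) :=
  s11_of hm (fun _ hN h => s2 hs hm hv hk ht hN h)
    (fun _ hN _ h => s3 hs hm hv hk ht hN h) hx

theorem a12 {U : List Lab} (h0 : 0 < mass m lab U) :
    ∑ N ∈ (nodes Lab P.I).filter (fun N => up S N = U), expK (S N).kind ≤ 1 :=
  C2p.s12_core hm (fun _ hN _ h => s4 hs hm hv hk ht hN h) h0

theorem a13 {x : Y} (hx : 0 < m x) {U : List Lab}
    (hU : U = [] ∨ (U ∈ nodes Lab P.I ∧ (S U).kind ≠ Kind.sp)) (hxU : Mem lab x U) :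
    dist x (S U).ctr ≤ 8 * P.CG * P.B *
      ∑ N ∈ (nodes Lab P.I).filter (fun N => Mem lab x N ∧ U.length < N.length ∧
        (S N).kind ≠ Kind.sp), P.w N.length :=
  C2p.s13_core hm hv (fun _ hN h => s1 hs hm hv hk ht hN h)
    (fun _ hN h h0 _ hx => s7 hs hm hv hk ht hN h h0 hx)
    (fun _ _ hU hH h0 h34 _ hD _ hx => s8 hs hm hv hk ht hU hH h0 h34 hD hx) hx hU hxU

/-- With `cm ≥ log (mass [] / m x)` no node containing `x` has kind `inf`. -/
theorem not_inf {x : Y} (hx : 0 < m x) {k : ℕ} (hk1 : k ≤ P.cm)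
    (hmass : mass m lab [] ≤ k * m x) {N : List Lab} (hN : N ∈ nodes Lab P.I)
    (hxN : Mem lab x N) : (S N).kind ≠ Kind.inf := by
  intro h
  have h1 := s5 hs hm hv hk ht hN h
  have h2 : mass m lab (up S N) ≤ mass m lab [] := mass_anc hm lab List.nil_suffix
  have h3 := le_mass hm hxN
  have h4 : Real.exp (-eta P.cm / 4) * (k : ℝ) < 1 := by
    have e1 : (k : ℝ) < Real.exp (eta P.cm / 4) := by
      have h5 : (k : ℝ) ≤ P.cm := by exact_mod_cast hk1
      have h6 : (P.cm : ℝ) < 2 ^ P.cm := by exact_mod_cast Nat.lt_two_pow_self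
      have h7 : (2 : ℝ) ^ P.cm ≤ eta P.cm / 4 := by
        unfold eta
        have : (0 : ℝ) ≤ 2 ^ P.cm := by positivity
        linarith
      have h8 := Real.add_one_le_exp (eta P.cm / 4)
      linarith
    have e2 : Real.exp (-eta P.cm / 4) = (Real.exp (eta P.cm / 4))⁻¹ := by
      rw [← Real.exp_neg]; congr 1; ring
    rw [e2, inv_mul_lt_iff₀ (Real.exp_pos _), mul_one]
    exact e1
  have h5 : 0 < Real.exp (-eta P.cm / 4) := Real.exp_pos _
  have h6 : mass m lab N ≤ Real.exp (-eta P.cm / 4) * (k * m x) :=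
    h1.trans (mul_le_mul_of_nonneg_left (h2.trans hmass) h5.le)
  have h7 : Real.exp (-eta P.cm / 4) * (k * m x) < m x := by
    calc _ = (Real.exp (-eta P.cm / 4) * k) * m x := by ring
      _ < 1 * m x := mul_lt_mul_of_pos_right h4 hx
      _ = m x := one_mul _
  linarith

/-- (H2), static form. -/
theorem sum_expK_le {x : Y} (hx : 0 < m x) {k : ℕ} (hk0 : 1 ≤ k)
    (hmass : mass m lab [] ≤ k * m x) :
    ∑ N ∈ (nodes Lab P.I).filter (fun N => Mem lab x (up S N)), expK (S N).kind ≤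
      1 + 10 * Real.log k := by
  -- possible parents
  set A : Finset (List Lab) := insert [] ((nodes Lab P.I).filter (fun N => Mem lab x N ∧
    (S N).kind ≠ Kind.sp ∧ m x ≤ mass m lab N)) with hA
  have h1 : ∑ N ∈ (nodes Lab P.I).filter (fun N => Mem lab x (up S N)), expK (S N).kind ≤
      ∑ U ∈ A, ∑ N ∈ (nodes Lab P.I).filter (fun N => up S N = U), expK (S N).kind := by
    have h2 : ∑ N ∈ (nodes Lab P.I).filter (fun N => Mem lab x (up S N)), expK (S N).kind ≤
        ∑ N ∈ (nodes Lab P.I).filter (fun N => up S N ∈ A), expK (S N).kind := by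
      apply sum_le_sum_of_subset_of_nonneg
      · intro N hN
        rw [mem_filter] at hN ⊢
        refine ⟨hN.1, ?_⟩
        rw [hA, mem_insert]
        rcases up_mem S hN.1 with h | h
        · exact Or.inl h
        · exact Or.inr (mem_filter.2 ⟨h.1, hN.2, h.2, le_mass hm hN.2⟩)
      · intro N _ _
        exact expK_nonneg _
    refine h2.trans (le_of_eq ?_)
    rw [← sum_fiberwise_of_maps_to (s := (nodes Lab P.I).filter (fun N => up S N ∈ A)) (t := A)
      (g := fun N => up S N) (fun N hN => (mem_filter.1 hN).2)]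
    apply sum_congr rfl
    intro U hU
    apply sum_congr _ (fun _ _ => rfl)
    ext N
    simp only [mem_filter]
    constructor
    · rintro ⟨⟨a, _⟩, b⟩
      exact ⟨a, b⟩
    · rintro ⟨a, b⟩
      exact ⟨⟨a, by rw [b]; exact hU⟩, b⟩
  have h3 : ∀ U ∈ A, ∑ N ∈ (nodes Lab P.I).filter (fun N => up S N = U), expK (S N).kind ≤ 1 := by
    intro U hU
    apply a12 hs hm hv hk ht
    rw [hA, mem_insert] at hU
    rcases hU with rfl | hU
    · exact lt_of_lt_of_le hx (le_mass hm (mem_nil lab x))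
    · exact lt_of_lt_of_le hx (mem_filter.1 hU).2.2.2
  have h4 : ∑ U ∈ A, ∑ N ∈ (nodes Lab P.I).filter (fun N => up S N = U), expK (S N).kind ≤
      (A.card : ℝ) := by
    calc _ ≤ ∑ U ∈ A, (1 : ℝ) := sum_le_sum h3
      _ = _ := by simp
  have h5 : (A.card : ℝ) ≤ 1 + ((nodes Lab P.I).filter (fun N => Mem lab x N ∧
    (S N).kind ≠ Kind.sp ∧ m x ≤ mass m lab N)).card := by
    have := card_insert_le ([] : List Lab) ((nodes Lab P.I).filter (fun N => Mem lab x N ∧
      (S N).kind ≠ Kind.sp ∧ m x ≤ mass m lab N))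
    have h6 : ((A.card : ℕ) : ℝ) ≤ ((((nodes Lab P.I).filter (fun N => Mem lab x N ∧
      (S N).kind ≠ Kind.sp ∧ m x ≤ mass m lab N)).card + 1 : ℕ) : ℝ) := by
      exact_mod_cast this
    push_cast at h6
    linarith
  have h6 := a10 hs hm hv hk ht hx x
  have h7 : Real.log (mass m lab [] / m x) ≤ Real.log k := by
    apply Real.log_le_log
    · exact div_pos (lt_of_lt_of_le hx (le_mass hm (mem_nil lab x))) hx
    · rw [div_le_iff₀ hx]; exact hmass
  have h8 : 0 ≤ Real.log k := Real.log_nonneg (by exact_mod_cast hk0)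
  have h9 : max 0 (Real.log (mass m lab [] / m x)) ≤ Real.log k := max_le h8 h7
  have h10 := log_ten_ninths_ge
  have h11 : (((nodes Lab P.I).filter (fun N => Mem lab x N ∧
    (S N).kind ≠ Kind.sp ∧ m x ≤ mass m lab N)).card : ℝ) ≤ 10 * Real.log k := by
    have h12 : (0 : ℝ) ≤ (((nodes Lab P.I).filter (fun N => Mem lab x N ∧
      (S N).kind ≠ Kind.sp ∧ m x ≤ mass m lab N)).card : ℝ) := Nat.cast_nonneg _
    have h13 := mul_le_mul_of_nonneg_left h10 h12
    linarith
  linarith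

end Static

end Crest.Agent.R314.C
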