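import Mathlib
import Crest.Agent.R314.C8

/-!
R314, module C, dynamics part 5: the `TreeSys` instance.
-/

set_option autoImplicit false
set_option linter.unusedSectionVars false

namespace Crest.Agent.R314.C

open Finset Classical Crest.Agent.R314.Bay

section Inst

variable {Y Lab : Type*} [Fintype Y] [MetricSpace Y] [Fintype Lab] {k : ℕ} [NeZero k]

/-- Histories of positive probability. -/
def Good (Q : Prior Y k) (h : List Y) : Prop := (Q.I h).Nonempty

theorem Good.back {Q : Prior Y k} {h l : List Y} (hG : Good Q (h ++ l)) : Good Q h := by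
  obtain ⟨i, hi⟩ := hG
  exact ⟨i, Q.I_mono (List.prefix_append h l) hi⟩

theorem Good.P_pos {Q : Prior Y k} (hp : ∀ i, 0 < Q.p i) {h : List Y} (hG : Good Q h) :
    0 < Q.P h := by
  obtain ⟨i, h1⟩ := hG
  exact lt_of_lt_of_le (hp i) (single_le_sum (fun j _ => Q.p_nonneg j) h1)

theorem Good.length_le {Q : Prior Y k} {T : ℕ} (hT : ∀ i, (Q.req i).length ≤ T) {h : List Y}
    (hG : Good Q h) : h.length ≤ T := by
  obtain ⟨i, hi⟩ := hG
  exact (Q.mem_I.1 hi).length_le.trans (hT i)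

variable {P : Par} {Q : Prior Y k} {lab : List Y → Y → ℕ → Lab} {T : ℕ}

theorem mass_root (h : List Y) : mass (Q.mp h) (lab h) [] = k * Q.P h := by
  rw [mass_nil, Q.sum_mp_one]

theorem mp_last_pos (hp : ∀ i, 0 < Q.p i) {h : List Y} {x : Y} (hG : Good Q (h ++ [x])) :
    0 < Q.mp (h ++ [x]) x ∧ mass (Q.mp (h ++ [x])) (lab (h ++ [x])) [] ≤ k * Q.mp (h ++ [x]) x := by
  have h1 := Q.P_le_mp (h := h ++ [x]) (by simp)
  have h2 : (h ++ [x]).getLast (by simp) = x := by simp
  rw [h2] at h1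
  refine ⟨lt_of_lt_of_le (hG.P_pos hp) h1, ?_⟩
  rw [mass_root]
  exact mul_le_mul_of_nonneg_left h1 (Nat.cast_nonneg k)

theorem mem_live {h : List Y} {v : VN P Lab T} (h0 : h ≠ []) :
    v ∈ live P T Q lab h ↔ Cur (st P Q lab h) v ∧ 0 < mass (Q.mp h) (lab h) v.1.1 := by
  unfold live liveS
  rw [if_neg h0, mem_filter]
  simp

theorem mem_live' {h : List Y} {v : VN P Lab T} (hv : v ∈ live P T Q lab h) :
    h ≠ [] ∧ Cur (st P Q lab h) v ∧ 0 < mass (Q.mp h) (lab h) v.1.1 := by
  by_cases h0 : h = []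
  · subst h0
    unfold live at hv
    simp at hv
  · exact ⟨h0, (mem_live h0).1 hv⟩

theorem mem_pt {h : List Y} {z : Y} {v : VN P Lab T} :
    v ∈ pt P T Q lab h z ↔ v ∈ live P T Q lab h ∧ Mem (lab h) z v.1.1 := by
  unfold pt live ptS
  split_ifs with h0
  · simp
  · rw [mem_filter]

theorem vw_lt {v u : VN P Lab T} (h : u.1.1.length < v.1.1.length) : vw v < vw u := by
  have h1 := C2p.w_lt_le P h
  have h2 := C2p.w_pos P v.1.1.length
  unfold vw
  linarith

variable (hex : UpdEx P Y Lab) (hval : ∀ h, Valid P (lab h)) (hp : ∀ i, 0 < Q.p i)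
  (hT : ∀ i, (Q.req i).length ≤ T) (hcm : k ≤ P.cm)

section
include hex

theorem birth_le {h : List Y} {v : VN P Lab T} (hv : v ∈ live P T Q lab h) :
    v.2.1.1 ≤ 2 * h.length := by
  obtain ⟨_, h1, _⟩ := mem_live' hv
  rw [← h1.2]
  exact (inv_st hex h).birth _

theorem live_back' {h : List Y} {x : Y} {v : VN P Lab T} (hv : v ∈ live P T Q lab (h ++ [x]))
    (hb : v.2.1.1 ≤ 2 * h.length) (h0 : h ≠ []) : v ∈ live P T Q lab h := by
  obtain ⟨_, h1, _⟩ := mem_live' hv
  have e : (h ++ [x]).dropLast = h := by simp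
  have hl : (h ++ [x]).length - 1 = h.length := by simp
  obtain ⟨a1, _, a3, a4, a5, a6, _, _⟩ := cur_back hex (Q := Q) (lab := lab) (h := h ++ [x])
    (by simp) v.1.2 (by rw [hl, h1.2]; exact hb)
  rw [e] at a1 a5 a6
  rw [mem_live h0]
  refine ⟨⟨?_, ?_⟩, a1.1⟩
  · rw [← a5, ← a3]; exact h1.1
  · rw [← a6, ← a4]; exact h1.2

end

include hex hval hp hT hcm

theorem instH1 {h : List Y} {x : Y} (hG : Good Q (h ++ [x])) :
    ∑ v ∈ pt P T Q lab (h ++ [x]) x, vη v ≤ 200 * Real.log k := by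
  obtain ⟨h1, h2⟩ := mp_last_pos (lab := lab) hp hG
  have h3 := a11 (stuck_st hex (h ++ [x])) (Q.mp_nonneg _) (hval _) (inv_st hex (h ++ [x])).kinds
    (inv_st hex (h ++ [x])).trav h1
  have h4 : ∑ v ∈ pt P T Q lab (h ++ [x]) x, vη v =
      ∑ v ∈ pt P T Q lab (h ++ [x]) x, etaK (st P Q lab (h ++ [x]) v.1.1).kind := by
    apply sum_congr rfl
    intro v hv
    rw [(mem_live' (mem_pt.1 hv).1).2.1.1]
    rfl
  rw [h4]
  refine (sum_cur_le (fun v hv => (mem_live' (mem_pt.1 hv).1).2.1)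
    (p := fun N => Mem (lab (h ++ [x])) x N) (fun v hv => (mem_pt.1 hv).2)
    (g := fun N => etaK (st P Q lab (h ++ [x]) N).kind) (fun N => etaK_nonneg _)).trans ?_
  refine h3.trans ?_
  apply mul_le_mul_of_nonneg_left _ (by norm_num)
  apply Real.log_le_log
  · exact div_pos (lt_of_lt_of_le h1 (le_mass (Q.mp_nonneg _) (mem_nil _ _))) h1
  · rw [div_le_iff₀ h1]; exact h2

theorem instH2 {h : List Y} {x : Y} (hG : Good Q (h ++ [x])) :
    ∑ v ∈ (live P T Q lab (h ++ [x])).filter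
      (fun v => Mem (lab (h ++ [x])) x (up (st P Q lab (h ++ [x])) v.1.1)),
      Real.exp (-vη v / 2) ≤ 1 + 10 * Real.log k := by
  obtain ⟨h1, h2⟩ := mp_last_pos (lab := lab) hp hG
  have h3 := sum_expK_le (stuck_st hex (h ++ [x])) (Q.mp_nonneg _) (hval _)
    (inv_st hex (h ++ [x])).kinds (inv_st hex (h ++ [x])).trav h1
    (Nat.one_le_iff_ne_zero.2 (NeZero.ne k)) h2
  refine le_trans ?_ h3
  have h4 : ∑ v ∈ (live P T Q lab (h ++ [x])).filter
      (fun v => Mem (lab (h ++ [x])) x (up (st P Q lab (h ++ [x])) v.1.1)),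
      Real.exp (-vη v / 2) = ∑ v ∈ (live P T Q lab (h ++ [x])).filter
      (fun v => Mem (lab (h ++ [x])) x (up (st P Q lab (h ++ [x])) v.1.1)),
      expK (st P Q lab (h ++ [x]) v.1.1).kind := by
    apply sum_congr rfl
    intro v hv
    rw [(mem_live' (mem_filter.1 hv).1).2.1.1]
    rfl
  rw [h4]
  exact sum_cur_le (fun v hv => (mem_live' (mem_filter.1 hv).1).2.1)
    (p := fun N => Mem (lab (h ++ [x])) x (up (st P Q lab (h ++ [x])) N))
    (fun v hv => (mem_filter.1 hv).2)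
    (g := fun N => expK (st P Q lab (h ++ [x]) N).kind) (fun N => expK_nonneg _)

/-- A charged region of the chain of the last request is a noise node. -/
theorem exists_pt {h : List Y} {x : Y} (hG : Good Q (h ++ [x])) {N : List Lab}
    (hN : N ∈ nodes Lab P.I) (hx : Mem (lab (h ++ [x])) x N)
    (hkN : (st P Q lab (h ++ [x]) N).kind ≠ Kind.sp) :
    ∃ u ∈ pt P T Q lab (h ++ [x]) x, u.1.1 = N := by
  obtain ⟨h1, h2⟩ := mp_last_pos (lab := lab) hp hG
  have h3 := not_inf (stuck_st hex (h ++ [x])) (Q.mp_nonneg _) (hval _)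
    (inv_st hex (h ++ [x])).kinds (inv_st hex (h ++ [x])).trav h1 hcm h2 hN hx
  obtain ⟨u, hu, hc⟩ := exists_cur (T := T) (inv_st hex (h ++ [x]))
    (by have := hG.length_le hT; omega) hN hkN h3
  refine ⟨u, ?_, hu⟩
  rw [mem_pt, mem_live (by simp), hu]
  exact ⟨⟨hc, lt_of_lt_of_le h1 (le_mass (Q.mp_nonneg _) hx)⟩, hx⟩

theorem instH3 {h₁ h₂ : List Y} {x₁ x₂ : Y} (hpre : h₁ ++ [x₁] <+: h₂) (hG : Good Q (h₂ ++ [x₂])) :
    ∑ v ∈ (pt P T Q lab (h₁ ++ [x₁]) x₁ ∩ live P T Q lab (h₂ ++ [x₂])).filter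
      (fun v => ¬ Mem (lab (h₂ ++ [x₂])) x₂ (up (st P Q lab (h₂ ++ [x₂])) v.1.1)), vw v ≤
      1 / 8 * ∑ v ∈ pt P T Q lab (h₁ ++ [x₁]) x₁ \ pt P T Q lab (h₂ ++ [x₂]) x₂, vw v := by
  obtain ⟨l, rfl⟩ := hpre
  have hG1 : Good Q (h₁ ++ [x₁]) := by
    rw [List.append_assoc] at hG
    exact hG.back
  set H1 := h₁ ++ [x₁] with hH1
  set D := (pt P T Q lab H1 x₁ ∩ live P T Q lab (H1 ++ l ++ [x₂])).filter
      (fun v => ¬ Mem (lab (H1 ++ l ++ [x₂])) x₂ (up (st P Q lab (H1 ++ l ++ [x₂])) v.1.1)) with hD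
  have key : ∀ v ∈ D, ∃ u, u ∈ pt P T Q lab H1 x₁ \ pt P T Q lab (H1 ++ l ++ [x₂]) x₂ ∧
      8 * vw v ≤ vw u ∧ u.1.1 = up (st P Q lab H1) v.1.1 := by
    intro v hv
    rw [hD, mem_filter, mem_inter] at hv
    obtain ⟨⟨hv1, hv2⟩, hv3⟩ := hv
    obtain ⟨hv4, hv5⟩ := mem_pt.1 hv1
    obtain ⟨_, hc1, _⟩ := mem_live' hv4
    obtain ⟨_, hc2, _⟩ := mem_live' hv2
    have hb : (st P Q lab (H1 ++ (l ++ [x₂])) v.1.1).birth ≤ 2 * H1.length := by
      rw [← List.append_assoc, hc2.2, ← hc1.2]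
      exact (inv_st hex H1).birth _
    obtain ⟨_, _, hup⟩ := persist hex (Q := Q) (lab := lab) (l ++ [x₂]) v.1.2 hb
    rw [← List.append_assoc] at hup
    rw [hup] at hv3
    rcases up_mem (st P Q lab H1) v.1.2 with hU | hU
    · rw [hU] at hv3
      exact absurd (mem_nil _ _) hv3
    · obtain ⟨u, hu, huU⟩ := exists_pt hex hval hp hT hcm hG1 hU.1 (hv5.anc (up_suffix _ _)) hU.2
      refine ⟨u, ?_, ?_, huU⟩
      · rw [mem_sdiff]
        refine ⟨hu, fun hu2 => ?_⟩
        have := (mem_pt.1 hu2).2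
        rw [huU] at this
        exact hv3 this
      · have h1 : u.1.1.length < v.1.1.length := by
          rw [huU]
          exact up_length_lt _ (mem_nodes.1 v.1.2).1
        have h2 := C2p.w_lt_le P h1
        have h3 := C2p.w_pos P v.1.1.length
        unfold vw
        linarith
  apply Asm.sum_par_le (fun v => (C2p.w_pos P _).le) D _
    (fun v => if h : ∃ u, u ∈ pt P T Q lab H1 x₁ \ pt P T Q lab (H1 ++ l ++ [x₂]) x₂ ∧
      8 * vw v ≤ vw u ∧ u.1.1 = up (st P Q lab H1) v.1.1 then h.choose else v)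
  · intro v hv
    rw [dif_pos (key v hv)]
    exact (key v hv).choose_spec.1
  · intro v hv
    rw [dif_pos (key v hv)]
    exact (key v hv).choose_spec.2.1
  · intro v hv v' hv' he
    rw [dif_pos (key v hv), dif_pos (key v' hv')] at he
    have e1 := (key v hv).choose_spec.2.2
    have e2 := (key v' hv').choose_spec.2.2
    rw [he, e2] at e1
    rw [hD, mem_filter, mem_inter] at hv hv'
    obtain ⟨hv4, hv5⟩ := mem_pt.1 hv.1.1
    obtain ⟨_, hc1, _⟩ := mem_live' hv4
    obtain ⟨hv4', hv5'⟩ := mem_pt.1 hv'.1.1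
    obtain ⟨_, hc1', _⟩ := mem_live' hv4'
    apply hc1.ext hc1'
    apply chain_eq (mem_nodes.1 v.1.2).1 (mem_nodes.1 v'.1.2).1 hv5 hv5' _ _ e1.symm
    · rw [hc1.1]; simp
    · rw [hc1'.1]; simp

theorem instProx {h : List Y} {x : Y} (hG : Good Q (h ++ [x])) {U : List Lab}
    (hU : U = [] ∨ (U ∈ nodes Lab P.I ∧ (st P Q lab (h ++ [x]) U).kind ≠ Kind.sp))
    (hxU : Mem (lab (h ++ [x])) x U) {p : VN P Lab T → Prop}
    (hpB : ∀ v : VN P Lab T, U.length < v.1.1.length → p v) :
    dist x (st P Q lab (h ++ [x]) U).ctr ≤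
      8 * P.CG * P.B * ∑ v ∈ (pt P T Q lab (h ++ [x]) x).filter p, vw v := by
  obtain ⟨h1, h2⟩ := mp_last_pos (lab := lab) hp hG
  have h3 := a13 (stuck_st hex (h ++ [x])) (Q.mp_nonneg _) (hval _)
    (inv_st hex (h ++ [x])).kinds (inv_st hex (h ++ [x])).trav h1 hU hxU
  refine h3.trans ?_
  have hc : 0 ≤ 8 * P.CG * P.B :=
    mul_nonneg (mul_nonneg (by norm_num) (le_trans zero_le_one P.hCG)) (C2p.B_pos P).le
  apply mul_le_mul_of_nonneg_left _ hc
  have e : ∑ v ∈ (pt P T Q lab (h ++ [x]) x).filter p, vw v =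
      ∑ N ∈ ((pt P T Q lab (h ++ [x]) x).filter p).image (fun v => v.1.1), P.w N.length := by
    rw [sum_image]
    · rfl
    · intro v hv v' hv' he
      exact (mem_live' (mem_pt.1 (mem_filter.1 hv).1).1).2.1.ext
        (mem_live' (mem_pt.1 (mem_filter.1 hv').1).1).2.1 he
  rw [e]
  apply sum_le_sum_of_subset_of_nonneg
  · intro N hN
    rw [mem_filter] at hN
    obtain ⟨hN1, hN2, hN3, hN4⟩ := hN
    obtain ⟨u, hu, huN⟩ := exists_pt hex hval hp hT hcm hG hN1 hN2 hN4
    rw [mem_image]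
    exact ⟨u, mem_filter.2 ⟨hu, hpB u (by rw [huN]; exact hN3)⟩, huN⟩
  · intro N _ _
    exact (C2p.w_pos P _).le

/-- **The `TreeSys` of module C.** -/
noncomputable def treeSys : Asm.TreeSys Y (VN P Lab T) (Good Q) where
  w := vw
  w_pos := fun v => C2p.w_pos P _
  η := vη
  η_ge := fun v => by
    unfold vη eta
    have : (1 : ℝ) ≤ 2 ^ v.2.2.1 := one_le_pow₀ (by norm_num)
    linarith
  birth := vb
  live := live P T Q lab
  pt := pt P T Q lab
  pt_nil := fun z => by unfold pt; simp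
  pt_live := fun h _ z v hv => (mem_pt.1 hv).1
  birth_lt := fun h _ v hv => by
    have h0 := (mem_live' hv).1
    have hpos : 0 < h.length := List.length_pos_iff.2 h0
    have h1 := birth_le hex hv
    unfold vb
    omega
  live_back := fun h x _ v hv hb => by
    have h0 : h ≠ [] := by
      rintro rfl
      exact absurd hb (Nat.not_lt_zero _)
    refine live_back' hex hv ?_ h0
    unfold vb at hb
    omega
  In := fun h v => Mem (lab h) (h.getLastD (Q.s 0)) (up (st P Q lab h) v.1.1)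
  In_of_mem := fun h x _ v hv => by
    have : (h ++ [x]).getLastD (Q.s 0) = x := by simp
    rw [this]
    exact (mem_pt.1 hv).2.anc (up_suffix _ _)
  Lam := 200 * Real.log k
  H1 := fun h x hG => instH1 hex hval hp hT hcm hG
  β := 1 + 10 * Real.log k
  H2 := fun h x hG => by
    have e : (h ++ [x]).getLastD (Q.s 0) = x := by simp
    have := instH2 hex hval hp hT hcm hG (P := P) (lab := lab)
    simp only [e]
    convert this using 2
  H3 := fun h₁ x₁ h₂ x₂ hpre hG => by
    have e : (h₂ ++ [x₂]).getLastD (Q.s 0) = x₂ := by simp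
    have := instH3 hex hval hp hT hcm hpre hG (P := P) (lab := lab)
    simp only [e]
    convert this using 2
  ctr := fun h o => match o with
    | none => (st P Q lab h []).ctr
    | some v => (st P Q lab h v.1.1).ctr
  trav := fun h o => match o with
    | none => (st P Q lab h []).trav
    | some v => (st P Q lab h v.1.1).trav
  CT := 3 / 64
  CT_nonneg := by norm_num
  trav_nonneg := fun h o => by
    cases o with
    | none => exact (inv_st hex h).trav _
    | some v => exact (inv_st hex h).trav _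
  trav_le := fun h _ v hv => by
    obtain ⟨_, hc, hm⟩ := mem_live' hv
    exact s6 (stuck_st hex h) (Q.mp_nonneg _) (hval _) (inv_st hex h).kinds (inv_st hex h).trav
      v.1.2 (by rw [hc.1]; simp) hm
  trav_step := fun h x _ v hv hv' => by
    have hb := birth_le hex hv
    obtain ⟨_, hc', _⟩ := mem_live' hv'
    have e : (h ++ [x]).dropLast = h := by simp
    have hl : (h ++ [x]).length - 1 = h.length := by simp
    obtain ⟨_, _, _, _, _, _, h7, _⟩ := cur_back hex (Q := Q) (lab := lab) (h := h ++ [x])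
      (by simp) v.1.2 (by rw [hl, hc'.2]; exact hb)
    rw [e] at h7
    simp only
    linarith
  trav_root := fun h x _ => by
    have e : (h ++ [x]).dropLast = h := by simp
    have h1 := root_step hex (Q := Q) (lab := lab) (h := h ++ [x]) (by simp)
    rw [e] at h1
    have h2 := dist_triangle (st P Q lab h []).ctr (stm P Q lab (h ++ [x]) []).ctr
      (st P Q lab (h ++ [x]) []).ctr
    simp only
    linarith
  CP := 8 * P.CG * P.B
  CP_nonneg := mul_nonneg (mul_nonneg (by norm_num) (le_trans zero_le_one P.hCG)) (C2p.B_pos P).le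
  prox := fun h x hG o ho => by
    cases o with
    | none =>
      have := instProx hex hval hp hT hcm hG (U := []) (Or.inl rfl) (mem_nil _ _)
        (p := fun v => Asm.Below vw none v) (fun v _ u hu => by simp at hu)
      convert this using 4
    | some u =>
      have hu := ho u rfl
      obtain ⟨h1, h2⟩ := mem_pt.1 hu
      obtain ⟨_, hc, _⟩ := mem_live' h1
      have := instProx hex hval hp hT hcm hG (U := u.1.1)
        (Or.inr ⟨u.1.2, by rw [hc.1]; simp⟩) h2
        (p := fun v => Asm.Below vw (some u) v) (fun v hv u' hu' => by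
          rw [Option.some.injEq] at hu'
          subst hu'
          exact vw_lt hv)
      convert this using 4

end Inst

end Crest.Agent.R314.C
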