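import Crest.Agent.R314.GOut
import Crest.Agent.R314.C0

/-!
R314, block FIN, part 1: from the output of module G (`GOut b`) to the input of module C
(`C.Par`, `C.Valid`, key distance `C.dk`).
-/

set_option autoImplicit false
set_option linter.unusedSectionVars false

namespace Crest.Agent.R314.Fin

open Finset Crest.Agent.R314 Crest.Agent.R314.Tk Crest.Agent.R314.Bay Crest.LogicCS.KServer
open Crest.Agent.R314.C (Par key Valid dk)

universe u

/-- The parameters of module C for scales `R0 * b ^ l`, `l < L`. -/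
noncomputable def mkPar (b : ℕ) (hb : 64 ≤ b) (R0 : ℝ) (hR0 : 0 < R0) (L cm : ℕ) : Par where
  B := b
  hB := by exact_mod_cast hb
  W := R0 * (b : ℝ) ^ L
  hW := by
    have : (0 : ℝ) < b := by exact_mod_cast (by omega : 0 < b)
    positivity
  CG := 2
  hCG := by norm_num
  I := L
  cm := cm

/-- Label stream of a point, top level first. -/
def labs {Y Lab : Type*} (L : ℕ) (lam : List Y → ℕ → Y → Lab) (h : List Y) (x : Y) (j : ℕ) : Lab :=
  lam h (L - 1 - j) x

section
variable {b : ℕ} (hb : 64 ≤ b) {R0 : ℝ} (hR0 : 0 < R0) (L cm : ℕ)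

theorem mkPar_w {j : ℕ} (hj : j ≤ L) :
    (mkPar b hb R0 hR0 L cm).w j = R0 * (b : ℝ) ^ (L - j) := by
  have hb' : (b : ℝ) ≠ 0 := by
    have : 0 < b := by omega
    positivity
  unfold Par.w mkPar
  simp only
  rw [div_eq_iff (pow_ne_zero _ hb'), mul_assoc, ← pow_add]
  congr 2
  omega

theorem key_eq_iff {Lab : Type*} (u v : ℕ → Lab) (j : ℕ) :
    key u j = key v j ↔ ∀ i < j, u i = v i := by
  induction j with
  | zero => simp
  | succ j ih =>
    rw [C.key_succ, C.key_succ, List.cons.injEq, ih]
    constructor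
    · rintro ⟨h1, h2⟩ i hi
      rcases Nat.lt_succ_iff_lt_or_eq.1 hi with h | rfl
      · exact h2 i h
      · exact h1
    · intro h
      exact ⟨h j (Nat.lt_succ_self j), fun i hi => h i (by omega)⟩

variable {Y : Type u} [MetricSpace Y] [Fintype Y] {Lab : Type u}

theorem valid_of_G1 (lam : List Y → ℕ → Y → Lab)
    (hsep : ∀ x y : Y, x ≠ y → 2 * R0 < dist x y)
    (hdiam : ∀ x y : Y, dist x y ≤ R0 * (b : ℝ) ^ L)
    (hG1 : ∀ (h : List Y) (l : ℕ), l < L → ∀ x x' : Y,
      (∀ l', l ≤ l' → l' < L → lam h l' x = lam h l' x') → dist x x' ≤ 2 * (R0 * (b : ℝ) ^ l))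
    (h : List Y) : Valid (mkPar b hb R0 hR0 L cm) (labs L lam h) := by
  have key1 : ∀ x y j, j ≤ L → key (labs L lam h x) j = key (labs L lam h y) j →
      dist x y ≤ 2 * (R0 * (b : ℝ) ^ (L - j)) := by
    intro x y j hj hk
    rw [key_eq_iff] at hk
    rcases Nat.eq_zero_or_pos j with rfl | hj0
    · have h1 := hdiam x y
      have h2 : 0 ≤ R0 * (b : ℝ) ^ L := by positivity
      rw [Nat.sub_zero]
      linarith
    · apply hG1 h (L - j) (by omega) x y
      intro l' h1 h2
      have := hk (L - 1 - l') (by omega)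
      unfold labs at this
      have e : L - 1 - (L - 1 - l') = l' := by omega
      rw [e] at this
      exact this
  constructor
  · intro x y j hj hk
    have hj' : j ≤ L := hj
    have := key1 x y j hj' hk
    rw [mkPar_w hb hR0 L cm hj']
    exact this
  · intro x y hk
    have := key1 x y L le_rfl hk
    rw [Nat.sub_self, pow_zero, mul_one] at this
    by_contra hne
    have h1 := hsep x y hne
    linarith

theorem sum_pow_le {x : ℝ} (hx0 : 0 ≤ x) (hx : x ≤ 1 / 64) (n : ℕ) :
    ∑ i ∈ range n, x ^ i ≤ 64 / 63 := by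
  have h1 : (∑ i ∈ range n, x ^ i) * (1 - x) = 1 - x ^ n := by
    rw [mul_comm]
    exact mul_neg_geom_sum x n
  have h2 : 0 ≤ x ^ n := pow_nonneg hx0 n
  have h3 : 0 ≤ ∑ i ∈ range n, x ^ i := sum_nonneg fun i _ => pow_nonneg hx0 i
  nlinarith

/-- The key distance is at most `64/63` times the label cost. -/
theorem dk_le_lcost (lam : List Y → ℕ → Y → Lab) (h h' : List Y) (x x' : Y) :
    dk (mkPar b hb R0 hR0 L cm) (labs L lam h x) (labs L lam h' x') ≤
      64 / 63 * GO.lcost L (fun l => R0 * (b : ℝ) ^ l) lam h x h' x' := by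
  classical
  set P := mkPar b hb R0 hR0 L cm with hP
  have hI : P.I = L := rfl
  have hbpos : (0 : ℝ) < b := by exact_mod_cast (by omega : 0 < b)
  set u := labs L lam h x with hu
  set v := labs L lam h' x' with hv
  have h0 : ∀ j ∈ range L, (if key u (j + 1) = key v (j + 1) then 0 else P.w (j + 1)) ≤
      ∑ i ∈ range L, if i ≤ j then (if u i = v i then 0 else P.w (j + 1)) else 0 := by
    intro j hj
    rw [mem_range] at hj
    have hw : P.w (j + 1) = R0 * (b : ℝ) ^ (L - (j + 1)) := mkPar_w hb hR0 L cm (by omega)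
    have hw0 : 0 ≤ P.w (j + 1) := by rw [hw]; positivity
    split_ifs with hk
    · apply sum_nonneg
      intro i _
      split_ifs <;> first | exact le_rfl | exact hw0
    · rw [key_eq_iff] at hk
      push Not at hk
      obtain ⟨i, hi, hne⟩ := hk
      have := single_le_sum (f := fun i => if i ≤ j then (if u i = v i then 0 else P.w (j + 1))
        else 0) (s := range L) (fun i _ => by
          split_ifs <;> first | exact le_rfl | exact hw0) (mem_range.2 (by omega : i < L))
      simp only [show i ≤ j by omega, if_true, hne, if_false] at this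
      exact this
  have h1 : dk P u v ≤ ∑ i ∈ range L, ∑ j ∈ range L,
      if i ≤ j then (if u i = v i then 0 else P.w (j + 1)) else 0 := by
    unfold dk
    rw [hI, sum_comm]
    refine le_trans (sum_le_sum fun j hj => ?_) (sum_le_sum h0)
    split_ifs <;> exact le_rfl
  refine h1.trans ?_
  unfold GO.lcost
  rw [mul_sum]
  -- reflect the levels
  rw [← sum_range_reflect (fun l => 64 / 63 * (R0 * (b : ℝ) ^ l *
    (if lam h l x = lam h' l x' then 0 else 1))) L]
  apply sum_le_sum
  intro i hi
  rw [mem_range] at hi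
  have huv : (u i = v i) ↔ (lam h (L - 1 - i) x = lam h' (L - 1 - i) x') := Iff.rfl
  by_cases he : lam h (L - 1 - i) x = lam h' (L - 1 - i) x'
  · have he' := huv.2 he
    simp only [he, if_true, mul_zero]
    apply le_of_eq
    apply sum_eq_zero
    intro j _
    simp only [he', if_true, ite_self]
  · have he' : ¬ u i = v i := fun h => he (huv.1 h)
    simp only [he, if_false, mul_one, he']
    have h2 : ∑ j ∈ range L, (if i ≤ j then P.w (j + 1) else 0) ≤
        ∑ j ∈ range L, R0 * (b : ℝ) ^ (L - 1 - i) * (if i ≤ j then (1 / (b : ℝ)) ^ (j - i) else 0) := by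
      apply sum_le_sum
      intro j hj
      rw [mem_range] at hj
      split_ifs with hij
      · rw [mkPar_w hb hR0 L cm (by omega : j + 1 ≤ L), mul_assoc]
        apply le_of_eq
        congr 1
        rw [one_div, inv_pow, eq_mul_inv_iff_mul_eq₀ (pow_ne_zero _ hbpos.ne'), ← pow_add]
        congr 1
        omega
      · rw [mul_zero]
    refine h2.trans ?_
    rw [← mul_sum, ← sum_filter]
    have h3 : ∑ j ∈ (range L).filter (fun j => i ≤ j), (1 / (b : ℝ)) ^ (j - i) =
        ∑ j ∈ range (L - i), (1 / (b : ℝ)) ^ j := by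
      apply sum_nbij' (fun j => j - i) (fun j => j + i)
      · intro j hj; rw [mem_filter, mem_range] at hj; rw [mem_range]; omega
      · intro j hj; rw [mem_range] at hj; rw [mem_filter, mem_range]; omega
      · intro j hj; rw [mem_filter, mem_range] at hj; omega
      · intro j hj; omega
      · intro j _; rfl
    rw [h3]
    have h4 : ∑ j ∈ range (L - i), (1 / (b : ℝ)) ^ j ≤ 64 / 63 := by
      apply sum_pow_le (by positivity)
      apply one_div_le_one_div_of_le (by norm_num)
      exact_mod_cast hb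
    have h5 : 0 ≤ R0 * (b : ℝ) ^ (L - 1 - i) := by positivity
    calc R0 * (b : ℝ) ^ (L - 1 - i) * ∑ j ∈ range (L - i), (1 / (b : ℝ)) ^ j
        ≤ R0 * (b : ℝ) ^ (L - 1 - i) * (64 / 63) := mul_le_mul_of_nonneg_left h4 h5
      _ = _ := by ring

end

/-- Label bill of module C at the nonempty history `h` (key distance). -/
noncomputable def dbill {Y Lab : Type*} [Fintype Y] {k : ℕ} [NeZero k] (Q : Prior Y k) (P : Par)
    (lab : List Y → Y → ℕ → Lab) (h : List Y) : ℝ :=
  ∑ x, Q.mm h x * dk P (lab h.dropLast x) (lab h x) +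
    ∑ i ∈ Q.I h, Q.p i * dk P (lab h (Q.src i (h.length - 1))) (lab h (Q.rq i (h.length - 1)))

theorem dbill_le_gbill {Y : Type u} [MetricSpace Y] [Fintype Y] {Lab : Type u} {b : ℕ}
    (hb : 64 ≤ b) {R0 : ℝ} (hR0 : 0 < R0) (L cm : ℕ) {k : ℕ} [NeZero k] (Q : Prior Y k)
    (lam : List Y → ℕ → Y → Lab) (h : List Y) :
    dbill Q (mkPar b hb R0 hR0 L cm) (labs L lam) h ≤
      64 / 63 * GO.gbill Q L (fun l => R0 * (b : ℝ) ^ l) lam h := by
  unfold dbill GO.gbill
  rw [mul_add, mul_sum, mul_sum]
  apply add_le_add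
  · apply sum_le_sum
    intro x _
    have := mul_le_mul_of_nonneg_left (dk_le_lcost hb hR0 L cm lam h.dropLast h x x)
      (Q.mm_nonneg h x)
    linarith
  · apply sum_le_sum
    intro i _
    have := mul_le_mul_of_nonneg_left (dk_le_lcost hb hR0 L cm lam h h
      (Q.src i (h.length - 1)) (Q.rq i (h.length - 1))) (Q.p_nonneg i)
    linarith

end Crest.Agent.R314.Fin
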