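import Mathlib
import Crest.Agent.R314.Frame5

/-!
R314, block F6: from the Bayes property on finite metric spaces to the statement S0486.
-/

set_option autoImplicit false
set_option linter.unusedSectionVars false

namespace Crest.Agent.R314

open Crest.LogicCS.KServer

section Subtype

variable {X : Type*} [MetricSpace X] {k : ℕ} (F : Finset X)

open Classical in
/-- lift a list of points to the finite subtype -/
noncomputable def liftL (l : List X) : List F :=
  l.filterMap fun x => if h : x ∈ F then some ⟨x, h⟩ else none

theorem liftL_map_val (l : List F) : liftL F (l.map Subtype.val) = l := by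
  unfold liftL
  rw [List.filterMap_map]
  conv_rhs => rw [← List.filterMap_some (l := l)]
  congr 1
  funext x
  simp

theorem run_val (d : DPol F k) (σ : List F) : ∀ pre : List F,
    run (fun l => d (liftL F l)) (pre.map Subtype.val) (σ.map Subtype.val) =
      (run d pre σ).map fun a => ((a.1 : X), a.2) := by
  induction σ with
  | nil => intro pre; rfl
  | cons r σ ih =>
    intro pre
    have e : pre.map Subtype.val ++ [(r : X)] = (pre ++ [r]).map Subtype.val := by simp
    simp only [List.map_cons, run_cons]
    rw [e, liftL_map_val, ih]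

theorem pathCost_val (p : List (F × Fin k)) : ∀ c : Fin k → F,
    pathCost (fun i => (c i : X)) (p.map fun a => ((a.1 : X), a.2)) = pathCost c p := by
  induction p with
  | nil => intro c; rfl
  | cons a p ih =>
    intro c
    simp only [List.map_cons, pathCost_cons]
    rw [← ih]
    congr 2
    funext j
    by_cases h : j = a.2
    · subst h; simp
    · simp [Function.update_of_ne h]

theorem bayesOn_of_subtype (s : Fin k → F) {R B : ℝ} (h : BayesOn s R B Finset.univ) :
    BayesOn (fun i => (s i : X)) R B F := by
  intro ι inst p q hp hp1 hq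
  let q' : ι → List (F × Fin k) := fun i => (q i).attach.map fun a => (⟨a.1.1, hq i _ a.2⟩, a.1.2)
  have hq' : ∀ i, (q' i).map (fun a => ((a.1 : X), a.2)) = q i := by
    intro i
    simp only [q', List.map_map]
    conv_rhs => rw [← List.attach_map_subtype_val (q i)]
    rfl
  have hq1 : ∀ i, ((q' i).map Prod.fst).map Subtype.val = (q i).map Prod.fst := by
    intro i
    conv_rhs => rw [← hq' i]
    simp only [List.map_map]
    rfl
  obtain ⟨d, hd⟩ := h ι p q' hp hp1 (fun _ _ _ => Finset.mem_univ _)
  refine ⟨fun l => d (liftL F l), ?_⟩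
  have h1 : ∀ i, dcost (fun l => d (liftL F l)) (fun i => (s i : X)) ((q i).map Prod.fst) =
      dcost d s ((q' i).map Prod.fst) := by
    intro i
    unfold dcost
    rw [← hq1 i]
    have := run_val F d ((q' i).map Prod.fst) []
    rw [List.map_nil] at this
    rw [this, pathCost_val]
  have h2 : ∀ i, pathCost (fun i => (s i : X)) (q i) = pathCost s (q' i) := by
    intro i
    conv_lhs => rw [← hq' i]
    exact pathCost_val F _ _
  simp only [h1, h2]
  exact hd

end Subtype

variable {X : Type*} [MetricSpace X] {k : ℕ}

/-- change of the start configuration -/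
theorem BayesOn.start {s s' : Fin k → X} {R B : ℝ} (hR : 0 ≤ R) {F : Finset X}
    (h : BayesOn s' R B F) : BayesOn s R (B + (1 + R) * cdist s s') F := by
  intro ι inst p q hp hp1 hq
  obtain ⟨d, hd⟩ := h ι p q hp hp1 hq
  refine ⟨d, ?_⟩
  have h1 : ∑ i, p i * dcost d s ((q i).map Prod.fst) ≤
      ∑ i, p i * dcost d s' ((q i).map Prod.fst) + cdist s s' := by
    have : ∀ i, p i * dcost d s ((q i).map Prod.fst) ≤
        p i * dcost d s' ((q i).map Prod.fst) + p i * cdist s s' := by
      intro i
      rw [← mul_add]
      exact mul_le_mul_of_nonneg_left (pathCost_le_start _ _ _) (hp i)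
    refine (Finset.sum_le_sum fun i _ => this i).trans ?_
    rw [Finset.sum_add_distrib, ← Finset.sum_mul, hp1, one_mul]
  have h2 : ∑ i, p i * pathCost s' (q i) ≤ ∑ i, p i * pathCost s (q i) + cdist s s' := by
    have : ∀ i, p i * pathCost s' (q i) ≤ p i * pathCost s (q i) + p i * cdist s s' := by
      intro i
      rw [← mul_add]
      refine mul_le_mul_of_nonneg_left ?_ (hp i)
      rw [cdist_comm]
      exact pathCost_le_start _ _ _
    refine (Finset.sum_le_sum fun i _ => this i).trans ?_
    rw [Finset.sum_add_distrib, ← Finset.sum_mul, hp1, one_mul]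
  nlinarith

theorem exists_policy_of_bayesOn [NeZero k] (s : Fin k → X) (R B : ℝ)
    (H : ∀ F : Finset X, InF F s → BayesOn s R B F) :
    ∃ A : Policy X k, ∀ q : List (X × Fin k),
      expCost A s (q.map Prod.fst) ≤ R * pathCost s q + B := by
  classical
  refine exists_policy_of_finite s (fun q => R * pathCost s q + B) fun Q => ?_
  refine exists_policy_of_bayes s R B Q fun w hw0 hw1 => ?_
  let F : Finset X := Finset.univ.image s ∪ Q.biUnion fun q => (q.map Prod.fst).toFinset
  have hFs : InF F s := fun i => Finset.mem_union_left _ (Finset.mem_image_of_mem _ (Finset.mem_univ _))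
  let e := Q.equivFin
  have hsum : ∀ f : List (X × Fin k) → ℝ, ∑ i : Fin Q.card, f (e.symm i).1 = ∑ q ∈ Q, f q := by
    intro f
    rw [← Finset.sum_coe_sort Q f]
    exact Equiv.sum_comp e.symm fun x : Q => f x.1
  obtain ⟨d, hd⟩ := H F hFs (Fin Q.card) (fun i => w (e.symm i).1) (fun i => (e.symm i).1)
    (fun i => hw0 _) (by rw [hsum w]; exact hw1) (by
      intro i a ha
      refine Finset.mem_union_right _ (Finset.mem_biUnion.2 ⟨(e.symm i).1, (e.symm i).2, ?_⟩)
      rw [List.mem_toFinset]
      exact List.mem_map_of_mem ha)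
  refine ⟨d, ?_⟩
  rw [hsum fun q => w q * dcost d s (q.map Prod.fst), hsum fun q => w q * pathCost s q] at hd
  exact hd

universe u

/-- **Frame theorem.** If on every finite metric space the Bayes property holds with ratio
`C * log (k+1) ^ 2` and an arbitrary horizon-independent additive constant, then S0486 holds. -/
theorem frame (C : ℝ) (hC : 0 ≤ C)
    (H : ∀ k : ℕ, 2 ≤ k → ∀ (Y : Type u) [MetricSpace Y] [Fintype Y] (s : Fin k → Y),
      Function.Injective s → ∃ B : ℝ, BayesOn s (C * Real.log (k + 1) ^ 2) B Finset.univ) :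
    ∃ C : ℝ, ∀ (k : ℕ), 2 ≤ k → ∀ (X : Type u) [MetricSpace X], Nonempty (Fin (k + 1) ↪ X) →
      ∀ s : Fin k → X, ∃ (A : Policy X k) (B : ℝ), 0 ≤ B ∧ (Function.Injective s → B = 0) ∧
        ∀ (σ : List X) (j : Fin σ.length → Fin k),
          expCost A s σ ≤ C * Real.log (k + 1) ^ 2 * pathCost s (σ.zip (List.ofFn j)) + B := by
  classical
  refine ⟨2 * C, fun k hk X _ hX s => ?_⟩
  haveI : NeZero k := ⟨by omega⟩
  set R : ℝ := C * Real.log (k + 1) ^ 2 with hR
  have hR0 : 0 ≤ R := mul_nonneg hC (sq_nonneg _)
  -- an injective start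
  obtain ⟨s', hs', hss'⟩ : ∃ s' : Fin k → X, Function.Injective s' ∧
      (Function.Injective s → s = s') := by
    by_cases h : Function.Injective s
    · exact ⟨s, h, fun _ => rfl⟩
    · obtain ⟨f⟩ := hX
      exact ⟨fun i => f (Fin.castSucc i), fun a b hab => by simpa using f.injective hab,
        fun h' => absurd h' h⟩
  have key : ∀ F : Finset X, InF F s → BayesOn s (2 * R) ((1 + 2 * R) * cdist s s') F := by
    intro F _
    let F' : Finset X := F ∪ Finset.univ.image s'
    have hF' : InF F' s' := fun i =>
      Finset.mem_union_right _ (Finset.mem_image_of_mem _ (Finset.mem_univ _))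
    let s'' : Fin k → F' := fun i => ⟨s' i, hF' i⟩
    have hs'' : Function.Injective s'' := by
      intro a b hab
      apply hs'
      exact congrArg Subtype.val hab
    obtain ⟨B, hB⟩ := H k hk F' s'' hs''
    have h1 := (bayesOn_of_subtype F' s'' hB).double hs' hF' hR0
    have h2 := h1.start (s := s) (by positivity)
    rw [zero_add] at h2
    intro ι inst p q hp hp1 hq
    exact h2 ι p q hp hp1 fun i a ha => Finset.mem_union_left _ (hq i a ha)
  obtain ⟨A, hA⟩ := exists_policy_of_bayesOn s (2 * R) ((1 + 2 * R) * cdist s s') key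
  refine ⟨A, (1 + 2 * R) * cdist s s', mul_nonneg (by positivity) (cdist_nonneg _ _), ?_, ?_⟩
  · intro h
    rw [← hss' h, cdist_self, mul_zero]
  · intro σ j
    have h1 := hA (σ.zip (List.ofFn j))
    rw [List.map_fst_zip (by simp)] at h1
    rw [hR] at h1 ⊢
    calc expCost A s σ ≤ _ := h1
      _ = _ := by ring

end Crest.Agent.R314
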