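import Crest.Agent.R314.Fin1
import Crest.Agent.R314.Asm5
import Crest.Agent.R314.Frame6

/-!
R314, block FIN, part 2: `GOut 256` (geometry) + `COut` (module C) ⟹ the statement S0486.
-/

set_option autoImplicit false
set_option linter.unusedSectionVars false

namespace Crest.Agent.R314.Fin

open Finset Crest.Agent.R314 Crest.Agent.R314.Tk Crest.Agent.R314.Bay Crest.LogicCS.KServer
open Crest.Agent.R314.C (Par key Valid dk)

universe u

/-- The histories of positive probability (the priors below have `p i > 0` for all `i`). -/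
def Good {Y : Type u} {k : ℕ} [NeZero k] (Q : Prior Y k) (h : List Y) : Prop := (Q.I h).Nonempty

theorem Good.back {Y : Type u} {k : ℕ} [NeZero k] {Q : Prior Y k} (h : List Y) (x : Y)
    (hh : Good Q (h ++ [x])) : Good Q h := by
  obtain ⟨i, hi⟩ := hh
  exact ⟨i, Q.I_mono (List.prefix_append h [x]) hi⟩

theorem good_take {Y : Type u} {k : ℕ} [NeZero k] (Q : Prior Y k) (i : Q.ι) (t : ℕ) :
    Good Q ((Q.req i).take t) := ⟨i, Q.mem_I.2 (List.take_prefix _ _)⟩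

/-- **Output of module C** (dynamics + `TreeSys` instance), for `B = 256`, `CG = 2`, `cm = k`. -/
def COut : Prop :=
  ∃ C : ℝ, 0 ≤ C ∧ ∀ (k : ℕ) [NeZero k], 2 ≤ k → ∀ (Y : Type u) [MetricSpace Y] [Fintype Y]
    (P : Par), P.B = 256 → P.CG = 2 → P.cm = k → ∃ B' : ℝ, 0 ≤ B' ∧
    ∀ Q : Prior Y k, (∀ i, 0 < Q.p i) → ∀ (Lab : Type u) [Fintype Lab]
      (lab : List Y → Y → ℕ → Lab), (∀ h, Valid P (lab h)) →
      ∃ (V : Type u) (_ : DecidableEq V) (_ : Fintype V) (S : Asm.TreeSys Y V (Good Q)),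
        0 ≤ S.Lam ∧ 0 ≤ S.β ∧ S.Lam ≤ C * Real.log (k + 1) ∧ S.β ≤ C * Real.log (k + 1) ∧
        S.CP ≤ C ∧ S.CT ≤ C ∧
        ∑ i, Q.p i * Asm.bill S Q.s (Q.q i) ≤
          C * (∑ h ∈ Q.H, dbill Q P lab h + Real.log (k + 1) * Q.opt) + B' * ∑ i, Q.p i ∧
        k * ∑ i, Q.p i * S.trav (Q.req i) none ≤
          C * (∑ h ∈ Q.H, dbill Q P lab h + Real.log (k + 1) * Q.opt) + B' * ∑ i, Q.p i

theorem one_le_log {k : ℕ} (hk : 2 ≤ k) : 1 ≤ Real.log ((k : ℝ) + 1) := by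
  have h1 : Real.exp 1 ≤ (k : ℝ) + 1 := by
    have := Real.exp_one_lt_d9
    have h2 : (2 : ℝ) ≤ k := by exact_mod_cast hk
    linarith
  calc (1 : ℝ) = Real.log (Real.exp 1) := (Real.log_exp 1).symm
    _ ≤ _ := Real.log_le_log (Real.exp_pos 1) h1

/-- The prior of positive scenarios. -/
def posPrior {Y : Type u} {k : ℕ} (s : Fin k → Y) {ι : Type} [Fintype ι] (p : ι → ℝ)
    [DecidablePred fun i => 0 < p i] (q : ι → List (Y × Fin k)) : Prior Y k where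
  ι := {i : ι // 0 < p i}
  s := s
  p := fun i => p i.1
  p_nonneg := fun i => i.2.le
  q := fun i => q i.1

theorem sum_pos {ι : Type} [Fintype ι] (p : ι → ℝ) (hp : ∀ i, 0 ≤ p i)
    [DecidablePred fun i => 0 < p i] (f : ι → ℝ) :
    ∑ i : {i : ι // 0 < p i}, p i.1 * f i.1 = ∑ i, p i * f i := by
  rw [← sum_subtype (univ.filter fun i => 0 < p i) (by simp) (fun i => p i * f i), sum_filter]
  apply sum_congr rfl
  intro i _
  split_ifs with h
  · rfl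
  · have : p i = 0 := le_antisymm (not_lt.1 h) (hp i)
    rw [this, zero_mul]

theorem bayes_of (hG : GO.GOut.{u} 256) (hC : COut.{u}) : ∃ C : ℝ, 0 ≤ C ∧ ∀ k : ℕ, 2 ≤ k →
    ∀ (Y : Type u) [MetricSpace Y] [Fintype Y] (s : Fin k → Y), Function.Injective s →
      ∃ B : ℝ, BayesOn s (C * Real.log (k + 1) ^ 2) B Finset.univ := by
  classical
  obtain ⟨Cg, hCg, hG⟩ := hG
  obtain ⟨C, hC0, hC⟩ := hC
  refine ⟨(72 * C ^ 2 + 1) * (C * (2 * Cg + 1)), by positivity, ?_⟩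
  intro k hk Y _ _ s _
  have : NeZero k := ⟨by omega⟩
  obtain ⟨L, R0, Bg, hR0, hBg, hsep, hdiam, hG⟩ := hG k hk Y
  set P := mkPar 256 (by norm_num) R0 hR0 L k with hP
  obtain ⟨Bc, hBc, hC⟩ := hC k hk Y P (by simp [hP, mkPar]) rfl rfl
  set lg := Real.log ((k : ℝ) + 1) with hlg
  have hlg1 : 1 ≤ lg := one_le_log hk
  set Z : ℝ := 2 * C * Bg + Bc with hZ
  have hZ0 : 0 ≤ Z := by positivity
  set Dm : ℝ := ∑ l, ∑ y : Y, dist (s l) y with hDm
  have hDm0 : 0 ≤ Dm := sum_nonneg fun _ _ => sum_nonneg fun _ _ => dist_nonneg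
  refine ⟨(72 * C ^ 2 * lg + 1) * Z + Dm + 1, ?_⟩
  intro ι _ p q hp hp1 _
  set Q : Prior Y k := posPrior s p q with hQ
  obtain ⟨Lab, hLab, lam, h1, h2⟩ := hG Q
  obtain ⟨V, hV1, hV2, S, hLam0, hβ0, hLam, hβ, hCP, hCT, hb, ht⟩ := hC Q (fun i => i.2) Lab
    (labs L lam) (fun h => valid_of_G1 (by norm_num) hR0 L k lam hsep hdiam h1 h)
  have hsum : ∑ i, Q.p i = 1 := by
    have := sum_pos p hp (fun _ => 1)
    simp only [mul_one] at this
    rw [hp1] at this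
    exact this
  have hopt : Q.opt = ∑ i, p i * pathCost s (q i) := sum_pos p hp (fun i => pathCost s (q i))
  have hopt0 : 0 ≤ Q.opt := by
    rw [hopt]
    exact sum_nonneg fun i _ => mul_nonneg (hp i) (pathCost_nonneg _ _)
  -- the label bill
  have hD : ∑ h ∈ Q.H, dbill Q P (labs L lam) h ≤ 2 * (Cg * lg * Q.opt + Bg) := by
    have e1 : ∑ h ∈ Q.H, dbill Q P (labs L lam) h ≤
        64 / 63 * ∑ h ∈ Q.H, GO.gbill Q L (fun l => R0 * ((256 : ℕ) : ℝ) ^ l) lam h := by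
      rw [mul_sum]
      exact sum_le_sum fun h _ => dbill_le_gbill (by norm_num) hR0 L k Q lam h
    rw [hsum, mul_one] at h2
    have e2 : 0 ≤ Cg * lg * Q.opt + Bg := by positivity
    have e3 : 64 / 63 * ∑ h ∈ Q.H, GO.gbill Q L (fun l => R0 * ((256 : ℕ) : ℝ) ^ l) lam h ≤
        64 / 63 * (Cg * lg * Q.opt + Bg) := mul_le_mul_of_nonneg_left h2 (by norm_num)
    linarith
  rw [hsum, mul_one] at hb ht
  have hX : C * (∑ h ∈ Q.H, dbill Q P (labs L lam) h + lg * Q.opt) + Bc ≤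
      C * (2 * Cg + 1) * lg * Q.opt + Z := by
    have := mul_le_mul_of_nonneg_left hD hC0
    rw [hZ]
    nlinarith
  obtain ⟨d, hd⟩ := S.exists_policy Good.back hLam0 hβ0 s Q.p Q.p_nonneg Q.q
    (fun i t => good_take Q i t) one_pos
  refine ⟨d, ?_⟩
  have e0 : ∑ i, p i * dcost d s ((q i).map Prod.fst) =
      ∑ i, Q.p i * dcost d s ((Q.q i).map Prod.fst) :=
    (sum_pos p hp (fun i => dcost d s ((q i).map Prod.fst))).symm
  rw [e0, ← hopt]
  have e1 : ∑ l, dist (s l) (S.ctr [] none) ≤ Dm :=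
    sum_le_sum fun l _ => single_le_sum (f := fun y => dist (s l) y) (fun y _ => dist_nonneg)
      (mem_univ _)
  have e2 : (2 * S.CP + S.CT) * ((8 * S.Lam + 16 * S.β) * ∑ i, Q.p i * Asm.bill S Q.s (Q.q i)) ≤
      (3 * C) * ((24 * C * lg) * (C * (2 * Cg + 1) * lg * Q.opt + Z)) := by
    have a1 : 0 ≤ 2 * S.CP + S.CT := by linarith [S.CP_nonneg, S.CT_nonneg]
    have a2 : 0 ≤ 8 * S.Lam + 16 * S.β := by linarith
    have a3 : ∑ i, Q.p i * Asm.bill S Q.s (Q.q i) ≤ C * (2 * Cg + 1) * lg * Q.opt + Z :=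
      hb.trans hX
    have a4 : 0 ≤ C * (2 * Cg + 1) * lg * Q.opt + Z := by positivity
    have a5 : 8 * S.Lam + 16 * S.β ≤ 24 * C * lg := by linarith
    have a6 : 2 * S.CP + S.CT ≤ 3 * C := by linarith
    calc _ ≤ (2 * S.CP + S.CT) * ((8 * S.Lam + 16 * S.β) *
          (C * (2 * Cg + 1) * lg * Q.opt + Z)) := by gcongr
      _ ≤ (2 * S.CP + S.CT) * ((24 * C * lg) * (C * (2 * Cg + 1) * lg * Q.opt + Z)) := by gcongr
      _ ≤ _ := by gcongr
  have e3 : (k : ℝ) * ∑ i, Q.p i * S.trav (Q.req i) none ≤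
      C * (2 * Cg + 1) * lg * Q.opt + Z := ht.trans hX
  have e4 : (∑ i, Q.p i) * ∑ l, dist (s l) (S.ctr [] none) ≤ Dm := by
    rw [hsum, one_mul]; exact e1
  have e5 : C * (2 * Cg + 1) * lg * Q.opt ≤ C * (2 * Cg + 1) * lg ^ 2 * Q.opt := by
    have : lg ≤ lg ^ 2 := by nlinarith
    gcongr
  have hd' : ∑ i, Q.p i * dcost d s ((Q.q i).map Prod.fst) ≤
      (2 * S.CP + S.CT) * ((8 * S.Lam + 16 * S.β) * ∑ i, Q.p i * Asm.bill S Q.s (Q.q i)) +
        k * ∑ i, Q.p i * S.trav (Q.req i) none + (∑ i, Q.p i) * ∑ l, dist (s l) (S.ctr [] none) +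
        1 := hd
  calc ∑ i, Q.p i * dcost d s ((Q.q i).map Prod.fst)
      ≤ (3 * C) * ((24 * C * lg) * (C * (2 * Cg + 1) * lg * Q.opt + Z)) +
        (C * (2 * Cg + 1) * lg * Q.opt + Z) + Dm + 1 := by linarith
    _ ≤ (3 * C) * ((24 * C * lg) * (C * (2 * Cg + 1) * lg * Q.opt + Z)) +
        (C * (2 * Cg + 1) * lg ^ 2 * Q.opt + Z) + Dm + 1 := by linarith
    _ = _ := by ring

/-- **Final assembly**. -/
theorem final (hG : GO.GOut.{u} 256) (hC : COut.{u}) :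
    ∃ C : ℝ, ∀ (k : ℕ), 2 ≤ k → ∀ (X : Type u) [MetricSpace X], Nonempty (Fin (k + 1) ↪ X) →
      ∀ s : Fin k → X, ∃ (A : Policy X k) (B : ℝ), 0 ≤ B ∧ (Function.Injective s → B = 0) ∧
        ∀ (σ : List X) (j : Fin σ.length → Fin k),
          expCost A s σ ≤ C * Real.log (k + 1) ^ 2 * pathCost s (σ.zip (List.ofFn j)) + B := by
  obtain ⟨C, hC0, H⟩ := bayes_of hG hC
  exact frame C hC0 H

end Crest.Agent.R314.Fin
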