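import Crest.Agent.R314.Fin2
import Crest.Agent.R314.C6

/-!
R314, block FIN, part 3: constants.  From the four statements C7a, C7c, C7d and the `TreeSys`
instance of module C (C6b) to `COut`.
-/

set_option autoImplicit false
set_option linter.unusedSectionVars false

namespace Crest.Agent.R314.Fin

open Finset Crest.Agent.R314 Crest.Agent.R314.Tk Crest.Agent.R314.Bay Crest.LogicCS.KServer
open Crest.Agent.R314.C (Par key Valid dk)

universe u

theorem log_ten_ninth : (1 : ℝ) / 10 ≤ Real.log (10 / 9) := by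
  have := Real.one_sub_inv_le_log_of_pos (show (0 : ℝ) < 10 / 9 by norm_num)
  norm_num at this
  linarith

theorem log_two_mul_le {k : ℕ} (hk : 2 ≤ k) :
    Real.log (2 * k) ≤ 2 * Real.log ((k : ℝ) + 1) := by
  have hk0 : (0 : ℝ) < k := by exact_mod_cast (by omega : 0 < k)
  rw [← Real.log_rpow (by positivity)]
  apply Real.log_le_log (by positivity)
  rw [Real.rpow_two]
  nlinarith

theorem log_le_lg {k : ℕ} (hk : 2 ≤ k) : Real.log k ≤ Real.log ((k : ℝ) + 1) := by
  have hk0 : (0 : ℝ) < k := by exact_mod_cast (by omega : 0 < k)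
  exact Real.log_le_log hk0 (by linarith)

theorem log_k_nonneg {k : ℕ} (hk : 2 ≤ k) : 0 ≤ Real.log (k : ℝ) :=
  Real.log_nonneg (by exact_mod_cast (by omega : 1 ≤ k))

theorem div_log_le {x : ℝ} (hx : 0 ≤ x) : x / Real.log (10 / 9) ≤ 10 * x := by
  have h := log_ten_ninth
  rw [div_le_iff₀ (by linarith)]
  nlinarith

theorem const_le (P : Par) (hCG : P.CG = 2) : 3 * P.A + 2 * P.A' + 41 * P.CG ≤ 700 := by
  unfold Par.A' Par.Q Par.A
  rw [hCG]
  norm_num

theorem Q_eq (P : Par) (hCG : P.CG = 2) : P.Q = 82 := by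
  unfold Par.Q Par.A
  rw [hCG]
  norm_num

/-- Arithmetic of the potential bound. -/
theorem pr_bound {P : Par} (hCG : P.CG = 2) {k : ℕ} (hk : 2 ≤ k) {pr D opt sp : ℝ}
    (hD : 0 ≤ D) (hopt : 0 ≤ opt)
    (h : pr ≤ sp * (k * ((8 * P.CG + P.Q) * P.W)) + (3 * P.A + 2 * P.A' + 41 * P.CG) * D +
      8 * (1 + Real.log (2 * k) / Real.log (10 / 9)) * opt) :
    pr ≤ sp * (k * (98 * P.W)) + 700 * D + 168 * (Real.log (k + 1) * opt) := by
  have h1 := const_le P hCG
  have h2 := Q_eq P hCG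
  have h3 := one_le_log hk
  have h4 := log_two_mul_le hk
  have hk0 : (1 : ℝ) ≤ k := by exact_mod_cast (by omega : 1 ≤ k)
  have h5 : 0 ≤ Real.log (2 * (k : ℝ)) := Real.log_nonneg (by linarith)
  have h6 := div_log_le h5
  rw [h2, hCG] at h
  have h7 : (3 * P.A + 2 * P.A' + 41 * 2) * D ≤ 700 * D := by
    rw [hCG] at h1
    exact mul_le_mul_of_nonneg_right h1 hD
  have h8 : 8 * (1 + Real.log (2 * k) / Real.log (10 / 9)) * opt ≤
      168 * (Real.log (k + 1) * opt) := by
    have : 8 * (1 + Real.log (2 * k) / Real.log (10 / 9)) ≤ 168 * Real.log (k + 1) := by linarith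
    calc _ ≤ 168 * Real.log (k + 1) * opt := mul_le_mul_of_nonneg_right this hopt
      _ = _ := by ring
  have h9 : sp * (k * ((8 * 2 + 82) * P.W)) = sp * (k * (98 * P.W)) := by ring
  linarith

theorem dbill_eq {Y Lab : Type*} [Fintype Y] [MetricSpace Y] [Fintype Lab] {k : ℕ} [NeZero k]
    (P : Par) (Q : Prior Y k) (lab : List Y → Y → ℕ → Lab) (h : List Y) :
    C.dbill P Q lab h = dbill Q P lab h := rfl

theorem dk_nonneg {Lab : Type*} (P : Par) (u v : ℕ → Lab) : 0 ≤ dk P u v := by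
  classical
  unfold dk
  apply sum_nonneg
  intro j _
  have hB : (0 : ℝ) < P.B := by linarith [P.hB]
  have : 0 ≤ P.w (j + 1) := by
    unfold Par.w
    have := P.hW
    positivity
  split_ifs
  · exact le_rfl
  · exact this

theorem dbill_nonneg {Y Lab : Type*} [Fintype Y] {k : ℕ} [NeZero k] (Q : Prior Y k) (P : Par)
    (lab : List Y → Y → ℕ → Lab) (h : List Y) : 0 ≤ dbill Q P lab h := by
  unfold dbill
  apply add_nonneg
  · exact sum_nonneg fun x _ => mul_nonneg (Q.mm_nonneg _ _) (dk_nonneg _ _ _)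
  · exact sum_nonneg fun i _ => mul_nonneg (Q.p_nonneg _) (dk_nonneg _ _ _)

theorem opt_nonneg {Y : Type u} [MetricSpace Y] {k : ℕ} [NeZero k] (Q : Prior Y k) :
    0 ≤ Q.opt :=
  sum_nonneg fun i _ => mul_nonneg (Q.p_nonneg i) (pathCost_nonneg _ _)

end Crest.Agent.R314.Fin
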