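import Mathlib

/-!
R314, module G (one scale), part A: definitions (helper435, post 8508).

Finite space `Y` with an integer valued pseudometric `δ`, unit of length `2 J`;
`d x y = δ x y / (2 J)`.  State = mains `P`, timers `β`, weights `w`.
-/

set_option autoImplicit false
set_option linter.unusedSectionVars false

namespace Crest.Agent.R314.G1

open Finset

/-- Integer valued pseudometric with a unit of length `2 J`. -/
structure IM (Y : Type*) where
  δ : Y → Y → ℕ
  self : ∀ x, δ x x = 0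
  symm : ∀ x y, δ x y = δ y x
  tri : ∀ x y z, δ x z ≤ δ x y + δ y z
  J : ℕ
  J_pos : 0 < J

variable {Y : Type*} [Fintype Y] [DecidableEq Y] (M : IM Y)

namespace IM

theorem Jr : (0 : ℝ) < M.J := by exact_mod_cast M.J_pos

/-- normalised distance -/
noncomputable def d (x y : Y) : ℝ := (M.δ x y : ℝ) / (2 * M.J)

theorem d_nonneg (x y : Y) : 0 ≤ M.d x y := by
  have := M.Jr
  unfold d; positivity

theorem d_self (x : Y) : M.d x x = 0 := by simp [d, M.self]

theorem d_symm (x y : Y) : M.d x y = M.d y x := by simp [d, M.symm x y]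

theorem d_tri (x y z : Y) : M.d x z ≤ M.d x y + M.d y z := by
  have := M.Jr
  unfold d
  rw [← add_div]
  gcongr
  exact_mod_cast M.tri x y z

/-- mass of the closed ball of radius `r` -/
noncomputable def bm (m : Y → ℝ) (x : Y) (r : ℝ) : ℝ := ∑ z, if M.d x z ≤ r then m z else 0

/-- the weights with the permanent floor -/
noncomputable def fl (w : Y → ℝ) (z : Y) : ℝ := w z + 1 / Fintype.card Y

/-- `W_x(ρ)` -/
noncomputable def W (w : Y → ℝ) (x : Y) (r : ℝ) : ℝ := M.bm (fl w) x r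

/-- radii `1/2 + i/(2J)` -/
noncomputable def rad (i : ℕ) : ℝ := 1 / 2 + (i : ℝ) / (2 * M.J)

/-- expectation over the radius number `s < J`, probabilities `(2s+1)/J²` -/
noncomputable def E (f : ℕ → ℝ) : ℝ := (∑ s ∈ range M.J, (2 * (s : ℝ) + 1) * f s) / (M.J : ℝ) ^ 2

/-- `ψ_x(i) = ln (2 / W_x(1/2 + i/(2J)))` -/
noncomputable def psi (w : Y → ℝ) (x : Y) (i : ℕ) : ℝ := Real.log (2 / M.W w x (M.rad i))

/-- light potential -/
noncomputable def L (w : Y → ℝ) (x : Y) : ℝ := 16 * M.E (M.psi w x)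

/-- averaged `ψ` -/
noncomputable def Psi (w : Y → ℝ) (x : Y) : ℝ := (∑ s ∈ range M.J, M.psi w x s) / M.J

/-- light label distribution at one radius -/
noncomputable def lam1 (w : Y → ℝ) (x : Y) (j : ℕ) (z : Y) : ℝ :=
  if M.d x z ≤ M.rad j then fl w z / M.W w x (M.rad j) else 0

/-- light label distribution -/
noncomputable def lam (w : Y → ℝ) (x z : Y) : ℝ := M.E fun j => M.lam1 w x j z

/-- distance to the mains, capped at `100` -/
noncomputable def u (P : Finset Y) (x : Y) : ℝ := P.fold min 100 (fun p => M.d x p)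

end IM

/-- `min ((32 u)^2) 1` -/
noncomputable def qf (u : ℝ) : ℝ := min ((32 * u) ^ 2) 1
/-- `√ζ` -/
noncomputable def rf (u : ℝ) : ℝ := max 0 (min (32 * u - 1) 1)
/-- `ζ` -/
noncomputable def zf (u : ℝ) : ℝ := rf u ^ 2
/-- `τ` -/
noncomputable def tf (u : ℝ) : ℝ := max 0 (min (8 * u - 1) 1)
/-- `χ` -/
noncomputable def cf (u : ℝ) : ℝ := max 0 (min (4 - u) 1)

/-- A state. -/
structure St (Y : Type*) where
  P : Finset Y
  β : Y → ℝ
  w : Y → ℝ

/-- Admissible states. -/
structure Ok (S : St Y) : Prop where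
  β0 : ∀ x, 0 ≤ S.β x
  β1 : ∀ x, S.β x ≤ 1
  w0 : ∀ x, 0 ≤ S.w x
  pack : ∀ y, M.bm S.w y 1 ≤ 1
  sep : ∀ p ∈ S.P, ∀ q ∈ S.P, p ≠ q → 42 ≤ M.d p q + S.β p + S.β q

namespace IM

/-- timer term -/
noncomputable def bt (S : St Y) (x : Y) : ℝ := ∑ p ∈ S.P, S.β p * cf (M.d x p)

/-- potential of a unit of mass -/
noncomputable def U (S : St Y) (x : Y) : ℝ :=
  20 * qf (M.u S.P x) + 90 * M.bt S x + zf (M.u S.P x) * M.L S.w x

/-- label distribution -/
noncomputable def lab (S : St Y) (x : Y) : Option Y → ℝ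
  | none => 1 - tf (M.u S.P x)
  | some z => tf (M.u S.P x) * M.lam S.w x z

/-- `l¹` distance of the label distributions -/
noncomputable def nrm (S : St Y) (x : Y) (S' : St Y) (x' : Y) : ℝ :=
  ∑ o, |M.lab S x o - M.lab S' x' o|

/-- `Π_{S'} - Π_S + Rel(S,S')` -/
noncomputable def D (m : Y → ℝ) (S S' : St Y) : ℝ :=
  ∑ x, m x * (M.U S' x - M.U S x + M.nrm S x S' x)

/-- the operation `Op(x₀,a)` on weights -/
noncomputable def op (w : Y → ℝ) (x₀ : Y) (a : ℝ) (z : Y) : ℝ :=
  (if M.d x₀ z ≤ 2 then (1 - a) * w z else w z) + if z = x₀ then a else 0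

/-- simultaneous operations at the points of `A` (pairwise far apart) -/
noncomputable def mop (w : Y → ℝ) (A : Finset Y) (a : Y → ℝ) (z : Y) : ℝ :=
  (1 - ∑ q ∈ A, if M.d q z ≤ 2 then a q else 0) * w z + if z ∈ A then a z else 0

/-- stable (stuck) state -/
def Stable (m : Y → ℝ) (S : St Y) : Prop := Ok M S ∧ ∀ S', Ok M S' → 0 ≤ M.D m S S'

/-- growth functional `Γ` -/
noncomputable def Gam (m : Y → ℝ) (y : Y) : ℝ :=
  (∑ s ∈ range (2 * M.J), Real.log (M.bm m y 60 / M.bm m y ((s : ℝ) / (2 * M.J)))) / (2 * M.J)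

end IM

end Crest.Agent.R314.G1
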