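import Mathlib

/-!
R314, module G (helper435's #8508), block G1_B: the weight operation, pointwise in the radius.

`Y` finite, `del` a distance function, `w0 ≥ 0` raw weights, `w = w0 + c` with a floor `c > 0`.
`opw` = multiply `w0` by `1 - a` on the ball of radius `2` about `x0`, then add `a` at `x0`.
-/

set_option autoImplicit false
set_option linter.unusedSectionVars false

namespace Crest.Agent.R314.G1B

open Finset

variable {Y : Type*} [Fintype Y] [DecidableEq Y]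

/-- weight of a set, with floor `c` -/
noncomputable def Ws (w0 : Y → ℝ) (c : ℝ) (B : Finset Y) : ℝ := ∑ z ∈ B, (w0 z + c)

/-- restricted and normalised weights -/
noncomputable def lts (w0 : Y → ℝ) (c : ℝ) (B : Finset Y) (z : Y) : ℝ :=
  if z ∈ B then (w0 z + c) / Ws w0 c B else 0

/-- L1 distance -/
noncomputable def l1 (p q : Y → ℝ) : ℝ := ∑ z, |p z - q z|

theorem Ws_eq (w0 : Y → ℝ) (c : ℝ) (B : Finset Y) : Ws w0 c B = ∑ z ∈ B, w0 z + B.card * c := by
  unfold Ws
  rw [sum_add_distrib, sum_const, nsmul_eq_mul]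

theorem Ws_pos {w0 : Y → ℝ} {c : ℝ} {B : Finset Y} (h0 : ∀ z, 0 ≤ w0 z) (hc : 0 < c)
    (hB : B.Nonempty) : 0 < Ws w0 c B := by
  unfold Ws
  exact sum_pos (fun z _ => by have := h0 z; linarith) hB

/-- L1 distance of two normalised restrictions to the same set -/
theorem l1_lts_le {w0 w1 : Y → ℝ} {c : ℝ} {B : Finset Y} (hc : 0 < c)
    (h0 : ∀ z, 0 ≤ w0 z) (h1 : ∀ z, 0 ≤ w1 z) (hB : B.Nonempty) :
    l1 (lts w0 c B) (lts w1 c B) ≤
      (∑ z ∈ B, |w0 z - w1 z| + |Ws w0 c B - Ws w1 c B|) / Ws w1 c B := by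
  have hW0 := Ws_pos h0 hc hB
  have hW1 := Ws_pos h1 hc hB
  have e1 : l1 (lts w0 c B) (lts w1 c B) =
      ∑ z ∈ B, |(w0 z + c) / Ws w0 c B - (w1 z + c) / Ws w1 c B| := by
    unfold l1 lts
    rw [← sum_filter_add_sum_filter_not univ (fun z => z ∈ B)]
    have h2 : ∑ x ∈ univ.filter (fun x => x ∉ B),
        |(if x ∈ B then (w0 x + c) / Ws w0 c B else 0) -
          (if x ∈ B then (w1 x + c) / Ws w1 c B else 0)| = 0 := by
      apply sum_eq_zero
      intro z hz
      rw [mem_filter] at hz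
      rw [if_neg hz.2, if_neg hz.2]; simp
    rw [h2, add_zero]
    have h3 : univ.filter (fun x => x ∈ B) = B := by ext z; simp
    rw [h3]
    exact sum_congr rfl fun z hz => by rw [if_pos hz, if_pos hz]
  rw [e1, le_div_iff₀ hW1, sum_mul]
  have h2 : ∀ z ∈ B, |(w0 z + c) / Ws w0 c B - (w1 z + c) / Ws w1 c B| * Ws w1 c B ≤
      |w0 z - w1 z| + (w0 z + c) / Ws w0 c B * |Ws w0 c B - Ws w1 c B| := by
    intro z _
    have e2 : |(w0 z + c) / Ws w0 c B - (w1 z + c) / Ws w1 c B| * Ws w1 c B =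
        |(w0 z - w1 z) - (w0 z + c) / Ws w0 c B * (Ws w0 c B - Ws w1 c B)| := by
      rw [← abs_of_pos hW1, ← abs_mul, abs_of_pos hW1]
      congr 1
      field_simp
      ring
    rw [e2]
    refine (abs_sub _ _).trans ?_
    rw [abs_mul ((w0 z + c) / Ws w0 c B), abs_of_nonneg (a := (w0 z + c) / Ws w0 c B)]
    exact div_nonneg (by have := h0 z; linarith) hW0.le
  refine (sum_le_sum h2).trans (le_of_eq ?_)
  rw [sum_add_distrib, ← sum_mul, ← sum_div]
  congr 1
  have : ∑ z ∈ B, (w0 z + c) = Ws w0 c B := rfl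
  rw [this, div_self hW0.ne', one_mul]

/-- scaled-and-raised weights on a set containing `x0` -/
theorem ops_in {w0 w1 : Y → ℝ} {c a : ℝ} {B : Finset Y} {x0 : Y} (hc : 0 < c)
    (h0 : ∀ z, 0 ≤ w0 z) (ha0 : 0 ≤ a) (ha1 : a ≤ 1 / 2) (hx : x0 ∈ B)
    (hw : ∀ z ∈ B, w1 z = (1 - a) * w0 z + (if z = x0 then a else 0))
    (h1 : ∀ z, 0 ≤ w1 z) (hp : ∑ z ∈ B, w0 z ≤ 1) :
    8 * Real.log (1 - a + a / Ws w0 c B) - 8 * a ≤
      16 * (Real.log (Ws w1 c B) - Real.log (Ws w0 c B)) - l1 (lts w0 c B) (lts w1 c B) ∧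
    - (8 * a) ≤
      16 * (Real.log (Ws w1 c B) - Real.log (Ws w0 c B)) - l1 (lts w0 c B) (lts w1 c B) := by
  have hB : B.Nonempty := ⟨x0, hx⟩
  have hW0 := Ws_pos h0 hc hB
  have hW1 := Ws_pos h1 hc hB
  set S := ∑ z ∈ B, w0 z with hS
  have hS0 : 0 ≤ S := sum_nonneg fun z _ => h0 z
  have e1 : Ws w1 c B = Ws w0 c B + a * (1 - S) := by
    rw [Ws_eq, Ws_eq, sum_congr rfl hw, sum_add_distrib, ← mul_sum, sum_ite_eq' B x0, if_pos hx]
    ring
  have hSW : S ≤ Ws w0 c B := by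
    rw [Ws_eq, ← hS]
    have : 0 ≤ (B.card : ℝ) * c := mul_nonneg (Nat.cast_nonneg _) hc.le
    linarith
  have hle : Ws w0 c B ≤ Ws w1 c B := by
    rw [e1]; have := mul_nonneg ha0 (sub_nonneg.2 hp); linarith
  have hl1 : l1 (lts w0 c B) (lts w1 c B) ≤ 2 * a / Ws w1 c B := by
    refine (l1_lts_le hc h0 h1 hB).trans ?_
    apply div_le_div_of_nonneg_right _ hW1.le
    have h2 : ∑ z ∈ B, |w0 z - w1 z| ≤ a * S + a := by
      have h3 : ∀ z ∈ B, |w0 z - w1 z| ≤ a * w0 z + (if z = x0 then a else 0) := by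
        intro z hz
        rw [hw z hz]
        have := h0 z
        have h4 : 0 ≤ a * w0 z := mul_nonneg ha0 this
        split_ifs
        · rw [abs_le]; constructor <;> linarith
        · rw [abs_le]; constructor <;> linarith
      refine (sum_le_sum h3).trans (le_of_eq ?_)
      rw [sum_add_distrib, ← mul_sum, sum_ite_eq' B x0, if_pos hx]
    have h3 : |Ws w0 c B - Ws w1 c B| = a * (1 - S) := by
      rw [e1]
      have := mul_nonneg ha0 (sub_nonneg.2 hp)
      rw [show Ws w0 c B - (Ws w0 c B + a * (1 - S)) = -(a * (1 - S)) by ring, abs_neg,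
        abs_of_nonneg this]
    rw [h3]; nlinarith
  have hlog1 : Real.log (1 - a + a / Ws w0 c B) ≤
      Real.log (Ws w1 c B) - Real.log (Ws w0 c B) := by
    rw [← Real.log_div hW1.ne' hW0.ne']
    apply Real.log_le_log
    · have : 0 ≤ a / Ws w0 c B := div_nonneg ha0 hW0.le
      linarith
    · rw [e1, le_div_iff₀ hW0, add_mul, div_mul_cancel₀ _ hW0.ne']
      nlinarith
  have hlog2 : a * (1 - S) / Ws w1 c B ≤ Real.log (Ws w1 c B) - Real.log (Ws w0 c B) := by
    rw [← Real.log_div hW1.ne' hW0.ne']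
    have h2 := Real.one_sub_inv_le_log_of_pos (div_pos hW1 hW0)
    refine le_trans (le_of_eq ?_) h2
    rw [inv_div]
    field_simp
    rw [e1]; ring
  have hlog3 : 0 ≤ Real.log (Ws w1 c B) - Real.log (Ws w0 c B) := by
    have := Real.log_le_log hW0 hle
    linarith
  have hkey : l1 (lts w0 c B) (lts w1 c B) ≤
      8 * (Real.log (Ws w1 c B) - Real.log (Ws w0 c B)) + 8 * a := by
    by_cases hs : S ≤ 3 / 4
    · have h2 : 2 * a / Ws w1 c B ≤ 8 * (a * (1 - S) / Ws w1 c B) := by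
        rw [← mul_div_assoc]
        apply div_le_div_of_nonneg_right _ hW1.le
        nlinarith
      linarith
    · rw [not_le] at hs
      have h3 : 2 * a / Ws w1 c B ≤ 8 * a := by
        rw [div_le_iff₀ hW1]
        have : 3 / 4 ≤ Ws w1 c B := by linarith
        nlinarith
      linarith
  constructor <;> linarith

/-- weights scaled down by at most `1 - a` on a set -/
theorem ops_out {w0 w1 : Y → ℝ} {c a : ℝ} {B : Finset Y} (hc : 0 < c)
    (h0 : ∀ z, 0 ≤ w0 z) (ha0 : 0 ≤ a) (ha1 : a ≤ 1 / 2) (hB : B.Nonempty)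
    (hw1 : ∀ z ∈ B, (1 - a) * w0 z ≤ w1 z) (hw2 : ∀ z ∈ B, w1 z ≤ w0 z)
    (h1 : ∀ z, 0 ≤ w1 z) :
    - (34 * a) ≤
      16 * (Real.log (Ws w1 c B) - Real.log (Ws w0 c B)) - l1 (lts w0 c B) (lts w1 c B) := by
  have hW0 := Ws_pos h0 hc hB
  have hW1 := Ws_pos h1 hc hB
  set S := ∑ z ∈ B, w0 z with hS
  have hS0 : 0 ≤ S := sum_nonneg fun z _ => h0 z
  have hcc : 0 ≤ (B.card : ℝ) * c := mul_nonneg (Nat.cast_nonneg _) hc.le
  have hSW : S ≤ Ws w0 c B := by
    rw [Ws_eq, ← hS]; linarith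
  have e1 : (1 - a) * Ws w0 c B ≤ Ws w1 c B := by
    rw [Ws_eq, Ws_eq]
    have h2 : (1 - a) * ∑ z ∈ B, w0 z ≤ ∑ z ∈ B, w1 z := by
      rw [mul_sum]; exact sum_le_sum hw1
    nlinarith
  have e2 : Ws w1 c B ≤ Ws w0 c B := by
    rw [Ws_eq, Ws_eq]
    have := sum_le_sum hw2
    linarith
  have hl1 : l1 (lts w0 c B) (lts w1 c B) ≤ 4 * a := by
    refine (l1_lts_le hc h0 h1 hB).trans ?_
    rw [div_le_iff₀ hW1]
    have h2 : ∑ z ∈ B, |w0 z - w1 z| ≤ a * S := by
      rw [hS, mul_sum]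
      apply sum_le_sum
      intro z hz
      have := hw1 z hz
      have := hw2 z hz
      rw [abs_of_nonneg (by linarith)]
      nlinarith
    have h3 : |Ws w0 c B - Ws w1 c B| ≤ a * Ws w0 c B := by
      rw [abs_of_nonneg (by linarith)]; nlinarith
    have h4 : Ws w0 c B ≤ 2 * Ws w1 c B := by nlinarith
    have h5 : a * S ≤ a * Ws w0 c B := mul_le_mul_of_nonneg_left hSW ha0
    have h6 : a * Ws w0 c B ≤ a * (2 * Ws w1 c B) := mul_le_mul_of_nonneg_left h4 ha0
    linarith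
  have hlog : -(3 / 2 * a) ≤ Real.log (Ws w1 c B) - Real.log (Ws w0 c B) := by
    rw [← Real.log_div hW1.ne' hW0.ne']
    have h2 : 1 - a ≤ Ws w1 c B / Ws w0 c B := by
      rw [le_div_iff₀ hW0]; exact e1
    have h3 : Real.log (1 - a) ≤ Real.log (Ws w1 c B / Ws w0 c B) :=
      Real.log_le_log (by linarith) h2
    -- log (1 - a) ≥ - 3/2 a on [0, 1/2]
    have h4 : -(3 / 2 * a) ≤ Real.log (1 - a) := by
      have h5 : Real.exp (-(3 / 2 * a)) ≤ 1 - a := by
        have hconv := convexOn_exp.2 (Set.mem_univ (0 : ℝ)) (Set.mem_univ (-(3 / 4) : ℝ))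
          (show (0 : ℝ) ≤ 1 - 2 * a by linarith) (show (0 : ℝ) ≤ 2 * a by linarith) (by ring)
        simp only [smul_eq_mul, mul_zero, zero_add, Real.exp_zero, mul_one] at hconv
        rw [show 2 * a * -(3 / 4) = -(3 / 2 * a) by ring] at hconv
        have h6 : Real.exp (-(3 / 4)) ≤ 1 / 2 := by
          rw [Real.exp_neg, inv_eq_one_div]
          apply one_div_le_one_div_of_le (by norm_num)
          have := Real.sum_le_exp_of_nonneg (show (0 : ℝ) ≤ 3 / 4 by norm_num) 4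
          simp [Finset.sum_range_succ, Nat.factorial] at this
          norm_num at this
          linarith
        nlinarith
      have h7 := Real.log_le_log (Real.exp_pos _) h5
      rwa [Real.log_exp] at h7
    linarith
  linarith

end Crest.Agent.R314.G1B
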