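import Mathlib
import Crest.Agent.R314.G1_B1

/-!
R314, module G (helper435's #8508), block G1_B: KKT inequality (2) and its consequences L1, L2 (3).
The radius law is any finite law on `[1/2, 1]`.
-/

set_option autoImplicit false
set_option linter.unusedSectionVars false

namespace Crest.Agent.R314.G1B

open Finset

variable {Y : Type*} [Fintype Y] [DecidableEq Y]

/-- `del` is a (pseudo)distance. -/
structure IsDist (del : Y → Y → ℝ) : Prop where
  self : ∀ x, del x x = 0
  symm : ∀ x y, del x y = del y x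
  tri : ∀ x y z, del x z ≤ del x y + del y z

/-- closed ball -/
noncomputable def bl (del : Y → Y → ℝ) (x : Y) (ρ : ℝ) : Finset Y :=
  univ.filter fun z => del x z ≤ ρ

theorem mem_bl {del : Y → Y → ℝ} {x z : Y} {ρ : ℝ} : z ∈ bl del x ρ ↔ del x z ≤ ρ := by
  simp [bl]

theorem self_mem_bl {del : Y → Y → ℝ} (hd : IsDist del) {x : Y} {ρ : ℝ} (h : 0 ≤ ρ) :
    x ∈ bl del x ρ := by rw [mem_bl, hd.self]; exact h

/-- a finite radius law on `[1/2, 1]` -/
structure RLaw (ι : Type*) [Fintype ι] where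
  q : ι → ℝ
  ρ : ι → ℝ
  q_nonneg : ∀ i, 0 ≤ q i
  q_sum : ∑ i, q i = 1
  ρ_lo : ∀ i, 1 / 2 ≤ ρ i
  ρ_hi : ∀ i, ρ i ≤ 1

variable {ι : Type*} [Fintype ι]

/-- `W_x(ρ)` -/
noncomputable def W (del : Y → Y → ℝ) (w0 : Y → ℝ) (c : ℝ) (x : Y) (ρ : ℝ) : ℝ :=
  Ws w0 c (bl del x ρ)

/-- `L(x) = 16 E_ρ ln (2 / W_x(ρ))` -/
noncomputable def L (law : RLaw ι) (del : Y → Y → ℝ) (w0 : Y → ℝ) (c : ℝ) (x : Y) : ℝ :=
  16 * ∑ i, law.q i * Real.log (2 / W del w0 c x (law.ρ i))

/-- the light label vector -/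
noncomputable def light (law : RLaw ι) (del : Y → Y → ℝ) (w0 : Y → ℝ) (c : ℝ) (x z : Y) : ℝ :=
  ∑ i, law.q i * lts w0 c (bl del x (law.ρ i)) z

/-- the operation on the raw weights -/
noncomputable def opw (del : Y → Y → ℝ) (w0 : Y → ℝ) (x0 : Y) (a : ℝ) (z : Y) : ℝ :=
  (if del x0 z ≤ 2 then (1 - a) * w0 z else w0 z) + (if z = x0 then a else 0)

variable {del : Y → Y → ℝ} {w0 : Y → ℝ} {c a : ℝ} {x0 : Y}

theorem opw_nonneg (h0 : ∀ z, 0 ≤ w0 z) (ha0 : 0 ≤ a) (ha1 : a ≤ 1) (z : Y) :
    0 ≤ opw del w0 x0 a z := by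
  unfold opw
  have h1 : 0 ≤ (1 - a) * w0 z := mul_nonneg (by linarith) (h0 z)
  have h2 := h0 z
  split_ifs <;> linarith

/-- packing is preserved -/
theorem opw_pack (hd : IsDist del) (h0 : ∀ z, 0 ≤ w0 z) (ha0 : 0 ≤ a) (ha1 : a ≤ 1)
    (hp : ∀ y, ∑ z ∈ bl del y 1, w0 z ≤ 1) (y : Y) :
    ∑ z ∈ bl del y 1, opw del w0 x0 a z ≤ 1 := by
  by_cases h : del y x0 ≤ 1
  · have h1 : ∀ z ∈ bl del y 1, opw del w0 x0 a z = (1 - a) * w0 z + (if z = x0 then a else 0) := by
      intro z hz
      rw [mem_bl] at hz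
      have h2 := hd.tri x0 y z
      rw [hd.symm x0 y] at h2
      unfold opw
      rw [if_pos (by linarith)]
    rw [sum_congr rfl h1, sum_add_distrib, ← mul_sum, sum_ite_eq' _ x0,
      if_pos (mem_bl.2 h)]
    have := hp y
    nlinarith
  · have h1 : ∀ z ∈ bl del y 1, opw del w0 x0 a z ≤ w0 z := by
      intro z hz
      have hne : z ≠ x0 := fun h2 => h (by rw [← h2]; exact mem_bl.1 hz)
      unfold opw
      rw [if_neg hne, add_zero]
      split_ifs
      · have := h0 z; nlinarith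
      · exact le_rfl
    exact (sum_le_sum h1).trans (hp y)

theorem W_pos (hd : IsDist del) (h0 : ∀ z, 0 ≤ w0 z) (hc : 0 < c) {x : Y} {ρ : ℝ} (hρ : 0 ≤ ρ) :
    0 < W del w0 c x ρ := Ws_pos h0 hc ⟨x, self_mem_bl hd hρ⟩

theorem sum_bl_le (h0 : ∀ z, 0 ≤ w0 z) (hp : ∀ y, ∑ z ∈ bl del y 1, w0 z ≤ 1) {x : Y} {ρ : ℝ}
    (hρ : ρ ≤ 1) : ∑ z ∈ bl del x ρ, w0 z ≤ 1 := by
  refine le_trans (sum_le_sum_of_subset_of_nonneg ?_ fun z _ _ => h0 z) (hp x)
  intro z hz
  rw [mem_bl] at *; linarith

theorem W_le_two (h0 : ∀ z, 0 ≤ w0 z) (hp : ∀ y, ∑ z ∈ bl del y 1, w0 z ≤ 1)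
    (hc0 : 0 ≤ c) (hc : (Fintype.card Y : ℝ) * c ≤ 1) {x : Y} {ρ : ℝ} (hρ : ρ ≤ 1) :
    W del w0 c x ρ ≤ 2 := by
  unfold W
  rw [Ws_eq]
  have h1 := sum_bl_le h0 hp (x := x) hρ
  have h2 : ((bl del x ρ).card : ℝ) ≤ Fintype.card Y := by exact_mod_cast card_le_univ _
  have h3 := mul_le_mul_of_nonneg_right h2 hc0
  linarith

theorem W_mono (h0 : ∀ z, 0 ≤ w0 z) (hc : 0 ≤ c) {x : Y} {ρ ρ' : ℝ} (h : ρ ≤ ρ') :
    W del w0 c x ρ ≤ W del w0 c x ρ' := by
  unfold W Ws
  apply sum_le_sum_of_subset_of_nonneg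
  · intro z hz; rw [mem_bl] at *; linarith
  · intro z _ _; have := h0 z; linarith

theorem W_le (hd : IsDist del) (h0 : ∀ z, 0 ≤ w0 z) (hc : 0 ≤ c) {x y : Y} {ρ ρ' : ℝ}
    (h : ρ + del x y ≤ ρ') : W del w0 c x ρ ≤ W del w0 c y ρ' := by
  unfold W Ws
  apply sum_le_sum_of_subset_of_nonneg
  · intro z hz
    rw [mem_bl] at *
    have := hd.tri y x z
    rw [hd.symm y x] at this
    linarith
  · intro z _ _; have := h0 z; linarith

/-- price of one radius -/
noncomputable def gain (del : Y → Y → ℝ) (w0 : Y → ℝ) (c : ℝ) (x0 : Y) (a : ℝ) (x : Y) (ρ : ℝ) :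
    ℝ :=
  16 * (Real.log (W del (opw del w0 x0 a) c x ρ) - Real.log (W del w0 c x ρ)) -
    l1 (lts w0 c (bl del x ρ)) (lts (opw del w0 x0 a) c (bl del x ρ))

theorem gain_in (hd : IsDist del) (hc : 0 < c) (h0 : ∀ z, 0 ≤ w0 z) (ha0 : 0 ≤ a)
    (ha1 : a ≤ 1 / 2) (hp : ∀ y, ∑ z ∈ bl del y 1, w0 z ≤ 1) {x : Y} {ρ : ℝ} (hρ : ρ ≤ 1)
    (hx : del x x0 ≤ ρ) :
    8 * Real.log (1 - a + a / W del w0 c x ρ) - 8 * a ≤ gain del w0 c x0 a x ρ ∧
    - (8 * a) ≤ gain del w0 c x0 a x ρ := by
  have hx0 : x0 ∈ bl del x ρ := mem_bl.2 hx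
  refine ops_in hc h0 ha0 ha1 hx0 ?_ (opw_nonneg h0 ha0 (by linarith)) (sum_bl_le h0 hp hρ)
  intro z hz
  rw [mem_bl] at hz
  have h2 := hd.tri x0 x z
  rw [hd.symm x0 x] at h2
  unfold opw
  rw [if_pos (by linarith)]

theorem gain_out (hd : IsDist del) (hc : 0 < c) (h0 : ∀ z, 0 ≤ w0 z) (ha0 : 0 ≤ a)
    (ha1 : a ≤ 1 / 2) {x : Y} {ρ : ℝ} (hρ0 : 0 ≤ ρ) (hx : ¬ del x x0 ≤ ρ) :
    - (34 * a) ≤ gain del w0 c x0 a x ρ := by
  have hne : ∀ z ∈ bl del x ρ, z ≠ x0 := fun z hz h2 => hx (by rw [← h2]; exact mem_bl.1 hz)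
  refine ops_out hc h0 ha0 ha1 ⟨x, self_mem_bl hd hρ0⟩ ?_ ?_ (opw_nonneg h0 ha0 (by linarith))
  · intro z hz
    unfold opw
    rw [if_neg (hne z hz), add_zero]
    split_ifs
    · exact le_rfl
    · have := h0 z; nlinarith
  · intro z hz
    unfold opw
    rw [if_neg (hne z hz), add_zero]
    split_ifs
    · have := h0 z; nlinarith
    · exact le_rfl

theorem gain_far (hd : IsDist del) {x : Y} {ρ : ℝ} (hρ : ρ ≤ 1) (hx : 3 < del x0 x) :
    gain del w0 c x0 a x ρ = 0 := by
  have h1 : ∀ z ∈ bl del x ρ, opw del w0 x0 a z = w0 z := by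
    intro z hz
    rw [mem_bl] at hz
    have h2 := hd.tri x0 z x
    rw [hd.symm z x] at h2
    unfold opw
    have hne : z ≠ x0 := by
      intro h3; rw [h3, hd.self] at h2; rw [h3] at hz; linarith
    rw [if_neg (by linarith), if_neg hne, add_zero]
  have hW : W del (opw del w0 x0 a) c x ρ = W del w0 c x ρ := by
    unfold W Ws
    exact sum_congr rfl fun z hz => by rw [h1 z hz]
  have hl : lts (opw del w0 x0 a) c (bl del x ρ) = lts w0 c (bl del x ρ) := by
    funext z
    unfold lts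
    by_cases hz : z ∈ bl del x ρ
    · rw [if_pos hz, if_pos hz, h1 z hz]
      unfold W at hW
      rw [hW]
    · rw [if_neg hz, if_neg hz]
  unfold gain
  rw [hW, hl]
  unfold l1
  simp

/-- potential change plus price, averaged over the radius -/
theorem L_sub_le (law : RLaw ι) (hd : IsDist del) (hc : 0 < c) (h0 : ∀ z, 0 ≤ w0 z)
    (ha0 : 0 ≤ a) (ha1 : a ≤ 1 / 2) (x : Y) :
    L law del (opw del w0 x0 a) c x - L law del w0 c x +
      l1 (light law del w0 c x) (light law del (opw del w0 x0 a) c x) ≤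
      - ∑ i, law.q i * gain del w0 c x0 a x (law.ρ i) := by
  have h1 : ∀ z, 0 ≤ opw del w0 x0 a z := opw_nonneg h0 ha0 (by linarith)
  have e1 : L law del (opw del w0 x0 a) c x - L law del w0 c x =
      - ∑ i, law.q i * (16 * (Real.log (W del (opw del w0 x0 a) c x (law.ρ i)) -
        Real.log (W del w0 c x (law.ρ i)))) := by
    unfold L
    rw [← mul_sub, ← sum_sub_distrib, mul_sum, ← sum_neg_distrib]
    apply sum_congr rfl
    intro i _
    have hp1 := W_pos hd h0 hc (x := x) (ρ := law.ρ i) (by have := law.ρ_lo i; linarith)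
    have hp2 := W_pos hd h1 hc (x := x) (ρ := law.ρ i) (by have := law.ρ_lo i; linarith)
    rw [Real.log_div (by norm_num) hp1.ne', Real.log_div (by norm_num) hp2.ne']
    ring
  have e2 : l1 (light law del w0 c x) (light law del (opw del w0 x0 a) c x) ≤
      ∑ i, law.q i * l1 (lts w0 c (bl del x (law.ρ i)))
        (lts (opw del w0 x0 a) c (bl del x (law.ρ i))) := by
    unfold l1 light
    simp_rw [mul_sum]
    rw [sum_comm]
    apply sum_le_sum
    intro z _
    rw [← sum_sub_distrib]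
    refine (abs_sum_le_sum_abs _ _).trans (sum_le_sum fun i _ => ?_)
    rw [← mul_sub, abs_mul, abs_of_nonneg (law.q_nonneg i)]
  rw [e1]
  have e3 : ∑ i, law.q i * gain del w0 c x0 a x (law.ρ i) =
      ∑ i, law.q i * (16 * (Real.log (W del (opw del w0 x0 a) c x (law.ρ i)) -
        Real.log (W del w0 c x (law.ρ i)))) -
      ∑ i, law.q i * l1 (lts w0 c (bl del x (law.ρ i)))
        (lts (opw del w0 x0 a) c (bl del x (law.ρ i))) := by
    rw [← sum_sub_distrib]
    apply sum_congr rfl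
    intro i _
    unfold gain
    ring
  rw [e3]
  linarith

/-- mass of a set -/
noncomputable def ms (ν : Y → ℝ) (B : Finset Y) : ℝ := ∑ z ∈ B, ν z

/-- **(KKT)** if the operation `opw x0 a` does not pay for itself. -/
theorem kkt (law : RLaw ι) (hd : IsDist del) (hc : 0 < c) (h0 : ∀ z, 0 ≤ w0 z)
    (ha0 : 0 ≤ a) (ha1 : a ≤ 1 / 2) (hp : ∀ y, ∑ z ∈ bl del y 1, w0 z ≤ 1)
    {ν : Y → ℝ} (hν : ∀ z, 0 ≤ ν z)
    (hst : 0 ≤ ∑ x, ν x * (L law del (opw del w0 x0 a) c x - L law del w0 c x +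
      l1 (light law del w0 c x) (light law del (opw del w0 x0 a) c x))) :
    8 * ∑ x ∈ bl del x0 (1 / 2), ν x *
      ∑ i, law.q i * Real.log (1 - a + a / W del w0 c x (law.ρ i)) ≤
      34 * a * ms ν (bl del x0 3) := by
  have h1 : ∀ x, ν x * (L law del (opw del w0 x0 a) c x - L law del w0 c x +
      l1 (light law del w0 c x) (light law del (opw del w0 x0 a) c x)) ≤
      (if x ∈ bl del x0 3 then 34 * a * ν x else 0) -
      (if x ∈ bl del x0 (1 / 2) then 8 * (ν x *
        ∑ i, law.q i * Real.log (1 - a + a / W del w0 c x (law.ρ i))) else 0) := by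
    intro x
    have h2 := mul_le_mul_of_nonneg_left
      (L_sub_le law hd hc h0 ha0 ha1 x (del := del) (x0 := x0)) (hν x)
    refine h2.trans ?_
    by_cases hx3 : x ∈ bl del x0 3
    · rw [if_pos hx3]
      by_cases hx1 : x ∈ bl del x0 (1 / 2)
      · rw [if_pos hx1]
        rw [mem_bl, hd.symm] at hx1
        have h3 : 8 * ∑ i, law.q i * Real.log (1 - a + a / W del w0 c x (law.ρ i)) - 8 * a ≤
            ∑ i, law.q i * gain del w0 c x0 a x (law.ρ i) := by
          have h4 : ∑ i, law.q i * (8 * Real.log (1 - a + a / W del w0 c x (law.ρ i)) - 8 * a) ≤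
              ∑ i, law.q i * gain del w0 c x0 a x (law.ρ i) := by
            apply sum_le_sum
            intro i _
            exact mul_le_mul_of_nonneg_left
              (gain_in hd hc h0 ha0 ha1 hp (law.ρ_hi i) (hx1.trans (law.ρ_lo i))).1
              (law.q_nonneg i)
          have h5 : ∑ i, law.q i * (8 * Real.log (1 - a + a / W del w0 c x (law.ρ i)) - 8 * a) =
              8 * ∑ i, law.q i * Real.log (1 - a + a / W del w0 c x (law.ρ i)) - 8 * a := by
            simp_rw [mul_sub]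
            rw [sum_sub_distrib, ← sum_mul, law.q_sum, mul_sum]
            congr 1
            · exact sum_congr rfl fun i _ => by ring
            · ring
          linarith
        have h6 : 0 ≤ ν x * a := mul_nonneg (hν x) ha0
        have h7 := mul_le_mul_of_nonneg_left h3 (hν x)
        nlinarith
      · rw [if_neg hx1]
        have h3 : - (34 * a) ≤ ∑ i, law.q i * gain del w0 c x0 a x (law.ρ i) := by
          have h4 : ∑ i, law.q i * (-(34 * a)) ≤
              ∑ i, law.q i * gain del w0 c x0 a x (law.ρ i) := by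
            apply sum_le_sum
            intro i _
            apply mul_le_mul_of_nonneg_left _ (law.q_nonneg i)
            by_cases h5 : del x x0 ≤ law.ρ i
            · have := (gain_in hd hc h0 ha0 ha1 hp (law.ρ_hi i) h5).2
              linarith
            · exact gain_out hd hc h0 ha0 ha1 (by have := law.ρ_lo i; linarith) h5
          rw [← sum_mul, law.q_sum, one_mul] at h4
          exact h4
        have h7 := mul_le_mul_of_nonneg_left h3 (hν x)
        nlinarith
    · have hx1 : x ∉ bl del x0 (1 / 2) := by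
        rw [mem_bl] at *; intro h; exact hx3 (by linarith)
      rw [if_neg hx3, if_neg hx1]
      rw [mem_bl, not_le] at hx3
      have h3 : ∑ i, law.q i * gain del w0 c x0 a x (law.ρ i) = 0 := by
        apply sum_eq_zero
        intro i _
        rw [gain_far hd (law.ρ_hi i) hx3, mul_zero]
      rw [h3]; simp
  have h2 := hst.trans (sum_le_sum fun x _ => h1 x)
  rw [sum_sub_distrib, ← sum_filter, ← sum_filter] at h2
  have e1 : univ.filter (fun x => x ∈ bl del x0 3) = bl del x0 3 := by ext; simp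
  have e2 : univ.filter (fun x => x ∈ bl del x0 (1 / 2)) = bl del x0 (1 / 2) := by ext; simp
  rw [e1, e2, ← mul_sum, ← mul_sum] at h2
  unfold ms
  linarith

/-- every term of the KKT sum is at least `- (2/3) a` -/
theorem log_ge (ha0 : 0 ≤ a) (ha1 : a ≤ 1 / 2) {V : ℝ} (hV : 0 < V) (hV2 : V ≤ 2) :
    - (2 / 3 * a) ≤ Real.log (1 - a + a / V) := by
  have h1 : a / 2 ≤ a / V := by
    apply div_le_div_of_nonneg_left ha0 hV hV2
  have h2 : Real.log (1 - a / 2) ≤ Real.log (1 - a + a / V) := by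
    apply Real.log_le_log <;> linarith
  have h3 := Real.one_sub_inv_le_log_of_pos (show 0 < 1 - a / 2 by linarith)
  have h4 : -(2 / 3 * a) ≤ 1 - (1 - a / 2)⁻¹ := by
    have h5 : (1 - a / 2)⁻¹ ≤ 1 + 2 / 3 * a := by
      rw [inv_le_comm₀ (by linarith) (by linarith), inv_eq_one_div, div_le_iff₀ (by linarith)]
      nlinarith
    linarith
  linarith

/-- **(L1)** lower bound for the weights near `y`. -/
theorem L1 (law : RLaw ι) (hd : IsDist del) (hc : 0 < c) (hc1 : (Fintype.card Y : ℝ) * c ≤ 1)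
    (h0 : ∀ z, 0 ≤ w0 z) (hp : ∀ y, ∑ z ∈ bl del y 1, w0 z ≤ 1)
    {ν : Y → ℝ} (hν : ∀ z, 0 ≤ ν z) {y : Y} {s P : ℝ} (hs0 : 0 ≤ s) (hs1 : s ≤ 1 / 4)
    (hP : P ≤ ∑ i, if law.ρ i ≤ 1 / 2 + s then law.q i else 0) (hP0 : 0 ≤ P)
    (hst : ∀ a, 0 ≤ a → a ≤ 1 / 2 → 0 ≤ ∑ x, ν x * (L law del (opw del w0 y a) c x -
      L law del w0 c x + l1 (light law del w0 c x) (light law del (opw del w0 y a) c x))) :
    P * ms ν (bl del y s) ≤ 13 * W del w0 c y (1 / 2 + 2 * s) * ms ν (bl del y 3) := by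
  set a := W del w0 c y (1 / 2 + 2 * s) with ha
  have hapos : 0 < a := W_pos hd h0 hc (by linarith)
  have hm3 : ms ν (bl del y s) ≤ ms ν (bl del y 3) := by
    unfold ms
    apply sum_le_sum_of_subset_of_nonneg
    · intro z hz; rw [mem_bl] at *; linarith
    · intro z _ _; exact hν z
  have hm0 : 0 ≤ ms ν (bl del y s) := sum_nonneg fun z _ => hν z
  have hP1 : P ≤ 1 := by
    refine hP.trans ?_
    rw [← law.q_sum]
    apply sum_le_sum
    intro i _
    split_ifs
    · exact le_rfl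
    · exact law.q_nonneg i
  by_cases ha1 : a ≤ 1 / 2
  · have h1 := kkt law hd hc h0 hapos.le ha1 hp hν (hst a hapos.le ha1)
    -- lower bound of the left side
    have hlow : ∀ x ∈ bl del y (1 / 2),
        (if x ∈ bl del y s then ν x * (2 / 5 * P) else 0) - 2 / 3 * a * ν x ≤
        ν x * ∑ i, law.q i * Real.log (1 - a + a / W del w0 c x (law.ρ i)) := by
      intro x hx
      have hterm : ∀ i, law.q i * (-(2 / 3 * a)) ≤
          law.q i * Real.log (1 - a + a / W del w0 c x (law.ρ i)) := by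
        intro i
        apply mul_le_mul_of_nonneg_left _ (law.q_nonneg i)
        exact log_ge hapos.le ha1 (W_pos hd h0 hc (by have := law.ρ_lo i; linarith))
          (W_le_two h0 hp hc.le hc1 (law.ρ_hi i))
      by_cases hxs : x ∈ bl del y s
      · rw [if_pos hxs]
        rw [mem_bl] at hxs
        have h2 : 2 / 5 * P - 2 / 3 * a ≤
            ∑ i, law.q i * Real.log (1 - a + a / W del w0 c x (law.ρ i)) := by
          have h3 : ∀ i, (2 / 5 * (if law.ρ i ≤ 1 / 2 + s then law.q i else 0)) -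
              law.q i * (2 / 3 * a) ≤
              law.q i * Real.log (1 - a + a / W del w0 c x (law.ρ i)) := by
            intro i
            split_ifs with hi
            · have hW : W del w0 c x (law.ρ i) ≤ a := by
                apply W_le hd h0 hc.le
                rw [hd.symm]; linarith
              have hWp := W_pos hd h0 hc (x := x) (ρ := law.ρ i)
                (by have := law.ρ_lo i; linarith)
              have h4 : 1 ≤ a / W del w0 c x (law.ρ i) := by rw [le_div_iff₀ hWp]; linarith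
              have h5 : (2 / 5 : ℝ) ≤ Real.log (1 - a + a / W del w0 c x (law.ρ i)) := by
                have h6 : Real.log (3 / 2) ≤ Real.log (1 - a + a / W del w0 c x (law.ρ i)) :=
                  Real.log_le_log (by norm_num) (by linarith)
                have h7 : (2 / 5 : ℝ) ≤ Real.log (3 / 2) := by
                  rw [Real.le_log_iff_exp_le (by norm_num)]
                  have := Real.exp_bound_div_one_sub_of_interval
                    (show (0 : ℝ) ≤ 2 / 5 by norm_num) (show (2 / 5 : ℝ) < 1 by norm_num)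
                  have h8 := Real.exp_bound' (show (0 : ℝ) ≤ 2 / 5 by norm_num)
                    (show (2 / 5 : ℝ) ≤ 1 by norm_num) (show 0 < 4 by norm_num)
                  simp [Finset.sum_range_succ, Nat.factorial] at h8
                  norm_num at h8
                  linarith
                linarith
              have h6 := mul_le_mul_of_nonneg_left h5 (law.q_nonneg i)
              have h7 : 0 ≤ law.q i * (2 / 3 * a) :=
                mul_nonneg (law.q_nonneg i) (by linarith)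
              linarith
            · have := hterm i
              linarith
          have h4 := sum_le_sum fun i (_ : i ∈ univ) => h3 i
          rw [sum_sub_distrib, ← mul_sum, ← sum_mul, law.q_sum] at h4
          linarith
        have h3 := mul_le_mul_of_nonneg_left h2 (hν x)
        linarith
      · rw [if_neg hxs]
        have h4 := sum_le_sum fun i (_ : i ∈ univ) => hterm i
        rw [← sum_mul, law.q_sum] at h4
        have h3 := mul_le_mul_of_nonneg_left h4 (hν x)
        linarith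
    have h2 := sum_le_sum hlow
    rw [sum_sub_distrib, ← sum_filter, ← sum_mul, ← mul_sum] at h2
    have e1 : (bl del y (1 / 2)).filter (fun x => x ∈ bl del y s) = bl del y s := by
      ext z
      rw [mem_filter, mem_bl, mem_bl]
      constructor
      · rintro ⟨_, h⟩; exact h
      · intro h; exact ⟨by linarith, h⟩
    rw [e1] at h2
    have h3 : ∑ x ∈ bl del y (1 / 2), ν x ≤ ms ν (bl del y 3) := by
      unfold ms
      apply sum_le_sum_of_subset_of_nonneg
      · intro z hz; rw [mem_bl] at *; linarith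
      · intro z _ _; exact hν z
    have h4 := mul_le_mul_of_nonneg_left h3 (show 0 ≤ 2 / 3 * a by linarith)
    unfold ms at *
    nlinarith
  · rw [not_le] at ha1
    have h5 : P * ms ν (bl del y s) ≤ 1 * ms ν (bl del y 3) :=
      mul_le_mul hP1 hm3 hm0 (by norm_num)
    have hm30 : 0 ≤ ms ν (bl del y 3) := hm0.trans hm3
    nlinarith

end Crest.Agent.R314.G1B
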