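import Mathlib
import Crest.Agent.R314.G1_B2

/-!
R314, module G (helper435's #8508), block G1_B: the collective inequality L2 of (3).
-/

set_option autoImplicit false
set_option linter.unusedSectionVars false

namespace Crest.Agent.R314.G1B

open Finset

variable {Y : Type*} [Fintype Y] [DecidableEq Y] {ι : Type*} [Fintype ι]
variable {del : Y → Y → ℝ} {w0 : Y → ℝ} {c : ℝ}

theorem L_nonneg (law : RLaw ι) (hd : IsDist del) (hc : 0 < c)
    (hc1 : (Fintype.card Y : ℝ) * c ≤ 1)
    (h0 : ∀ z, 0 ≤ w0 z) (hp : ∀ y, ∑ z ∈ bl del y 1, w0 z ≤ 1) (x : Y) :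
    0 ≤ L law del w0 c x := by
  unfold L
  apply mul_nonneg (by norm_num)
  apply sum_nonneg
  intro i _
  apply mul_nonneg (law.q_nonneg i)
  have h1 := W_pos hd h0 hc (x := x) (ρ := law.ρ i) (by have := law.ρ_lo i; linarith)
  apply Real.log_nonneg
  rw [le_div_iff₀ h1, one_mul]
  exact W_le_two h0 hp hc.le hc1 (law.ρ_hi i)

/-- **(L2)** collective bound of the light potential of a set `F` inside `B(p, 1/2)`. -/
theorem L2 (law : RLaw ι) (hd : IsDist del) (hc : 0 < c) (hc1 : (Fintype.card Y : ℝ) * c ≤ 1)
    (h0 : ∀ z, 0 ≤ w0 z) (hp : ∀ y, ∑ z ∈ bl del y 1, w0 z ≤ 1)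
    {ν : Y → ℝ} (hν : ∀ z, 0 ≤ ν z) {p : Y} {F : Finset Y} (hF : F ⊆ bl del p (1 / 2))
    (hst : ∀ a, 0 ≤ a → a ≤ 1 / 2 → 0 ≤ ∑ x, ν x * (L law del (opw del w0 p a) c x -
      L law del w0 c x + l1 (light law del w0 c x) (light law del (opw del w0 p a) c x))) :
    ∑ x ∈ F, ν x * L law del w0 c x ≤
      16 * ms ν F * (22 / 5 + Real.log (ms ν (bl del p 3) / ms ν F)) := by
  have hF0 : 0 ≤ ms ν F := sum_nonneg fun z _ => hν z
  have hF3 : ms ν F ≤ ms ν (bl del p 3) := by
    unfold ms
    apply sum_le_sum_of_subset_of_nonneg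
    · intro z hz
      have := hF hz
      rw [mem_bl] at *; linarith
    · intro z _ _; exact hν z
  rcases hF0.eq_or_lt with hz | hpos
  · -- all masses in `F` vanish
    have h1 : ∀ x ∈ F, ν x = 0 := by
      intro x hx
      exact (sum_eq_zero_iff_of_nonneg (fun z _ => hν z)).1 hz.symm x hx
    have h2 : ∑ x ∈ F, ν x * L law del w0 c x = 0 :=
      sum_eq_zero fun x hx => by rw [h1 x hx, zero_mul]
    rw [h2, ← hz]; simp
  · have h3pos : 0 < ms ν (bl del p 3) := hpos.trans_le hF3
    set a := ms ν F / (2 * ms ν (bl del p 3)) with ha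
    have hapos : 0 < a := div_pos hpos (by linarith)
    have ha1 : a ≤ 1 / 2 := by
      rw [ha, div_le_iff₀ (by linarith)]; linarith
    have haF : a * ms ν (bl del p 3) = ms ν F / 2 := by
      rw [ha]; field_simp
    have h1 := kkt law hd hc h0 hapos.le ha1 hp hν (hst a hapos.le ha1)
    have hlow : ∀ x ∈ bl del p (1 / 2),
        (if x ∈ F then ν x * (Real.log (a / 2) + L law del w0 c x / 16) else 0) -
          2 / 3 * a * ν x ≤
        ν x * ∑ i, law.q i * Real.log (1 - a + a / W del w0 c x (law.ρ i)) := by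
      intro x hx
      by_cases hxF : x ∈ F
      · rw [if_pos hxF]
        have h2 : Real.log (a / 2) + L law del w0 c x / 16 ≤
            ∑ i, law.q i * Real.log (1 - a + a / W del w0 c x (law.ρ i)) := by
          have h3 : ∀ i, law.q i * (Real.log (a / 2) + Real.log (2 / W del w0 c x (law.ρ i))) ≤
              law.q i * Real.log (1 - a + a / W del w0 c x (law.ρ i)) := by
            intro i
            apply mul_le_mul_of_nonneg_left _ (law.q_nonneg i)
            have hWp := W_pos hd h0 hc (x := x) (ρ := law.ρ i)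
              (by have := law.ρ_lo i; linarith)
            rw [← Real.log_mul (by positivity) (by positivity)]
            apply Real.log_le_log (by positivity)
            have : a / 2 * (2 / W del w0 c x (law.ρ i)) = a / W del w0 c x (law.ρ i) := by
              field_simp
            rw [this]; linarith
          have h4 := sum_le_sum fun i (_ : i ∈ univ) => h3 i
          simp_rw [mul_add] at h4
          rw [sum_add_distrib, ← sum_mul, law.q_sum, one_mul] at h4
          unfold L
          rw [mul_div_cancel_left₀ _ (by norm_num : (16 : ℝ) ≠ 0)]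
          exact h4
        have h3 := mul_le_mul_of_nonneg_left h2 (hν x)
        have h4 : 0 ≤ 2 / 3 * a * ν x := mul_nonneg (by linarith) (hν x)
        linarith
      · rw [if_neg hxF]
        have hterm : ∀ i, law.q i * (-(2 / 3 * a)) ≤
            law.q i * Real.log (1 - a + a / W del w0 c x (law.ρ i)) := by
          intro i
          apply mul_le_mul_of_nonneg_left _ (law.q_nonneg i)
          exact log_ge hapos.le ha1 (W_pos hd h0 hc (by have := law.ρ_lo i; linarith))
            (W_le_two h0 hp hc.le hc1 (law.ρ_hi i))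
        have h4 := sum_le_sum fun i (_ : i ∈ univ) => hterm i
        rw [← sum_mul, law.q_sum] at h4
        have h3 := mul_le_mul_of_nonneg_left h4 (hν x)
        linarith
    have h2 := sum_le_sum hlow
    rw [sum_sub_distrib, ← sum_filter, ← mul_sum] at h2
    have e1 : (bl del p (1 / 2)).filter (fun x => x ∈ F) = F := by
      ext z
      rw [mem_filter]
      constructor
      · rintro ⟨_, h⟩; exact h
      · intro h; exact ⟨hF h, h⟩
    rw [e1] at h2
    have h3 : ∑ x ∈ bl del p (1 / 2), ν x ≤ ms ν (bl del p 3) := by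
      unfold ms
      apply sum_le_sum_of_subset_of_nonneg
      · intro z hz; rw [mem_bl] at *; linarith
      · intro z _ _; exact hν z
    have h4 := mul_le_mul_of_nonneg_left h3 (show 0 ≤ 2 / 3 * a by linarith)
    have e2 : ∑ x ∈ F, ν x * (Real.log (a / 2) + L law del w0 c x / 16) =
        ms ν F * Real.log (a / 2) + (∑ x ∈ F, ν x * L law del w0 c x) / 16 := by
      unfold ms
      rw [sum_mul, sum_div, ← sum_add_distrib]
      exact sum_congr rfl fun x _ => by ring
    rw [e2] at h2
    have e3 : Real.log (a / 2) = - (Real.log 4 + Real.log (ms ν (bl del p 3) / ms ν F)) := by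
      have : a / 2 = (4 * (ms ν (bl del p 3) / ms ν F))⁻¹ := by
        rw [ha]; field_simp; ring
      rw [this, Real.log_inv, Real.log_mul (by norm_num) (by positivity)]
    rw [e3] at h2
    have h5 : Real.log 4 ≤ 7 / 5 := by
      have h6 := Real.log_two_lt_d9
      rw [show (4 : ℝ) = 2 ^ 2 by norm_num, Real.log_pow]
      push_cast; linarith
    have h6 := mul_le_mul_of_nonneg_left h5 hF0
    have h7 : 34 * a * ms ν (bl del p 3) = 17 * ms ν F := by
      rw [mul_assoc, haF]; ring
    rw [h7] at h1
    have h8 : 2 / 3 * a * ms ν (bl del p 3) = ms ν F / 3 := by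
      rw [mul_assoc, haF]; ring
    rw [h8] at h4
    nlinarith

end Crest.Agent.R314.G1B
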