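import Mathlib
import Crest.Agent.R314.G1_A2
import Crest.Agent.R314.G1_B3

/-!
R314, module G (helper435's #8508), block G1_B: the generic facts of `G1_B1`–`G1_B3` in the
notation of `G1_A`.
-/

set_option autoImplicit false
set_option linter.unusedSectionVars false

namespace Crest.Agent.R314.G1

open Finset

variable {Y : Type*} [Fintype Y] [DecidableEq Y] (M : IM Y)

namespace IM

theorem isDist : G1B.IsDist M.d := ⟨M.d_self, M.d_symm, M.d_tri⟩

/-- the radius law -/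
noncomputable def law : G1B.RLaw (Fin M.J) where
  q i := (2 * (i : ℝ) + 1) / (M.J : ℝ) ^ 2
  ρ i := M.rad i
  q_nonneg i := by positivity
  q_sum := by
    have h := M.E_const 1
    unfold E at h
    rw [sum_div] at h
    rw [Fin.sum_univ_eq_sum_range (fun i => (2 * (i : ℝ) + 1) / (M.J : ℝ) ^ 2)]
    simpa using h
  ρ_lo i := M.half_le_rad i
  ρ_hi i := M.rad_le_one i.2.le

theorem law_sum (f : ℕ → ℝ) : ∑ i : Fin M.J, M.law.q i * f i = M.E f := by
  unfold E law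
  rw [sum_div, Fin.sum_univ_eq_sum_range (fun i => (2 * (i : ℝ) + 1) / (M.J : ℝ) ^ 2 * f i)]
  exact sum_congr rfl fun i _ => by ring

/-- the floor -/
noncomputable def cc (Y : Type*) [Fintype Y] : ℝ := 1 / Fintype.card Y

theorem cc_pos (x : Y) : 0 < cc Y := by
  have := card_pos x
  unfold cc; positivity

theorem cc_le (x : Y) : (Fintype.card Y : ℝ) * cc Y ≤ 1 := by
  unfold cc
  rw [mul_one_div_cancel (card_pos x).ne']

theorem bm_eq (m : Y → ℝ) (x : Y) (r : ℝ) : M.bm m x r = ∑ z ∈ G1B.bl M.d x r, m z := by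
  unfold bm G1B.bl
  rw [sum_filter]

theorem Ws_eq (w : Y → ℝ) (x : Y) (r : ℝ) : G1B.Ws w (cc Y) (G1B.bl M.d x r) = M.W w x r := by
  unfold W
  rw [bm_eq]
  rfl

theorem W_eq' (w : Y → ℝ) (x : Y) (r : ℝ) : G1B.W M.d w (cc Y) x r = M.W w x r := M.Ws_eq w x r

theorem L_eq (w : Y → ℝ) (x : Y) : G1B.L M.law M.d w (cc Y) x = M.L w x := by
  unfold G1B.L L
  congr 1
  rw [← law_sum]
  apply sum_congr rfl
  intro i _
  rw [W_eq']
  rfl

theorem light_eq (w : Y → ℝ) (x z : Y) : G1B.light M.law M.d w (cc Y) x z = M.lam w x z := by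
  unfold G1B.light lam
  rw [← law_sum]
  apply sum_congr rfl
  intro i _
  congr 1
  unfold G1B.lts lam1
  rw [Ws_eq]
  by_cases h : M.d x z ≤ M.rad i
  · rw [if_pos h, if_pos (show z ∈ G1B.bl M.d x (M.law.ρ i) from G1B.mem_bl.2 h)]
    rfl
  · rw [if_neg h, if_neg (show z ∉ G1B.bl M.d x (M.law.ρ i) from fun h' => h (G1B.mem_bl.1 h'))]

theorem l1_eq (w w' : Y → ℝ) (x : Y) :
    G1B.l1 (G1B.light M.law M.d w (cc Y) x) (G1B.light M.law M.d w' (cc Y) x) =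
      ∑ z, |M.lam w x z - M.lam w' x z| := by
  unfold G1B.l1
  simp only [light_eq]

theorem op_eq (w : Y → ℝ) (x₀ : Y) (a : ℝ) : G1B.opw M.d w x₀ a = M.op w x₀ a := rfl

theorem pack_iff {w : Y → ℝ} : (∀ y, ∑ z ∈ G1B.bl M.d y 1, w z ≤ 1) ↔ ∀ y, M.bm w y 1 ≤ 1 := by
  simp only [bm_eq]

/-! ### the operation keeps admissibility -/

theorem op_nonneg {w : Y → ℝ} (hw : ∀ x, 0 ≤ w x) {a : ℝ} (ha0 : 0 ≤ a) (ha1 : a ≤ 1) (x₀ x : Y) :
    0 ≤ M.op w x₀ a x := G1B.opw_nonneg (del := M.d) hw ha0 ha1 x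

theorem op_pack {w : Y → ℝ} (hw : ∀ x, 0 ≤ w x) (hp : ∀ y, M.bm w y 1 ≤ 1) {a : ℝ} (ha0 : 0 ≤ a)
    (ha1 : a ≤ 1) (x₀ y : Y) : M.bm (M.op w x₀ a) y 1 ≤ 1 := by
  rw [bm_eq]
  exact G1B.opw_pack M.isDist hw ha0 ha1 (M.pack_iff.2 hp) y

theorem op_Ok {S : St Y} (h : Ok M S) {a : ℝ} (ha0 : 0 ≤ a) (ha1 : a ≤ 1) (x₀ : Y) :
    Ok M ⟨S.P, S.β, M.op S.w x₀ a⟩ :=
  ⟨h.β0, h.β1, M.op_nonneg h.w0 ha0 ha1 x₀, M.op_pack h.w0 h.pack ha0 ha1 x₀, h.sep⟩

/-! ### locality -/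

theorem bm_congr {m m' : Y → ℝ} {x : Y} {r : ℝ} (h : ∀ z, M.d x z ≤ r → m z = m' z) :
    M.bm m x r = M.bm m' x r := by
  unfold bm
  apply sum_congr rfl
  intro z _
  split_ifs with h1
  · exact h z h1
  · rfl

theorem W_congr {w w' : Y → ℝ} {x : Y} {r : ℝ} (h : ∀ z, M.d x z ≤ r → w z = w' z) :
    M.W w x r = M.W w' x r :=
  M.bm_congr fun z hz => by unfold fl; rw [h z hz]

theorem L_congr {w w' : Y → ℝ} {x : Y} (h : ∀ z, M.d x z ≤ 1 → w z = w' z) :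
    M.L w x = M.L w' x := by
  unfold L
  congr 1
  apply M.E_congr
  intro s hs
  unfold psi
  rw [M.W_congr fun z hz => h z (hz.trans (M.rad_le_one hs.le))]

theorem lam_congr {w w' : Y → ℝ} {x : Y} (h : ∀ z, M.d x z ≤ 1 → w z = w' z) (z : Y) :
    M.lam w x z = M.lam w' x z := by
  unfold lam
  apply M.E_congr
  intro s hs
  unfold lam1
  split_ifs with h1
  · have h2 := M.rad_le_one hs.le
    rw [M.W_congr fun z hz => h z (hz.trans h2)]
    unfold fl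
    rw [h z (h1.trans h2)]
  · rfl

theorem op_congr_far {w : Y → ℝ} {x₀ x : Y} {a : ℝ} (h : 3 < M.d x₀ x) :
    ∀ z, M.d x z ≤ 1 → M.op w x₀ a z = w z := by
  intro z hz
  have h1 := M.d_tri x₀ z x
  rw [M.d_symm z x] at h1
  unfold op
  have hne : z ≠ x₀ := by
    intro h2
    rw [h2, M.d_self] at h1
    rw [h2] at hz
    linarith
  rw [if_neg (by linarith), if_neg hne, add_zero]

theorem op_L_far {w : Y → ℝ} {x₀ x : Y} {a : ℝ} (h : 3 < M.d x₀ x) :
    M.L (M.op w x₀ a) x = M.L w x := M.L_congr (M.op_congr_far h)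

theorem op_lam_far {w : Y → ℝ} {x₀ x : Y} {a : ℝ} (h : 3 < M.d x₀ x) (z : Y) :
    M.lam (M.op w x₀ a) x z = M.lam w x z := M.lam_congr (M.op_congr_far h) z

/-! ### price of the operation at one point -/

/-- the two sided statement: the price of the operation at `x` -/
theorem op_price_gain {w : Y → ℝ} (hw : ∀ x, 0 ≤ w x) (_hp : ∀ y, M.bm w y 1 ≤ 1) {a : ℝ}
    (ha0 : 0 ≤ a) (ha1 : a ≤ 1 / 2) (x₀ x : Y) :
    M.L (M.op w x₀ a) x - M.L w x + ∑ z, |M.lam w x z - M.lam (M.op w x₀ a) x z| ≤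
      - ∑ i : Fin M.J, M.law.q i * G1B.gain M.d w (cc Y) x₀ a x (M.law.ρ i) := by
  have h := G1B.L_sub_le M.law M.isDist (cc_pos x) hw ha0 ha1 (x0 := x₀) x
  rw [M.op_eq, M.l1_eq, M.L_eq, M.L_eq] at h
  exact h

theorem op_price_le {w : Y → ℝ} (hw : ∀ x, 0 ≤ w x) (hp : ∀ y, M.bm w y 1 ≤ 1) {a : ℝ}
    (ha0 : 0 ≤ a) (ha1 : a ≤ 1 / 2) (x₀ x : Y) :
    M.L (M.op w x₀ a) x - M.L w x + ∑ z, |M.lam w x z - M.lam (M.op w x₀ a) x z| ≤ 34 * a := by
  refine (M.op_price_gain hw hp ha0 ha1 x₀ x).trans ?_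
  have h4 : ∑ i : Fin M.J, M.law.q i * (-(34 * a)) ≤
      ∑ i : Fin M.J, M.law.q i * G1B.gain M.d w (cc Y) x₀ a x (M.law.ρ i) := by
    apply sum_le_sum
    intro i _
    apply mul_le_mul_of_nonneg_left _ (M.law.q_nonneg i)
    by_cases h5 : M.d x x₀ ≤ M.law.ρ i
    · have := (G1B.gain_in M.isDist (cc_pos x) hw ha0 ha1 (M.pack_iff.2 hp) (M.law.ρ_hi i) h5).2
      linarith
    · exact G1B.gain_out M.isDist (cc_pos x) hw ha0 ha1
        (by have := M.law.ρ_lo i; linarith) h5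
  rw [← sum_mul, M.law.q_sum, one_mul] at h4
  linarith

/-- the price at a point of `B(x₀, 1/2)` -/
theorem op_price_near {w : Y → ℝ} (hw : ∀ x, 0 ≤ w x) (hp : ∀ y, M.bm w y 1 ≤ 1) {a : ℝ}
    (ha0 : 0 ≤ a) (ha1 : a ≤ 1 / 2) {x₀ x : Y} (hx : M.d x₀ x ≤ 1 / 2) :
    M.L (M.op w x₀ a) x - M.L w x + ∑ z, |M.lam w x z - M.lam (M.op w x₀ a) x z| ≤
      8 * a - 8 * M.E fun s => Real.log (1 - a + a / M.W w x (M.rad s)) := by
  refine (M.op_price_gain hw hp ha0 ha1 x₀ x).trans ?_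
  rw [M.d_symm] at hx
  have h4 : ∑ i : Fin M.J, M.law.q i *
      (8 * Real.log (1 - a + a / M.W w x (M.rad i)) - 8 * a) ≤
      ∑ i : Fin M.J, M.law.q i * G1B.gain M.d w (cc Y) x₀ a x (M.law.ρ i) := by
    apply sum_le_sum
    intro i _
    apply mul_le_mul_of_nonneg_left _ (M.law.q_nonneg i)
    have := (G1B.gain_in M.isDist (cc_pos x) hw ha0 ha1 (M.pack_iff.2 hp) (M.law.ρ_hi i)
      (hx.trans (M.law.ρ_lo i))).1
    rw [W_eq'] at this
    exact this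
  rw [M.law_sum (fun s => 8 * Real.log (1 - a + a / M.W w x (M.rad s)) - 8 * a), E_sub, E_mul,
    E_const] at h4
  linarith

/-- after the operation the light potential is small near `x₀` -/
theorem op_L_le {w : Y → ℝ} (hw : ∀ x, 0 ≤ w x) {a : ℝ} (ha0 : 0 < a) (ha1 : a ≤ 1) {x₀ x : Y}
    (hx : M.d x₀ x ≤ 1 / 2) : M.L (M.op w x₀ a) x ≤ 16 * Real.log (2 / a) := by
  unfold L
  have h : M.E (M.psi (M.op w x₀ a) x) ≤ M.E fun _ => Real.log (2 / a) := by
    apply M.E_mono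
    intro s _
    unfold psi
    have h0 := M.op_nonneg hw ha0.le ha1 x₀
    have h1 : a ≤ M.W (M.op w x₀ a) x (M.rad s) := by
      refine le_trans ?_ (M.le_bm (fun z => (fl_pos h0 z).le)
        (show M.d x x₀ ≤ M.rad s by
          rw [M.d_symm]; exact hx.trans (M.half_le_rad s)))
      have h2 : 0 ≤ (1 - a) * w x₀ := mul_nonneg (by linarith) (hw x₀)
      have h3 := cc_pos (Y := Y) x
      unfold cc at h3
      unfold fl op
      rw [M.d_self, if_pos (by norm_num), if_pos rfl]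
      linarith
    apply Real.log_le_log (div_pos (by norm_num) (lt_of_lt_of_le ha0 h1))
    exact div_le_div_of_nonneg_left (by norm_num) ha0 h1
  rw [E_const] at h
  linarith

/-- the operation does not hurt points all of whose balls contain `x₀` by more than `8 a`,
potential alone: `L' ≤ L` on `B(x₀, 1/2)`. -/
theorem op_L_anti {w : Y → ℝ} (hw : ∀ x, 0 ≤ w x) (hp : ∀ y, M.bm w y 1 ≤ 1) {a : ℝ}
    (ha0 : 0 ≤ a) {x₀ x : Y} (hx : M.d x₀ x ≤ 1 / 2) :
    M.L (M.op w x₀ a) x ≤ M.L w x := by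
  unfold L
  have h : M.E (M.psi (M.op w x₀ a) x) ≤ M.E (M.psi w x) := by
    apply M.E_mono
    intro s hs
    unfold psi
    have hr := M.rad_le_one hs.le
    have hx0 : x₀ ∈ G1B.bl M.d x (M.rad s) := by
      rw [G1B.mem_bl, M.d_symm]; exact hx.trans (M.half_le_rad s)
    have hW := M.W_pos hw x (M.rad_nonneg s)
    have e : M.W (M.op w x₀ a) x (M.rad s) =
        M.W w x (M.rad s) + a * (1 - ∑ z ∈ G1B.bl M.d x (M.rad s), w z) := by
      rw [← Ws_eq, ← Ws_eq, G1B.Ws_eq, G1B.Ws_eq]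
      have h1 : ∀ z ∈ G1B.bl M.d x (M.rad s), M.op w x₀ a z =
          (1 - a) * w z + (if z = x₀ then a else 0) := by
        intro z hz
        rw [G1B.mem_bl] at hz
        have h2 := M.d_tri x₀ x z
        unfold op
        rw [if_pos (by linarith)]
      rw [sum_congr rfl h1, sum_add_distrib, ← mul_sum, sum_ite_eq' _ x₀, if_pos hx0]
      ring
    have h2 : ∑ z ∈ G1B.bl M.d x (M.rad s), w z ≤ 1 := by
      rw [← bm_eq]
      exact (M.bm_mono_r hw x hr).trans (hp x)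
    have h3 : 0 ≤ a * (1 - ∑ z ∈ G1B.bl M.d x (M.rad s), w z) :=
      mul_nonneg ha0 (by linarith)
    rw [e]
    apply Real.log_le_log (by positivity)
    apply div_le_div_of_nonneg_left (by norm_num) hW (by linarith)
  linarith

/-! ### simultaneous operations -/

/-- near a point of `A` the simultaneous operation is the single one -/
theorem mop_eq_op {w : Y → ℝ} {A : Finset Y} {a : Y → ℝ}
    (hA : ∀ p ∈ A, ∀ q ∈ A, p ≠ q → 40 ≤ M.d p q) {q : Y} (hq : q ∈ A) {z : Y}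
    (hz : M.d q z ≤ 20) : M.mop w A a z = M.op w q (a q) z := by
  unfold mop op
  have h1 : ∀ p ∈ A, p ≠ q → ¬ M.d p z ≤ 2 := by
    intro p hp hpq h
    have h2 := hA p hp q hq hpq
    have h3 := M.d_tri p z q
    rw [M.d_symm z q] at h3
    linarith
  have h2 : (∑ p ∈ A, if M.d p z ≤ 2 then a p else 0) = if M.d q z ≤ 2 then a q else 0 := by
    rw [← add_sum_erase _ _ hq, sum_eq_zero, add_zero]
    intro p hp
    rw [if_neg (h1 p (mem_of_mem_erase hp) (ne_of_mem_erase hp))]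
  have h3 : (if z ∈ A then a z else 0) = if z = q then a q else 0 := by
    by_cases hzq : z = q
    · rw [hzq, if_pos hq, if_pos rfl]
    · rw [if_neg hzq, if_neg]
      intro hzA
      exact h1 z hzA hzq (by rw [M.d_self]; norm_num)
  rw [h2, h3]
  split_ifs <;> ring

/-- away from `A` nothing happens -/
theorem mop_eq_self {w : Y → ℝ} {A : Finset Y} {a : Y → ℝ} {z : Y}
    (hz : ∀ q ∈ A, 2 < M.d q z) : M.mop w A a z = w z := by
  unfold mop
  have h2 : (∑ p ∈ A, if M.d p z ≤ 2 then a p else 0) = 0 :=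
    sum_eq_zero fun p hp => by rw [if_neg (not_le.2 (hz p hp))]
  have h3 : z ∉ A := fun h => by have := hz z h; rw [M.d_self] at this; linarith
  rw [h2, if_neg h3]; ring

theorem mop_nonneg {w : Y → ℝ} (hw : ∀ x, 0 ≤ w x) {A : Finset Y} {a : Y → ℝ}
    (hA : ∀ p ∈ A, ∀ q ∈ A, p ≠ q → 40 ≤ M.d p q) (ha0 : ∀ q ∈ A, 0 ≤ a q)
    (ha1 : ∀ q ∈ A, a q ≤ 1) (z : Y) : 0 ≤ M.mop w A a z := by
  by_cases h : ∃ q ∈ A, M.d q z ≤ 2
  · obtain ⟨q, hq, hz⟩ := h
    rw [M.mop_eq_op hA hq (by linarith)]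
    exact M.op_nonneg hw (ha0 q hq) (ha1 q hq) q z
  · push Not at h
    rw [M.mop_eq_self h]; exact hw z

theorem mop_pack {w : Y → ℝ} (hw : ∀ x, 0 ≤ w x) (hp : ∀ y, M.bm w y 1 ≤ 1) {A : Finset Y}
    {a : Y → ℝ} (hA : ∀ p ∈ A, ∀ q ∈ A, p ≠ q → 40 ≤ M.d p q) (ha0 : ∀ q ∈ A, 0 ≤ a q)
    (ha1 : ∀ q ∈ A, a q ≤ 1) (y : Y) : M.bm (M.mop w A a) y 1 ≤ 1 := by
  by_cases h : ∃ q ∈ A, M.d q y ≤ 3
  · obtain ⟨q, hq, hy⟩ := h
    rw [M.bm_congr (m' := M.op w q (a q)) fun z hz => M.mop_eq_op hA hq (by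
      have := M.d_tri q y z; linarith)]
    exact M.op_pack hw hp (ha0 q hq) (ha1 q hq) q y
  · push Not at h
    rw [M.bm_congr (m' := w) fun z hz => M.mop_eq_self fun q hq => by
      have := M.d_tri q z y
      rw [M.d_symm z y] at this
      have := h q hq
      linarith]
    exact hp y

/-- local form of `mop`, light potential -/
theorem mop_L_eq {w : Y → ℝ} {A : Finset Y} {a : Y → ℝ}
    (hA : ∀ p ∈ A, ∀ q ∈ A, p ≠ q → 40 ≤ M.d p q) {q : Y} (hq : q ∈ A) {x : Y}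
    (hx : M.d q x ≤ 19) : M.L (M.mop w A a) x = M.L (M.op w q (a q)) x :=
  M.L_congr fun z hz => M.mop_eq_op hA hq (by have := M.d_tri q x z; linarith)

theorem mop_lam_eq {w : Y → ℝ} {A : Finset Y} {a : Y → ℝ}
    (hA : ∀ p ∈ A, ∀ q ∈ A, p ≠ q → 40 ≤ M.d p q) {q : Y} (hq : q ∈ A) {x : Y}
    (hx : M.d q x ≤ 19) (z : Y) : M.lam (M.mop w A a) x z = M.lam (M.op w q (a q)) x z :=
  M.lam_congr (fun z hz => M.mop_eq_op hA hq (by have := M.d_tri q x z; linarith)) z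

theorem mop_L_far {w : Y → ℝ} {A : Finset Y} {a : Y → ℝ} {x : Y}
    (hx : ∀ q ∈ A, 3 < M.d q x) : M.L (M.mop w A a) x = M.L w x :=
  M.L_congr fun z hz => M.mop_eq_self fun q hq => by
    have := M.d_tri q z x
    rw [M.d_symm z x] at this
    have := hx q hq
    linarith

theorem mop_lam_far {w : Y → ℝ} {A : Finset Y} {a : Y → ℝ} {x : Y}
    (hx : ∀ q ∈ A, 3 < M.d q x) (z : Y) : M.lam (M.mop w A a) x z = M.lam w x z :=
  M.lam_congr (fun z hz => M.mop_eq_self fun q hq => by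
    have := M.d_tri q z x
    rw [M.d_symm z x] at this
    have := hx q hq
    linarith) z

/-- price of `mop` at one point -/
theorem mop_price_le {w : Y → ℝ} (hw : ∀ x, 0 ≤ w x) (hp : ∀ y, M.bm w y 1 ≤ 1) {A : Finset Y}
    {a : Y → ℝ} (hA : ∀ p ∈ A, ∀ q ∈ A, p ≠ q → 40 ≤ M.d p q) (ha0 : ∀ q ∈ A, 0 ≤ a q)
    (ha1 : ∀ q ∈ A, a q ≤ 1 / 2) (x : Y) :
    M.L (M.mop w A a) x - M.L w x + ∑ z, |M.lam w x z - M.lam (M.mop w A a) x z| ≤
      34 * ∑ q ∈ A, if M.d q x ≤ 3 then a q else 0 := by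
  have h0 : 0 ≤ ∑ q ∈ A, if M.d q x ≤ 3 then a q else 0 :=
    sum_nonneg fun q hq => by split_ifs <;> [exact ha0 q hq; exact le_rfl]
  by_cases h : ∃ q ∈ A, M.d q x ≤ 3
  · obtain ⟨q, hq, hx⟩ := h
    rw [M.mop_L_eq hA hq (by linarith)]
    simp only [M.mop_lam_eq hA hq (show M.d q x ≤ 19 by linarith)]
    refine (M.op_price_le hw hp (ha0 q hq) (ha1 q hq) q x).trans ?_
    apply mul_le_mul_of_nonneg_left _ (by norm_num)
    have := single_le_sum (f := fun q => if M.d q x ≤ 3 then a q else 0) (s := A)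
      (fun q hq => by split_ifs <;> [exact ha0 q hq; exact le_rfl]) hq
    simpa [hx] using this
  · push Not at h
    rw [M.mop_L_far h]
    simp only [M.mop_lam_far h]
    simp only [sub_self, abs_zero, sum_const_zero, add_zero]
    linarith

end IM

end Crest.Agent.R314.G1
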