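import Crest.Agent.R314.G1_P

/-!
R314, module G (one scale), part D: removal of a main and claim 1 (helper869).
-/

set_option autoImplicit false
set_option linter.unusedSectionVars false
set_option linter.unusedVariables false

namespace Crest.Agent.R314.G1

open Finset

variable {Y : Type*} [Fintype Y] [DecidableEq Y] {M : IM Y}

namespace IM

/-- the two-zone bookkeeping: `c₁` inside radius `r₁`, `c₂` between `r₁` and `r₂` -/
theorem sum_two_zone (m : Y → ℝ) (q : Y) {r₁ r₂ : ℝ} (h : r₁ ≤ r₂) (c₁ c₂ : ℝ) :
    ∑ x, m x * (if M.d q x ≤ r₁ then c₁ else if M.d q x ≤ r₂ then c₂ else 0) =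
      c₁ * M.bm m q r₁ + c₂ * (M.bm m q r₂ - M.bm m q r₁) := by
  unfold bm
  rw [← sum_sub_distrib, mul_sum, mul_sum, ← sum_add_distrib]
  refine sum_congr rfl fun x _ => ?_
  by_cases h1 : M.d q x ≤ r₁
  · rw [if_pos h1, if_pos h1, if_pos (h1.trans h)]; ring
  · rw [if_neg h1, if_neg h1]
    split_ifs <;> ring

/-- `M ln(N/M) ≤ N - M` in the form used for removals -/
theorem mul_log_ratio {A N : ℝ} (hA : 0 < A) (hN : A ≤ N) :
    A * (16 * Real.log (2 / (A / (2 * N)))) ≤ 22.2 * A + 16 * (N - A) := by
  have hN0 : 0 < N := lt_of_lt_of_le hA hN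
  have h1 : (2 : ℝ) / (A / (2 * N)) = 2 * 2 * (N / A) := by field_simp
  rw [h1, Real.log_mul (by norm_num) (by positivity), Real.log_mul (by norm_num) (by norm_num)]
  have h2 := Real.log_two_lt_d9
  have h3 : Real.log (N / A) ≤ N / A - 1 := Real.log_le_sub_one_of_pos (by positivity)
  have h4 : A * Real.log (N / A) ≤ N - A := by
    calc A * Real.log (N / A) ≤ A * (N / A - 1) := by gcongr
      _ = N - A := by field_simp
  nlinarith

/-- monotone functions of the distance which are constant from `3` on do not feel the removal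
of a main at distance more than `3` -/
theorem u_min_le {P P' : Finset Y} {x : Y} {c : ℝ} (hc : c ≤ 100)
    (h : ∀ p ∈ P, p ∈ P' ∨ c ≤ M.d x p) : min (M.u P' x) c ≤ min (M.u P x) c := by
  refine le_min ?_ (min_le_right _ _)
  refine M.le_u ((min_le_right _ _).trans hc) fun p hp => ?_
  rcases h p hp with h1 | h1
  · exact (min_le_left _ _).trans (M.u_le h1 x)
  · exact (min_le_right _ _).trans h1

theorem qf_min (u : ℝ) : qf (min u 3) = qf u := by
  rcases le_total u 3 with h | h
  · rw [min_eq_left h]
  · rw [min_eq_right h, qf_eq_one (by norm_num), qf_eq_one (by linarith)]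

theorem zf_min (u : ℝ) : zf (min u 3) = zf u := by
  rcases le_total u 3 with h | h
  · rw [min_eq_left h]
  · rw [min_eq_right h, zf_eq_one (by norm_num), zf_eq_one (by linarith)]

theorem tf_min (u : ℝ) : tf (min u 3) = tf u := by
  rcases le_total u 3 with h | h
  · rw [min_eq_left h]
  · rw [min_eq_right h, tf_eq_one (by norm_num), tf_eq_one (by linarith)]

theorem tf_min_one (u : ℝ) : tf (min u 1) = tf u := by
  rcases le_total u 1 with h | h
  · rw [min_eq_left h]
  · rw [min_eq_right h, tf_eq_one (by norm_num), tf_eq_one (by linarith)]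

/-- removing a main -/
theorem rem_exists {m : Y → ℝ} (hm : ∀ x, 0 ≤ m x) {S : St Y} (hS : Ok M S) {q : Y}
    (hq : q ∈ S.P) :
    ∃ S' : St Y, Ok M S' ∧ S'.P = S.P.erase q ∧ S'.β = S.β ∧
      (∀ z, 2 < M.d q z → S'.w z = S.w z) ∧
      M.D m S S' ≤ (45 - 90 * S.β q) * M.bm m q 3 := by
  set A := M.bm m q (1 / 16) with hA
  set N := M.bm m q 3 with hN
  have hA0 : 0 ≤ A := M.bm_nonneg hm _ _
  have hAN : A ≤ N := M.bm_mono_r hm _ (by norm_num)
  have hN0 : 0 ≤ N := hA0.trans hAN
  set a := A / (2 * N) with ha
  have ha0 : 0 ≤ a := by positivity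
  have ha1 : a ≤ 1 / 2 := by
    rcases eq_or_lt_of_le hN0 with h | h
    · rw [ha, ← h]; simp
    · rw [ha, div_le_iff₀ (by positivity)]; linarith
  have hop0 : ∀ z, 0 ≤ M.op S.w q a z := fun z => p_op_nonneg hS.w0 ha0 (by linarith) z
  have hop1 : ∀ y, M.bm (M.op S.w q a) y 1 ≤ 1 := fun y =>
    bm_op_le hS.w0 ha0 (by linarith) (hS.pack y)
  have hOk : Ok M (⟨S.P.erase q, S.β, M.op S.w q a⟩ : St Y) :=
    { β0 := hS.β0
      β1 := hS.β1
      w0 := hop0
      pack := hop1
      sep := fun p hp p' hp' h =>
        hS.sep p (mem_of_mem_erase hp) p' (mem_of_mem_erase hp') h }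
  refine ⟨⟨S.P.erase q, S.β, M.op S.w q a⟩, hOk, rfl, rfl, ?_, ?_⟩
  · intro z hz
    have h5 : z ≠ q := by
      rintro rfl
      rw [M.d_self] at hz
      linarith
    simp only [op]
    rw [if_neg (by linarith), if_neg h5, add_zero]
  · set S' : St Y := ⟨S.P.erase q, S.β, M.op S.w q a⟩ with hS'
    have hlog2 := Real.log_two_lt_d9
    set c₁ : ℝ := 22 - 90 * S.β q + 16 * Real.log (2 / a) with hc₁
    set c₂ : ℝ := 14 - 90 * S.β q with hc₂
    -- near the removed main the timer term of the new state vanishes
    have hbt' : ∀ x, M.d q x ≤ 4 → M.bt S' x = 0 := by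
      intro x hx
      refine M.bt_eq_zero fun p hp => ?_
      have h1 := hS.sep40 q hq p (mem_of_mem_erase hp) (ne_of_mem_erase hp).symm
      have h2 := M.d_tri q x p
      linarith
    have hbt : ∀ x, M.d q x ≤ 3 → M.bt S x = S.β q := by
      intro x hx
      rw [M.bt_eq hS.sep40 hq (by rw [M.d_symm]; linarith),
        cf_eq_one (by rw [M.d_symm]; exact hx), mul_one]
    have key : ∀ x, m x * (M.U S' x - M.U S x + M.nrm S x S' x) ≤
        m x * (if M.d q x ≤ 1 / 16 then c₁ else if M.d q x ≤ 3 then c₂ else 0) := by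
      intro x
      have hnrm := M.nrm_le_two hS.w0 hop0 x x (S := S) (S' := S')
      have hL := M.L_nonneg hS.w0 hS.pack x
      have hL' := M.L_nonneg hop0 hop1 x
      by_cases h1 : M.d q x ≤ 1 / 16
      · rw [if_pos h1]
        rcases eq_or_lt_of_le hA0 with h0 | h0
        · have : m x = 0 := le_antisymm
            (by have := M.le_bm hm h1; rw [← hA, ← h0] at this; exact this) (hm x)
          rw [this]; simp
        · have ha0' : 0 < a := by
            have : 0 < N := lt_of_lt_of_le h0 hAN
            positivity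
          refine mul_le_mul_of_nonneg_left ?_ (hm x)
          have e1 := hbt' x (by linarith)
          have e2 := hbt x (by linarith)
          have e3 := L_op_le_log (M := M) hS.w0 ha0' (by linarith) (q := q) (x := x) (by linarith)
          have e4 := qf_le_one (M.u S'.P x)
          have e5 := qf_nonneg (M.u S.P x)
          have e6 := zf_nonneg (M.u S.P x)
          have e7 := zf_le_one (M.u S'.P x)
          have e8 := zf_nonneg (M.u S'.P x)
          unfold U
          rw [e1, e2]
          have e9 : zf (M.u S'.P x) * M.L S'.w x ≤ 16 * Real.log (2 / a) := by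
            calc zf (M.u S'.P x) * M.L S'.w x ≤ 1 * M.L S'.w x := by gcongr
              _ ≤ _ := by rw [one_mul]; exact e3
          have e10 : 0 ≤ zf (M.u S.P x) * M.L S.w x := mul_nonneg e6 hL
          linarith
      · rw [if_neg h1]
        by_cases h2 : M.d q x ≤ 3
        · rw [if_pos h2]
          refine mul_le_mul_of_nonneg_left ?_ (hm x)
          have e1 := hbt' x (by linarith)
          have e2 := hbt x h2
          have e3 := L_op_le_add (M := M) hS.w0 ha0 ha1 (q := q) x
          have e4 := qf_le_one (M.u S'.P x)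
          have e7 := zf_le_one (M.u S'.P x)
          have e8 := zf_nonneg (M.u S'.P x)
          have hu : 1 / 16 ≤ M.u S.P x := by
            rw [M.u_near hS.sep40 hq (by rw [M.d_symm]; linarith), M.d_symm]
            linarith
          unfold U
          rw [e1, e2, qf_eq_one (by linarith : 1 / 32 ≤ M.u S.P x), zf_eq_one hu]
          have e9 : zf (M.u S'.P x) * M.L S'.w x ≤ 1 * M.L S'.w x := by gcongr
          have e10 : M.L S'.w x ≤ M.L S.w x + 16 * Real.log 2 := e3
          linarith
        · rw [if_neg h2, mul_zero]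
          push Not at h2
          refine mul_nonpos_of_nonneg_of_nonpos (hm x) ?_
          have e1 : min (M.u S'.P x) 3 = min (M.u S.P x) 3 := by
            apply le_antisymm
            · refine M.u_min_le (by norm_num) fun p hp => ?_
              by_cases hpq : p = q
              · right; rw [hpq, M.d_symm]; exact h2.le
              · left; exact mem_erase.2 ⟨hpq, hp⟩
            · exact M.u_min_le (by norm_num) fun p hp => Or.inl (mem_of_mem_erase hp)
          have e2 : qf (M.u S'.P x) = qf (M.u S.P x) := by
            rw [← qf_min (M.u S'.P x), e1, qf_min]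
          have e3 : zf (M.u S'.P x) = zf (M.u S.P x) := by
            rw [← zf_min (M.u S'.P x), e1, zf_min]
          have e4 : tf (M.u S'.P x) = tf (M.u S.P x) := by
            rw [← tf_min (M.u S'.P x), e1, tf_min]
          have e5 : M.L S'.w x = M.L S.w x := L_op_far h2
          have e6 : M.bt S' x ≤ M.bt S x := by
            unfold bt
            refine sum_le_sum_of_subset_of_nonneg (erase_subset _ _) fun p _ _ => ?_
            exact mul_nonneg (hS.β0 p) (cf_nonneg _)
          have e7 : M.nrm S x S' x = 0 := by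
            refine le_antisymm ?_ (M.nrm_nonneg _ _ _ _)
            refine (M.nrm_le hS.w0 hop0 x x (S := S) (S' := S')).trans ?_
            rw [e4]
            have : ∀ z, |M.lam S.w x z - M.lam S'.w x z| = 0 := by
              intro z
              have : M.lam S'.w x z = M.lam S.w x z := lam_op_far h2 z
              rw [this]; simp
            simp [this]
          unfold U
          rw [e2, e3, e5, e7]
          linarith
    have hsum : M.D m S S' ≤ c₁ * A + c₂ * (N - A) := by
      rw [← sum_two_zone m q (by norm_num : (1 : ℝ) / 16 ≤ 3) c₁ c₂]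
      exact sum_le_sum fun x _ => key x
    refine hsum.trans ?_
    rcases eq_or_lt_of_le hA0 with h0 | h0
    · rw [← h0, hc₂]
      nlinarith
    · have hlog := mul_log_ratio h0 hAN
      rw [← ha] at hlog
      rw [hc₁, hc₂]
      nlinarith

/-- **removal of an old main is free** -/
theorem remove_free {m : Y → ℝ} (hm : ∀ x, 0 ≤ m x) {S : St Y} (hS : Ok M S) {q : Y}
    (hq : q ∈ S.P) (hβ : 1 / 2 ≤ S.β q) :
    ∃ S' : St Y, Ok M S' ∧ S'.P = S.P.erase q ∧ S'.β = S.β ∧
      (∀ z, 2 < M.d q z → S'.w z = S.w z) ∧ M.D m S S' ≤ 0 := by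
  obtain ⟨S', h1, h2, h3, h4, h5⟩ := rem_exists hm hS hq
  refine ⟨S', h1, h2, h3, h4, h5.trans ?_⟩
  have := M.bm_nonneg hm q 3
  nlinarith

/-- disjoint balls around far separated points -/
theorem sum_bm_le {m : Y → ℝ} (hm : ∀ x, 0 ≤ m x) {A : Finset Y} (hA : M.Far A) {y : Y} {R : ℝ}
    (h : ∀ q ∈ A, M.d y q + 3 ≤ R) : ∑ q ∈ A, M.bm m q 3 ≤ M.bm m y R := by
  unfold bm
  rw [sum_comm]
  refine sum_le_sum fun z _ => ?_
  by_cases hz : ∃ q ∈ A, M.d q z ≤ 3
  · obtain ⟨q, hq, hqz⟩ := hz
    rw [sum_eq_single_of_mem q hq, if_pos hqz, if_pos]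
    · have := M.d_tri y q z
      have := h q hq
      linarith
    · intro p hp hpq
      have h1 := hA p hp q hq hpq
      have h2 := M.d_tri p z q
      rw [M.d_symm z q] at h2
      rw [if_neg]; linarith
  · push Not at hz
    rw [sum_eq_zero fun q hq => by rw [if_neg (not_le.2 (hz q hq))]]
    split_ifs <;> [exact hm z; exact le_rfl]

/-- **claim 1** (item (6) of post 8508): at a stable state a point whose ball of radius `60`
has almost the same mass as its core has a main within `1/64` -/
theorem claim_one {m : Y → ℝ} (hm : ∀ x, 0 ≤ m x) {S : St Y} (hS : M.Stable m S) {y : Y}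
    (hy0 : 0 < M.bm m y (1 / 1024))
    (hy1 : M.bm m y 60 ≤ (1 + 1 / 1000) * M.bm m y (1 / 1024)) :
    ∃ p ∈ S.P, M.d p y ≤ 1 / 64 := by
  by_contra hno
  push Not at hno
  obtain ⟨hOk, hst⟩ := hS
  have h40 := hOk.sep40
  set m' : Y → ℝ := fun x => if M.d y x ≤ 1 / 1024 then 0 else m x with hm'
  have hm'0 : ∀ x, 0 ≤ m' x := fun x => by
    simp only [hm']; split_ifs <;> [exact le_rfl; exact hm x]
  set A : Finset Y := S.P.filter (fun p => M.d p y ≤ 42) with hA
  set F : Finset Y := S.P.filter (fun p => 42 < M.d p y) with hF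
  have hAP : ∀ q ∈ A, q ∈ S.P := fun q hq => (mem_filter.1 hq).1
  have hAd : ∀ q ∈ A, M.d q y ≤ 42 := fun q hq => (mem_filter.1 hq).2
  have hFP : ∀ q ∈ F, q ∈ S.P := fun q hq => (mem_filter.1 hq).1
  have hFd : ∀ q ∈ F, 42 < M.d q y := fun q hq => (mem_filter.1 hq).2
  have hAF : ∀ p ∈ S.P, p ∈ A ∨ p ∈ F := fun p hp => by
    rcases le_or_gt (M.d p y) 42 with h | h
    · exact Or.inl (mem_filter.2 ⟨hp, h⟩)
    · exact Or.inr (mem_filter.2 ⟨hp, h⟩)
  have hFar : M.Far A := fun p hp q hq hpq => h40 p (hAP p hp) q (hAP q hq) hpq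
  set a : Y → ℝ := fun q => M.bm m' q (1 / 16) / (2 * M.bm m' q 3) with ha
  have hbmA : ∀ q, 0 ≤ M.bm m' q (1 / 16) := fun q => M.bm_nonneg hm'0 _ _
  have hbmN : ∀ q, 0 ≤ M.bm m' q 3 := fun q => M.bm_nonneg hm'0 _ _
  have hbmAN : ∀ q, M.bm m' q (1 / 16) ≤ M.bm m' q 3 := fun q =>
    M.bm_mono_r hm'0 _ (by norm_num)
  have ha0 : ∀ q, 0 ≤ a q := fun q => div_nonneg (hbmA q) (by have := hbmN q; linarith)
  have ha1 : ∀ q, a q ≤ 1 / 2 := by
    intro q
    simp only [ha]
    rcases eq_or_lt_of_le (hbmN q) with h | h
    · rw [← h]; simp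
    · rw [div_le_iff₀ (by positivity)]; have := hbmAN q; linarith
  set w' : Y → ℝ := M.mop S.w A a with hw'
  have hop0 : ∀ z, 0 ≤ w' z :=
    p_mop_nonneg hFar hOk.w0 (fun q _ => ha0 q) (fun q _ => by have := ha1 q; linarith)
  have hop1 : ∀ z, M.bm w' z 1 ≤ 1 :=
    bm_mop_le hFar hOk.w0 (fun q _ => ha0 q) (fun q _ => by have := ha1 q; linarith) hOk.pack
  have hyP : y ∉ S.P := fun h => by
    have := hno y h
    rw [M.d_self] at this
    linarith
  set β' : Y → ℝ := Function.update S.β y 0 with hβ'
  have hβy : β' y = 0 := by simp [hβ']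
  have hβF : ∀ p, p ≠ y → β' p = S.β p := fun p hp => by simp [hβ', hp]
  have hFy : ∀ p ∈ F, p ≠ y := fun p hp h => hyP (h ▸ hFP p hp)
  set S' : St Y := ⟨insert y F, β', w'⟩ with hS'
  have hOk' : Ok M S' := by
    constructor
    · intro x
      by_cases hx : x = y
      · subst hx; exact hβy.ge
      · show 0 ≤ β' x
        rw [hβF x hx]; exact hOk.β0 x
    · intro x
      by_cases hx : x = y
      · subst hx; show β' x ≤ 1; rw [hβy]; norm_num
      · show β' x ≤ 1
        rw [hβF x hx]; exact hOk.β1 x
    · exact hop0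
    · exact hop1
    · intro p hp q hq hpq
      show 42 ≤ M.d p q + β' p + β' q
      rcases mem_insert.1 hp with hp | hp
      · rcases mem_insert.1 hq with hq | hq
        · exact absurd (hp.trans hq.symm) hpq
        · rw [hβF q (hFy q hq), hp, hβy]
          have h1 := hFd q hq
          have h2 := hOk.β0 q
          rw [M.d_symm y q]
          linarith
      · rcases mem_insert.1 hq with hq | hq
        · rw [hβF p (hFy p hp), hq, hβy]
          have h1 := hFd p hp
          have h2 := hOk.β0 p
          linarith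
        · rw [hβF p (hFy p hp), hβF q (hFy q hq)]
          exact hOk.sep p (hFP p hp) q (hFP q hq) hpq
  have hD := hst S' hOk'
  have hlog2 := Real.log_two_lt_d9
  -- timer terms
  have hbt'0 : ∀ x, (∀ p ∈ F, 4 ≤ M.d x p) → M.bt S' x = 0 := by
    intro x hx
    unfold bt
    refine sum_eq_zero fun p hp => ?_
    rcases mem_insert.1 hp with hp | hp
    · show β' p * _ = 0
      rw [hp, hβy, zero_mul]
    · rw [cf_eq_zero (hx p hp), mul_zero]
  have hbt'le : ∀ x, M.bt S' x ≤ M.bt S x := by
    intro x
    unfold bt
    have hyF : y ∉ F := fun h => hyP (hFP y h)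
    show ∑ p ∈ insert y F, β' p * cf (M.d x p) ≤ _
    rw [sum_insert hyF, hβy, zero_mul, zero_add]
    calc ∑ p ∈ F, β' p * cf (M.d x p) = ∑ p ∈ F, S.β p * cf (M.d x p) :=
          sum_congr rfl fun p hp => by rw [hβF p (hFy p hp)]
      _ ≤ _ := sum_le_sum_of_subset_of_nonneg (filter_subset _ _)
          fun p _ _ => mul_nonneg (hOk.β0 p) (cf_nonneg _)
  set c₁ : Y → ℝ := fun q => 22 + 16 * Real.log (2 / a q) with hc₁
  have hc₁0 : ∀ q, 0 ≤ c₁ q := by
    intro q
    have : 0 ≤ Real.log (2 / a q) := by
      rcases eq_or_lt_of_le (ha0 q) with h | h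
      · rw [← h]; simp
      · apply Real.log_nonneg
        rw [le_div_iff₀ h]; have := ha1 q; linarith
    simp only [hc₁]; linarith
  set g : Y → Y → ℝ := fun q x =>
    if M.d q x ≤ 1 / 16 then c₁ q else if M.d q x ≤ 3 then 14 else 0 with hg
  have hg0 : ∀ q x, 0 ≤ g q x := by
    intro q x
    simp only [hg]
    split_ifs
    · exact hc₁0 q
    · norm_num
    · exact le_rfl
  have key : ∀ x, m x * (M.U S' x - M.U S x + M.nrm S x S' x) ≤
      (-(2375 / 1000)) * (if M.d y x ≤ 1 / 1024 then m x else 0) +
      (∑ q ∈ A, m' x * g q x) + 2 * (if M.d y x ≤ 60 then m' x else 0) := by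
    intro x
    have hnrm := M.nrm_le_two hOk.w0 hop0 x x (S := S) (S' := S')
    have hL := M.L_nonneg hOk.w0 hOk.pack x
    have hL' : 0 ≤ M.L w' x := M.L_nonneg hop0 hop1 x
    have hU' : M.U S' x = 20 * qf (M.u S'.P x) + 90 * M.bt S' x + zf (M.u S'.P x) * M.L w' x := rfl
    have hU : M.U S x = 20 * qf (M.u S.P x) + 90 * M.bt S x + zf (M.u S.P x) * M.L S.w x := rfl
    have z0 := zf_nonneg (M.u S.P x)
    have z0' := zf_nonneg (M.u S'.P x)
    have z1' := zf_le_one (M.u S'.P x)
    have q1' := qf_le_one (M.u S'.P x)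
    have q0 := qf_nonneg (M.u S.P x)
    have b0 := M.bt_nonneg hOk.β0 x (S := S)
    have p0 : 0 ≤ zf (M.u S.P x) * M.L S.w x := mul_nonneg z0 hL
    by_cases hcore : M.d y x ≤ 1 / 1024
    · -- the core
      have hm'x : m' x = 0 := by simp only [hm']; rw [if_pos hcore]
      rw [if_pos hcore, hm'x]
      have hu' : M.u S'.P x ≤ 1 / 1024 := by
        refine (M.u_le (mem_insert_self y F) x).trans ?_
        rw [M.d_symm]; exact hcore
      have hu : 15 / 1024 ≤ M.u S.P x := by
        refine M.le_u (by norm_num) fun p hp => ?_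
        have h1 := hno p hp
        have h2 := M.d_tri p x y
        rw [M.d_symm p x, M.d_symm x y] at h2
        linarith
      have e1 : qf (M.u S'.P x) ≤ 1 / 1024 := by
        refine (qf_mono (M.u_nonneg _ _) hu').trans ?_
        refine (qf_le_sq _).trans ?_
        norm_num
      have e2 : 225 / 1024 ≤ qf (M.u S.P x) := by
        refine le_trans ?_ (qf_mono (by norm_num) hu)
        rw [qf_eq_sq (by norm_num) (by norm_num)]
        norm_num
      have e3 : zf (M.u S'.P x) = 0 := zf_eq_zero (by linarith)
      have e4 : M.bt S' x = 0 := by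
        refine hbt'0 x fun p hp => ?_
        have h1 := hFd p hp
        have h2 := M.d_tri p x y
        rw [M.d_symm p x, M.d_symm x y] at h2
        linarith
      have e5 : M.U S' x - M.U S x + M.nrm S x S' x ≤ -(2375 / 1000) := by
        rw [hU', hU, e3, e4]
        linarith
      have e6 := mul_le_mul_of_nonneg_left e5 (hm x)
      simp only [zero_mul, sum_const_zero, ite_self, mul_zero, add_zero]
      linarith
    · have hm'x : m' x = m x := by simp only [hm']; rw [if_neg hcore]
      rw [if_neg hcore, hm'x, mul_zero, zero_add]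
      have t0 : 0 ≤ 2 * (if M.d y x ≤ 60 then m x else 0) := by
        split_ifs
        · have := hm x; linarith
        · simp
      by_cases hq : ∃ q ∈ A, M.d q x ≤ 3
      · obtain ⟨q, hq, hqx⟩ := hq
        have hsingle : m x * g q x ≤ ∑ q ∈ A, m x * g q x :=
          single_le_sum (f := fun q => m x * g q x)
            (fun p _ => mul_nonneg (hm x) (hg0 p x)) hq
        have e4 : M.bt S' x = 0 := by
          refine hbt'0 x fun p hp => ?_
          have hqp : q ≠ p := by
            rintro rfl
            have := hAd q hq; have := hFd q hp; linarith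
          have h1 := h40 q (hAP q hq) p (hFP p hp) hqp
          have h2 := M.d_tri q x p
          linarith
        refine le_trans ?_ (le_trans hsingle (by linarith))
        simp only [hg]
        by_cases h1 : M.d q x ≤ 1 / 16
        · rw [if_pos h1]
          rcases eq_or_lt_of_le (hbmA q) with h0 | h0
          · have : m x = 0 := by
              have h2 := M.le_bm hm'0 h1
              rw [hm'x, ← h0] at h2
              exact le_antisymm h2 (hm x)
            rw [this]; simp
          · have ha0' : 0 < a q := by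
              have : 0 < M.bm m' q 3 := lt_of_lt_of_le h0 (hbmAN q)
              simp only [ha]; positivity
            refine mul_le_mul_of_nonneg_left ?_ (hm x)
            have e3 : M.L w' x ≤ 16 * Real.log (2 / a q) := by
              rw [hw', L_mop_near hFar hq (by linarith)]
              exact L_op_le_log hOk.w0 ha0' (by have := ha1 q; linarith) (by linarith)
            have e9 : zf (M.u S'.P x) * M.L w' x ≤ 16 * Real.log (2 / a q) := by
              calc zf (M.u S'.P x) * M.L w' x ≤ 1 * M.L w' x := by gcongr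
                _ ≤ _ := by rw [one_mul]; exact e3
            rw [hU', hU, e4]
            simp only [hc₁]
            linarith
        · rw [if_neg h1, if_pos hqx]
          refine mul_le_mul_of_nonneg_left ?_ (hm x)
          have e3 : M.L w' x ≤ M.L S.w x + 16 * Real.log 2 := by
            rw [hw', L_mop_near hFar hq hqx]
            exact L_op_le_add hOk.w0 (ha0 q) (ha1 q) x
          have hu : 1 / 16 ≤ M.u S.P x := by
            rw [M.u_near h40 (hAP q hq) (by rw [M.d_symm]; linarith), M.d_symm]
            linarith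
          have e9 : zf (M.u S'.P x) * M.L w' x ≤ 1 * M.L w' x := by gcongr
          rw [hU', hU, e4, qf_eq_one (by linarith : 1 / 32 ≤ M.u S.P x), zf_eq_one hu]
          linarith
      · push Not at hq
        have hsum0 : 0 ≤ ∑ q ∈ A, m x * g q x :=
          sum_nonneg fun p _ => mul_nonneg (hm x) (hg0 p x)
        have e5 : M.L w' x = M.L S.w x := L_mop_far hq
        have e1 : min (M.u S'.P x) 3 ≤ min (M.u S.P x) 3 := by
          refine M.u_min_le (by norm_num) fun p hp => ?_
          rcases hAF p hp with h | h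
          · right; rw [M.d_symm]; exact (hq p h).le
          · left; exact mem_insert_of_mem h
        have e2 : qf (M.u S'.P x) ≤ qf (M.u S.P x) := by
          rw [← qf_min (M.u S'.P x), ← qf_min (M.u S.P x)]
          exact qf_mono (le_min (M.u_nonneg _ _) (by norm_num)) e1
        have e3 : zf (M.u S'.P x) ≤ zf (M.u S.P x) := by
          rw [← zf_min (M.u S'.P x), ← zf_min (M.u S.P x)]
          exact zf_mono e1
        have e6 := hbt'le x
        have e7 : zf (M.u S'.P x) * M.L w' x ≤ zf (M.u S.P x) * M.L S.w x := by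
          rw [e5]; exact mul_le_mul_of_nonneg_right e3 hL
        by_cases hd : M.d y x ≤ 1
        · rw [if_pos (by linarith : M.d y x ≤ 60)]
          have : m x * (M.U S' x - M.U S x + M.nrm S x S' x) ≤ m x * 2 := by
            refine mul_le_mul_of_nonneg_left ?_ (hm x)
            rw [hU', hU]
            linarith
          linarith
        · have e8 : M.nrm S x S' x = 0 := by
            refine le_antisymm ?_ (M.nrm_nonneg _ _ _ _)
            refine (M.nrm_le hOk.w0 hop0 x x (S := S) (S' := S')).trans ?_
            have e9 : min (M.u S'.P x) 1 = min (M.u S.P x) 1 := by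
              apply le_antisymm
              · refine M.u_min_le (by norm_num) fun p hp => ?_
                rcases hAF p hp with h | h
                · right; rw [M.d_symm]; have := hq p h; linarith
                · left; exact mem_insert_of_mem h
              · refine M.u_min_le (by norm_num) fun p hp => ?_
                rcases mem_insert.1 hp with h | h
                · right; rw [h, M.d_symm]; exact (not_le.1 hd).le
                · left; exact hFP p h
            have e10 : tf (M.u S'.P x) = tf (M.u S.P x) := by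
              rw [← tf_min_one (M.u S'.P x), e9, tf_min_one]
            rw [e10]
            have : ∀ z, |M.lam S.w x z - M.lam S'.w x z| = 0 := by
              intro z
              have : M.lam S'.w x z = M.lam S.w x z := lam_mop_far hq z
              rw [this]; simp
            simp [this]
          have : m x * (M.U S' x - M.U S x + M.nrm S x S' x) ≤ m x * 0 := by
            refine mul_le_mul_of_nonneg_left ?_ (hm x)
            rw [hU', hU, e8]
            linarith
          linarith
  -- summation
  have hR : M.bm m' y 60 = M.bm m y 60 - M.bm m y (1 / 1024) := by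
    unfold bm
    rw [← sum_sub_distrib]
    refine sum_congr rfl fun x _ => ?_
    simp only [hm']
    by_cases h1 : M.d y x ≤ 1 / 1024
    · rw [if_pos h1, if_pos h1, if_pos (by linarith : M.d y x ≤ 60)]
      split_ifs <;> linarith
    · rw [if_neg h1, if_neg h1]; simp
  have hsumA : ∀ q ∈ A, ∑ x, m' x * g q x ≤ 45 * M.bm m' q 3 := by
    intro q _
    simp only [hg]
    rw [sum_two_zone m' q (by norm_num : (1 : ℝ) / 16 ≤ 3) (c₁ q) 14]
    have h1 := hbmAN q
    rcases eq_or_lt_of_le (hbmA q) with h0 | h0
    · rw [← h0]; have := hbmN q; linarith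
    · have hlog := mul_log_ratio h0 h1
      have : Real.log (2 / a q) = Real.log (2 / (M.bm m' q (1 / 16) / (2 * M.bm m' q 3))) := rfl
      rw [← this] at hlog
      simp only [hc₁]
      nlinarith
  have hfin : M.D m S S' ≤ (-(2375 / 1000)) * M.bm m y (1 / 1024) + 47 * M.bm m' y 60 := by
    calc M.D m S S' ≤ ∑ x, ((-(2375 / 1000)) * (if M.d y x ≤ 1 / 1024 then m x else 0) +
          (∑ q ∈ A, m' x * g q x) + 2 * (if M.d y x ≤ 60 then m' x else 0)) :=
          sum_le_sum fun x _ => key x
      _ = (-(2375 / 1000)) * M.bm m y (1 / 1024) + (∑ q ∈ A, ∑ x, m' x * g q x) +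
          2 * M.bm m' y 60 := by
          rw [sum_add_distrib, sum_add_distrib, ← mul_sum, ← mul_sum, sum_comm]
          rfl
      _ ≤ (-(2375 / 1000)) * M.bm m y (1 / 1024) + (∑ q ∈ A, 45 * M.bm m' q 3) +
          2 * M.bm m' y 60 := by
          have := sum_le_sum hsumA
          linarith
      _ ≤ _ := by
          rw [← mul_sum]
          have := sum_bm_le hm'0 hFar (y := y) (R := 60) fun q hq => by
            have := hAd q hq
            rw [M.d_symm] at this
            linarith
          linarith
  rw [hR] at hfin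
  nlinarith

end IM

end Crest.Agent.R314.G1
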