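import Crest.Agent.R314.G1_A

/-!
R314, module G: growth functional with the cut-off `r` (definition only).
-/

set_option autoImplicit false
set_option linter.unusedSectionVars false

namespace Crest.Agent.R314.G1

open Finset

variable {Y : Type*} [Fintype Y] [DecidableEq Y] (M : IM Y)

namespace IM

/-- growth functional with cut-off `r` (normalised units); `GamR m y 0` is `Gam m y` -/
noncomputable def GamR (m : Y → ℝ) (y : Y) (r : ℝ) : ℝ :=
  (∑ s ∈ range (2 * M.J), Real.log (M.bm m y 60 / M.bm m y (max ((s : ℝ) / (2 * M.J)) r))) /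
    (2 * M.J)

theorem GamR_zero (m : Y → ℝ) (y : Y) : M.GamR m y 0 = M.Gam m y := by
  unfold GamR Gam
  congr 1
  apply sum_congr rfl
  intro s _
  have := M.Jr
  rw [max_eq_left (by positivity)]

end IM

end Crest.Agent.R314.G1
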