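import Mathlib
import Crest.Agent.R314.G1_R
import Crest.Agent.R314.G1_A2

/-!
R314, module G (one scale), block G1_E, part 1: the growth functional with cut-off `r`
and the final dichotomy of claim 2 of GEO1 (helper435, post 8508; cut-off post 8645).
-/

set_option autoImplicit false
set_option linter.unusedSectionVars false

open Finset

namespace Crest.Agent.R314.G1

namespace Ec

variable {Y : Type*} [Fintype Y] [DecidableEq Y] (M : IM Y)

theorem bm_mono {m : Y → ℝ} (hm : ∀ x, 0 ≤ m x) (y : Y) {s t : ℝ} (hst : s ≤ t) :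
    M.bm m y s ≤ M.bm m y t := M.bm_mono_r hm y hst

theorem bm_pos {m : Y → ℝ} (hm : ∀ x, 0 ≤ m x) {y : Y} {r t : ℝ} (hr : 0 < M.bm m y r)
    (h : r ≤ t) : 0 < M.bm m y t := lt_of_lt_of_le hr (bm_mono M hm y h)

theorem GamR_term_nonneg {m : Y → ℝ} (hm : ∀ x, 0 ≤ m x) {y : Y} {r : ℝ} (hr : 0 < M.bm m y r)
    (hr60 : r ≤ 60) {s : ℕ} (hs : s ∈ range (2 * M.J)) :
    0 ≤ Real.log (M.bm m y 60 / M.bm m y (max ((s : ℝ) / (2 * M.J)) r)) := by
  have hJ := M.Jr
  have hs1 : (s : ℝ) / (2 * M.J) ≤ 1 := by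
    rw [div_le_one (by positivity)]
    have := Finset.mem_range.mp hs
    exact_mod_cast this.le
  apply Real.log_nonneg
  rw [le_div_iff₀ (bm_pos M hm hr (le_max_right _ _)), one_mul]
  exact bm_mono M hm y (max_le (by linarith) hr60)

theorem GamR_nonneg {m : Y → ℝ} (hm : ∀ x, 0 ≤ m x) {y : Y} {r : ℝ} (hr : 0 < M.bm m y r)
    (hr60 : r ≤ 60) : 0 ≤ M.GamR m y r := by
  have hJ := M.Jr
  unfold IM.GamR
  apply div_nonneg _ (by positivity)
  exact Finset.sum_nonneg (fun s hs => GamR_term_nonneg M hm hr hr60 hs)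

/-- `Γ^r ≥ σ ln (M(60)/M(σ))` for `r ≤ σ ≤ 1`. -/
theorem GamR_ge {m : Y → ℝ} (hm : ∀ x, 0 ≤ m x) {y : Y} {r σ : ℝ} (hr : 0 < M.bm m y r)
    (hrσ : r ≤ σ) (hσ0 : 0 ≤ σ) (hσ1 : σ ≤ 1) :
    σ * Real.log (M.bm m y 60 / M.bm m y σ) ≤ M.GamR m y r := by
  have hJ := M.Jr
  have pσ := bm_pos M hm hr hrσ
  have hlog : 0 ≤ Real.log (M.bm m y 60 / M.bm m y σ) := by
    apply Real.log_nonneg
    rw [le_div_iff₀ pσ, one_mul]
    exact bm_mono M hm y (by linarith)
  unfold IM.GamR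
  rw [le_div_iff₀ (by positivity)]
  -- number of `s < 2J` with `s ≤ 2Jσ`
  set n : ℕ := min (2 * M.J) (⌊2 * M.J * σ⌋₊ + 1) with hn
  have hnJ : n ≤ 2 * M.J := min_le_left _ _
  have hnσ : 2 * M.J * σ ≤ n := by
    rw [hn, Nat.cast_min, le_min_iff]
    constructor
    · push_cast
      nlinarith
    · push_cast
      exact (Nat.lt_floor_add_one _).le
  have hsub : range n ⊆ range (2 * M.J) := Finset.range_subset_range.mpr hnJ
  calc σ * Real.log (M.bm m y 60 / M.bm m y σ) * (2 * M.J)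
      = (2 * M.J * σ) * Real.log (M.bm m y 60 / M.bm m y σ) := by ring
    _ ≤ n * Real.log (M.bm m y 60 / M.bm m y σ) := by gcongr
    _ = ∑ s ∈ range n, Real.log (M.bm m y 60 / M.bm m y σ) := by simp
    _ ≤ ∑ s ∈ range n, Real.log (M.bm m y 60 / M.bm m y (max ((s : ℝ) / (2 * M.J)) r)) := by
        apply Finset.sum_le_sum
        intro s hs
        have hs1 : s < n := Finset.mem_range.mp hs
        have hs2 : s < ⌊2 * M.J * σ⌋₊ + 1 := lt_of_lt_of_le hs1 (min_le_right _ _)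
        have hs3 : (s : ℝ) ≤ 2 * M.J * σ := by
          have : s ≤ ⌊2 * M.J * σ⌋₊ := Nat.lt_succ_iff.mp hs2
          exact (Nat.le_floor_iff (by positivity)).mp this
        have hs4 : (s : ℝ) / (2 * M.J) ≤ σ := by
          rw [div_le_iff₀ (by positivity)]
          linarith
        apply Real.log_le_log
        · exact div_pos (bm_pos M hm hr (by linarith)) pσ
        · apply div_le_div_of_nonneg_left (M.bm_nonneg hm y _)
            (bm_pos M hm hr (le_max_right _ _))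
          exact bm_mono M hm y (max_le hs4 hrσ)
    _ ≤ ∑ s ∈ range (2 * M.J),
          Real.log (M.bm m y 60 / M.bm m y (max ((s : ℝ) / (2 * M.J)) r)) := by
        apply Finset.sum_le_sum_of_subset_of_nonneg hsub
        intro s hs _
        exact GamR_term_nonneg M hm hr (by linarith) hs

theorem min_d_eq (x y : Y) :
    min (M.d x y) 1 = (∑ s ∈ range (2 * M.J), if (s : ℝ) / (2 * M.J) < M.d x y then (1:ℝ) else 0)
      / (2 * M.J) := by
  have hJ := M.Jr
  have hJ2 : (0:ℝ) < 2 * M.J := by positivity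
  have h1 : ∀ s : ℕ, ((s : ℝ) / (2 * M.J) < M.d x y) ↔ s < M.δ x y := by
    intro s
    unfold IM.d
    rw [div_lt_div_iff_of_pos_right hJ2]
    exact Nat.cast_lt
  simp only [h1]
  rw [← Finset.sum_filter, Finset.sum_const, nsmul_eq_mul, mul_one]
  have h2 : (range (2 * M.J)).filter (fun s => s < M.δ x y) = range (min (M.δ x y) (2 * M.J)) := by
    ext s
    simp only [Finset.mem_filter, Finset.mem_range, lt_min_iff]
    tauto
  rw [h2, Finset.card_range]
  unfold IM.d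
  rw [Nat.cast_min]
  push_cast
  rcases le_total ((M.δ x y : ℝ)) (2 * M.J) with h | h
  · rw [min_eq_left h, min_eq_left]
    rw [div_le_one hJ2]; exact h
  · rw [min_eq_right h, min_eq_right, div_self hJ2.ne']
    rw [le_div_iff₀ hJ2, one_mul]; exact h

theorem sum_min_eq (m : Y → ℝ) (y : Y) {σ : ℝ} (hσ1 : σ ≤ 1) :
    ∑ x, (if σ < M.d y x ∧ M.d y x ≤ 60 then m x * min (M.d y x) 1 else 0) =
      (∑ s ∈ range (2 * M.J), (M.bm m y 60 - M.bm m y (max ((s : ℝ) / (2 * M.J)) σ)))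
        / (2 * M.J) := by
  have hJ := M.Jr
  have hJ2 : (0:ℝ) < 2 * M.J := by positivity
  have e : ∀ x, (if σ < M.d y x ∧ M.d y x ≤ 60 then m x * min (M.d y x) 1 else 0) =
      (∑ s ∈ range (2 * M.J), if (max ((s : ℝ) / (2 * M.J)) σ < M.d y x ∧ M.d y x ≤ 60)
        then m x else 0) / (2 * M.J) := by
    intro x
    split_ifs with h
    · rw [min_d_eq, ← mul_div_assoc, Finset.mul_sum]
      congr 1
      apply Finset.sum_congr rfl
      intro s _
      by_cases h1 : (s : ℝ) / (2 * M.J) < M.d y x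
      · rw [if_pos h1, if_pos ⟨max_lt h1 h.1, h.2⟩, mul_one]
      · rw [if_neg h1, if_neg, mul_zero]
        rintro ⟨h2, _⟩
        exact h1 (lt_of_le_of_lt (le_max_left _ _) h2)
    · symm
      rw [div_eq_zero_iff]
      left
      apply Finset.sum_eq_zero
      intro s _
      rw [if_neg]
      rintro ⟨h2, h3⟩
      exact h ⟨lt_of_le_of_lt (le_max_right _ _) h2, h3⟩
  simp only [e]
  rw [← Finset.sum_div, Finset.sum_comm]
  congr 1
  apply Finset.sum_congr rfl
  intro s hs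
  have hs1 : (s : ℝ) / (2 * M.J) ≤ 1 := by
    rw [div_le_one (by positivity)]
    have := Finset.mem_range.mp hs
    exact_mod_cast this.le
  unfold IM.bm
  rw [← Finset.sum_sub_distrib]
  apply Finset.sum_congr rfl
  intro x _
  by_cases h60 : M.d y x ≤ 60
  · rw [if_pos h60]
    by_cases h1 : M.d y x ≤ max ((s : ℝ) / (2 * M.J)) σ
    · rw [if_pos h1, if_neg]
      · ring
      · rintro ⟨h2, _⟩
        exact absurd h1 (not_le.mpr h2)
    · rw [if_neg h1, if_pos ⟨not_le.mp h1, h60⟩]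
      ring
  · rw [if_neg h60, if_neg (fun h => h60 h.2), if_neg]
    · ring
    · intro h1
      apply h60
      exact h1.trans (max_le (by linarith) (by linarith))

/-- `Σ_{σ<D≤60} m min(D,1) ≤ M(60) Γ^r` for `r ≤ σ ≤ 1`. -/
theorem sum_min_le {m : Y → ℝ} (hm : ∀ x, 0 ≤ m x) {y : Y} {r σ : ℝ}
    (hr : 0 < M.bm m y r) (hrσ : r ≤ σ) (hσ1 : σ ≤ 1) :
    ∑ x, (if σ < M.d y x ∧ M.d y x ≤ 60 then m x * min (M.d y x) 1 else 0) ≤
      M.bm m y 60 * M.GamR m y r := by
  have hJ := M.Jr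
  have hJ2 : (0:ℝ) < 2 * M.J := by positivity
  rw [sum_min_eq M m y hσ1]
  unfold IM.GamR
  rw [← mul_div_assoc, Finset.mul_sum]
  apply div_le_div_of_nonneg_right _ hJ2.le
  apply Finset.sum_le_sum
  intro s hs
  have hs1 : (s : ℝ) / (2 * M.J) ≤ 1 := by
    rw [div_le_one (by positivity)]
    have := Finset.mem_range.mp hs
    exact_mod_cast this.le
  have p60 : 0 < M.bm m y 60 := bm_pos M hm hr (by linarith)
  have pσ : 0 < M.bm m y (max ((s : ℝ) / (2 * M.J)) σ) :=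
    bm_pos M hm hr (le_trans hrσ (le_max_right _ _))
  have pr : 0 < M.bm m y (max ((s : ℝ) / (2 * M.J)) r) := bm_pos M hm hr (le_max_right _ _)
  have h1 : M.bm m y (max ((s : ℝ) / (2 * M.J)) r) ≤ M.bm m y (max ((s : ℝ) / (2 * M.J)) σ) :=
    bm_mono M hm y (max_le_max_left _ hrσ)
  have h2 : Real.log (M.bm m y (max ((s : ℝ) / (2 * M.J)) σ) / M.bm m y 60) ≤
      M.bm m y (max ((s : ℝ) / (2 * M.J)) σ) / M.bm m y 60 - 1 :=
    Real.log_le_sub_one_of_pos (by positivity)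
  have h3 : Real.log (M.bm m y 60 / M.bm m y (max ((s : ℝ) / (2 * M.J)) σ)) ≤
      Real.log (M.bm m y 60 / M.bm m y (max ((s : ℝ) / (2 * M.J)) r)) := by
    apply Real.log_le_log (div_pos p60 pσ)
    exact div_le_div_of_nonneg_left p60.le pr h1
  have h4 : Real.log (M.bm m y (max ((s : ℝ) / (2 * M.J)) σ) / M.bm m y 60) =
      - Real.log (M.bm m y 60 / M.bm m y (max ((s : ℝ) / (2 * M.J)) σ)) := by
    rw [← Real.log_inv, inv_div]
  have h5 : M.bm m y 60 - M.bm m y (max ((s : ℝ) / (2 * M.J)) σ) =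
      M.bm m y 60 * (1 - M.bm m y (max ((s : ℝ) / (2 * M.J)) σ) / M.bm m y 60) := by
    field_simp
  rw [h5]
  apply mul_le_mul_of_nonneg_left _ p60.le
  linarith

/-- **The dichotomy.**  If `s · M(s/4) ≤ K Σ_{s/4 < D ≤ 60} m min(D,1)` then `s ≤ (8+2K) Γ^r`. -/
theorem dichotomy {m : Y → ℝ} (hm : ∀ x, 0 ≤ m x) {y : Y} {r s K : ℝ}
    (hr : 0 < M.bm m y r) (hrs : r ≤ s / 4) (hs0 : 0 ≤ s) (hs1 : s ≤ 4) (hK : 0 ≤ K)
    (h : s * M.bm m y (s / 4) ≤
      K * ∑ x, (if s / 4 < M.d y x ∧ M.d y x ≤ 60 then m x * min (M.d y x) 1 else 0)) :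
    s ≤ (8 + 2 * K) * M.GamR m y r := by
  have p60 : 0 < M.bm m y 60 := bm_pos M hm hr (by linarith)
  have ps : 0 < M.bm m y (s / 4) := bm_pos M hm hr hrs
  have hG : 0 ≤ M.GamR m y r := GamR_nonneg M hm hr (by linarith)
  rcases le_total (M.bm m y 60) (2 * M.bm m y (s / 4)) with h2 | h2
  · have h3 := sum_min_le M hm hr hrs (by linarith : s / 4 ≤ 1)
    have h4 : s * M.bm m y (s / 4) ≤ (K * (2 * M.GamR m y r)) * M.bm m y (s / 4) := by
      calc s * M.bm m y (s / 4) ≤ K * (M.bm m y 60 * M.GamR m y r) :=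
            h.trans (mul_le_mul_of_nonneg_left h3 hK)
        _ ≤ K * ((2 * M.bm m y (s / 4)) * M.GamR m y r) := by gcongr
        _ = (K * (2 * M.GamR m y r)) * M.bm m y (s / 4) := by ring
    have h5 := le_of_mul_le_mul_right h4 ps
    nlinarith
  · have h3 := GamR_ge M hm hr hrs (by linarith : 0 ≤ s / 4) (by linarith : s / 4 ≤ 1)
    have h4 : Real.log 2 ≤ Real.log (M.bm m y 60 / M.bm m y (s / 4)) := by
      apply Real.log_le_log (by norm_num)
      rw [le_div_iff₀ ps]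
      exact h2
    have h5 : (1:ℝ) / 2 ≤ Real.log 2 := by
      have := Real.log_two_gt_d9
      linarith
    have h6 : s / 4 * (1 / 2) ≤ M.GamR m y r := by
      refine le_trans ?_ h3
      apply mul_le_mul_of_nonneg_left _ (by linarith)
      linarith
    have h7 : 0 ≤ K * M.GamR m y r := mul_nonneg hK hG
    nlinarith

end Ec

end Crest.Agent.R314.G1
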