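import Mathlib
import Crest.Agent.R314.G1_A2

/-!
R314, module G (one scale), block G1_E, part 3: the collective exposure bound.
From the KKT inequality at `p` (all `a` at once):
`Σ_{B(p,1/2), rf>0} m √ζ L ≤ 16 (5 E' + 2(c+1) N)`.
-/

set_option autoImplicit false
set_option linter.unusedSectionVars false

open Finset

namespace Crest.Agent.R314.G1

namespace Ec

variable {Y : Type*} [Fintype Y] [DecidableEq Y] (M : IM Y)

/-- pointwise lower bound for the KKT integrand -/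
theorem E_log_ge {w : Y → ℝ} (hw : ∀ x, 0 ≤ w x) (hp : ∀ y, M.bm w y 1 ≤ 1) (z : Y) {a : ℝ}
    (ha0 : 0 < a) (ha : a ≤ 1 / 2) :
    max (M.E (M.psi w z) - Real.log (2 / a)) 0 - a ≤
      M.E (fun s => Real.log (1 - a + a / M.W w z (M.rad s))) := by
  have hW : ∀ s < M.J, 0 < M.W w z (M.rad s) := fun s _ => M.W_pos hw z (M.rad_nonneg s)
  have hW2 : ∀ s < M.J, M.W w z (M.rad s) ≤ 2 :=
    fun s hs => M.W_le_two hw hp z (M.rad_le_one hs.le)
  have h1 : M.E (M.psi w z) - Real.log (2 / a) ≤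
      M.E (fun s => Real.log (1 - a + a / M.W w z (M.rad s))) := by
    rw [← M.E_const (Real.log (2 / a)), ← M.E_sub]
    apply M.E_mono
    intro s hs
    have := hW s hs
    unfold IM.psi
    rw [← Real.log_div (by positivity) (by positivity)]
    have e : (2 / M.W w z (M.rad s)) / (2 / a) = a / M.W w z (M.rad s) := by
      field_simp
    rw [e]
    apply Real.log_le_log (by positivity)
    linarith
  have h2 : -a ≤ M.E (fun s => Real.log (1 - a + a / M.W w z (M.rad s))) := by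
    rw [← M.E_const (-a)]
    apply M.E_mono
    intro s hs
    have h3 := hW s hs
    have h4 := hW2 s hs
    have h5 : a / 2 ≤ a / M.W w z (M.rad s) := div_le_div_of_nonneg_left ha0.le h3 h4
    have h6 : Real.log (1 - a / 2) ≤ Real.log (1 - a + a / M.W w z (M.rad s)) := by
      apply Real.log_le_log (by linarith)
      linarith
    have h7 : -a ≤ Real.log (1 - a / 2) := by
      have h8 := Real.one_sub_inv_le_log_of_pos (show 0 < 1 - a / 2 by linarith)
      have h9 : -a ≤ 1 - (1 - a / 2)⁻¹ := by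
        have h10 : (1 - a / 2)⁻¹ ≤ 1 + a := by
          rw [inv_le_comm₀ (by linarith) (by linarith)]
          rw [inv_eq_one_div, div_le_iff₀ (by linarith)]
          nlinarith
        linarith
      linarith
    linarith
  rcases le_total (M.E (M.psi w z) - Real.log (2 / a)) 0 with h | h
  · rw [max_eq_right h]; linarith
  · rw [max_eq_left h]; linarith

/-- the truncated form of KKT -/
theorem kkt_pos {w : Y → ℝ} (hw : ∀ x, 0 ≤ w x) (hp : ∀ y, M.bm w y 1 ≤ 1)
    {ν : Y → ℝ} (hν : ∀ x, 0 ≤ ν x) (p : Y) {a c : ℝ} (ha0 : 0 < a) (ha : a ≤ 1 / 2)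
    (hK : ∑ z, (if M.d p z ≤ 1 / 2 then
      ν z * M.E (fun s => Real.log (1 - a + a / M.W w z (M.rad s))) else 0) ≤
        c * a * M.bm ν p 3) :
    ∑ z, (if M.d p z ≤ 1 / 2 then ν z * max (M.E (M.psi w z) - Real.log (2 / a)) 0 else 0) ≤
      (c + 1) * a * M.bm ν p 3 := by
  have h1 : ∑ z, (if M.d p z ≤ 1 / 2 then ν z * max (M.E (M.psi w z) - Real.log (2 / a)) 0
      else 0) ≤ ∑ z, (if M.d p z ≤ 1 / 2 then
      ν z * M.E (fun s => Real.log (1 - a + a / M.W w z (M.rad s))) else 0) +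
      a * M.bm ν p (1 / 2) := by
    unfold IM.bm
    rw [mul_sum, ← sum_add_distrib]
    apply sum_le_sum
    intro z _
    split_ifs with h
    · have := E_log_ge M hw hp z ha0 ha
      have := mul_le_mul_of_nonneg_left this (hν z)
      linarith
    · simp
  have h2 : M.bm ν p (1 / 2) ≤ M.bm ν p 3 := M.bm_mono_r hν p (by norm_num)
  have h3 : a * M.bm ν p (1 / 2) ≤ a * M.bm ν p 3 := by gcongr
  calc _ ≤ _ := h1
    _ ≤ c * a * M.bm ν p 3 + a * M.bm ν p 3 := add_le_add hK h3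
    _ = _ := by ring

theorem exists_dyadic {ρ : ℝ} (h0 : 0 < ρ) (h1 : ρ ≤ 1) :
    ∃ l : ℕ, ρ * (2:ℝ) ^ l ≤ 1 ∧ 1 ≤ ρ * (2:ℝ) ^ (l + 1) := by
  obtain ⟨n, hn1, hn2⟩ := exists_nat_pow_near (show (1:ℝ) ≤ 1 / ρ by
    rw [le_div_iff₀ h0]; linarith) (show (1:ℝ) < 2 by norm_num)
  refine ⟨n, ?_, ?_⟩
  · rw [le_div_iff₀ h0] at hn1
    linarith
  · rw [div_lt_iff₀ h0] at hn2
    linarith

theorem log_four_sixteen (l : ℕ) : Real.log (2 / ((1:ℝ) / 2 * (1 / 16) ^ l)) ≤ 2 + 3 * l := by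
  have e : (2:ℝ) / ((1:ℝ) / 2 * (1 / 16) ^ l) = 2 ^ (2 + 4 * l) := by
    have h16 : ((1:ℝ) / 16) ^ l * 16 ^ l = 1 := by
      rw [← mul_pow]; norm_num
    have h16' : (2:ℝ) ^ (2 + 4 * l) = 4 * 16 ^ l := by
      rw [pow_add, pow_mul]; norm_num
    have hpos : (0:ℝ) < (1 / 16) ^ l := by positivity
    rw [h16', div_eq_iff (by positivity)]
    linear_combination (-2) * h16
  rw [e, Real.log_pow]
  have h2 := Real.log_two_lt_d9
  have h3 : (0:ℝ) ≤ l := by positivity
  push_cast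
  nlinarith

/-- **Collective exposure bound.** `rr` is any function with `0 ≤ rr ≤ 1`, `ν = rr² m`. -/
theorem expo_sum {w : Y → ℝ} (hw : ∀ x, 0 ≤ w x) (hp : ∀ y, M.bm w y 1 ≤ 1)
    {m rr : Y → ℝ} (hm : ∀ x, 0 ≤ m x) (hr0 : ∀ x, 0 ≤ rr x) (hr1 : ∀ x, rr x ≤ 1)
    (p : Y) {c : ℝ} (hc : 0 ≤ c)
    (hK : ∀ a : ℝ, 0 < a → a ≤ 1 / 2 → ∑ z, (if M.d p z ≤ 1 / 2 then
      (rr z ^ 2 * m z) * M.E (fun s => Real.log (1 - a + a / M.W w z (M.rad s))) else 0) ≤
        c * a * M.bm (fun z => rr z ^ 2 * m z) p 3) :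
    ∑ z, (if M.d p z ≤ 1 / 2 then m z * (rr z * M.L w z) else 0) ≤
      80 * ∑ z, (if M.d p z ≤ 1 / 2 ∧ 0 < rr z then m z else 0) +
        20 * (c + 1) * M.bm (fun z => rr z ^ 2 * m z) p 3 := by
  classical
  set ν : Y → ℝ := fun z => rr z ^ 2 * m z with hνdef
  have hν : ∀ x, 0 ≤ ν x := fun x => mul_nonneg (sq_nonneg _) (hm x)
  have hN : 0 ≤ M.bm ν p 3 := M.bm_nonneg hν p 3
  -- dyadic index
  have hex : ∀ z, ∃ l : ℕ, 0 < rr z → rr z * (2:ℝ) ^ l ≤ 1 ∧ 1 ≤ rr z * (2:ℝ) ^ (l + 1) := by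
    intro z
    by_cases h : 0 < rr z
    · obtain ⟨l, hl⟩ := exists_dyadic h (hr1 z)
      exact ⟨l, fun _ => hl⟩
    · exact ⟨0, fun h' => absurd h' h⟩
  choose l hl using hex
  obtain ⟨K, hKl⟩ : ∃ K : ℕ, ∀ z, l z < K := by
    refine ⟨univ.sup l + 1, fun z => ?_⟩
    exact Nat.lt_succ_of_le (le_sup (mem_univ z))
  have hEpsi : ∀ z, 0 ≤ M.E (M.psi w z) :=
    fun z => M.E_nonneg fun s hs => M.psi_nonneg hw hp z hs.le
  -- pointwise
  have hpt : ∀ z, (if M.d p z ≤ 1 / 2 then m z * (rr z * M.E (M.psi w z)) else 0) ≤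
      5 * (if M.d p z ≤ 1 / 2 ∧ 0 < rr z then m z else 0) +
      ∑ i ∈ range K, (2:ℝ) ^ (i + 1) * (if M.d p z ≤ 1 / 2 then
        ν z * max (M.E (M.psi w z) - Real.log (2 / (1 / 2 * (1 / 16) ^ i))) 0 else 0) := by
    intro z
    by_cases hz : M.d p z ≤ 1 / 2
    swap
    · rw [if_neg hz, if_neg (fun h => hz h.1)]
      have : ∑ i ∈ range K, (2:ℝ) ^ (i + 1) * (if M.d p z ≤ 1 / 2 then
        ν z * max (M.E (M.psi w z) - Real.log (2 / (1 / 2 * (1 / 16) ^ i))) 0 else 0) = 0 := by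
        apply sum_eq_zero
        intro i _
        rw [if_neg hz, mul_zero]
      rw [this]; norm_num
    · by_cases hr : 0 < rr z
      swap
      · have h0 : rr z = 0 := le_antisymm (not_lt.mp hr) (hr0 z)
        rw [if_pos hz, if_neg (fun h => hr h.2), h0]
        have : 0 ≤ ∑ i ∈ range K, (2:ℝ) ^ (i + 1) * (if M.d p z ≤ 1 / 2 then
          ν z * max (M.E (M.psi w z) - Real.log (2 / (1 / 2 * (1 / 16) ^ i))) 0 else 0) := by
          apply sum_nonneg
          intro i _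
          rw [if_pos hz]
          have := hν z
          have := le_max_right (M.E (M.psi w z) - Real.log (2 / (1 / 2 * (1 / 16) ^ i))) 0
          positivity
        linarith
      · obtain ⟨h1, h2⟩ := hl z hr
        rw [if_pos hz, if_pos ⟨hz, hr⟩]
        have hsingle : (2:ℝ) ^ (l z + 1) * (if M.d p z ≤ 1 / 2 then
            ν z * max (M.E (M.psi w z) - Real.log (2 / (1 / 2 * (1 / 16) ^ (l z)))) 0 else 0) ≤
            ∑ i ∈ range K, (2:ℝ) ^ (i + 1) * (if M.d p z ≤ 1 / 2 then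
          ν z * max (M.E (M.psi w z) - Real.log (2 / (1 / 2 * (1 / 16) ^ i))) 0 else 0) := by
          apply single_le_sum (f := fun i => (2:ℝ) ^ (i + 1) * (if M.d p z ≤ 1 / 2 then
          ν z * max (M.E (M.psi w z) - Real.log (2 / (1 / 2 * (1 / 16) ^ i))) 0 else 0))
          · intro i _
            rw [if_pos hz]
            have := hν z
            have := le_max_right (M.E (M.psi w z) - Real.log (2 / (1 / 2 * (1 / 16) ^ i))) 0
            positivity
          · exact mem_range.mpr (hKl z)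
        refine le_trans ?_ (add_le_add_right hsingle _)
        rw [if_pos hz]
        set Λ := M.E (M.psi w z) with hΛ
        set X := max (Λ - Real.log (2 / (1 / 2 * (1 / 16) ^ (l z)))) 0 with hX
        have hX0 : 0 ≤ X := le_max_right _ _
        have hX1 : Λ ≤ Real.log (2 / (1 / 2 * (1 / 16) ^ (l z))) + X := by
          have := le_max_left (Λ - Real.log (2 / (1 / 2 * (1 / 16) ^ (l z)))) 0
          linarith
        have hlog := log_four_sixteen (l z)
        have hρl : rr z * (l z : ℝ) ≤ 1 := by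
          have h3 : ((l z : ℕ) : ℝ) ≤ (2:ℝ) ^ (l z) := by
            exact_mod_cast (Nat.lt_two_pow_self (n := l z)).le
          calc rr z * (l z : ℝ) ≤ rr z * (2:ℝ) ^ (l z) := by gcongr
            _ ≤ 1 := h1
        have h4 : rr z * Λ ≤ 5 + rr z * X := by
          have h5 : rr z * Λ ≤ rr z * ((2 + 3 * (l z : ℝ)) + X) := by
            apply mul_le_mul_of_nonneg_left _ hr.le
            linarith
          have h6 := hr1 z
          nlinarith
        have h7 : rr z * X ≤ (2:ℝ) ^ (l z + 1) * (rr z ^ 2 * X) := by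
          have h8 : rr z * X * 1 ≤ rr z * X * (rr z * (2:ℝ) ^ (l z + 1)) := by gcongr
          nlinarith
        calc m z * (rr z * Λ) ≤ m z * (5 + (2:ℝ) ^ (l z + 1) * (rr z ^ 2 * X)) := by
              apply mul_le_mul_of_nonneg_left _ (hm z)
              linarith
          _ = 5 * m z + (2:ℝ) ^ (l z + 1) * (ν z * X) := by
              simp only [hνdef]; ring
  -- summation
  have hsum : ∑ z, (if M.d p z ≤ 1 / 2 then m z * (rr z * M.E (M.psi w z)) else 0) ≤
      5 * ∑ z, (if M.d p z ≤ 1 / 2 ∧ 0 < rr z then m z else 0) +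
      ∑ i ∈ range K, (2:ℝ) ^ (i + 1) * ((c + 1) * (1 / 2 * (1 / 16) ^ i) * M.bm ν p 3) := by
    calc _ ≤ ∑ z, (5 * (if M.d p z ≤ 1 / 2 ∧ 0 < rr z then m z else 0) +
      ∑ i ∈ range K, (2:ℝ) ^ (i + 1) * (if M.d p z ≤ 1 / 2 then
        ν z * max (M.E (M.psi w z) - Real.log (2 / (1 / 2 * (1 / 16) ^ i))) 0 else 0)) :=
          sum_le_sum fun z _ => hpt z
      _ = 5 * ∑ z, (if M.d p z ≤ 1 / 2 ∧ 0 < rr z then m z else 0) +
        ∑ i ∈ range K, (2:ℝ) ^ (i + 1) * ∑ z, (if M.d p z ≤ 1 / 2 then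
        ν z * max (M.E (M.psi w z) - Real.log (2 / (1 / 2 * (1 / 16) ^ i))) 0 else 0) := by
          rw [sum_add_distrib, ← mul_sum, sum_comm]
          congr 1
          apply sum_congr rfl
          intro i _
          rw [mul_sum]
      _ ≤ _ := by
          gcongr with i hi
          apply kkt_pos M hw hp hν p (a := 1 / 2 * (1 / 16) ^ i) (by positivity)
          · have : ((1:ℝ) / 16) ^ i ≤ 1 := pow_le_one₀ (by norm_num) (by norm_num)
            linarith
          · apply hK _ (by positivity)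
            have : ((1:ℝ) / 16) ^ i ≤ 1 := pow_le_one₀ (by norm_num) (by norm_num)
            linarith
  have hgeo : ∑ i ∈ range K, (2:ℝ) ^ (i + 1) * ((c + 1) * (1 / 2 * (1 / 16) ^ i) * M.bm ν p 3) ≤
      8 / 7 * ((c + 1) * M.bm ν p 3) := by
    have e : ∀ i ∈ range K, (2:ℝ) ^ (i + 1) * ((c + 1) * (1 / 2 * (1 / 16) ^ i) * M.bm ν p 3) =
        (1 / 8) ^ i * ((c + 1) * M.bm ν p 3) := by
      intro i _
      have h1 : ((1:ℝ) / 8) ^ i = (2:ℝ) ^ i * (1 / 16) ^ i := by
        rw [← mul_pow]; norm_num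
      rw [h1, pow_succ]
      ring
    rw [sum_congr rfl e, ← sum_mul]
    apply mul_le_mul_of_nonneg_right _ (by positivity)
    have h1 : ∑ i ∈ range K, ((1:ℝ) / 8) ^ i ≤ (1 - 1 / 8)⁻¹ := by
      rw [← tsum_geometric_of_lt_one (by norm_num) (by norm_num : (1:ℝ) / 8 < 1)]
      exact Summable.sum_le_tsum _ (fun i _ => by positivity)
        (summable_geometric_of_lt_one (by norm_num) (by norm_num))
    norm_num at h1 ⊢
    exact h1
  have hE : ∀ z, (if M.d p z ≤ 1 / 2 then m z * (rr z * M.L w z) else 0) =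
      16 * (if M.d p z ≤ 1 / 2 then m z * (rr z * M.E (M.psi w z)) else 0) := by
    intro z
    unfold IM.L
    split_ifs
    · ring
    · ring
  simp only [hE]
  rw [← mul_sum]
  have h9 : 0 ≤ (c + 1) * M.bm ν p 3 := by positivity
  linarith

end Ec

end Crest.Agent.R314.G1
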