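import Mathlib
import Crest.Agent.R314.G1_A2

/-!
R314, module G (one scale), block G1_E, part 2: scalar inequalities for the move of a main
over a distance `s`.
-/

set_option autoImplicit false
set_option linter.unusedSectionVars false

namespace Crest.Agent.R314.G1

namespace Ec

theorem move_core {s t t' : ℝ} (hs0 : 0 ≤ s) (hs : s ≤ 1 / 64) (ht' : 0 ≤ t') (h1 : t' ≤ s / 4)
    (h2 : s - t' ≤ t) (h3 : t ≤ t' + s) : 20 * (qf t' - qf t) ≤ -(10240 * s ^ 2) := by
  have e1 : qf t' ≤ 64 * s ^ 2 := by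
    refine (qf_le_sq t').trans ?_
    nlinarith
  have e2 : qf t = (32 * t) ^ 2 := qf_eq_sq (by linarith) (by linarith)
  have e3 : 3 / 4 * s ≤ t := by linarith
  have e4 : 576 * s ^ 2 ≤ (32 * t) ^ 2 := by nlinarith
  linarith

theorem move_qf {s t t' : ℝ} (hs : s ≤ 1 / 64) (h1 : s / 4 < t')
    (ht : 0 ≤ t) (h2 : |t - t'| ≤ s) : 20 * (qf t' - qf t) ≤ 122880 * s * min t' 1 := by
  rw [abs_le] at h2
  have hs0 : 0 ≤ s := by linarith [h2.1, h2.2]
  have ht' : 0 ≤ t' := by linarith
  rcases le_total (1 / 32) t with h | h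
  · rw [qf_eq_one h]
    have := qf_le_one t'
    have : 0 ≤ 122880 * s * min t' 1 := by
      have := le_min ht' zero_le_one
      positivity
    linarith
  · have h3 : t' ≤ 1 := by linarith
    rw [min_eq_left h3, qf_eq_sq ht h]
    have h4 := qf_le_sq t'
    have h5 : t' ^ 2 - t ^ 2 ≤ s * (6 * t') := by
      have : t' ^ 2 - t ^ 2 = (t' - t) * (t' + t) := by ring
      rw [this]
      rcases le_total t' t with h6 | h6
      · have : (t' - t) * (t' + t) ≤ 0 := by
          apply mul_nonpos_of_nonpos_of_nonneg <;> linarith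
        have : 0 ≤ s * (6 * t') := by positivity
        linarith
      · apply mul_le_mul <;> linarith
    nlinarith

theorem move_cf {s t t' β : ℝ} (hs : s ≤ 1 / 64) (hβ0 : 0 ≤ β) (hβ1 : β ≤ 1)
    (ht' : 0 ≤ t') (h2 : |t - t'| ≤ s) :
    90 * (β * cf t' - β * cf t) ≤ 90 * s * min t' 1 := by
  have hs0 : 0 ≤ s := (abs_nonneg _).trans h2
  have h2' := abs_le.mp h2
  have hmin := le_min ht' zero_le_one
  rcases le_total t' 1 with h | h
  · have e1 : cf t' = 1 := cf_eq_one (by linarith)
    have e2 : cf t = 1 := cf_eq_one (by linarith [h2'.1, h2'.2])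
    rw [e1, e2]
    have : 0 ≤ 90 * s * min t' 1 := by positivity
    linarith
  · rw [min_eq_right h]
    have e1 := cf_lip t' t
    rw [abs_sub_comm] at e1
    have e2 : cf t' - cf t ≤ s := by linarith
    have e3 : β * (cf t' - cf t) ≤ s := by
      rcases le_total (cf t' - cf t) 0 with h5 | h5
      · have : β * (cf t' - cf t) ≤ 0 := mul_nonpos_of_nonneg_of_nonpos hβ0 h5
        linarith
      · calc β * (cf t' - cf t) ≤ 1 * (cf t' - cf t) := by gcongr
          _ ≤ s := by linarith
    linarith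

theorem move_tf {s t t' : ℝ} (hs : s ≤ 1 / 64) (ht' : 0 ≤ t') (h2 : |t - t'| ≤ s) :
    2 * |tf t - tf t'| ≤ 147 * s * min t' 1 := by
  have hs0 : 0 ≤ s := (abs_nonneg _).trans h2
  have h2' := abs_le.mp h2
  have hmin := le_min ht' zero_le_one
  have hR : 0 ≤ 147 * s * min t' 1 := by positivity
  rcases le_total t' (7 / 64) with h | h
  · have e1 : tf t' = 0 := tf_eq_zero (by linarith)
    have e2 : tf t = 0 := tf_eq_zero (by linarith [h2'.1, h2'.2])
    rw [e1, e2]
    simpa using hR
  · have e1 := tf_lip t t'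
    have e2 : 2 * |tf t - tf t'| ≤ 16 * s := by linarith
    refine e2.trans ?_
    have e3 : 7 / 64 ≤ min t' 1 := le_min h (by norm_num)
    have e4 : 147 * s * (7 / 64) ≤ 147 * s * min t' 1 := by gcongr
    linarith

theorem log_aux {s : ℝ} (hs0 : 0 < s) :
    s * (16 * Real.log (2 / (512 * s ^ 2))) ≤ 2 := by
  have e : (2 : ℝ) / (512 * s ^ 2) = (1 / (16 * s)) ^ 2 := by
    field_simp
    norm_num
  rw [e, Real.log_pow]
  have h1 : Real.log (1 / (16 * s)) ≤ 1 / (16 * s) := by
    have := Real.log_le_sub_one_of_pos (show (0:ℝ) < 1 / (16 * s) by positivity)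
    linarith
  have h2 : s * (16 * (((2:ℕ) : ℝ) * Real.log (1 / (16 * s)))) ≤
      s * (16 * (((2:ℕ) : ℝ) * (1 / (16 * s)))) := by gcongr
  refine h2.trans (le_of_eq ?_)
  push_cast
  field_simp

theorem move_zf {s t t' Λ : ℝ} (hs0 : 0 < s) (hs : s ≤ 1 / 64) (ht' : 0 ≤ t')
    (h2 : |t - t'| ≤ s) (hΛ0 : 0 ≤ Λ) (hΛ : t ≤ 1 / 2 → Λ ≤ 16 * Real.log (2 / (512 * s ^ 2))) :
    (zf t' - zf t) * Λ ≤ 262144 * s * min t' 1 +
      (if 32 * s ≤ rf t ∧ t ≤ 1 / 16 then 96 * s * (rf t * Λ) else 0) := by
  have h2' := abs_le.mp h2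
  have hmin := le_min ht' zero_le_one
  have hR : 0 ≤ 262144 * s * min t' 1 := by positivity
  have hrf := rf_nonneg t
  have hI : 0 ≤ (if 32 * s ≤ rf t ∧ t ≤ 1 / 16 then 96 * s * (rf t * Λ) else 0) := by
    split_ifs
    · positivity
    · exact le_rfl
  rcases le_total (zf t') (zf t) with h | h
  · have : (zf t' - zf t) * Λ ≤ 0 := mul_nonpos_of_nonpos_of_nonneg (by linarith) hΛ0
    linarith
  · rcases le_total t' (1 / 32) with h3 | h3
    · rw [zf_eq_zero h3]
      have := zf_nonneg t
      have : (0 - zf t) * Λ ≤ 0 := mul_nonpos_of_nonpos_of_nonneg (by linarith) hΛ0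
      linarith
    · rcases lt_or_ge (1 / 16) t with h4 | h4
      · rw [zf_eq_one h4.le]
        have := zf_le_one t'
        have : (zf t' - 1) * Λ ≤ 0 := mul_nonpos_of_nonpos_of_nonneg (by linarith) hΛ0
        linarith
      · have hrf' : rf t' ≤ rf t + 32 * s := by
          have := rf_lip t' t
          rw [abs_sub_comm] at this
          linarith
        have hrf'0 := rf_nonneg t'
        rcases lt_or_ge (rf t) (32 * s) with h5 | h5
        · -- small exposure
          have e1 : zf t' ≤ 4096 * s ^ 2 := by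
            unfold zf
            have : rf t' ≤ 64 * s := by linarith
            nlinarith
          have e2 : (zf t' - zf t) * Λ ≤ 4096 * s ^ 2 * Λ := by
            have := zf_nonneg t
            apply mul_le_mul_of_nonneg_right _ hΛ0
            linarith
          have e3 : s * Λ ≤ 2 := by
            refine le_trans ?_ (log_aux hs0)
            exact mul_le_mul_of_nonneg_left (hΛ (by linarith)) hs0.le
          have e4 : 4096 * s ^ 2 * Λ ≤ 8192 * s := by nlinarith
          have e5 : 1 / 32 ≤ min t' 1 := le_min h3 (by norm_num)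
          have e6 : 8192 * s ≤ 262144 * s * min t' 1 := by
            have : 262144 * s * (1 / 32) ≤ 262144 * s * min t' 1 := by gcongr
            linarith
          linarith
        · rw [if_pos ⟨h5, h4⟩]
          have e1 : zf t' - zf t ≤ 96 * s * rf t := by
            unfold zf
            nlinarith
          have e2 : (zf t' - zf t) * Λ ≤ 96 * s * rf t * Λ :=
            mul_le_mul_of_nonneg_right e1 hΛ0
          linarith

end Ec

end Crest.Agent.R314.G1
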