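import Mathlib
import Crest.Agent.R314.G1_A2
import Crest.Agent.R314.G1_E2

/-!
R314, module G (one scale), block G1_E, part 4: the move of a main `p` to a point `y` at
distance `s ≤ 1/64`; the timers of the other mains within `42` of `y` grow by `s`.
-/

set_option autoImplicit false
set_option linter.unusedSectionVars false

open Finset

namespace Crest.Agent.R314.G1

namespace Ec

variable {Y : Type*} [Fintype Y] [DecidableEq Y] (M : IM Y)

/-- new timers -/
noncomputable def mvβ (S : St Y) (p y : Y) (z : Y) : ℝ :=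
  if z = y then S.β p else if M.d y z < 42 then min 1 (S.β z + M.d p y) else S.β z

/-- the state after moving the main `p` to `y` -/
noncomputable def mv (S : St Y) (p y : Y) : St Y :=
  ⟨insert y (S.P.erase p), mvβ M S p y, S.w⟩

variable {M}

theorem mvβ_self (S : St Y) (p y : Y) : mvβ M S p y y = S.β p := by
  unfold mvβ; rw [if_pos rfl]

theorem le_mvβ {S : St Y} (hS : Ok M S) {p y z : Y} (h : z ≠ y) : S.β z ≤ mvβ M S p y z := by
  unfold mvβ
  rw [if_neg h]
  split_ifs
  · have h1 := hS.β1 z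
    have h2 := M.d_nonneg p y
    exact le_min h1 (by linarith)
  · exact le_rfl

theorem mvβ_le {S : St Y} {p y z : Y} (h : z ≠ y) : mvβ M S p y z ≤ S.β z + M.d p y := by
  unfold mvβ
  rw [if_neg h]
  split_ifs
  · exact min_le_right _ _
  · have := M.d_nonneg p y
    linarith

theorem mvβ_far {S : St Y} {p y z : Y} (h : z ≠ y) (h' : 42 ≤ M.d y z) :
    mvβ M S p y z = S.β z := by
  unfold mvβ
  rw [if_neg h, if_neg (not_lt.mpr h')]

theorem mv_ok {S : St Y} (hS : Ok M S) {p y : Y} (hp : p ∈ S.P)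
    (hβ : ∀ q ∈ S.P, q ≠ p → M.d y q < 42 → S.β q + M.d p y ≤ 1) : Ok M (mv M S p y) := by
  have hs := M.d_nonneg p y
  have key : ∀ q ∈ S.P, q ≠ p → q ≠ y → 42 ≤ M.d y q + S.β p + mvβ M S p y q := by
    intro q hq hqp hqy
    by_cases h : M.d y q < 42
    · have h1 := hβ q hq hqp h
      have e : mvβ M S p y q = S.β q + M.d p y := by
        unfold mvβ
        rw [if_neg hqy, if_pos h, min_eq_right h1]
      have h2 := hS.sep p hp q hq (Ne.symm hqp)
      have h3 := M.d_tri p y q
      linarith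
    · have h1 := le_mvβ (p := p) hS hqy
      have h2 := hS.β0 p
      have h3 := hS.β0 q
      linarith [not_lt.mp h]
  refine ⟨?_, ?_, hS.w0, hS.pack, ?_⟩
  · intro z
    show 0 ≤ mvβ M S p y z
    by_cases hz : z = y
    · rw [hz, mvβ_self]; exact hS.β0 p
    · exact (hS.β0 z).trans (le_mvβ hS hz)
  · intro z
    show mvβ M S p y z ≤ 1
    unfold mvβ
    split_ifs
    · exact hS.β1 p
    · exact min_le_left _ _
    · exact hS.β1 z
  · intro q hq q' hq' hne
    show 42 ≤ M.d q q' + mvβ M S p y q + mvβ M S p y q'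
    have hq : q = y ∨ q ∈ S.P.erase p := mem_insert.mp hq
    have hq' : q' = y ∨ q' ∈ S.P.erase p := mem_insert.mp hq'
    by_cases h1 : q = y
    · have h2 : q' ≠ y := fun h => hne (h1.trans h.symm)
      have h3 := mem_erase.mp (hq'.resolve_left h2)
      rw [h1, mvβ_self]
      exact key q' h3.2 h3.1 h2
    · by_cases h2 : q' = y
      · have h3 := mem_erase.mp (hq.resolve_left h1)
        rw [h2, mvβ_self, M.d_symm q y]
        have := key q h3.2 h3.1 h1
        linarith
      · have h3 := mem_erase.mp (hq.resolve_left h1)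
        have h4 := mem_erase.mp (hq'.resolve_left h2)
        have h5 := hS.sep q h3.2 q' h4.2 hne
        have h6 := le_mvβ (p := p) hS h1
        have h7 := le_mvβ (p := p) hS h2
        linarith

/-- price of a change of the mains and timers at fixed weights -/
theorem price_eq {S S' : St Y} (hw : ∀ x, 0 ≤ S.w x) (hww : S'.w = S.w) (x : Y) :
    M.U S' x - M.U S x + M.nrm S x S' x ≤
      20 * (qf (M.u S'.P x) - qf (M.u S.P x)) + 90 * (M.bt S' x - M.bt S x) +
        (zf (M.u S'.P x) - zf (M.u S.P x)) * M.L S.w x +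
        2 * |tf (M.u S.P x) - tf (M.u S'.P x)| := by
  have h1 := M.nrm_le (S := S) (S' := S') hw (by rw [hww]; exact hw) x x
  rw [hww] at h1
  have h2 : ∑ z, |M.lam S.w x z - M.lam S.w x z| = 0 := by simp
  rw [h2, mul_zero, add_zero] at h1
  unfold IM.U
  rw [hww]
  linarith

/-- the pointwise bound for the move, near `y` -/
theorem mv_near {S : St Y} (hS : Ok M S) {p y : Y} (hp : p ∈ S.P)
    (hβ : ∀ q ∈ S.P, q ≠ p → M.d y q < 42 → S.β q + M.d p y ≤ 1) (hs0 : 0 < M.d p y)
    (hs : M.d p y ≤ 1 / 64)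
    (hL : ∀ x, M.d p x ≤ 1 / 2 → M.L S.w x ≤ 16 * Real.log (2 / (512 * M.d p y ^ 2)))
    {x : Y} (hx : M.d y x ≤ 5) :
    M.U (mv M S p y) x - M.U S x + M.nrm S x (mv M S p y) x ≤
      if M.d y x ≤ M.d p y / 4 then -(10240 * M.d p y ^ 2) else
        385261 * M.d p y * min (M.d y x) 1 +
        (if 32 * M.d p y ≤ rf (M.d p x) ∧ M.d p x ≤ 1 / 16 then
          96 * M.d p y * (rf (M.d p x) * M.L S.w x) else 0) := by
  set s := M.d p y with hsdef
  have hok := mv_ok hS hp hβ
  have hym : y ∈ (mv M S p y).P := mem_insert_self _ _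
  have hdx : M.d x p = M.d p x := M.d_symm x p
  have hdy : M.d x y = M.d y x := M.d_symm x y
  have t1 : M.d p x ≤ M.d p y + M.d y x := M.d_tri p y x
  have t2 : M.d y x ≤ M.d y p + M.d p x := M.d_tri y p x
  have t3 : M.d p y ≤ M.d p x + M.d x y := M.d_tri p x y
  rw [M.d_symm y p] at t2
  have habs : |M.d p x - M.d y x| ≤ s := by
    rw [abs_le]; constructor <;> linarith
  have e1 : M.u S.P x = M.d p x := by
    rw [M.u_near hS.sep40 hp (by linarith), hdx]
  have e2 : M.u (mv M S p y).P x = M.d y x := by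
    rw [M.u_near hok.sep40 hym (by linarith), hdy]
  have e3 : M.bt S x = S.β p * cf (M.d p x) := by
    rw [M.bt_eq hS.sep40 hp (by linarith), hdx]
  have e4 : M.bt (mv M S p y) x = S.β p * cf (M.d y x) := by
    rw [M.bt_eq hok.sep40 hym (by linarith), hdy]
    show mvβ M S p y y * _ = _
    rw [mvβ_self]
  have hpr := price_eq (M := M) (S := S) (S' := mv M S p y) hS.w0 rfl x
  rw [e1, e2, e3, e4] at hpr
  have hd0 := M.d_nonneg y x
  have hd1 := M.d_nonneg p x
  have hL0 := M.L_nonneg hS.w0 hS.pack x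
  split_ifs with hcore hexp
  · -- core
    have h1 := move_core hs0.le hs hd0 hcore (t := M.d p x) (by linarith) (by linarith)
    have h2 : zf (M.d p x) = 0 := zf_eq_zero (by linarith)
    have h3 : zf (M.d y x) = 0 := zf_eq_zero (by linarith)
    have h4 : cf (M.d p x) = 1 := cf_eq_one (by linarith)
    have h5 : cf (M.d y x) = 1 := cf_eq_one (by linarith)
    have h6 : tf (M.d p x) = 0 := tf_eq_zero (by linarith)
    have h7 : tf (M.d y x) = 0 := tf_eq_zero (by linarith)
    rw [h2, h3, h4, h5, h6, h7] at hpr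
    simp only [sub_self, abs_zero, mul_zero, zero_mul, add_zero] at hpr
    linarith
  all_goals
    have hσ : s / 4 < M.d y x := not_le.mp hcore
    have h1 := move_qf hs hσ hd1 habs
    have h2 := move_cf hs (hS.β0 p) (hS.β1 p) hd0 habs
    have h3 := move_tf hs hd0 habs
    have h4 := move_zf hs0 hs hd0 habs hL0 (fun h => hL x h)
  · rw [if_pos hexp] at h4
    linarith
  · rw [if_neg hexp] at h4
    linarith

theorem mv_far {S : St Y} (hS : Ok M S) {p y : Y} (hp : p ∈ S.P)
    (hβ : ∀ q ∈ S.P, q ≠ p → M.d y q < 42 → S.β q + M.d p y ≤ 1)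
    (hs : M.d p y ≤ 1 / 64) {x : Y} (hx : 5 < M.d y x) :
    M.U (mv M S p y) x - M.U S x + M.nrm S x (mv M S p y) x ≤
      if M.d y x ≤ 60 then 90 * M.d p y else 0 := by
  have hs0 := M.d_nonneg p y
  have hok := mv_ok hS hp hβ
  have hdy : M.d x y = M.d y x := M.d_symm x y
  have t2 : M.d y x ≤ M.d y p + M.d p x := M.d_tri y p x
  rw [M.d_symm y p] at t2
  have hdp : 4 < M.d x p := by rw [M.d_symm x p]; linarith
  have hpr := price_eq (M := M) (S := S) (S' := mv M S p y) hS.w0 rfl x
  by_cases hq : ∃ q ∈ S.P.erase p, q ≠ y ∧ M.d x q < 4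
  · obtain ⟨q, hq, hqy, hqx⟩ := hq
    have hq1 := mem_erase.mp hq
    have hqm : q ∈ (mv M S p y).P := mem_insert_of_mem hq
    have e1 : M.u S.P x = M.d x q := M.u_near hS.sep40 hq1.2 (by linarith)
    have e2 : M.u (mv M S p y).P x = M.d x q := M.u_near hok.sep40 hqm (by linarith)
    have e3 : M.bt S x = S.β q * cf (M.d x q) := M.bt_eq hS.sep40 hq1.2 (by linarith)
    have e4 : M.bt (mv M S p y) x = mvβ M S p y q * cf (M.d x q) :=
      M.bt_eq hok.sep40 hqm (by linarith)
    rw [e1, e2, e3, e4] at hpr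
    simp only [sub_self, abs_zero, mul_zero, zero_mul, add_zero, zero_add] at hpr
    refine hpr.trans ?_
    have h1 := le_mvβ (p := p) hS hqy
    have h2 := mvβ_le (M := M) (S := S) (p := p) hqy
    have h3 := cf_nonneg (M.d x q)
    have h4 := cf_le_one (M.d x q)
    split_ifs with h60
    · have h5 : (mvβ M S p y q - S.β q) * cf (M.d x q) ≤ M.d p y * 1 := by
        apply mul_le_mul (by linarith) h4 h3 hs0
      nlinarith
    · have h5 : 42 ≤ M.d y q := by
        have := M.d_tri y q x
        rw [M.d_symm q x] at this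
        linarith [not_le.mp h60]
      rw [mvβ_far hqy h5]
      linarith
  · push Not at hq
    have hfar : ∀ q ∈ S.P, 4 ≤ M.d x q := by
      intro q hq1
      by_cases hqp : q = p
      · rw [hqp]; exact hdp.le
      · by_cases hqy : q = y
        · rw [hqy, hdy]; linarith
        · exact hq q (mem_erase.mpr ⟨hqp, hq1⟩) hqy
    have hfar' : ∀ q ∈ (mv M S p y).P, 4 ≤ M.d x q := by
      intro q hq1
      rcases mem_insert.mp hq1 with h | h
      · rw [h, hdy]; linarith
      · exact hfar q (mem_of_mem_erase h)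
    have e3 : M.bt S x = 0 := M.bt_eq_zero hfar
    have e4 : M.bt (mv M S p y) x = 0 := M.bt_eq_zero hfar'
    have u1 : 4 ≤ M.u S.P x := M.le_u (by norm_num) hfar
    have u2 : 4 ≤ M.u (mv M S p y).P x := M.le_u (by norm_num) hfar'
    rw [e3, e4, qf_eq_one (by linarith), qf_eq_one (by linarith), zf_eq_one (by linarith),
      zf_eq_one (by linarith), tf_eq_one (by linarith), tf_eq_one (by linarith)] at hpr
    simp only [sub_self, abs_zero, mul_zero, zero_mul, add_zero] at hpr
    refine hpr.trans ?_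
    split_ifs <;> positivity

/-- the total price of the move -/
theorem mv_D {m : Y → ℝ} (hm : ∀ x, 0 ≤ m x) {S : St Y} (hS : Ok M S) {p y : Y} (hp : p ∈ S.P)
    (hβ : ∀ q ∈ S.P, q ≠ p → M.d y q < 42 → S.β q + M.d p y ≤ 1) (hs0 : 0 < M.d p y)
    (hs : M.d p y ≤ 1 / 64)
    (hL : ∀ x, M.d p x ≤ 1 / 2 → M.L S.w x ≤ 16 * Real.log (2 / (512 * M.d p y ^ 2))) :
    M.D m S (mv M S p y) ≤ -(10240 * M.d p y ^ 2) * M.bm m y (M.d p y / 4) +
      385261 * M.d p y *
        ∑ x, (if M.d p y / 4 < M.d y x ∧ M.d y x ≤ 60 then m x * min (M.d y x) 1 else 0) +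
      96 * M.d p y * ∑ x, (if M.d p x ≤ 1 / 2 then m x * (rf (M.d p x) * M.L S.w x) else 0) := by
  set s := M.d p y with hsdef
  unfold IM.D IM.bm
  rw [mul_sum, mul_sum, mul_sum, ← sum_add_distrib, ← sum_add_distrib]
  apply sum_le_sum
  intro x _
  have hL0 := M.L_nonneg hS.w0 hS.pack x
  have hrf := rf_nonneg (M.d p x)
  have hmx := hm x
  have hd0 := M.d_nonneg y x
  have hexp0 : 0 ≤ 96 * s * (if M.d p x ≤ 1 / 2 then m x * (rf (M.d p x) * M.L S.w x) else 0) := by
    split_ifs <;> positivity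
  rcases le_or_gt (M.d y x) 5 with h5 | h5
  · have h := mv_near hS hp hβ hs0 hs hL h5
    rw [← hsdef] at h
    have h' := mul_le_mul_of_nonneg_left h hmx
    refine h'.trans ?_
    by_cases hcore : M.d y x ≤ s / 4
    · rw [if_pos hcore, if_pos hcore, if_neg
        (show ¬ (s / 4 < M.d y x ∧ M.d y x ≤ 60) from fun h => absurd hcore (not_le.mpr h.1))]
      linarith
    · rw [if_neg hcore, if_neg hcore,
        if_pos (show s / 4 < M.d y x ∧ M.d y x ≤ 60 from ⟨not_le.mp hcore, by linarith⟩)]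
      by_cases hexp : 32 * s ≤ rf (M.d p x) ∧ M.d p x ≤ 1 / 16
      · rw [if_pos hexp, if_pos (show M.d p x ≤ 1 / 2 by linarith [hexp.2])]
        nlinarith
      · rw [if_neg hexp]
        linarith
  · have h := mv_far hS hp hβ hs h5
    rw [← hsdef] at h
    have h' := mul_le_mul_of_nonneg_left h hmx
    refine h'.trans ?_
    rw [if_neg (show ¬ M.d y x ≤ s / 4 by linarith)]
    by_cases h60 : M.d y x ≤ 60
    · rw [if_pos h60, if_pos (show s / 4 < M.d y x ∧ M.d y x ≤ 60 from ⟨by linarith, h60⟩),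
        min_eq_right (by linarith)]
      have : 0 ≤ m x * s := by positivity
      nlinarith
    · rw [if_neg h60, if_neg (show ¬ (s / 4 < M.d y x ∧ M.d y x ≤ 60) from fun h => h60 h.2)]
      linarith

end Ec

end Crest.Agent.R314.G1
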