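import Mathlib
import Crest.Agent.R314.G1_E1
import Crest.Agent.R314.G1_E3
import Crest.Agent.R314.G1_E4
import Crest.Agent.R314.G1_B5
import Crest.Agent.R314.G1_D

/-!
R314, module G (one scale), block G1_E: **claim 2** of GEO1 (helper435, post 8508, item (7)),
with the cut-off `r` of post 8645: in a stable state, a main `p` within `1/64` of `y` satisfies
`d p y ≤ max (4 r) (310 Γ^r(y))`.
-/

set_option autoImplicit false
set_option linter.unusedSectionVars false

open Finset

namespace Crest.Agent.R314.G1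

namespace Ec

variable {Y : Type*} [Fintype Y] [DecidableEq Y] {M : IM Y}

/-- removing a set of mains with `β ≥ 1/2` is free -/
theorem remove_set {m : Y → ℝ} (hm : ∀ x, 0 ≤ m x) {S : St Y} (hS : Ok M S) (R : Finset Y)
    (hR : ∀ q ∈ R, q ∈ S.P ∧ 1 / 2 ≤ S.β q) :
    ∃ S' : St Y, Ok M S' ∧ S'.P = S.P \ R ∧ S'.β = S.β ∧
      (∀ z, (∀ q ∈ R, 2 < M.d q z) → S'.w z = S.w z) ∧ M.D m S S' ≤ 0 := by
  induction R using Finset.induction_on with
  | empty =>
    refine ⟨S, hS, by simp, rfl, fun _ _ => rfl, ?_⟩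
    unfold IM.D
    apply le_of_eq
    apply sum_eq_zero
    intro x _
    rw [M.nrm_self]; ring
  | insert q R hq ih =>
    obtain ⟨S₁, h1, h2, h3, h4, h5⟩ := ih (fun q' hq' => hR q' (mem_insert_of_mem hq'))
    have hqS := hR q (mem_insert_self _ _)
    have hq1 : q ∈ S₁.P := by
      rw [h2, mem_sdiff]
      exact ⟨hqS.1, hq⟩
    obtain ⟨S₂, g1, g2, g3, g4, g5⟩ := IM.remove_free hm h1 hq1 (by rw [h3]; exact hqS.2)
    refine ⟨S₂, g1, ?_, g3.trans h3, ?_, ?_⟩
    · rw [g2, h2]
      ext z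
      simp only [mem_erase, mem_sdiff, mem_insert]
      tauto
    · intro z hz
      rw [g4 z (hz q (mem_insert_self _ _)), h4 z (fun q' hq' => hz q' (mem_insert_of_mem hq'))]
    · have := M.D_tri hm S S₁ S₂
      linarith

/-- **Claim 2 of GEO1.** -/
theorem claim2 {m : Y → ℝ} (hm : ∀ x, 0 ≤ m x) {S : St Y} (hS : M.Stable m S) {p y : Y}
    (hp : p ∈ S.P) (hpy : M.d p y ≤ 1 / 64) {r : ℝ} (hr0 : 0 ≤ r) (hr : 0 < M.bm m y r) :
    M.d p y ≤ max (4 * r) (310 * M.GamR m y r) := by
  by_cases hsr : M.d p y ≤ 4 * r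
  · exact le_max_of_le_left hsr
  apply le_max_of_le_right
  rw [not_le] at hsr
  set s := M.d p y with hsdef
  have hs0 : 0 < s := by linarith
  have hok := hS.1
  set a : ℝ := 512 * s ^ 2 with hadef
  have ha0 : 0 < a := by positivity
  have hs2 : s ^ 2 ≤ 1 / 64 * s := by nlinarith
  have ha1 : a ≤ 1 / 2 := by rw [hadef]; nlinarith
  -- step 1 : Op(p, a)
  set S₁ : St Y := ⟨S.P, S.β, M.op S.w p a⟩ with hS₁
  have hok1 : Ok M S₁ := M.op_Ok hok ha0.le (by linarith) p
  have hD1 : M.D m S S₁ ≤ 34 * a * M.bm (M.nu m S) p 3 := M.D_op_price hm hok ha0.le ha1 p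
  -- step 2 : removal
  set R : Finset Y := S.P.filter (fun q => q ≠ p ∧ M.d y q < 42 ∧ 1 < S.β q + s) with hRdef
  obtain ⟨S₂, hok2, hP2, hβ2, hw2, hD2⟩ := remove_set hm hok1 R (by
    intro q hq
    have hq' := (mem_filter.mp hq)
    refine ⟨hq'.1, ?_⟩
    have h1 : 1 < S.β q + s := hq'.2.2.2
    show 1 / 2 ≤ S.β q
    linarith)
  have hβ2' : S₂.β = S.β := hβ2
  have hP2' : S₂.P = S.P \ R := hP2
  have hp2 : p ∈ S₂.P := by
    rw [hP2', mem_sdiff]
    exact ⟨hp, fun h => (mem_filter.mp h).2.1 rfl⟩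
  have hβ : ∀ q ∈ S₂.P, q ≠ p → M.d y q < 42 → S₂.β q + M.d p y ≤ 1 := by
    intro q hq hqp hyq
    rw [hP2', mem_sdiff] at hq
    rw [hβ2']
    by_contra hcon
    exact hq.2 (mem_filter.mpr ⟨hq.1, hqp, hyq, not_le.mp hcon⟩)
  have hLeq : ∀ x, M.d p x ≤ 1 / 2 → M.L S₂.w x = M.L (M.op S.w p a) x := by
    intro x hx
    apply M.L_congr
    intro z hz
    apply hw2
    intro q hq
    have hq' := mem_filter.mp hq
    have h1 := hok.sep40 q hq'.1 p hp hq'.2.1
    have h2 := M.d_tri q z p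
    have h3 := M.d_tri z x p
    rw [M.d_symm z x, M.d_symm x p] at h3
    linarith
  have hL : ∀ x, M.d p x ≤ 1 / 2 → M.L S₂.w x ≤ 16 * Real.log (2 / (512 * M.d p y ^ 2)) := by
    intro x hx
    rw [hLeq x hx]
    exact M.op_L_le hok.w0 ha0 (by linarith) hx
  have hLanti : ∀ x, M.d p x ≤ 1 / 2 → M.L S₂.w x ≤ M.L S.w x := by
    intro x hx
    rw [hLeq x hx]
    exact M.op_L_anti hok.w0 hok.pack ha0.le hx
  -- step 3 : the move
  have hD3 := mv_D hm hok2 hp2 hβ hs0 hpy hL
  have hok4 := mv_ok hok2 hp2 hβ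
  -- stability
  have h0 := hS.2 _ hok4
  have ht1 := M.D_tri hm S S₂ (mv M S₂ p y)
  have ht2 := M.D_tri hm S S₁ S₂
  rw [← hsdef] at hD3
  -- the exposure sum
  set Es : ℝ := ∑ x, (if s / 4 < M.d y x ∧ M.d y x ≤ 60 then m x * min (M.d y x) 1 else 0)
    with hEs
  have hEs0 : 0 ≤ Es := by
    apply sum_nonneg
    intro x _
    split_ifs
    · have := M.d_nonneg y x
      have := le_min this zero_le_one
      have := hm x
      positivity
    · exact le_rfl
  have hu : ∀ x, M.d p x ≤ 3 → M.u S.P x = M.d p x := by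
    intro x hx
    rw [M.u_near hok.sep40 hp (by rw [M.d_symm]; linarith), M.d_symm]
  have hmass : ∀ x, M.d p x ≤ 3 → 0 < rf (M.u S.P x) →
      m x ≤ 64 * (if s / 4 < M.d y x ∧ M.d y x ≤ 60 then m x * min (M.d y x) 1 else 0) := by
    intro x hx hrf
    rw [hu x hx] at hrf
    have h1 : 1 / 32 < M.d p x := by
      by_contra h
      rw [rf_eq_zero (not_lt.mp h)] at hrf
      exact lt_irrefl _ hrf
    have h2 := M.d_tri p y x
    have h3 := M.d_tri y p x
    rw [M.d_symm y p] at h3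
    have h4 : 1 / 64 ≤ M.d y x := by linarith
    rw [if_pos (show s / 4 < M.d y x ∧ M.d y x ≤ 60 from ⟨by linarith, by linarith⟩)]
    have h5 : 1 / 64 ≤ min (M.d y x) 1 := le_min h4 (by norm_num)
    have := hm x
    nlinarith
  have hA : ∑ z, (if M.d p z ≤ 1 / 2 ∧ 0 < rf (M.u S.P z) then m z else 0) ≤ 64 * Es := by
    rw [hEs, mul_sum]
    apply sum_le_sum
    intro x _
    split_ifs with h1 h2 h2
    · have := hmass x (by linarith [h1.1]) h1.2
      rw [if_pos h2] at this
      exact this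
    · have := hmass x (by linarith [h1.1]) h1.2
      rw [if_neg h2] at this
      exact this
    · have := M.d_nonneg y x
      have := le_min this zero_le_one
      have := hm x
      positivity
    · norm_num
  have hN : M.bm (M.nu m S) p 3 ≤ 64 * Es := by
    rw [hEs, mul_sum]
    unfold IM.bm
    apply sum_le_sum
    intro x _
    have hnn : 0 ≤ 64 * (if s / 4 < M.d y x ∧ M.d y x ≤ 60 then m x * min (M.d y x) 1 else 0) := by
      split_ifs
      · have := M.d_nonneg y x
        have := le_min this zero_le_one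
        have := hm x
        positivity
      · norm_num
    by_cases h1 : M.d p x ≤ 3
    · rw [if_pos h1]
      rcases (rf_nonneg (M.u S.P x)).eq_or_lt with h2 | h2
      · have : M.nu m S x = 0 := by
          unfold IM.nu zf
          rw [← h2]; ring
        rw [this]; exact hnn
      · exact (M.nu_le hm S x).trans (hmass x h1 h2)
    · rw [if_neg h1]; exact hnn
  have hexpo : ∑ z, (if M.d p z ≤ 1 / 2 then m z * (rf (M.u S.P z) * M.L S.w z) else 0) ≤
      80 * ∑ z, (if M.d p z ≤ 1 / 2 ∧ 0 < rf (M.u S.P z) then m z else 0) +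
        20 * (17 / 4 + 1) * M.bm (fun z => rf (M.u S.P z) ^ 2 * m z) p 3 := by
    apply expo_sum M hok.w0 hok.pack hm (rr := fun z => rf (M.u S.P z))
      (fun z => rf_nonneg _) (fun z => rf_le_one _) p (c := 17 / 4) (by norm_num)
    intro a ha0 ha1
    exact M.kkt hm hS ha0.le ha1 p
  have hnu : M.bm (fun z => rf (M.u S.P z) ^ 2 * m z) p 3 = M.bm (M.nu m S) p 3 := rfl
  rw [hnu] at hexpo
  have hB : ∑ x, (if M.d p x ≤ 1 / 2 then m x * (rf (M.d p x) * M.L S₂.w x) else 0) ≤
      11840 * Es := by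
    have h1 : ∑ x, (if M.d p x ≤ 1 / 2 then m x * (rf (M.d p x) * M.L S₂.w x) else 0) ≤
        ∑ z, (if M.d p z ≤ 1 / 2 then m z * (rf (M.u S.P z) * M.L S.w z) else 0) := by
      apply sum_le_sum
      intro x _
      split_ifs with h
      · rw [hu x (by linarith)]
        apply mul_le_mul_of_nonneg_left _ (hm x)
        exact mul_le_mul_of_nonneg_left (hLanti x h) (rf_nonneg _)
      · exact le_rfl
    linarith
  -- conclusion
  have hfin : s * M.bm m y (s / 4) ≤ 151 * Es := by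
    have h1 : 34 * a * M.bm (M.nu m S) p 3 ≤ 17408 * s * Es := by
      have h2 : 34 * a ≤ 272 * s := by rw [hadef]; linarith
      calc 34 * a * M.bm (M.nu m S) p 3 ≤ (272 * s) * (64 * Es) := by
            apply mul_le_mul h2 hN (M.bm_nonneg (M.nu_nonneg hm S) p 3) (by positivity)
        _ = 17408 * s * Es := by ring
    have h3 : 96 * s * ∑ x, (if M.d p x ≤ 1 / 2 then m x * (rf (M.d p x) * M.L S₂.w x) else 0) ≤
        96 * s * (11840 * Es) := by gcongr
    have h4 : 0 ≤ -(10240 * s ^ 2) * M.bm m y (s / 4) + 1539309 * (s * Es) := by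
      linarith
    have h5 : s * (10240 * (s * M.bm m y (s / 4))) ≤ s * (1539309 * Es) := by nlinarith
    have h6 := le_of_mul_le_mul_left h5 hs0
    linarith
  have := dichotomy M hm hr (by linarith : r ≤ s / 4) hs0.le (by linarith) (by norm_num) hfin
  linarith

end Ec

end Crest.Agent.R314.G1
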