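import Crest.Agent.R314.G1_C2
import Crest.Agent.R314.G1_B5

/-!
R314, module G (GEO1), block G1_C, part 3: the final form of the slopes, after `Op(y, a)` with cut-off `r`
(input [291, G1_C2] of helper435's #8916).  Author: helper291.
-/

set_option autoImplicit false
set_option linter.unusedSectionVars false

namespace Crest.Agent.R314.G1

open Finset

variable {Y : Type*} [Fintype Y] [DecidableEq Y] (M : IM Y)

namespace IM
namespace C

theorem log104 : Real.log (2 / (1 / 52)) ≤ 5 := by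
  have h : (2 : ℝ) / (1 / 52) ≤ Real.exp 5 := by
    have h1 : (2.7 : ℝ) ≤ Real.exp 1 := by
      have := Real.exp_one_gt_d9
      linarith
    have h2 : (2.7 : ℝ) ^ 5 ≤ Real.exp 1 ^ 5 := by gcongr
    rw [← Real.exp_nat_mul] at h2
    norm_num at h2 ⊢
    linarith
  calc Real.log (2 / (1 / 52)) ≤ Real.log (Real.exp 5) := Real.log_le_log (by norm_num) h
    _ = 5 := Real.log_exp 5

variable {M}

section
variable {S : St Y} {m : Y → ℝ} (hS : Stable M m S) (hm : ∀ x, 0 ≤ m x) {y : Y} {r : ℝ}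
  (hr : 0 ≤ r) (hr1 : r ≤ 60) (hpos : 0 < M.bm m y r) {a : ℝ} (ha0 : 0 ≤ a) (ha : a ≤ 1 / 2)
  (har : 0 < a ∨ r = 0)
include hS hm hr hr1 hpos ha0 ha har

omit hS hm hr1 hpos ha0 in
theorem rlog_nonneg : 0 ≤ r * Real.log (2 / a) := by
  rcases har with h0 | h0
  · exact mul_nonneg hr (Real.log_nonneg (by rw [le_div_iff₀ h0]; linarith))
  · rw [h0, zero_mul]

/-- `rf(u y) Ψ'(y) ≤ 68 (1 + Γ^r + r log (2/a))` after `Op(y,a)` (`a = 0` allowed when `r = 0`). -/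
theorem rfPsi_cut' : rf (M.u S.P y) * M.Psi (M.op S.w y a) y
    ≤ 68 * (1 + M.GamR m y r + r * Real.log (2 / a)) := by
  have hg : Grow M (1 / 52) S.P S.w m y := fun i hi => M.L1 hm hS y hi
  have h := rf_Psi_le hS.1 hm hr hr1 hpos (by norm_num) (by norm_num) hg ha0 ha har.symm
  have h1 := log104
  have hl := rlog_nonneg hr ha har
  linarith

/-- **slope after `Op(y,a)`** (`a = 0` allowed when `r = 0`). -/
theorem slope_cut' {x : Y} (hxy : M.d x y ≤ 1 / 64) :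
    M.U ⟨S.P, S.β, M.op S.w y a⟩ y - M.U ⟨S.P, S.β, M.op S.w y a⟩ x
      + M.nrm ⟨S.P, S.β, M.op S.w y a⟩ y ⟨S.P, S.β, M.op S.w y a⟩ x
      ≤ 151000 * M.d x y * (1 + M.GamR m y r + r * Real.log (2 / a)) := by
  have hOk : Ok M ⟨S.P, S.β, M.op S.w y a⟩ := M.op_Ok hS.1 ha0 (by linarith) y
  have h1 := slope_of hOk hxy
  have h2 := rfPsi_cut' hS hm hr hr1 hpos ha0 ha har
  have hd := M.d_nonneg x y
  have hΓ := GamR_nonneg' hm hr hpos hr1
  have hl := rlog_nonneg hr ha har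
  rw [M.nrm_comm]
  refine h1.trans ?_
  have h3 : 1400 + 2200 * (rf (M.u S.P y) * M.Psi (M.op S.w y a) y)
      ≤ 151000 * (1 + M.GamR m y r + r * Real.log (2 / a)) := by linarith
  calc M.d x y * (1400 + 2200 * (rf (M.u S.P y) * M.Psi (M.op S.w y a) y))
      ≤ M.d x y * (151000 * (1 + M.GamR m y r + r * Real.log (2 / a))) :=
        mul_le_mul_of_nonneg_left h3 hd
    _ = _ := by ring

/-- **size after `Op(y,a)`** (`a = 0` allowed when `r = 0`). -/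
theorem U_cut' : M.U ⟨S.P, S.β, M.op S.w y a⟩ y + 2
    ≤ 2300 * (1 + M.GamR m y r + r * Real.log (2 / a)) := by
  have hOk : Ok M ⟨S.P, S.β, M.op S.w y a⟩ := M.op_Ok hS.1 ha0 (by linarith) y
  have h1 := U_le_of hOk y
  have h2 := rfPsi_cut' hS hm hr hr1 hpos ha0 ha har
  have hΓ := GamR_nonneg' hm hr hpos hr1
  have hl := rlog_nonneg hr ha har
  simp only at h1
  linarith

end

section
variable {S : St Y} {m : Y → ℝ} (hS : Stable M m S) (hm : ∀ x, 0 ≤ m x) {y : Y} {r : ℝ}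
  (hr : 0 ≤ r) (hr1 : r ≤ 60) (hpos : 0 < M.bm m y r) {a : ℝ} (ha0 : 0 < a) (ha : a ≤ 1 / 2)
include hS hm hr hr1 hpos ha0 ha

theorem rfPsi_cut : rf (M.u S.P y) * M.Psi (M.op S.w y a) y
    ≤ 68 * (1 + M.GamR m y r + r * Real.log (2 / a)) :=
  rfPsi_cut' hS hm hr hr1 hpos ha0.le ha (Or.inl ha0)

theorem slope_cut {x : Y} (hxy : M.d x y ≤ 1 / 64) :
    M.U ⟨S.P, S.β, M.op S.w y a⟩ y - M.U ⟨S.P, S.β, M.op S.w y a⟩ x
      + M.nrm ⟨S.P, S.β, M.op S.w y a⟩ y ⟨S.P, S.β, M.op S.w y a⟩ x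
      ≤ 151000 * M.d x y * (1 + M.GamR m y r + r * Real.log (2 / a)) :=
  slope_cut' hS hm hr hr1 hpos ha0.le ha (Or.inl ha0) hxy

theorem U_cut : M.U ⟨S.P, S.β, M.op S.w y a⟩ y + 2
    ≤ 2300 * (1 + M.GamR m y r + r * Real.log (2 / a)) :=
  U_cut' hS hm hr hr1 hpos ha0.le ha (Or.inl ha0)

end

end C
end IM

end Crest.Agent.R314.G1
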