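import Crest.Agent.R314.G1_A2
import Crest.Agent.R314.G1_R

/-!
R314, module G (one scale), part F: the slope at a trivial point (item (8) of post 8508), and the
construction `IM.ofDist` of the integer pseudometric of a scale.  Author: helper334.
-/

set_option autoImplicit false
set_option linter.unusedSectionVars false

namespace Crest.Agent.R314.G1

open Finset

variable {Y : Type*} [Fintype Y] [DecidableEq Y] (M : IM Y)

namespace IM

variable {M}

/-- the label distribution at a point within `1/8` of a main -/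
theorem lab_near {S : St Y} (hS : Ok M S) {p z : Y} (hp : p ∈ S.P) (hz : M.d z p ≤ 1 / 8)
    (o : Option Y) : M.lab S z o = if o = none then 1 else 0 := by
  have h1 : tf (M.u S.P z) = 0 := by
    rw [M.u_near hS.sep40 hp (by linarith)]
    exact tf_eq_zero hz
  cases o with
  | none => simp [lab, h1]
  | some y => simp [lab, h1]

theorem nrm_near {S : St Y} (hS : Ok M S) {p y x : Y} (hp : p ∈ S.P) (hy : M.d y p ≤ 1 / 8)
    (hx : M.d x p ≤ 1 / 8) : M.nrm S y S x = 0 := by
  unfold nrm
  apply sum_eq_zero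
  intro o _
  rw [lab_near hS hp hy, lab_near hS hp hx]
  simp

theorem qf_slope {s d v : ℝ} (hs0 : 0 ≤ s) (hd0 : 0 ≤ d)
    (hv0 : 0 ≤ v) (hv : s - d ≤ v) : qf s - qf v ≤ 2048 * s * d := by
  unfold qf
  by_cases h : (32 * v) ^ 2 ≤ 1
  · rw [min_eq_left h]
    have h1 : min ((32 * s) ^ 2) 1 ≤ (32 * s) ^ 2 := min_le_left _ _
    by_cases h2 : s ≤ v
    · have h3 : (32 * s) ^ 2 ≤ (32 * v) ^ 2 := by gcongr
      have h4 : 0 ≤ 2048 * s * d := by positivity
      linarith
    · push Not at h2
      have h3 : (32 * s) ^ 2 - (32 * v) ^ 2 = 1024 * ((s - v) * (s + v)) := by ring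
      have h4 : (s - v) * (s + v) ≤ d * (2 * s) := by
        apply mul_le_mul (by linarith) (by linarith) (by linarith) hd0
      linarith
  · push Not at h
    rw [min_eq_right h.le]
    have h1 : min ((32 * s) ^ 2) 1 ≤ 1 := min_le_right _ _
    have h4 : 0 ≤ 2048 * s * d := by positivity
    linarith

/-- **Item (8), short flows**: the slope at a point close to a main. -/
theorem slope_near {S : St Y} (hS : Ok M S) {p y x : Y} (hp : p ∈ S.P)
    (hy : M.d y p ≤ 1 / 64) (hx : M.d x y ≤ 1 / 64) :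
    M.U S y - M.U S x + M.nrm S y S x ≤ 40960 * M.d y p * M.d x y := by
  have hxp : M.d x p ≤ 1 / 32 := by
    have := M.d_tri x y p
    linarith
  have h0 := M.d_nonneg y p
  have h0' := M.d_nonneg x y
  have h0'' := M.d_nonneg x p
  rw [nrm_near hS hp (by linarith) (by linarith)]
  unfold U
  rw [M.bt_eq hS.sep40 hp (x := y) (by linarith), M.bt_eq hS.sep40 hp (x := x) (by linarith),
    M.u_near hS.sep40 hp (x := y) (by linarith), M.u_near hS.sep40 hp (x := x) (by linarith),
    cf_eq_one (u := M.d y p) (by linarith), cf_eq_one (u := M.d x p) (by linarith),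
    zf_eq_zero (u := M.d y p) (by linarith), zf_eq_zero (u := M.d x p) (by linarith)]
  have h1 := qf_slope h0 h0' (s := M.d y p) (d := M.d x y) (v := M.d x p) h0'' (by
    have := M.d_tri y x p
    rw [M.d_symm y x] at this
    linarith)
  nlinarith

/-- **Item (8), long flows**: at a point close to a main everything is bounded. -/
theorem U_near_le {S : St Y} (hS : Ok M S) {p y : Y} (hp : p ∈ S.P)
    (hy : M.d y p ≤ 1 / 64) : M.U S y ≤ 95 := by
  have h0 := M.d_nonneg y p
  unfold U
  rw [M.bt_eq hS.sep40 hp (x := y) (by linarith), M.u_near hS.sep40 hp (x := y) (by linarith),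
    cf_eq_one (u := M.d y p) (by linarith), zf_eq_zero (u := M.d y p) (by linarith)]
  have h4 : qf (M.d y p) ≤ 1 / 4 := by
    unfold qf
    apply (min_le_left _ _).trans
    nlinarith
  have h5 := hS.β1 p
  linarith

theorem far_near {S : St Y} (hS : Ok M S) {p y : Y} (hp : p ∈ S.P)
    (hy : M.d y p ≤ 1 / 64) (x : Y) :
    M.U S y - M.U S x + M.nrm S y S x ≤ 97 := by
  have h1 := M.U_nonneg hS x
  have h2 := M.nrm_le_two hS.w0 hS.w0 y x
  have h3 := U_near_le hS hp hy
  linarith

/-! ### The integer pseudometric of a scale -/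

section ofDist

variable {X : Type*} [MetricSpace X] [Fintype X] [DecidableEq X]

/-- The integer pseudometric `⌈2 J dist / R⌉`. -/
noncomputable def ofDist (R : ℝ) (J : ℕ) (hR : 0 < R) (hJ : 0 < J) : IM X where
  δ x y := ⌈2 * J * dist x y / R⌉₊
  self x := by simp
  symm x y := by simp only [dist_comm]
  tri x y z := by
    have h : 2 * (J : ℝ) * dist x z / R ≤ 2 * J * dist x y / R + 2 * J * dist y z / R := by
      rw [← add_div, ← mul_add]
      gcongr
      exact dist_triangle _ _ _
    calc ⌈2 * (J : ℝ) * dist x z / R⌉₊ ≤ ⌈2 * (J : ℝ) * dist x y / R + 2 * J * dist y z / R⌉₊ :=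
          Nat.ceil_mono h
      _ ≤ ⌈2 * (J : ℝ) * dist x y / R⌉₊ + ⌈2 * (J : ℝ) * dist y z / R⌉₊ := Nat.ceil_add_le _ _
  J := J
  J_pos := hJ

variable {R : ℝ} {J : ℕ} (hR : 0 < R) (hJ : 0 < J)

/-- The balls of grid radii are the metric balls. -/
theorem ofDist_le_iff (x y : X) (s : ℕ) :
    (ofDist R J hR hJ).d x y ≤ (s : ℝ) / (2 * J) ↔ dist x y ≤ (s : ℝ) / (2 * J) * R := by
  have hJr : (0 : ℝ) < J := by exact_mod_cast hJ
  unfold d ofDist
  simp only
  rw [div_le_div_iff_of_pos_right (by positivity), Nat.cast_le, Nat.ceil_le, div_le_iff₀ hR,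
    div_mul_eq_mul_div, le_div_iff₀ (by positivity)]
  constructor <;> intro h <;> linarith

theorem dist_le_ofDist (x y : X) : dist x y ≤ R * (ofDist R J hR hJ).d x y := by
  have hJr : (0 : ℝ) < J := by exact_mod_cast hJ
  unfold d ofDist
  simp only
  have h := Nat.le_ceil (2 * (J : ℝ) * dist x y / R)
  rw [div_le_iff₀ hR] at h
  rw [mul_div_assoc', le_div_iff₀ (by positivity)]
  linarith

/-- On points at distance at least `R / (2J)` the normalised distance is at most twice the real
one. -/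
theorem ofDist_le_two (h : ∀ x y : X, x ≠ y → R ≤ 2 * J * dist x y) (x y : X) :
    R * (ofDist R J hR hJ).d x y ≤ 2 * dist x y := by
  by_cases hxy : x = y
  · subst hxy
    rw [d_self]
    simp
  have hJr : (0 : ℝ) < J := by exact_mod_cast hJ
  have h0 := h x y hxy
  have h1 : 1 ≤ 2 * (J : ℝ) * dist x y / R := by
    rw [le_div_iff₀ hR]
    linarith
  have h2 : ((⌈2 * (J : ℝ) * dist x y / R⌉₊ : ℕ) : ℝ) ≤ 2 * J * dist x y / R + 1 :=
    (Nat.ceil_lt_add_one (by linarith)).le
  have h3 : ((⌈2 * (J : ℝ) * dist x y / R⌉₊ : ℕ) : ℝ) ≤ 2 * (2 * J * dist x y / R) := by linarith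
  unfold d ofDist
  simp only
  rw [mul_div_assoc', div_le_iff₀ (by positivity)]
  calc R * ((⌈2 * (J : ℝ) * dist x y / R⌉₊ : ℕ) : ℝ) ≤ R * (2 * (2 * J * dist x y / R)) := by
        gcongr
    _ = 2 * dist x y * (2 * J) := by field_simp

/-- A grid fine enough for a finite metric space. -/
theorem exists_grid (R : ℝ) :
    ∃ J0 : ℕ, 0 < J0 ∧ ∀ J : ℕ, J0 ≤ J → ∀ x y : X, x ≠ y → R ≤ 2 * J * dist x y := by
  classical
  obtain ⟨e, he, hmin⟩ : ∃ e : ℝ, 0 < e ∧ ∀ x y : X, x ≠ y → e ≤ dist x y := by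
    by_cases hne : ((univ : Finset (X × X)).filter fun q => q.1 ≠ q.2).Nonempty
    · obtain ⟨q, hq, hq2⟩ := exists_min_image _ (fun q : X × X => dist q.1 q.2) hne
      rw [mem_filter] at hq
      refine ⟨dist q.1 q.2, dist_pos.2 hq.2, fun x y hxy => ?_⟩
      exact hq2 (x, y) (mem_filter.2 ⟨mem_univ _, hxy⟩)
    · rw [not_nonempty_iff_eq_empty] at hne
      refine ⟨1, one_pos, fun x y hxy => ?_⟩
      have : (x, y) ∈ ((univ : Finset (X × X)).filter fun q => q.1 ≠ q.2) :=
        mem_filter.2 ⟨mem_univ _, hxy⟩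
      rw [hne] at this
      exact absurd this (notMem_empty _)
  obtain ⟨n, hn⟩ := exists_nat_ge (R / e)
  refine ⟨n + 1, Nat.succ_pos _, fun J hJ x y hxy => ?_⟩
  have h1 : R ≤ n * e := by rwa [div_le_iff₀ he] at hn
  have h2 := hmin x y hxy
  have h3 : (n : ℝ) ≤ J := by
    have : n ≤ J := by omega
    exact_mod_cast this
  have h4 : (0 : ℝ) ≤ n := Nat.cast_nonneg _
  calc R ≤ n * e := h1
    _ ≤ J * dist x y := by gcongr
    _ ≤ 2 * J * dist x y := by
      have : 0 ≤ (J : ℝ) * dist x y := by positivity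
      linarith

end ofDist

end IM

end Crest.Agent.R314.G1
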