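import Mathlib
import Crest.Agent.R314.G1_A2

/-!
R314, module G (one scale), part M: existence of the minimiser (helper435).
-/

set_option autoImplicit false
set_option linter.unusedSectionVars false

namespace Crest.Agent.R314.G1

open Finset

variable {Y : Type*} [Fintype Y] [DecidableEq Y] (M : IM Y)

namespace IM

theorem continuous_bm (y : Y) (r : ℝ) : Continuous fun w : Y → ℝ => M.bm w y r := by
  unfold bm
  refine continuous_finsetSum _ fun z _ => ?_
  split_ifs
  · exact continuous_apply z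
  · exact continuous_const

theorem continuous_fl (z : Y) : Continuous fun w : Y → ℝ => fl w z := by
  unfold fl
  exact (continuous_apply z).add continuous_const

theorem continuous_W (y : Y) (r : ℝ) : Continuous fun w : Y → ℝ => M.W w y r := by
  unfold W bm
  refine continuous_finsetSum _ fun z _ => ?_
  split_ifs
  · exact continuous_fl z
  · exact continuous_const

/-- the admissible pairs `(β, w)` for a given set of mains -/
def K (P : Finset Y) : Set ((Y → ℝ) × (Y → ℝ)) := {t | Ok M ⟨P, t.1, t.2⟩}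

theorem K_closed (P : Finset Y) : IsClosed (M.K P) := by
  have h : M.K P = (⋂ x, {t : (Y → ℝ) × (Y → ℝ) | 0 ≤ t.1 x}) ∩ (⋂ x, {t | t.1 x ≤ 1}) ∩
      (⋂ x, {t | 0 ≤ t.2 x}) ∩ (⋂ y, {t | M.bm t.2 y 1 ≤ 1}) ∩
      (⋂ p ∈ P, ⋂ q ∈ P, ⋂ (_ : p ≠ q), {t | 42 ≤ M.d p q + t.1 p + t.1 q}) := by
    ext t
    simp only [K, Set.mem_ofPred_eq, Set.mem_inter_iff, Set.mem_iInter]
    constructor
    · intro h
      exact ⟨⟨⟨⟨h.β0, h.β1⟩, h.w0⟩, h.pack⟩, h.sep⟩
    · rintro ⟨⟨⟨⟨h1, h2⟩, h3⟩, h4⟩, h5⟩
      exact ⟨h1, h2, h3, h4, h5⟩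
  rw [h]
  have c1 : ∀ x : Y, Continuous fun t : (Y → ℝ) × (Y → ℝ) => t.1 x := fun x =>
    (continuous_apply x).comp continuous_fst
  have c2 : ∀ x : Y, Continuous fun t : (Y → ℝ) × (Y → ℝ) => t.2 x := fun x =>
    (continuous_apply x).comp continuous_snd
  refine IsClosed.inter (IsClosed.inter (IsClosed.inter (IsClosed.inter ?_ ?_) ?_) ?_) ?_
  · exact isClosed_iInter fun x => isClosed_le continuous_const (c1 x)
  · exact isClosed_iInter fun x => isClosed_le (c1 x) continuous_const
  · exact isClosed_iInter fun x => isClosed_le continuous_const (c2 x)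
  · exact isClosed_iInter fun y =>
      isClosed_le ((M.continuous_bm y 1).comp continuous_snd) continuous_const
  · exact isClosed_iInter fun p => isClosed_iInter fun _ => isClosed_iInter fun q =>
      isClosed_iInter fun _ => isClosed_iInter fun _ =>
        isClosed_le continuous_const ((continuous_const.add (c1 p)).add (c1 q))

theorem w_le_one {w : Y → ℝ} (hw : ∀ x, 0 ≤ w x) (hp : ∀ y, M.bm w y 1 ≤ 1) (x : Y) : w x ≤ 1 :=
  (M.le_bm hw (by rw [M.d_self]; norm_num)).trans (hp x)

theorem K_compact (P : Finset Y) : IsCompact (M.K P) := by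
  have h : M.K P ⊆ Set.Icc (0 : (Y → ℝ) × (Y → ℝ)) 1 := by
    intro t ht
    constructor
    · exact ⟨fun x => ht.β0 x, fun x => ht.w0 x⟩
    · exact ⟨fun x => ht.β1 x, fun x => M.w_le_one ht.w0 ht.pack x⟩
  exact isCompact_Icc.of_isClosed_subset (M.K_closed P) h

theorem continuousOn_psi (P : Finset Y) (x : Y) (i : ℕ) :
    ContinuousOn (fun t : (Y → ℝ) × (Y → ℝ) => M.psi t.2 x i) (M.K P) := by
  unfold psi
  apply ContinuousOn.log
  · apply ContinuousOn.div continuousOn_const
    · exact ((M.continuous_W x _).comp continuous_snd).continuousOn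
    · intro t ht
      exact (M.W_pos ht.w0 x (M.rad_nonneg i)).ne'
  · intro t ht
    have := M.W_pos ht.w0 x (M.rad_nonneg i)
    positivity

theorem continuousOn_E {X : Type*} [TopologicalSpace X] {s : Set X} {f : X → ℕ → ℝ}
    (h : ∀ i, ContinuousOn (fun t => f t i) s) : ContinuousOn (fun t => M.E (f t)) s := by
  unfold E
  apply ContinuousOn.div_const
  exact continuousOn_finsetSum _ fun i _ => continuousOn_const.mul (h i)

theorem continuousOn_lam (P : Finset Y) (x z : Y) :
    ContinuousOn (fun t : (Y → ℝ) × (Y → ℝ) => M.lam t.2 x z) (M.K P) := by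
  unfold lam
  apply M.continuousOn_E
  intro i
  unfold lam1
  split_ifs
  · apply ContinuousOn.div
    · exact ((continuous_fl z).comp continuous_snd).continuousOn
    · exact ((M.continuous_W x _).comp continuous_snd).continuousOn
    · intro t ht
      exact (M.W_pos ht.w0 x (M.rad_nonneg i)).ne'
  · exact continuousOn_const

theorem continuousOn_U (P : Finset Y) (x : Y) :
    ContinuousOn (fun t : (Y → ℝ) × (Y → ℝ) => M.U ⟨P, t.1, t.2⟩ x) (M.K P) := by
  have h1 : ContinuousOn (fun t : (Y → ℝ) × (Y → ℝ) => M.bt ⟨P, t.1, t.2⟩ x) (M.K P) := by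
    unfold bt
    refine (continuous_finsetSum _ fun p _ => ?_).continuousOn
    exact ((continuous_apply p).comp continuous_fst).mul continuous_const
  have h2 : ContinuousOn (fun t : (Y → ℝ) × (Y → ℝ) => M.L t.2 x) (M.K P) := by
    unfold L
    exact ContinuousOn.mul (f := fun _ => (16 : ℝ)) continuousOn_const
      (M.continuousOn_E fun i => M.continuousOn_psi P x i)
  exact ContinuousOn.add (f := fun t : (Y → ℝ) × (Y → ℝ) =>
      20 * qf (M.u P x) + 90 * M.bt ⟨P, t.1, t.2⟩ x)
    (ContinuousOn.add (f := fun _ => 20 * qf (M.u P x)) continuousOn_const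
      (ContinuousOn.mul (f := fun _ => (90 : ℝ)) continuousOn_const h1))
    (ContinuousOn.mul (f := fun _ => zf (M.u P x)) continuousOn_const h2)

theorem continuousOn_nrm (P : Finset Y) (S₀ : St Y) (x : Y) :
    ContinuousOn (fun t : (Y → ℝ) × (Y → ℝ) => M.nrm S₀ x ⟨P, t.1, t.2⟩ x) (M.K P) := by
  unfold nrm
  refine continuousOn_finsetSum _ fun o _ => ?_
  apply ContinuousOn.abs
  apply ContinuousOn.sub continuousOn_const
  cases o with
  | none =>
    exact (continuousOn_const (c := 1 - tf (M.u P x)) : ContinuousOn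
      (fun _ : (Y → ℝ) × (Y → ℝ) => 1 - tf (M.u P x)) (M.K P))
  | some z =>
    exact ContinuousOn.mul (f := fun _ => tf (M.u P x)) continuousOn_const
      (M.continuousOn_lam P x z)

/-- the empty state -/
def St0 : St Y := ⟨∅, 0, 0⟩

theorem ok_St0 : Ok M (St0 : St Y) where
  β0 := fun _ => le_rfl
  β1 := fun _ => zero_le_one
  w0 := fun _ => le_rfl
  pack := fun y => by simp [St0, bm]
  sep := fun p hp => by simp [St0] at hp

/-- **Existence of the lazy minimiser.** -/
theorem exists_stable {m : Y → ℝ} (hm : ∀ x, 0 ≤ m x) {S₀ : St Y} (h₀ : Ok M S₀) :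
    ∃ S, M.Stable m S ∧ ∑ x, m x * (M.U S x + M.nrm S₀ x S x) ≤ ∑ x, m x * M.U S₀ x := by
  classical
  let F : St Y → ℝ := fun S => ∑ x, m x * (M.U S x + M.nrm S₀ x S x)
  -- minimiser for each `P`
  have h1 : ∀ P : Finset Y, (M.K P).Nonempty → ∃ t ∈ M.K P, ∀ t' ∈ M.K P,
      F ⟨P, t.1, t.2⟩ ≤ F ⟨P, t'.1, t'.2⟩ := by
    intro P hP
    obtain ⟨t, ht, hmin⟩ := (M.K_compact P).exists_isMinOn hP
      (f := fun t => F ⟨P, t.1, t.2⟩) (continuousOn_finsetSum _ fun x _ =>
        continuousOn_const.mul ((M.continuousOn_U P x).add (M.continuousOn_nrm P S₀ x)))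
    exact ⟨t, ht, fun t' ht' => hmin ht'⟩
  -- global minimiser
  have h2 : ∃ S, Ok M S ∧ ∀ S', Ok M S' → F S ≤ F S' := by
    let good : Finset (Finset Y) := univ.filter fun P => (M.K P).Nonempty
    have hgood : good.Nonempty := ⟨∅, by
      simp only [good, mem_filter, mem_univ, true_and]
      exact ⟨(0, 0), M.ok_St0⟩⟩
    choose! t ht hmin using h1
    obtain ⟨P, hP, hPmin⟩ := good.exists_min_image (fun P => F ⟨P, (t P).1, (t P).2⟩) hgood
    have hP' : (M.K P).Nonempty := by simpa [good] using hP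
    refine ⟨⟨P, (t P).1, (t P).2⟩, ht P hP', fun S' hS' => ?_⟩
    have hne : (M.K S'.P).Nonempty := ⟨(S'.β, S'.w), hS'⟩
    exact (hPmin S'.P (by simp [good, hne])).trans (hmin S'.P hne (S'.β, S'.w) hS')
  obtain ⟨S, hS, hmin⟩ := h2
  refine ⟨S, ⟨hS, fun S' hS' => ?_⟩, ?_⟩
  · have h3 := hmin S' hS'
    have h4 : F S' - F S ≤ M.D m S S' := by
      simp only [F, D, ← sum_sub_distrib]
      apply sum_le_sum
      intro x _
      rw [← mul_sub]
      apply mul_le_mul_of_nonneg_left _ (hm x)
      have := M.nrm_tri S₀ S S' x x x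
      linarith
    linarith
  · have h3 := hmin S₀ h₀
    simpa [F, M.nrm_self] using h3

end IM

end Crest.Agent.R314.G1
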