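import Mathlib
import Crest.Agent.R314.G1_B4
import Crest.Agent.R314.G1_M
import Crest.Agent.R314.G1_R

/-!
R314, module G (one scale), part G0: the easy parts of the final statement (helper435):
price of `Op(y,a)`, crude slope, growth at a nontrivial point.
-/

set_option autoImplicit false
set_option linter.unusedSectionVars false

namespace Crest.Agent.R314.G1

open Finset

variable {Y : Type*} [Fintype Y] [DecidableEq Y] (M : IM Y)

namespace IM

/-- (GB) crude slope after the operation -/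
theorem geo_crude {S : St Y} (hS : Ok M S) {a : ℝ} (ha0 : 0 < a) (ha1 : a ≤ 1 / 2) (y x : Y) :
    M.U ⟨S.P, S.β, M.op S.w y a⟩ y - M.U ⟨S.P, S.β, M.op S.w y a⟩ x +
      M.nrm ⟨S.P, S.β, M.op S.w y a⟩ y ⟨S.P, S.β, M.op S.w y a⟩ x ≤
      112 + 16 * Real.log (2 / a) := by
  have hS' : Ok M ⟨S.P, S.β, M.op S.w y a⟩ := M.op_Ok hS ha0.le (by linarith) y
  have h1 := M.U_nonneg hS' x
  have h2 := M.nrm_le_two hS'.w0 hS'.w0 y x
  have h3 : M.U ⟨S.P, S.β, M.op S.w y a⟩ y ≤ 110 + 16 * Real.log (2 / a) := by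
    unfold U
    have e1 := qf_le_one (M.u S.P y)
    have e2 := M.bt_le_one hS' y
    have e3 := zf_nonneg (M.u S.P y)
    have e4 := zf_le_one (M.u S.P y)
    have e5 := M.L_nonneg hS'.w0 hS'.pack y
    have e6 := M.op_L_le hS.w0 ha0 (by linarith) (x₀ := y) (x := y) (by rw [M.d_self]; norm_num)
    simp only at e5 ⊢
    nlinarith
  linarith

/-- (GC) price of the operation `Op(y,a)`: for every measure -/
theorem geo_D_op_le {m : Y → ℝ} (hm : ∀ x, 0 ≤ m x) {S : St Y} (hS : Ok M S) {a : ℝ} (ha0 : 0 ≤ a)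
    (ha1 : a ≤ 1 / 2) (y : Y) :
    M.D m S ⟨S.P, S.β, M.op S.w y a⟩ ≤ 34 * a * ∑ x, m x := by
  have hS' : Ok M ⟨S.P, S.β, M.op S.w y a⟩ := M.op_Ok hS ha0 (by linarith) y
  unfold D
  rw [mul_sum]
  apply sum_le_sum
  intro x _
  rw [mul_comm (34 * a)]
  apply mul_le_mul_of_nonneg_left _ (hm x)
  have h1 := M.nrm_le hS.w0 hS'.w0 x x
  simp only [sub_self, abs_zero, mul_zero, zero_add, min_self] at h1
  have h2 := M.op_price_le hS.w0 hS.pack ha0 ha1 y x
  have h3 : M.U ⟨S.P, S.β, M.op S.w y a⟩ x - M.U S x =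
      zf (M.u S.P x) * (M.L (M.op S.w y a) x - M.L S.w x) := by
    unfold U bt; ring
  rw [h3]
  have e3 := zf_nonneg (M.u S.P x)
  have e4 := zf_le_one (M.u S.P x)
  have e5 := tf_le_zf (M.u S.P x)
  have e6 : 0 ≤ ∑ z, |M.lam S.w x z - M.lam (M.op S.w y a) x z| :=
    sum_nonneg fun _ _ => abs_nonneg _
  have e7 : tf (M.u S.P x) * ∑ z, |M.lam S.w x z - M.lam (M.op S.w y a) x z| ≤
      zf (M.u S.P x) * ∑ z, |M.lam S.w x z - M.lam (M.op S.w y a) x z| :=
    mul_le_mul_of_nonneg_right e5 e6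
  have e8 : zf (M.u S.P x) * (M.L (M.op S.w y a) x - M.L S.w x +
      ∑ z, |M.lam S.w x z - M.lam (M.op S.w y a) x z|) ≤ zf (M.u S.P x) * (34 * a) :=
    mul_le_mul_of_nonneg_left h2 e3
  have e9 : zf (M.u S.P x) * (34 * a) ≤ 1 * (34 * a) :=
    mul_le_mul_of_nonneg_right e4 (by linarith)
  nlinarith

/-- growth at a nontrivial point -/
theorem GamR_ge_of_nontrivial {m : Y → ℝ} (hm : ∀ x, 0 ≤ m x) {y : Y} {r : ℝ} (hr : r ≤ 1 / 1024)
    (hy : 0 < M.bm m y r)
    (hn : (1 + 1 / 1000) * M.bm m y (1 / 1024) < M.bm m y 60) :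
    1 / 1024 * Real.log (1 + 1 / 1000) ≤ M.GamR m y r := by
  have hJ := M.Jr
  have hl : 0 < Real.log (1 + 1 / 1000) := Real.log_pos (by norm_num)
  unfold GamR
  -- every term is nonnegative, those with `s / (2J) ≤ 1/1024` are at least the logarithm
  have hpos : ∀ σ : ℝ, r ≤ σ → 0 < M.bm m y σ := fun σ h => hy.trans_le (M.bm_mono_r hm y h)
  have hnn : ∀ s ∈ range (2 * M.J),
      0 ≤ Real.log (M.bm m y 60 / M.bm m y (max ((s : ℝ) / (2 * M.J)) r)) := by
    intro s hs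
    have h1 := hpos _ (le_max_right ((s : ℝ) / (2 * M.J)) r)
    apply Real.log_nonneg
    rw [le_div_iff₀ h1, one_mul]
    apply M.bm_mono_r hm
    apply max_le _ (by linarith)
    rw [div_le_iff₀ (by positivity)]
    have h2 : ((s : ℕ) : ℝ) ≤ (2 * M.J : ℕ) := by exact_mod_cast (mem_range.1 hs).le
    push_cast at h2
    nlinarith
  have hbig : ∀ s ∈ (range (2 * M.J)).filter (fun s : ℕ => (s : ℝ) / (2 * M.J) ≤ 1 / 1024),
      Real.log (1 + 1 / 1000) ≤
        Real.log (M.bm m y 60 / M.bm m y (max ((s : ℝ) / (2 * M.J)) r)) := by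
    intro s hs
    rw [mem_filter] at hs
    have h1 := hpos _ (le_max_right ((s : ℝ) / (2 * M.J)) r)
    apply Real.log_le_log (by norm_num)
    rw [le_div_iff₀ h1]
    have h2 : M.bm m y (max ((s : ℝ) / (2 * M.J)) r) ≤ M.bm m y (1 / 1024) :=
      M.bm_mono_r hm y (max_le hs.2 hr)
    nlinarith
  have hcard : (2 * M.J : ℝ) / 1024 ≤
      (((range (2 * M.J)).filter (fun s : ℕ => (s : ℝ) / (2 * M.J) ≤ 1 / 1024)).card : ℝ) := by
    have hsub : range (Nat.ceil ((2 * M.J : ℝ) / 1024)) ⊆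
        (range (2 * M.J)).filter (fun s : ℕ => (s : ℝ) / (2 * M.J) ≤ 1 / 1024) := by
      intro s hs
      rw [mem_range, Nat.lt_ceil] at hs
      rw [mem_filter, mem_range]
      constructor
      · have h2 : (s : ℝ) < (2 * M.J : ℕ) := by push_cast; linarith
        exact_mod_cast h2
      · rw [div_le_iff₀ (by positivity)]; linarith
    have h1 := card_le_card hsub
    rw [card_range] at h1
    calc _ ≤ (Nat.ceil ((2 * M.J : ℝ) / 1024) : ℝ) := Nat.le_ceil _
      _ ≤ _ := by exact_mod_cast h1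
  rw [le_div_iff₀ (by positivity)]
  calc _ = (2 * M.J : ℝ) / 1024 * Real.log (1 + 1 / 1000) := by ring
    _ ≤ (((range (2 * M.J)).filter (fun s : ℕ => (s : ℝ) / (2 * M.J) ≤ 1 / 1024)).card : ℝ) *
        Real.log (1 + 1 / 1000) := mul_le_mul_of_nonneg_right hcard hl.le
    _ = ∑ s ∈ (range (2 * M.J)).filter (fun s : ℕ => (s : ℝ) / (2 * M.J) ≤ 1 / 1024),
        Real.log (1 + 1 / 1000) := by rw [sum_const, nsmul_eq_mul]
    _ ≤ ∑ s ∈ (range (2 * M.J)).filter (fun s : ℕ => (s : ℝ) / (2 * M.J) ≤ 1 / 1024),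
        Real.log (M.bm m y 60 / M.bm m y (max ((s : ℝ) / (2 * M.J)) r)) := sum_le_sum hbig
    _ ≤ _ := sum_le_sum_of_subset_of_nonneg (filter_subset _ _) fun s hs _ => hnn s hs

end IM

end Crest.Agent.R314.G1
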