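import Mathlib
import Crest.Agent.R314.G1_G0
import Crest.Agent.R314.G1_F

/-!
R314, module G (one scale), part G1: combination of the two claims and of the slopes
(helper435), with the inputs as hypotheses.
-/

set_option autoImplicit false
set_option linter.unusedSectionVars false

namespace Crest.Agent.R314.G1

open Finset

variable {Y : Type*} [Fintype Y] [DecidableEq Y] (M : IM Y)

namespace IM

theorem geo_GamR_nonneg {m : Y → ℝ} (hm : ∀ x, 0 ≤ m x) {y : Y} {r : ℝ} (hr : r ≤ 60)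
    (hy : 0 < M.bm m y r) : 0 ≤ M.GamR m y r := by
  have hJ := M.Jr
  unfold GamR
  apply div_nonneg _ (by positivity)
  apply sum_nonneg
  intro s hs
  have h1 : 0 < M.bm m y (max ((s : ℝ) / (2 * M.J)) r) :=
    hy.trans_le (M.bm_mono_r hm y (le_max_right _ _))
  apply Real.log_nonneg
  rw [le_div_iff₀ h1, one_mul]
  apply M.bm_mono_r hm
  apply max_le _ hr
  rw [div_le_iff₀ (by positivity)]
  have h2 : ((s : ℕ) : ℝ) ≤ (2 * M.J : ℕ) := by exact_mod_cast (mem_range.1 hs).le
  push_cast at h2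
  nlinarith

theorem log_1001 : 1 / 1001 ≤ Real.log (1 + 1 / 1000) := by
  have h := Real.one_sub_inv_le_log_of_pos (show (0 : ℝ) < 1 + 1 / 1000 by norm_num)
  norm_num at h ⊢
  linarith

/-- combination -/
theorem geo_of {m : Y → ℝ} (hm : ∀ x, 0 ≤ m x) {S : St Y} (hS : Ok M S) {y : Y} {r a : ℝ}
    (hr0 : 0 ≤ r) (hr : r ≤ 1 / 1024) (hy : 0 < M.bm m y r) (ha0 : 0 < a) (ha1 : a ≤ 1 / 2)
    {C2 C3 : ℝ} (hC2 : 0 ≤ C2) (hC3 : 0 ≤ C3)
    (h1 : M.bm m y 60 ≤ (1 + 1 / 1000) * M.bm m y (1 / 1024) → ∃ p ∈ S.P, M.d p y ≤ 1 / 64)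
    (h2 : ∀ p ∈ S.P, M.d p y ≤ 1 / 64 → M.d p y ≤ max (4 * r) (C2 * M.GamR m y r))
    (h3 : ∀ x, M.d x y ≤ 1 / 64 →
      M.U ⟨S.P, S.β, M.op S.w y a⟩ y - M.U ⟨S.P, S.β, M.op S.w y a⟩ x +
        M.nrm ⟨S.P, S.β, M.op S.w y a⟩ y ⟨S.P, S.β, M.op S.w y a⟩ x ≤
      C3 * M.d x y * (1 + M.GamR m y r + r * Real.log (2 / a)))
    (h4 : M.U ⟨S.P, S.β, M.op S.w y a⟩ y + 2 ≤
      C3 * (1 + M.GamR m y r + r * Real.log (2 / a))) (x : Y) :
    M.U ⟨S.P, S.β, M.op S.w y a⟩ y - M.U ⟨S.P, S.β, M.op S.w y a⟩ x +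
        M.nrm ⟨S.P, S.β, M.op S.w y a⟩ y ⟨S.P, S.β, M.op S.w y a⟩ x ≤
      (40960 * (4 + C2) + 1025025 * C3) *
        (M.d x y * (M.GamR m y r + r + r * Real.log (2 / a))) +
      (if 1 / 64 < M.d x y then (40960 * (4 + C2) + 1025025 * C3) *
        (1 + M.GamR m y r + r * Real.log (2 / a)) else 0) := by
  have hS' : Ok M ⟨S.P, S.β, M.op S.w y a⟩ := M.op_Ok hS ha0.le (by linarith) y
  have hG := M.geo_GamR_nonneg hm (by linarith) hy
  have hd := M.d_nonneg x y
  have hlog : 0 ≤ Real.log (2 / a) := by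
    apply Real.log_nonneg
    rw [le_div_iff₀ ha0]; linarith
  have hrl : 0 ≤ r * Real.log (2 / a) := mul_nonneg hr0 hlog
  set G := M.GamR m y r
  set l := r * Real.log (2 / a)
  by_cases hxy : 1 / 64 < M.d x y
  · rw [if_pos hxy]
    have e1 := M.U_nonneg hS' x
    have e2 := M.nrm_le_two hS'.w0 hS'.w0 y x
    have e3 : C3 * (1 + G + l) ≤ (40960 * (4 + C2) + 1025025 * C3) * (1 + G + l) := by
      apply mul_le_mul_of_nonneg_right _ (by linarith)
      nlinarith
    have e4 : 0 ≤ (40960 * (4 + C2) + 1025025 * C3) * (M.d x y * (G + r + l)) := by positivity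
    linarith
  · rw [if_neg hxy, add_zero]
    push Not at hxy
    by_cases ht : M.bm m y 60 ≤ (1 + 1 / 1000) * M.bm m y (1 / 1024)
    · obtain ⟨p, hp, hpy⟩ := h1 ht
      have e1 := h2 p hp hpy
      have e2 : M.d p y ≤ 4 * r + C2 * G := by
        apply e1.trans
        have : 0 ≤ C2 * G := mul_nonneg hC2 hG
        apply max_le <;> linarith
      have e3 := M.slope_near hS' (p := p) (y := y) (x := x) hp (by rw [M.d_symm]; exact hpy) hxy
      rw [M.d_symm y p] at e3
      have e4 : 40960 * M.d p y * M.d x y ≤ 40960 * (4 * r + C2 * G) * M.d x y := by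
        apply mul_le_mul_of_nonneg_right _ hd
        linarith
      have e5 : 40960 * (4 * r + C2 * G) ≤ (40960 * (4 + C2) + 1025025 * C3) * (G + r + l) := by
        have a1 : 0 ≤ C2 * r := mul_nonneg hC2 hr0
        have a2 : 0 ≤ C2 * l := mul_nonneg hC2 hrl
        have a3 : 0 ≤ C3 * (G + r + l) := by positivity
        nlinarith
      calc _ ≤ _ := e3
        _ ≤ 40960 * (4 * r + C2 * G) * M.d x y := e4
        _ ≤ (40960 * (4 + C2) + 1025025 * C3) * (G + r + l) * M.d x y :=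
            mul_le_mul_of_nonneg_right e5 hd
        _ = _ := by ring
    · push Not at ht
      have e1 := M.GamR_ge_of_nontrivial hm hr hy ht
      have e2 := log_1001
      have e3 : 1 ≤ 1025024 * G := by
        have : 1 / 1024 * (1 / 1001) ≤ G := by
          refine le_trans ?_ e1
          apply mul_le_mul_of_nonneg_left e2 (by norm_num)
        linarith
      have e4 := h3 x hxy
      have e5 : C3 * (1 + G + l) ≤ (40960 * (4 + C2) + 1025025 * C3) * (G + r + l) := by
        have a1 : 0 ≤ C3 * (G + r + l) := by positivity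
        have a2 : 0 ≤ C2 * (G + r + l) := by positivity
        have a3 : C3 * (1 + G + l) ≤ 1025025 * (C3 * (G + r + l)) := by
          have : C3 * (1 + G + l) ≤ C3 * (1025025 * (G + r + l)) := by
            apply mul_le_mul_of_nonneg_left _ hC3
            linarith
          linarith
        nlinarith
      calc _ ≤ _ := e4
        _ = C3 * (1 + G + l) * M.d x y := by ring
        _ ≤ (40960 * (4 + C2) + 1025025 * C3) * (G + r + l) * M.d x y :=
            mul_le_mul_of_nonneg_right e5 hd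
        _ = _ := by ring

end IM

end Crest.Agent.R314.G1
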