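import Mathlib
import Crest.Agent.R314.G1_G1
import Crest.Agent.R314.G1_C3
import Crest.Agent.R314.G1_D

/-!
R314, module G (one scale), part G2: the final geometric statement `GEO1C`, with the second claim
as a hypothesis (helper435).  The operation size `a = 0` is allowed when `r = 0`.
-/

set_option autoImplicit false
set_option linter.unusedSectionVars false

namespace Crest.Agent.R314.G1

open Finset

universe u

variable {Y : Type u} [Fintype Y] [DecidableEq Y] (M : IM Y)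

namespace IM

theorem rlog_nonneg {r a : ℝ} (hr : 0 ≤ r) (ha0 : 0 ≤ a) (ha : a ≤ 1 / 2) :
    0 ≤ r * Real.log (2 / a) := by
  rcases ha0.eq_or_lt with h | h
  · rw [← h, div_zero, Real.log_zero, mul_zero]
  · exact mul_nonneg hr (Real.log_nonneg (by rw [le_div_iff₀ h]; linarith))

section
variable {S : St Y} {m : Y → ℝ} (hS : M.Stable m S) (hm : ∀ x, 0 ≤ m x) {y : Y} {r : ℝ}
  (hr : 0 ≤ r) (hr1 : r ≤ 60) (hpos : 0 < M.bm m y r) {a : ℝ} (ha0 : 0 ≤ a) (ha : a ≤ 1 / 2)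
  (har : 0 < a ∨ r = 0)
include hS hm hr hr1 hpos ha0 ha har

theorem rfPsi_cut0 : rf (M.u S.P y) * M.Psi (M.op S.w y a) y
    ≤ 68 * (1 + M.GamR m y r + r * Real.log (2 / a)) := by
  have hg : C.Grow M (1 / 52) S.P S.w m y := fun i hi => M.L1 hm hS y hi
  have h := C.rf_Psi_le hS.1 hm hr hr1 hpos (by norm_num) (by norm_num) hg ha0 ha har.symm
  have h1 := C.log104
  have hl := rlog_nonneg hr ha0 ha
  linarith

theorem slope_cut0 {x : Y} (hxy : M.d x y ≤ 1 / 64) :
    M.U ⟨S.P, S.β, M.op S.w y a⟩ y - M.U ⟨S.P, S.β, M.op S.w y a⟩ x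
      + M.nrm ⟨S.P, S.β, M.op S.w y a⟩ y ⟨S.P, S.β, M.op S.w y a⟩ x
      ≤ 151000 * M.d x y * (1 + M.GamR m y r + r * Real.log (2 / a)) := by
  have hOk : Ok M ⟨S.P, S.β, M.op S.w y a⟩ := M.op_Ok hS.1 ha0 (by linarith) y
  have h1 := C.slope_of hOk hxy
  have h2 := M.rfPsi_cut0 hS hm hr hr1 hpos ha0 ha har
  have hd := M.d_nonneg x y
  have hΓ := C.GamR_nonneg' hm hr hpos hr1
  have hl := rlog_nonneg hr ha0 ha
  rw [M.nrm_comm]
  refine h1.trans ?_
  have h3 : 1400 + 2200 * (rf (M.u S.P y) * M.Psi (M.op S.w y a) y)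
      ≤ 151000 * (1 + M.GamR m y r + r * Real.log (2 / a)) := by linarith
  calc M.d x y * (1400 + 2200 * (rf (M.u S.P y) * M.Psi (M.op S.w y a) y))
      ≤ M.d x y * (151000 * (1 + M.GamR m y r + r * Real.log (2 / a))) :=
        mul_le_mul_of_nonneg_left h3 hd
    _ = _ := by ring

theorem U_cut0 : M.U ⟨S.P, S.β, M.op S.w y a⟩ y + 2
    ≤ 151000 * (1 + M.GamR m y r + r * Real.log (2 / a)) := by
  have hOk : Ok M ⟨S.P, S.β, M.op S.w y a⟩ := M.op_Ok hS.1 ha0 (by linarith) y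
  have h1 := C.U_le_of hOk y
  have h2 := M.rfPsi_cut0 hS hm hr hr1 hpos ha0 ha har
  have hΓ := C.GamR_nonneg' hm hr hpos hr1
  have hl := rlog_nonneg hr ha0 ha
  simp only at h1
  linarith

/-- combination, `a = 0` allowed -/
theorem geo_of0 {C2 : ℝ} (hC2 : 0 ≤ C2)
    (h2 : ∀ p ∈ S.P, M.d p y ≤ 1 / 64 → M.d p y ≤ max (4 * r) (C2 * M.GamR m y r))
    (hr2 : r ≤ 1 / 1024) (x : Y) :
    M.U ⟨S.P, S.β, M.op S.w y a⟩ y - M.U ⟨S.P, S.β, M.op S.w y a⟩ x +
        M.nrm ⟨S.P, S.β, M.op S.w y a⟩ y ⟨S.P, S.β, M.op S.w y a⟩ x ≤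
      (40960 * (4 + C2) + 154778775000) *
        (M.d x y * (M.GamR m y r + r + r * Real.log (2 / a))) +
      (if 1 / 64 < M.d x y then (40960 * (4 + C2) + 154778775000) *
        (1 + M.GamR m y r + r * Real.log (2 / a)) else 0) := by
  have hS' : Ok M ⟨S.P, S.β, M.op S.w y a⟩ := M.op_Ok hS.1 ha0 (by linarith) y
  have hG := M.geo_GamR_nonneg hm (by linarith) hpos
  have hd := M.d_nonneg x y
  have hrl := rlog_nonneg hr ha0 ha
  have h4 := M.U_cut0 hS hm hr hr1 hpos ha0 ha har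
  have h3 := fun x (hxy : M.d x y ≤ 1 / 64) => M.slope_cut0 hS hm hr hr1 hpos ha0 ha har hxy
  have h1 := fun (h : M.bm m y 60 ≤ (1 + 1 / 1000) * M.bm m y (1 / 1024)) =>
    M.claim_one hm hS (hpos.trans_le (M.bm_mono_r hm y hr2)) h
  set G := M.GamR m y r
  set l := r * Real.log (2 / a)
  by_cases hxy : 1 / 64 < M.d x y
  · rw [if_pos hxy]
    have e1 := M.U_nonneg hS' x
    have e2 := M.nrm_le_two hS'.w0 hS'.w0 y x
    have e3 : 151000 * (1 + G + l) ≤ (40960 * (4 + C2) + 154778775000) * (1 + G + l) := by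
      apply mul_le_mul_of_nonneg_right _ (by linarith)
      nlinarith
    have e4 : 0 ≤ (40960 * (4 + C2) + 154778775000) * (M.d x y * (G + r + l)) := by positivity
    linarith
  · rw [if_neg hxy, add_zero]
    push Not at hxy
    by_cases ht : M.bm m y 60 ≤ (1 + 1 / 1000) * M.bm m y (1 / 1024)
    · obtain ⟨p, hp, hpy⟩ := h1 ht
      have e1 := h2 p hp hpy
      have e2 : M.d p y ≤ 4 * r + C2 * G := by
        apply e1.trans
        have : 0 ≤ C2 * G := mul_nonneg hC2 hG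
        apply max_le <;> linarith
      have e3 := M.slope_near hS' (p := p) (y := y) (x := x) hp (by rw [M.d_symm]; exact hpy) hxy
      rw [M.d_symm y p] at e3
      have e4 : 40960 * M.d p y * M.d x y ≤ 40960 * (4 * r + C2 * G) * M.d x y := by
        apply mul_le_mul_of_nonneg_right _ hd
        linarith
      have e5 : 40960 * (4 * r + C2 * G) ≤ (40960 * (4 + C2) + 154778775000) * (G + r + l) := by
        have a1 : 0 ≤ C2 * r := mul_nonneg hC2 hr
        have a2 : 0 ≤ C2 * l := mul_nonneg hC2 hrl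
        nlinarith
      calc _ ≤ _ := e3
        _ ≤ 40960 * (4 * r + C2 * G) * M.d x y := e4
        _ ≤ (40960 * (4 + C2) + 154778775000) * (G + r + l) * M.d x y :=
            mul_le_mul_of_nonneg_right e5 hd
        _ = _ := by ring
    · push Not at ht
      have e1 := M.GamR_ge_of_nontrivial hm hr2 hpos ht
      have e2 := log_1001
      have e3 : 1 ≤ 1025024 * G := by
        have : 1 / 1024 * (1 / 1001) ≤ G := by
          refine le_trans ?_ e1
          apply mul_le_mul_of_nonneg_left e2 (by norm_num)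
        linarith
      have e4 := h3 x hxy
      have e5 : 151000 * (1 + G + l) ≤ (40960 * (4 + C2) + 154778775000) * (G + r + l) := by
        have a1 : 0 ≤ C2 * (G + r + l) := by positivity
        nlinarith
      calc _ ≤ _ := e4
        _ = 151000 * (1 + G + l) * M.d x y := by ring
        _ ≤ (40960 * (4 + C2) + 154778775000) * (G + r + l) * M.d x y :=
            mul_le_mul_of_nonneg_right e5 hd
        _ = _ := by ring

end

end IM

/-- the final geometric statement (723 #9053) -/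
def GEO1C : Prop :=
  ∃ CG : ℝ, 0 ≤ CG ∧ ∀ (Y : Type u) [Fintype Y] [DecidableEq Y] (M : IM Y) (m : Y → ℝ) (S : St Y)
    (y x : Y) (r a : ℝ), (∀ x, 0 ≤ m x) → M.Stable m S → 0 ≤ r → r ≤ 1 / 1024 → 0 < M.bm m y r →
    0 ≤ a → a ≤ 1 / 2 → (0 < a ∨ r = 0) →
    M.U ⟨S.P, S.β, M.op S.w y a⟩ y - M.U ⟨S.P, S.β, M.op S.w y a⟩ x +
        M.nrm ⟨S.P, S.β, M.op S.w y a⟩ y ⟨S.P, S.β, M.op S.w y a⟩ x ≤
      CG * (M.d x y * (M.GamR m y r + r + r * Real.log (2 / a))) +
      (if 1 / 64 < M.d x y then CG * (1 + M.GamR m y r + r * Real.log (2 / a)) else 0)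

/-- claim 2 (197): the main is close to the centre of a trivial point -/
def Claim2 : Prop :=
  ∃ C2 : ℝ, 0 ≤ C2 ∧ ∀ (Y : Type u) [Fintype Y] [DecidableEq Y] (M : IM Y) (m : Y → ℝ) (S : St Y)
    (y p : Y) (r : ℝ), (∀ x, 0 ≤ m x) → M.Stable m S → 0 ≤ r → 0 < M.bm m y r →
    p ∈ S.P → M.d p y ≤ 1 / 64 → M.d p y ≤ max (4 * r) (C2 * M.GamR m y r)

theorem geo1C_of (h : Claim2.{u}) : GEO1C.{u} := by
  obtain ⟨C2, hC2, h2⟩ := h
  refine ⟨40960 * (4 + C2) + 154778775000, by positivity, ?_⟩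
  intro Y _ _ M m S y x r a hm hS hr hr1 hpos ha0 ha har
  exact M.geo_of0 hS hm hr (by linarith) hpos ha0 ha har hC2
    (fun p hp hpy => h2 Y M m S y p r hm hS hr hpos hp hpy) hr1 x

end Crest.Agent.R314.G1
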