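import Crest.Agent.R314.GO2

/-!
R314, block GO, part b, end (helper723): `GEO1C → GOb`.
-/

set_option autoImplicit false
set_option linter.unusedSectionVars false

namespace Crest.Agent.R314.GO

open Finset Crest.Agent.R314 Crest.Agent.R314.Tk Crest.Agent.R314.Bay Crest.LogicCS.KServer
open Crest.Agent.R314.G1 (St IM Ok)

universe u

section Radius

variable {Y : Type u} [MetricSpace Y] [Fintype Y] {k : ℕ} [NeZero k] (Q : Prior Y k)

/-- Attained quantile radius. -/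
theorem exists_quantile_att (h : List Y) (r : Y) :
    ∃ x0 : Y, 3 / 4 * Q.P h ≤ Q.hit h r (dist x0 r) ∧ Q.hit' h r (dist x0 r) ≤ 3 / 4 * Q.P h := by
  classical
  obtain ⟨r1, h0, h1, h2⟩ := Q.exists_quantile h r
  have hne : (univ.filter fun x : Y => dist x r ≤ r1).Nonempty := ⟨r, by simpa using h0⟩
  obtain ⟨x0, hx0, hmax⟩ := exists_max_image _ (fun x : Y => dist x r) hne
  rw [mem_filter] at hx0
  refine ⟨x0, h1.trans ?_, le_trans ?_ h2⟩
  · apply Q.Em_mono
    intro c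
    by_cases hc : ∃ j, dist (c j) r ≤ r1
    · obtain ⟨j, hj⟩ := hc
      have h3 : dist (c j) r ≤ dist x0 r := hmax (c j) (mem_filter.2 ⟨mem_univ _, hj⟩)
      rw [if_pos ⟨j, hj⟩, if_pos ⟨j, h3⟩]
    · rw [if_neg hc]
      split_ifs <;> norm_num
  · apply Q.Em_mono
    intro c
    by_cases hc : ∃ j, dist (c j) r < dist x0 r
    · obtain ⟨j, hj⟩ := hc
      have h3 : dist (c j) r < r1 := hj.trans_le hx0.2
      rw [if_pos ⟨j, hj⟩, if_pos ⟨j, h3⟩]
    · rw [if_neg hc]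
      split_ifs <;> norm_num

/-- The radius of a history: quantile radius, or large if the history has probability `0`. -/
theorem exists_radius (big : ℝ) (hbig : 0 ≤ big) (h : List Y) (h0 : h ≠ []) :
    ∃ r1 : ℝ, 0 ≤ r1 ∧
      r1 * Q.P h / 4 ≤ ∑ i ∈ Q.I h, Q.p i * dist (Q.src i (h.length - 1)) (Q.rq i (h.length - 1)) ∧
      ((Q.P h = 0 ∧ r1 = big) ∨ (0 < Q.P h ∧ (∃ x0 : Y, r1 = dist x0 (h.getLast h0)) ∧
        3 / 4 * Q.P h ≤ Gs.bm dist (Q.mm h) (h.getLast h0) r1)) := by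
  classical
  rcases (Q.P_nonneg h).eq_or_lt with hP | hP
  · refine ⟨big, hbig, ?_, Or.inl ⟨hP.symm, rfl⟩⟩
    rw [← hP, mul_zero, zero_div]
    exact sum_nonneg fun i _ => mul_nonneg (Q.p_nonneg i) dist_nonneg
  · obtain ⟨x0, h1, h2⟩ := exists_quantile_att Q h (h.getLast h0)
    refine ⟨dist x0 (h.getLast h0), dist_nonneg, ?_, Or.inr ⟨hP, ⟨x0, rfl⟩, ?_⟩⟩
    · refine (Q.quantile_flow h0 dist_nonneg h2).trans (le_of_eq ?_)
      exact sum_congr rfl fun i hi => by rw [Q.rq_of_mem_I hi h0]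
    · exact h1.trans (Q.hit_le_mass h _ _)

end Radius

section Final

variable {Y : Type u} [MetricSpace Y] [Fintype Y] [DecidableEq Y]

/-- The sum of the slopes over the levels. -/
theorem sum_slopes {CG : ℝ} (hCG : 0 ≤ CG) {R0 : ℝ} {J L : ℕ} (hR0 : 0 < R0) (hJ : 0 < J)
    (hgrid : ∀ i, i ≤ L → ∀ x y : Y, x ≠ y → R0 * 16 ^ i ≤ 2 * J * dist x y)
    {k : ℕ} (hk : 1 ≤ k) {m : Y → ℝ} (hm : ∀ x, 0 ≤ m x) {P : ℝ} (hmP : ∑ x, m x = k * P)
    (y x : Y) {r1 : ℝ} (hr1 : 0 ≤ r1)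
    (hr : r1 = R0 * 16 ^ L ∨ (0 < P ∧ (∃ x0 : Y, r1 = dist x0 y) ∧
      3 / 4 * P ≤ Gs.bm dist m y r1)) (F : ℕ → ℝ)
    (hF : ∀ i, i < L → (2048 * r1 ≤ R0 * 16 ^ i → 0 < Gs.bm dist m y r1 → F i ≤
      4 * CG * (dist x y / (R0 * 16 ^ i)) * (Gs.GamR dist m y 60 (R0 * 16 ^ i) r1 +
        r1 / (R0 * 16 ^ i) + Gs.flr k r1 (R0 * 16 ^ i)) +
        if R0 * 16 ^ i < 128 * dist x y then 4 * CG * (1 + Gs.GamR dist m y 60 (R0 * 16 ^ i) r1 +
          Gs.flr k r1 (R0 * 16 ^ i)) else 0))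
    (hF' : ∀ i, i < L → R0 * 16 ^ i < 2048 * r1 → F i ≤ 400 * (1 + Real.log (8 * k))) :
    ∑ i ∈ range L, R0 * 16 ^ i * F i ≤
      (4 * CG + 400) * 4000 * (dist x y + r1) * (1 + Real.log (8 * k)) := by
  have hkr : (1 : ℝ) ≤ k := by exact_mod_cast hk
  have hl8 : 0 < Real.log (8 * (k : ℝ)) := Real.log_pos (by linarith)
  have hsq : Real.sqrt 16 = 4 := by
    rw [show (16 : ℝ) = 4 ^ 2 by norm_num]
    exact Real.sqrt_sq (by norm_num)
  have hcomm : ∀ i : ℕ, (16 : ℝ) ^ i * R0 = R0 * 16 ^ i := fun i => mul_comm _ _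
  -- positivity of the ball whenever a level is large
  have hpos : ∀ i, i < L → 2048 * r1 ≤ R0 * 16 ^ i → 0 < P ∧ 3 / 4 * P ≤ Gs.bm dist m y r1 := by
    intro i hi h1
    rcases hr with h | h
    · exfalso
      have h2 : R0 * 16 ^ i ≤ R0 * 16 ^ L :=
        mul_le_mul_of_nonneg_left (pow_le_pow_right₀ (by norm_num) hi.le) hR0.le
      have h3 : 0 < R0 * 16 ^ i := by positivity
      rw [h] at h1
      linarith
    · exact ⟨h.1, h.2.2⟩
  have hS : ∑ i ∈ (range L).filter (fun i => 2048 * r1 ≤ (16 : ℝ) ^ i * R0),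
      Gs.GamR dist m y 60 ((16 : ℝ) ^ i * R0) r1 ≤ 4 * Real.log (8 * k) := by
    by_cases hne : ((range L).filter (fun i => 2048 * r1 ≤ (16 : ℝ) ^ i * R0)).Nonempty
    · obtain ⟨i0, hi0⟩ := hne
      rw [mem_filter, mem_range, hcomm] at hi0
      obtain ⟨hP, hbm⟩ := hpos i0 hi0.1 hi0.2
      have hb : 0 < Gs.bm dist m y r1 := lt_of_lt_of_le (by positivity) hbm
      have h1 := Gs.sum_GamR_le (d := dist) hm hb hR0 (A := 2) (B := 16) (by norm_num)
        (a := 60) (by norm_num) (by norm_num) L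
      have h2 : ∑ i ∈ (range L).filter (fun i => 2048 * r1 ≤ (16 : ℝ) ^ i * R0),
          Gs.GamR dist m y 60 ((16 : ℝ) ^ i * R0) r1 ≤
          ∑ i ∈ (range L).filter (fun i => r1 ≤ (16 : ℝ) ^ i * R0),
          Gs.GamR dist m y 60 ((16 : ℝ) ^ i * R0) r1 := by
        apply sum_le_sum_of_subset_of_nonneg
        · intro i hi
          rw [mem_filter] at hi ⊢
          refine ⟨hi.1, ?_⟩
          have := hi.2
          linarith
        · intro i hi _
          rw [mem_filter] at hi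
          exact Gs.GamR_nonneg hm hb (by norm_num) (by positivity) hi.2
      refine h2.trans (h1.trans ?_)
      rw [hmP]
      have h3 : (k : ℝ) * P / Gs.bm dist m y r1 ≤ 8 * k := by
        rw [div_le_iff₀ hb]
        have : 8 * (k : ℝ) * (3 / 4 * P) ≤ 8 * k * Gs.bm dist m y r1 := by gcongr
        nlinarith
      have h4 : 0 < (k : ℝ) * P / Gs.bm dist m y r1 := by positivity
      have h5 := Real.log_le_log h4 h3
      have h6 : 1 ≤ Real.log 16 := by
        rw [show (16 : ℝ) = 2 ^ 4 by norm_num, Real.log_pow]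
        have := Real.log_two_gt_d9
        push_cast
        linarith
      have h7 : 1 / Real.log 16 ≤ 1 := by
        rw [div_le_one (by linarith)]
        exact h6
      have h8 : 0 ≤ 1 / Real.log 16 := by positivity
      push_cast
      calc (2 + 1 + 1 / Real.log 16) * Real.log (k * P / Gs.bm dist m y r1)
          ≤ (2 + 1 + 1 / Real.log 16) * Real.log (8 * k) := by gcongr
        _ ≤ _ := by nlinarith
    · rw [not_nonempty_iff_eq_empty] at hne
      rw [hne, sum_empty]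
      positivity
  have key := Gs.sum_inc_cut' (B := 16) (R₀ := R0) (r1 := r1) (dd := dist x y) (k := k)
    (K := 2048) (κ := 128) (C := 4 * CG + 400) (C1 := 4) (I := L)
    (Γ := fun i => Gs.GamR dist m y 60 ((16 : ℝ) ^ i * R0) r1) (inc := F)
    (by norm_num) hR0 dist_nonneg hr1 hkr (by norm_num) (by norm_num) (by positivity)
    (by norm_num) ?_ hS ?_ ?_
  · simp only [hcomm] at key
    refine key.trans ?_
    rw [hsq]
    have h1 : 0 ≤ dist x y + r1 := by positivity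
    have h2 : 0 ≤ 1 + Real.log (8 * (k : ℝ)) := by linarith
    gcongr
    norm_num
  · intro i hi h1
    rw [hcomm] at h1
    obtain ⟨hP, hbm⟩ := hpos i hi h1
    have hb : 0 < Gs.bm dist m y r1 := lt_of_lt_of_le (by positivity) hbm
    simp only [hcomm]
    exact Gs.GamR_nonneg hm hb (by norm_num) (by positivity) (by linarith)
  · intro i hi h1
    rw [hcomm] at h1
    obtain ⟨hP, hbm⟩ := hpos i hi h1
    have hb : 0 < Gs.bm dist m y r1 := lt_of_lt_of_le (by positivity) hbm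
    have h2 := hF i hi h1 hb
    have hRi : 0 < R0 * 16 ^ i := by positivity
    have hG0 : 0 ≤ Gs.GamR dist m y 60 (R0 * 16 ^ i) r1 :=
      Gs.GamR_nonneg hm hb (by norm_num) hRi.le (by linarith)
    have hfl := Gs.flr_nonneg hkr hr1 hRi
    simp only [hcomm]
    refine h2.trans (add_le_add ?_ ?_)
    · have h3 : 0 ≤ dist x y / (R0 * 16 ^ i) * (Gs.GamR dist m y 60 (R0 * 16 ^ i) r1 +
        r1 / (R0 * 16 ^ i) + Gs.flr k r1 (R0 * 16 ^ i)) := by positivity
      nlinarith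
    · split_ifs
      · nlinarith
      · exact le_rfl
  · intro i hi h1
    rw [hcomm] at h1
    refine (hF' i hi h1).trans ?_
    nlinarith

theorem one_add_log_le {k : ℕ} (hk : 2 ≤ k) :
    1 + Real.log (8 * k) ≤ 5 * Real.log (k + 1) := by
  have hkr : (2 : ℝ) ≤ k := by exact_mod_cast hk
  have h1 : 1 ≤ Real.log (k + 1) := by
    rw [Real.le_log_iff_exp_le (by linarith)]
    have := Real.exp_one_lt_d9
    linarith
  have h2 : Real.log (8 * k) = Real.log 8 + Real.log k :=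
    Real.log_mul (by norm_num) (by positivity)
  have h3 : Real.log k ≤ Real.log (k + 1) := Real.log_le_log (by linarith) (by linarith)
  have h4 : Real.log 8 ≤ 3 := by
    rw [show (8 : ℝ) = 2 ^ 3 by norm_num, Real.log_pow]
    have := Real.log_two_lt_d9
    push_cast
    linarith
  rw [h2]
  linarith

section Proc

variable {k : ℕ} [NeZero k] (Q : Prior Y k)

open Classical in
/-- The radius of a history. -/
noncomputable def rr (c : ℝ) (h : List Y) : ℝ :=
  if h0 : h ≠ [] then (exists_radius Q |c| (abs_nonneg c) h h0).choose else 0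

theorem rr_spec (c : ℝ) {h : List Y} (h0 : h ≠ []) :
    0 ≤ rr Q c h ∧
      rr Q c h * Q.P h / 4 ≤
        ∑ i ∈ Q.I h, Q.p i * dist (Q.src i (h.length - 1)) (Q.rq i (h.length - 1)) ∧
      ((Q.P h = 0 ∧ rr Q c h = |c|) ∨
        (0 < Q.P h ∧ (∃ x0 : Y, rr Q c h = dist x0 (h.getLast h0)) ∧
        3 / 4 * Q.P h ≤ Gs.bm dist (Q.mm h) (h.getLast h0) (rr Q c h))) := by
  have e : rr Q c h = (exists_radius Q |c| (abs_nonneg c) h h0).choose := by
    unfold rr
    rw [dif_pos h0]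
  rw [e]
  exact (exists_radius Q |c| (abs_nonneg c) h h0).choose_spec

open Classical in
/-- The operation of the level `i` at the history `h`. -/
noncomputable def opN {R0 : ℝ} {J : ℕ} (hR0 : 0 < R0) (hJ : 0 < J) (hk : 1 ≤ k) (r1 : List Y → ℝ)
    (i : ℕ) (h : List Y) (S : (lg (Mi (Y := Y) R0 J hR0 hJ i)).S) :
    (lg (Mi (Y := Y) R0 J hR0 hJ i)).S :=
  if h0 : h ≠ [] then opS (Mi R0 J hR0 hJ i) (h.getLast h0)
    (aa_nonneg k (r1 h) (R0 * 16 ^ i)) (aa_le hk (r1 h) (R0 * 16 ^ i)) S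
  else S

/-- The last request of a history. -/
noncomputable def yv (h : List Y) : Y :=
  open Classical in if h0 : h ≠ [] then h.getLast h0 else Q.s 0

/-- The bound for the slope. -/
noncomputable def Fb (R0 CG : ℝ) (r1 : List Y → ℝ) (i : ℕ) (h : List Y) (x : Y) : ℝ :=
  open Classical in
  if 2048 * r1 h ≤ R0 * 16 ^ i then
    4 * CG * (dist x (yv Q h) / (R0 * 16 ^ i)) *
      (Gs.GamR dist (Q.mm h) (yv Q h) 60 (R0 * 16 ^ i) (r1 h) +
        r1 h / (R0 * 16 ^ i) + Gs.flr k (r1 h) (R0 * 16 ^ i)) +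
      if R0 * 16 ^ i < 128 * dist x (yv Q h) then
        4 * CG * (1 + Gs.GamR dist (Q.mm h) (yv Q h) 60 (R0 * 16 ^ i) (r1 h) +
          Gs.flr k (r1 h) (R0 * 16 ^ i)) else 0
  else 400 * (1 + Real.log (8 * k))

end Proc

/-- **Module G, part b.** -/
theorem gob_of_geo (hG : GEO1C.{u}) : GOb.{u} := by
  classical
  obtain ⟨CG, hCG, hG⟩ := hG
  set K1 : ℝ := (4 * CG + 400) * 4000 + 20 with hK1
  have hK1pos : 0 ≤ K1 := by positivity
  refine ⟨9 * K1 * 5, by positivity, ?_⟩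
  intro k _ hk Y _ _ _ R0 J L hR0 hJ hgrid
  have hk1 : 1 ≤ k := by omega
  have hkr : (1 : ℝ) ≤ k := by exact_mod_cast hk1
  have hl8 : 0 < Real.log (8 * (k : ℝ)) := Real.log_pos (by linarith)
  set V : ℝ := 110 + 16 * Real.log (2 * Fintype.card Y) with hV
  have hRn : ∀ i : ℕ, 0 < R0 * (16 : ℝ) ^ i := fun i => by positivity
  set B' : ℝ := (∑ i ∈ range L, R0 * 16 ^ i) * (k * |V|) + 1 with hB'
  have hRs : 0 ≤ ∑ i ∈ range L, R0 * (16 : ℝ) ^ i := sum_nonneg fun i _ => (hRn i).le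
  refine ⟨B', by positivity, ?_⟩
  intro Q
  have hp0 : 0 ≤ ∑ i, Q.p i := sum_nonneg fun i _ => Q.p_nonneg i
  -- games
  let G : ℕ → RGame.{u, u, u} Y (Option Y) := fun i => lg (Mi (Y := Y) R0 J hR0 hJ i)
  let r1 : List Y → ℝ := rr Q (R0 * 16 ^ L)
  let op : ∀ i, List Y → (G i).S → (G i).S := fun i => opN hR0 hJ hk1 r1 i
  let st : List Y → ℕ → St Y := fun h i => ((G i).st Q (op i) h).1
  have hopt : 0 ≤ Q.opt := by
    rw [Q.opt_eq]
    exact sum_nonneg fun h _ => sum_nonneg fun i _ => mul_nonneg (Q.p_nonneg i) dist_nonneg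
  set K : ℝ := K1 * (1 + Real.log (8 * k)) with hK
  have hKpos : 0 ≤ K := by positivity
  have hyv : ∀ {h : List Y} (h0 : h ≠ []), yv Q h = h.getLast h0 := by
    intro h h0
    unfold yv
    rw [dif_pos h0]
  have hop_eq : ∀ i (h : List Y) (h0 : h ≠ []) (σ : (G i).S), op i h σ =
      opS (Mi R0 J hR0 hJ i) (h.getLast h0) (aa_nonneg k (r1 h) (R0 * 16 ^ i))
        (aa_le hk1 (r1 h) (R0 * 16 ^ i)) σ := by
    intro i h h0 σ
    change opN hR0 hJ hk1 r1 i h σ = _
    unfold opN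
    rw [dif_pos h0]
  -- the bills
  have hbills := sum_rbill_le Q (L := L) (fun p => G p.1) (fun p => op p.1)
    (fun p => R0 * 16 ^ p.1) (fun p => (hRn p.1).le) r1
    (fun h hh => (rr_spec Q _ (Q.ne_nil_of_mem_H hh)).2.1) hKpos
    (fun p h => 34 * aa k (r1 h) (R0 * 16 ^ p.1) * (k * Q.P h))
    (fun p h x => Fb Q R0 CG r1 p.1 h x) ?_ ?_ ?_ ?_
  · -- labels
    have swap : ∀ (ι' : Type u) (s : Finset ι') (c : ι' → ℝ) (N : ℕ → ι' → ℝ),
        ∑ x ∈ s, c x * ∑ l ∈ range L, R0 * 16 ^ l * N l x =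
          ∑ l ∈ range L, R0 * 16 ^ l * ∑ x ∈ s, c x * N l x := by
      intro ι' s c N
      simp_rw [mul_sum]
      rw [sum_comm]
      exact sum_congr rfl fun l _ => sum_congr rfl fun x _ => by ring
    have swap' : ∀ (s : Finset Q.ι) (c : Q.ι → ℝ) (N : ℕ → Q.ι → ℝ),
        ∑ x ∈ s, c x * ∑ l ∈ range L, R0 * 16 ^ l * N l x =
          ∑ l ∈ range L, R0 * 16 ^ l * ∑ x ∈ s, c x * N l x := by
      intro s c N
      simp_rw [mul_sum]
      rw [sum_comm]
      exact sum_congr rfl fun l _ => sum_congr rfl fun x _ => by ring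
    set pi : List Y → ℕ → Y → Option Y → ℝ :=
      fun h l x => (Mi R0 J hR0 hJ l).lab (st h l) x with hpi
    have hfb : ∑ h ∈ Q.H, fbill Q L (fun l => R0 * 16 ^ l) pi h =
        ∑ h ∈ Q.H, ∑ p : Fin L, R0 * 16 ^ p.1 * (G p.1).bill Q (op p.1) h := by
      apply sum_congr rfl
      intro h _
      rw [Fin.sum_univ_eq_sum_range (fun i => R0 * (16 : ℝ) ^ i * (G i).bill Q (op i) h) L]
      unfold fbill fcost RGame.bill RGame.Rel
      simp_rw [mul_add (R0 * _)]
      rw [sum_add_distrib]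
      congr 1
      · exact swap Y univ (Q.mm h) fun l x => ∑ a, |pi h.dropLast l x a - pi h l x a|
      · exact swap' (Q.I h) Q.p fun l i => ∑ a, |pi h l (Q.src i (h.length - 1)) a -
          pi h l (Q.rq i (h.length - 1)) a|
    have hpv : ∀ h l x, Mh.IsPV (pi h l x) := fun h l x => (G l).π_pv _ _
    have hinit : ∑ p : Fin L, R0 * 16 ^ p.1 * ∑ j, (G p.1).U (G p.1).S0 (Q.s j) ≤
        (∑ i ∈ range L, R0 * 16 ^ i) * (k * |V|) := by
      rw [sum_mul, ← Fin.sum_univ_eq_sum_range (fun i => R0 * (16 : ℝ) ^ i * (k * |V|)) L]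
      apply sum_le_sum
      intro p _
      apply mul_le_mul_of_nonneg_left _ (hRn p.1).le
      have h1 : ∀ j : Fin k, (G p.1).U (G p.1).S0 (Q.s j) ≤ |V| := fun j =>
        ((Mi R0 J hR0 hJ p.1).U_le (G p.1).S0.2 (Q.s j)).trans (le_abs_self V)
      calc ∑ j, (G p.1).U (G p.1).S0 (Q.s j) ≤ ∑ _j : Fin k, |V| := sum_le_sum fun j _ => h1 j
        _ = k * |V| := by simp
    have hKlog : 9 * K * Q.opt ≤ 9 * K1 * 5 * Real.log (k + 1) * Q.opt := by
      apply mul_le_mul_of_nonneg_right _ hopt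
      have := one_add_log_le hk
      calc 9 * K = 9 * K1 * (1 + Real.log (8 * k)) := by rw [hK]; ring
        _ ≤ 9 * K1 * (5 * Real.log (k + 1)) := by gcongr
        _ = _ := by ring
    rcases hp0.eq_or_lt with hp | hp
    · -- no mass at all
      obtain ⟨lam, hl1, hl2⟩ := exists_lam (A := Option Y) Q L (fun l => R0 * 16 ^ l)
        (fun l => (hRn l).le) pi hpv one_pos
      refine ⟨st, lam, fun h i _ => ((G i).st Q (op i) h).2, fun h i _ x => hl1 h i x, ?_⟩
      have hpz : ∀ i, Q.p i = 0 := fun i =>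
        (sum_eq_zero_iff_of_nonneg fun i _ => Q.p_nonneg i).1 hp.symm i (mem_univ i)
      have hz : ∑ h ∈ Q.H, gbill Q L (fun l => R0 * 16 ^ l) lam h = 0 := by
        apply sum_eq_zero
        intro h _
        unfold gbill
        have h1 : ∀ x, Q.mm h x = 0 := by
          intro x
          unfold Prior.mm Prior.Em
          exact sum_eq_zero fun i _ => by rw [hpz i, zero_mul]
        simp [h1, hpz]
      rw [hz, ← hp, mul_zero, add_zero]
      have hlog : 0 ≤ Real.log ((k : ℝ) + 1) := Real.log_nonneg (by linarith)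
      positivity
    · obtain ⟨lam, hl1, hl2⟩ := exists_lam (A := Option Y) Q L (fun l => R0 * 16 ^ l)
        (fun l => (hRn l).le) pi hpv hp
      refine ⟨st, lam, fun h i _ => ((G i).st Q (op i) h).2, fun h i _ x => hl1 h i x, ?_⟩
      rw [hfb] at hl2
      have h3 := mul_le_mul_of_nonneg_left hinit hp0
      calc ∑ h ∈ Q.H, gbill Q L (fun l => R0 * 16 ^ l) lam h
          ≤ 9 * K * Q.opt + (∑ i, Q.p i) * ((∑ i ∈ range L, R0 * 16 ^ i) * (k * |V|)) +
            ∑ i, Q.p i := by linarith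
        _ ≤ 9 * K1 * 5 * Real.log (k + 1) * Q.opt +
            (∑ i, Q.p i) * ((∑ i ∈ range L, R0 * 16 ^ i) * (k * |V|)) + ∑ i, Q.p i := by linarith
        _ = _ := by rw [hB']; ring
  · -- hop
    intro p h hh σ _
    have h0 := Q.ne_nil_of_mem_H hh
    rw [hop_eq p.1 h h0 σ]
    have := opS_price (Mi R0 J hR0 hJ p.1) (h.getLast h0) (aa_nonneg k (r1 h) (R0 * 16 ^ p.1))
      (aa_le hk1 (r1 h) (R0 * 16 ^ p.1)) σ (Q.mm_nonneg h)
    rw [Q.sum_mm_one] at this
    exact this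
  · -- hsl
    intro p h hh h0 σ hσ x
    rw [hop_eq p.1 h h0 σ]
    have hsp := rr_spec Q (R0 * 16 ^ L) h0
    have e1 : (G p.1).U (opS (Mi R0 J hR0 hJ p.1) (h.getLast h0)
          (aa_nonneg k (r1 h) (R0 * 16 ^ p.1)) (aa_le hk1 (r1 h) (R0 * 16 ^ p.1)) σ)
          (h.getLast h0) -
        (G p.1).U (opS (Mi R0 J hR0 hJ p.1) (h.getLast h0)
          (aa_nonneg k (r1 h) (R0 * 16 ^ p.1)) (aa_le hk1 (r1 h) (R0 * 16 ^ p.1)) σ) x +
        (G p.1).nr (opS (Mi R0 J hR0 hJ p.1) (h.getLast h0)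
          (aa_nonneg k (r1 h) (R0 * 16 ^ p.1)) (aa_le hk1 (r1 h) (R0 * 16 ^ p.1)) σ) x
          (opS (Mi R0 J hR0 hJ p.1) (h.getLast h0)
          (aa_nonneg k (r1 h) (R0 * 16 ^ p.1)) (aa_le hk1 (r1 h) (R0 * 16 ^ p.1)) σ)
          (h.getLast h0) =
        (Mi R0 J hR0 hJ p.1).U ⟨σ.1.P, σ.1.β, (Mi R0 J hR0 hJ p.1).op σ.1.w (h.getLast h0)
            (aa k (r1 h) (R0 * 16 ^ p.1))⟩ (h.getLast h0) -
          (Mi R0 J hR0 hJ p.1).U ⟨σ.1.P, σ.1.β, (Mi R0 J hR0 hJ p.1).op σ.1.w (h.getLast h0)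
            (aa k (r1 h) (R0 * 16 ^ p.1))⟩ x +
          (Mi R0 J hR0 hJ p.1).nrm ⟨σ.1.P, σ.1.β, (Mi R0 J hR0 hJ p.1).op σ.1.w (h.getLast h0)
            (aa k (r1 h) (R0 * 16 ^ p.1))⟩ (h.getLast h0)
            ⟨σ.1.P, σ.1.β, (Mi R0 J hR0 hJ p.1).op σ.1.w (h.getLast h0)
            (aa k (r1 h) (R0 * 16 ^ p.1))⟩ x := by
      congr 1
      rw [IM.nrm_comm]
      rfl
    rw [e1]
    unfold Fb
    rw [hyv h0]
    by_cases hbig : 2048 * r1 h ≤ R0 * 16 ^ p.1
    · rw [if_pos hbig]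
      rcases hsp.2.2 with hP | hP
      · exfalso
        have h1 : r1 h = |R0 * 16 ^ L| := hP.2
        rw [h1, abs_of_pos (hRn L)] at hbig
        have h2 : R0 * (16 : ℝ) ^ p.1 ≤ R0 * 16 ^ L :=
          mul_le_mul_of_nonneg_left (pow_le_pow_right₀ (by norm_num) p.2.le) hR0.le
        have := hRn L
        linarith
      · obtain ⟨hP1, ⟨x0, hx0⟩, hP2⟩ := hP
        have hb : 0 < Gs.bm dist (Q.mm h) (h.getLast h0) (r1 h) :=
          lt_of_lt_of_le (by positivity) hP2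
        refine slope_big (hRn p.1) hJ hCG (Q.mm_nonneg h) (S := σ.1) (y := h.getLast h0) (x := x)
          ?_ (hgrid p.1 p.2.le) hsp.1 ?_ hb hk1 hbig
        · intro r a hr0 hr1 hb2 ha0 ha1 hc
          exact hG Y (Mi R0 J hR0 hJ p.1) (Q.mm h) σ.1 (h.getLast h0) x r a (Q.mm_nonneg h) hσ hr0
            hr1 hb2 ha0 ha1 hc
        · by_cases hx : x0 = h.getLast h0
          · left
            change r1 h = 0
            have : r1 h = dist x0 (h.getLast h0) := hx0
            rw [this, hx, dist_self]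
          · right
            change R0 * 16 ^ p.1 ≤ 2 * J * r1 h
            have : r1 h = dist x0 (h.getLast h0) := hx0
            rw [this]
            exact hgrid p.1 p.2.le x0 _ hx
    · rw [if_neg hbig]
      push Not at hbig
      exact slope_small (Mi R0 J hR0 hJ p.1) σ.2 hk1 (hRn p.1) hbig _ x
  · -- he
    intro h hh
    have h0 := Q.ne_nil_of_mem_H hh
    have hsp := rr_spec Q (R0 * 16 ^ L) h0
    have h1 : ∑ p : Fin L, R0 * 16 ^ p.1 * (34 * aa k (r1 h) (R0 * 16 ^ p.1) * (k * Q.P h)) =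
        17 / 2 * Q.P h * ∑ i ∈ range L, (16 : ℝ) ^ i * R0 * min 1 ((r1 h / (16 ^ i * R0)) ^ 2) := by
      rw [Fin.sum_univ_eq_sum_range
        (fun i => R0 * (16 : ℝ) ^ i * (34 * aa k (r1 h) (R0 * 16 ^ i) * (k * Q.P h))) L, mul_sum]
      apply sum_congr rfl
      intro i _
      unfold aa
      rw [mul_comm R0 ((16 : ℝ) ^ i)]
      field_simp
      ring
    rw [h1]
    have h2 := Gs.sum_price_cut (B := 16) (by norm_num) hR0 hsp.1 L
    have hP := Q.P_nonneg h
    calc 17 / 2 * Q.P h * ∑ i ∈ range L, (16 : ℝ) ^ i * R0 * min 1 ((r1 h / (16 ^ i * R0)) ^ 2)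
        ≤ 17 / 2 * Q.P h * (2 * (16 / (16 - 1)) * r1 h) := by gcongr
      _ ≤ 20 * (Q.P h * r1 h) := by
          have : 0 ≤ Q.P h * r1 h := mul_nonneg hP hsp.1
          nlinarith
      _ ≤ K * (Q.P h * r1 h) := by
          apply mul_le_mul_of_nonneg_right _ (mul_nonneg hP hsp.1)
          have : 0 ≤ (4 * CG + 400) * 4000 := by positivity
          nlinarith
  · -- hF
    intro h hh h0 x
    have hsp := rr_spec Q (R0 * 16 ^ L) h0
    rw [Fin.sum_univ_eq_sum_range (fun i => R0 * (16 : ℝ) ^ i * Fb Q R0 CG r1 i h x) L]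
    have h1 := sum_slopes hCG hR0 hJ hgrid hk1 (Q.mm_nonneg h) (Q.sum_mm_one h) (h.getLast h0) x
      hsp.1 (by
        rcases hsp.2.2 with hP | hP
        · left
          rw [hP.2, abs_of_pos (hRn L)]
        · exact Or.inr hP) (fun i => Fb Q R0 CG r1 i h x) ?_ ?_
    · refine h1.trans ?_
      have : 0 ≤ dist x (h.getLast h0) + r1 h := add_nonneg dist_nonneg hsp.1
      calc (4 * CG + 400) * 4000 * (dist x (h.getLast h0) + rr Q (R0 * 16 ^ L) h) *
            (1 + Real.log (8 * k)) =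
            (4 * CG + 400) * 4000 * (1 + Real.log (8 * k)) * (dist x (h.getLast h0) + r1 h) := by
            ring
        _ ≤ K * (dist x (h.getLast h0) + r1 h) := by
            apply mul_le_mul_of_nonneg_right _ this
            rw [hK, hK1]
            nlinarith
    · intro i hi hb _
      simp only [Fb]
      rw [if_pos hb, hyv h0]
    · intro i hi hb
      simp only [Fb]
      rw [if_neg (not_le.2 hb)]

end Final

end Crest.Agent.R314.GO
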