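import Crest.Agent.R314.GOa1
import Crest.Agent.R314.GO3
import Crest.Agent.R314.G1_G2
import Crest.Agent.R314.G1_E

/-!
R314, block FIN, part 4: module G is complete: `GOut 256`.
-/

set_option autoImplicit false

namespace Crest.Agent.R314.Fin

universe u

theorem claim2 : G1.Claim2.{u} :=
  ⟨310, by norm_num, fun _ _ _ _ _ _ _ _ _ hm hS hr hpos hp hpy =>
    G1.Ec.claim2 hm hS hp hpy hr hpos⟩

theorem geo1C : GO.GEO1C.{u} := G1.geo1C_of claim2

theorem gout256 : GO.GOut.{u} 256 := by
  have h := (GO.gout_of_gob (GO.gob_of_geo geo1C)).pow (by norm_num) 2 (by norm_num)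
  have e : (16 : ℕ) ^ 2 = 256 := by norm_num
  rw [e] at h
  exact h

end Crest.Agent.R314.Fin
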