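import Crest.Agent.R314.Fin3
import Crest.Agent.R314.C9
import Crest.Agent.R314.C7c
import Crest.Agent.R314.C7d
import Crest.Agent.R314.C1b

/-!
R314, block FIN, part 5: `COut` from module C.
-/

set_option autoImplicit false
set_option linter.unusedSectionVars false

namespace Crest.Agent.R314.Fin

open Finset Crest.Agent.R314 Crest.Agent.R314.Tk Crest.Agent.R314.Bay Crest.LogicCS.KServer
open Crest.Agent.R314.C (Par key Valid dk)

universe u

/-- The potential bound C7a, as a Prop. -/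
def C7aProp : Prop :=
  ∀ (k : ℕ) [NeZero k] (Y Lab : Type u) [Fintype Y] [MetricSpace Y] [Fintype Lab] (P : Par)
    (Q : Prior Y k) (lab : List Y → Y → ℕ → Lab), C.UpdEx P Y Lab → (∀ h, Valid P (lab h)) →
    ∑ h ∈ Q.H, (C.pr1 P Q lab h + C.pr2 P Q lab h) ≤
      (∑ i, Q.p i) * (k * ((8 * P.CG + P.Q) * P.W)) +
      (3 * P.A + 2 * P.A' + 41 * P.CG) * ∑ h ∈ Q.H, C.dbill P Q lab h +
      8 * (1 + Real.log (2 * k) / Real.log (10 / 9)) * Q.opt

theorem updEx {Y Lab : Type u} [Fintype Y] [MetricSpace Y] [Fintype Lab] [Nonempty Y] (P : Par) :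
    C.UpdEx P Y Lab := fun _ hm lab now S hk ht =>
  let ⟨S', a, b, c, d⟩ := C.exists_upd P hm lab S now hk ht
  ⟨S', a, b, c, d⟩

theorem cout_of (hA : C7aProp.{u}) : COut.{u} := by
  refine ⟨4096, by norm_num, ?_⟩
  intro k _ hk Y _ _ P hB hCG hcm
  refine ⟨200 * k * P.W, by have := P.hW; positivity, ?_⟩
  intro Q hp Lab _ lab hval
  have hW := P.hW
  have hY : Nonempty Y := ⟨Q.s 0⟩
  have hex : C.UpdEx P Y Lab := updEx P
  set T : ℕ := ∑ i, (Q.req i).length with hT
  have hT' : ∀ i, (Q.req i).length ≤ T := fun i =>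
    single_le_sum (f := fun i => (Q.req i).length) (fun _ _ => Nat.zero_le _) (mem_univ i)
  have h1 := hA k Y Lab P Q lab hex hval
  have hD : 0 ≤ ∑ h ∈ Q.H, dbill Q P lab h := sum_nonneg fun h _ => dbill_nonneg Q P lab h
  have hopt := opt_nonneg Q
  have h2 := pr_bound hCG hk hD hopt h1
  have h3 := C.sum_bill_le (P := P) (Q := Q) (lab := lab) (T := T) hex
  have h4 := C.sum_root_le (P := P) (Q := Q) (lab := lab) hex hval
  have hlg := one_le_log hk
  have hlk := log_le_lg hk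
  have hlk0 := log_k_nonneg hk
  have hsp : 0 ≤ ∑ i, Q.p i := sum_nonneg fun i _ => Q.p_nonneg i
  have hk0 : (0 : ℝ) ≤ k := Nat.cast_nonneg k
  have hlo : 0 ≤ Real.log (k + 1) * Q.opt := by positivity
  have hspk : 0 ≤ (∑ i, Q.p i) * (k * P.W) := by positivity
  have e5 : ∑ h ∈ Q.H, (C.dbill P Q lab h + C.pr1 P Q lab h + C.pr2 P Q lab h) =
      ∑ h ∈ Q.H, dbill Q P lab h + ∑ h ∈ Q.H, (C.pr1 P Q lab h + C.pr2 P Q lab h) := by
    rw [← sum_add_distrib]
    apply sum_congr rfl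
    intro h _
    rw [dbill_eq]; ring
  refine ⟨_, _, inferInstance, C.treeSys hex hval hp hT' hcm.ge, ?_, ?_, ?_, ?_, ?_, ?_, ?_, ?_⟩
  · change 0 ≤ 200 * Real.log k
    positivity
  · change 0 ≤ 1 + 10 * Real.log k
    positivity
  · change 200 * Real.log k ≤ 4096 * Real.log (k + 1)
    linarith
  · change 1 + 10 * Real.log k ≤ 4096 * Real.log (k + 1)
    linarith
  · change 8 * P.CG * P.B ≤ 4096
    rw [hCG, hB]; norm_num
  · change (3 : ℝ) / 64 ≤ 4096
    norm_num
  · refine le_trans h3 ?_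
    rw [e5]
    nlinarith
  · refine le_trans h4 ?_
    rw [hCG]
    nlinarith

end Crest.Agent.R314.Fin
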