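import Mathlib

/-!
R314, module G (geometry), block G0: definitions for ONE level (unit scale).

`Met X` : the metric of a finite space divided by the scale `R` of the level, together with a grid
size `n` finer than all distances.
`Par`   : the numerical constants.
`St X`  : public state of one level: weights, anchors, trackers.
Everything is a function of the history (through the posterior masses `m : X → ℝ`).
-/

set_option autoImplicit false

namespace Crest.Agent.R314.Geo

open Finset

/-- A finite metric at unit scale with a grid size. -/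
structure Met (X : Type*) where
  d : X → X → ℝ
  d_self : ∀ x, d x x = 0
  d_comm : ∀ x y, d x y = d y x
  d_tri : ∀ x y z, d x z ≤ d x y + d y z
  n : ℕ
  n_pos : 0 < n
  sep : ∀ x y, x ≠ y → 1 ≤ (n : ℝ) * d x y

theorem Met.nonneg {X : Type*} (M : Met X) (x y : X) : 0 ≤ M.d x y := by
  have h1 := M.d_tri x y x
  have h2 := M.d_self x
  have h3 := M.d_comm x y
  linarith

/-- Constants (all absolute once the level ratio `B`, hence `S`, is fixed). `S` = separation of
anchors, `th = θ`, `tt = θ'` (triviality), `N` = inverse radius of the core. `a0 = 4`, `κ = 2`. -/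
structure Par where
  S : ℝ
  th : ℝ
  K1 : ℝ
  A : ℝ
  C1 : ℝ
  N : ℝ
  tt : ℝ
  hS : 2 ≤ S
  hth : 0 < th
  hth1 : th * (S + 4) ≤ 1 / 4
  hth2 : th ≤ 1 / 10000
  hK1 : 30 + 20 / th ≤ K1
  hA : 1024 * K1 ≤ A
  hC1 : A + 5000 ≤ C1
  hC1' : C1 ≤ 2 * A
  hN : 4 * A ≤ N
  hN' : 4096 ≤ N
  htt : 0 < tt
  htt1 : tt * (A + C1 + 1) ≤ 1 / 100
  htt2 : tt * (S + 3) ^ 2 ≤ 1 / 100

/-- The ramp: `0` on `[0,1/16]`, `1` on `[1/8,∞)`. -/
noncomputable def ramp (s : ℝ) : ℝ := max 0 (min 1 (16 * s - 1))

/-- `φ`: `0` on `[0,1/16]`, `1` on `[1/8,1]`, `1/s` for `s ≥ 1`. -/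
noncomputable def phi (s : ℝ) : ℝ := min (ramp s) (1 / max 1 s)

/-- `ψ = 1 - ramp`. -/
noncomputable def psi (s : ℝ) : ℝ := 1 - ramp s

variable {X : Type*} [Fintype X] [DecidableEq X]

/-- State of one level: weights `w`, anchors `C`, trackers `y`. -/
structure St (X : Type*) where
  w : X → ℝ
  C : Finset X
  y : X → X

/-- Valid states. -/
structure Valid (M : Met X) (p : Par) (S : St X) : Prop where
  w_nonneg : ∀ x, 0 ≤ S.w x
  packing : ∀ x, ∑ z ∈ univ.filter (fun z => M.d x z ≤ 2), S.w z ≤ 1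
  separated : ∀ c ∈ S.C, ∀ c' ∈ S.C, c ≠ c' → p.S ≤ M.d c c'
  tracker : ∀ c ∈ S.C, M.d (S.y c) c ≤ 3 / 32

/-- Label weight = weight + permanent floor. -/
noncomputable def wt (S : St X) (z : X) : ℝ := S.w z + 1 / (Fintype.card X : ℝ)

/-- Weight of a ball. -/
noncomputable def W (M : Met X) (S : St X) (x : X) (ρ : ℝ) : ℝ :=
  ∑ z ∈ univ.filter (fun z => M.d x z ≤ ρ), wt S z

/-- The radii law: `j = 1..n` with probability `(2j-1)/n²` (sum over `range n`, index `j+1`). -/
noncomputable def qj (n j : ℕ) : ℝ := (2 * (j : ℝ) + 1) / (n : ℝ) ^ 2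

/-- Cell radius number `j` (`j ∈ range n`): `1 + (j+1)/n`. -/
noncomputable def rho (n j : ℕ) : ℝ := 1 + ((j : ℝ) + 1) / n

/-- Sea potential `P = 2 E log (1/W)`. -/
noncomputable def Pw (M : Met X) (S : St X) (x : X) : ℝ :=
  2 * ∑ j ∈ range M.n, qj M.n j * Real.log (1 / W M S x (rho M.n j))

/-- `β(x)`: fraction of the indices `i ∈ {1..n}` such that `x` is outside all zones of radius
`(1/4)(1+i/n)`. Probability of being in the sea = `β²`. -/
noncomputable def beta (M : Met X) (S : St X) (x : X) : ℝ :=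
  (((range M.n).filter (fun i : ℕ => ∀ c ∈ S.C, (1 / 4 : ℝ) * (1 + ((i : ℝ) + 1) / M.n) < M.d x c)).card : ℝ)
    / M.n

/-- Potential of one anchor `c` with tracker `y`. -/
noncomputable def Fc (M : Met X) (p : Par) (e : ℝ) (c y x : X) : ℝ :=
  (p.K1 + p.C1 * M.d y c) * (phi (M.d x c) + e) + p.A / 2 * psi (M.d x c) * (M.d x y) ^ 2

/-- Potential of a server at `x` (`e = ε'`). -/
noncomputable def U (M : Met X) (p : Par) (e : ℝ) (S : St X) (x : X) : ℝ :=
  beta M S x ^ 2 * (4 + Pw M S x) + ∑ c ∈ S.C, Fc M p e c (S.y c) x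

/-- Total potential. -/
noncomputable def Phi (M : Met X) (p : Par) (e : ℝ) (S : St X) (m : X → ℝ) : ℝ :=
  ∑ x, m x * U M p e S x

/-- Label weights restricted to the cell ball. -/
noncomputable def uj (M : Met X) (S : St X) (x : X) (j : ℕ) (z : X) : ℝ :=
  if M.d x z ≤ rho M.n j then wt S z else 0

/-- Jaccard distance of two nonnegative weight functions. -/
noncomputable def jac (u v : X → ℝ) : ℝ := 1 - (∑ z, min (u z) (v z)) / ∑ z, max (u z) (v z)

/-- Bound for the probability that the label of `x` in state `S` differs from the label of `x'` in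
state `S'`. -/
noncomputable def relg (M : Met X) (S : St X) (x : X) (S' : St X) (x' : X) : ℝ :=
  |beta M S x ^ 2 - beta M S' x' ^ 2| + min (beta M S x ^ 2) (beta M S' x' ^ 2) *
    ∑ j ∈ range M.n, qj M.n j * jac (uj M S x j) (uj M S' x' j)

/-- Price of a change of state. -/
noncomputable def Rel (M : Met X) (S S' : St X) (m : X → ℝ) : ℝ := ∑ x, m x * relg M S x S' x

/-- Stuckness: no valid state is better by more than `ε`, including the price. -/
def Stuck (M : Met X) (p : Par) (e : ℝ) (m : X → ℝ) (ε : ℝ) (S : St X) : Prop :=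
  Valid M p S ∧ ∀ S', Valid M p S' → Phi M p e S m ≤ Rel M S S' m + Phi M p e S' m + ε

/-- `Chain M p m S S' c`: a finite chain of valid states from `S` to `S'` of total price `c`. -/
inductive Chain (M : Met X) (p : Par) (m : X → ℝ) : St X → St X → ℝ → Prop
  | refl (S : St X) : Valid M p S → Chain M p m S S 0
  | step {S S' S'' : St X} {c : ℝ} : Chain M p m S S' c → Valid M p S'' →
      Chain M p m S S'' (c + Rel M S' S'' m)

/-- The mass of a closed ball. -/
noncomputable def mb (M : Met X) (m : X → ℝ) (x : X) (ρ : ℝ) : ℝ :=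
  ∑ z ∈ univ.filter (fun z => M.d x z ≤ ρ), m z

/-- Sea mass of a ball. -/
noncomputable def sb (M : Met X) (S : St X) (m : X → ℝ) (x : X) (ρ : ℝ) : ℝ :=
  ∑ z ∈ univ.filter (fun z => M.d x z ≤ ρ), m z * beta M S z ^ 2

/-- Light mass of an anchor. -/
noncomputable def ec (M : Met X) (m : X → ℝ) (c : X) : ℝ := ∑ x, m x * phi (M.d x c)

/-- Core mass of an anchor. -/
noncomputable def Mc (M : Met X) (m : X → ℝ) (c : X) : ℝ := ∑ x, m x * psi (M.d x c)

/-- Light mass around `r`, outside the core ball of radius `1/N`. -/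
noncomputable def light (M : Met X) (p : Par) (m : X → ℝ) (r : X) : ℝ :=
  ∑ x ∈ univ.filter (fun x => 1 / p.N < M.d r x), m x / max 1 (M.d r x)

/-- The level is trivial at `r`. -/
def Trivial (M : Met X) (p : Par) (m : X → ℝ) (r : X) : Prop :=
  light M p m r ≤ p.tt * mb M m r (1 / p.N)

/-- `I_S(r) = (1/n) ∑_j log⁺ (1/W(r, 1+j/n))`. -/
noncomputable def IS (M : Met X) (S : St X) (r : X) : ℝ :=
  (∑ j ∈ range M.n, max 0 (Real.log (1 / W M S r (rho M.n j)))) / M.n

/-- The operation `Op(x0,a)`: scale by `1-a` on `B(x0,4)`, then add `a` at `x0`. -/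
noncomputable def Op (M : Met X) (S : St X) (x0 : X) (a : ℝ) : St X where
  w := fun z => (if M.d x0 z ≤ 4 then (1 - a) * S.w z else S.w z) + if z = x0 then a else 0
  C := S.C
  y := S.y

/-- Admissible constants exist for every separation `S ≥ 2`. -/
theorem exists_par (S : ℝ) (hS : 2 ≤ S) : ∃ p : Par, p.S = S := by
  have h0 : (0 : ℝ) < S + 4 := by linarith
  set th : ℝ := 1 / (10000 * (S + 4)) with hth
  have th0 : 0 < th := by positivity
  set K1 : ℝ := 30 + 20 / th with hK1
  have hK10 : 0 < K1 := by positivity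
  set A : ℝ := 1024 * K1 + 5000 with hA
  set C1 : ℝ := A + 5000 with hC1
  set N : ℝ := 4 * A + 4096 with hN
  set D : ℝ := 100 * (A + C1 + 1) + 100 * (S + 3) ^ 2 with hD
  have hA0 : 0 < A := by positivity
  have hC0 : 0 < C1 := by positivity
  have hD0 : 0 < D := by positivity
  refine ⟨{ S := S, th := th, K1 := K1, A := A, C1 := C1, N := N, tt := 1 / D, hS := hS,
            hth := th0, hth1 := ?_, hth2 := ?_, hK1 := le_rfl, hA := by linarith,
            hC1 := le_rfl, hC1' := ?_, hN := by linarith, hN' := by linarith,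
            htt := by positivity, htt1 := ?_, htt2 := ?_ }, rfl⟩
  · rw [hth]
    have : 1 / (10000 * (S + 4)) * (S + 4) = 1 / 10000 := by field_simp
    rw [this]; norm_num
  · rw [hth]
    apply one_div_le_one_div_of_le (by norm_num)
    linarith
  · rw [hC1, hA]
    have : 0 < K1 := hK10
    linarith
  · rw [div_mul_eq_mul_div, one_mul, div_le_iff₀ hD0]
    nlinarith [sq_nonneg (S + 3)]
  · rw [div_mul_eq_mul_div, one_mul, div_le_iff₀ hD0]
    nlinarith [sq_nonneg (S + 3)]

end Crest.Agent.R314.Geo
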