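import Crest.Agent.R314.G1_A
import Crest.Agent.R314.Mh3

/-!
R314, module G (GEO1), block G1_C, part 1: slopes of the light potential and of the light label law.
Author: helper291.
-/

set_option autoImplicit false
set_option linter.unusedSectionVars false

namespace Crest.Agent.R314.G1

open Finset

variable {Y : Type*} [Fintype Y] [DecidableEq Y] (M : IM Y)

namespace IM
namespace C

/-- standing assumptions on the weights: nonnegative, packing at radius `1`. -/
structure Pk (w : Y → ℝ) : Prop where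
  w0 : ∀ x, 0 ≤ w x
  pack : ∀ y, M.bm w y 1 ≤ 1

variable {M}

theorem _root_.Crest.Agent.R314.G1.Ok.pk {S : St Y} (h : Ok M S) : Pk M S.w := ⟨h.w0, h.pack⟩

theorem d_eq (x y : Y) : M.d x y = (M.δ x y : ℝ) / (2 * M.J) := rfl

theorem bm_mono {m : Y → ℝ} (hm : ∀ x, 0 ≤ m x) (x : Y) : Monotone (M.bm m x) := by
  intro r s hrs
  refine sum_le_sum fun z _ => ?_
  split_ifs with h1 h2
  · exact le_rfl
  · exact absurd (h1.trans hrs) h2
  · exact hm z
  · exact le_rfl

theorem bm_nonneg {m : Y → ℝ} (hm : ∀ x, 0 ≤ m x) (x : Y) (r : ℝ) : 0 ≤ M.bm m x r :=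
  sum_nonneg fun z _ => by split_ifs; exacts [hm z, le_rfl]

theorem bm_le_bm {m : Y → ℝ} (hm : ∀ x, 0 ≤ m x) (x y : Y) {r s : ℝ} (h : r + M.d x y ≤ s) :
    M.bm m x r ≤ M.bm m y s := by
  refine sum_le_sum fun z _ => ?_
  split_ifs with h1 h2
  · exact le_rfl
  · refine absurd ((M.d_tri y x z).trans ?_) h2
    rw [M.d_symm y x]
    linarith
  · exact hm z
  · exact le_rfl

theorem le_bm {m : Y → ℝ} (hm : ∀ x, 0 ≤ m x) (x z : Y) {r : ℝ} (h : M.d x z ≤ r) :
    m z ≤ M.bm m x r := by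
  have h0 := single_le_sum (f := fun z => if M.d x z ≤ r then m z else 0)
    (fun z _ => by split_ifs; exacts [hm z, le_rfl]) (mem_univ z)
  simp only [if_pos h] at h0
  exact h0

theorem fl_pos {w : Y → ℝ} (hw : ∀ x, 0 ≤ w x) (z : Y) : 0 < fl w z := by
  have : 0 < Fintype.card Y := Fintype.card_pos_iff.2 ⟨z⟩
  unfold fl
  have := hw z
  positivity

theorem fl_nonneg {w : Y → ℝ} (hw : ∀ x, 0 ≤ w x) (z : Y) : 0 ≤ fl w z := (fl_pos hw z).le

theorem rad_mono : Monotone M.rad := by
  intro i j h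
  have := M.Jr
  unfold rad
  gcongr

theorem rad_pos (i : ℕ) : 0 < M.rad i := by
  have := M.Jr
  unfold rad
  positivity

theorem rad_add (i : ℕ) (x y : Y) : M.rad i + M.d x y = M.rad (i + M.δ x y) := by
  unfold rad d
  push_cast
  ring

theorem rad_le_one {i : ℕ} (h : i ≤ M.J) : M.rad i ≤ 1 := by
  have := M.Jr
  have h' : (i : ℝ) ≤ M.J := by exact_mod_cast h
  have : (i : ℝ) / (2 * M.J) ≤ 1 / 2 := by
    rw [div_le_iff₀ (by positivity)]
    linarith
  unfold rad
  linarith

section W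
variable {w : Y → ℝ}

theorem W_mono (h : Pk M w) (x : Y) : Monotone (M.W w x) := bm_mono (fl_nonneg h.w0) x

theorem W_pos (h : Pk M w) (x : Y) {r : ℝ} (hr : 0 ≤ r) : 0 < M.W w x r :=
  (fl_pos h.w0 x).trans_le (le_bm (fl_nonneg h.w0) x x (by rw [M.d_self]; exact hr))

theorem W_le_two (h : Pk M w) (x : Y) {r : ℝ} (hr : r ≤ 1) : M.W w x r ≤ 2 := by
  refine (W_mono h x hr).trans ?_
  have e : M.W w x 1 ≤ M.bm w x 1 + ∑ _z : Y, (1 : ℝ) / Fintype.card Y := by
    unfold W bm
    rw [← sum_add_distrib]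
    refine sum_le_sum fun z _ => ?_
    have : (0 : ℝ) ≤ 1 / Fintype.card Y := by positivity
    unfold fl
    split_ifs <;> linarith
  have e2 : ∑ _z : Y, (1 : ℝ) / Fintype.card Y = 1 := by
    rw [sum_const, card_univ, nsmul_eq_mul]
    have : (Fintype.card Y : ℝ) ≠ 0 := by
      have : 0 < Fintype.card Y := Fintype.card_pos_iff.2 ⟨x⟩
      positivity
    field_simp
  have := h.pack x
  linarith

theorem W_le_W (h : Pk M w) (x y : Y) (i : ℕ) :
    M.W w x (M.rad i) ≤ M.W w y (M.rad (i + M.δ x y)) :=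
  bm_le_bm (fl_nonneg h.w0) x y (rad_add i x y).le

theorem psi_nonneg (h : Pk M w) (x : Y) {i : ℕ} (hi : i ≤ M.J) : 0 ≤ M.psi w x i := by
  have h1 := W_le_two h x (rad_le_one hi)
  have h2 := W_pos h x (rad_pos (M := M) i).le
  exact Real.log_nonneg (by rw [le_div_iff₀ h2]; linarith)

theorem psi_anti (h : Pk M w) (x : Y) : Antitone (M.psi w x) := by
  intro i j hij
  have h1 := W_pos h x (rad_pos (M := M) i).le
  have h2 := W_pos h x (rad_pos (M := M) j).le
  refine Real.log_le_log (div_pos two_pos h2) ?_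
  exact div_le_div_of_nonneg_left (by norm_num) h1 (W_mono h x (rad_mono hij))

/-- truncated `ψ` -/
noncomputable def hh (M : IM Y) (w : Y → ℝ) (y : Y) (t : ℕ) : ℝ := if t < M.J then M.psi w y t else 0

theorem hh_nonneg (h : Pk M w) (y : Y) (t : ℕ) : 0 ≤ hh M w y t := by
  unfold hh
  split_ifs with h1
  · exact psi_nonneg h y h1.le
  · exact le_rfl

theorem sum_hh (y : Y) : ∑ t ∈ range M.J, hh M w y t = M.J * M.Psi w y := by
  have := M.Jr.ne'
  unfold Psi
  rw [mul_div_cancel₀ _ this]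
  exact sum_congr rfl fun t ht => if_pos (mem_range.1 ht)

theorem Psi_nonneg (h : Pk M w) (y : Y) : 0 ≤ M.Psi w y :=
  div_nonneg (sum_nonneg fun s hs => psi_nonneg h y (mem_range.1 hs).le) M.Jr.le

theorem sum_hh_le (h : Pk M w) (y : Y) (l : ℕ) :
    ∑ t ∈ range (M.J - l), hh M w y t ≤ M.J * M.Psi w y := by
  rw [← sum_hh y]
  exact sum_le_sum_of_subset_of_nonneg (range_subset_range.2 (Nat.sub_le _ _))
    fun t _ _ => hh_nonneg h y t

/-- **(C1)** `L y - L x ≤ 64 d(x,y) Ψ y`. -/
theorem L_sub_le (h : Pk M w) (x y : Y) : M.L w y - M.L w x ≤ 64 * M.d x y * M.Psi w y := by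
  have hJ := M.Jr
  have key : ∑ s ∈ range M.J, (2 * (s : ℝ) + 1) * (M.psi w y s - M.psi w x s)
      ≤ 2 * M.δ x y * (M.J * M.Psi w y) := by
    rw [← sum_hh y]
    refine le_trans ?_ (Mh.shift_one M.J (M.δ x y) (hh M w y) (hh_nonneg h y))
    refine sum_le_sum fun s hs => ?_
    have hs' := mem_range.1 hs
    refine mul_le_mul_of_nonneg_left ?_ (by positivity)
    have e1 : hh M w y s = M.psi w y s := if_pos hs'
    have e2 : hh M w y (s + M.δ x y) ≤ M.psi w x s := by
      unfold hh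
      split_ifs with h1
      · unfold psi
        have h3 := W_pos h x (rad_pos (M := M) s).le
        have h4 := W_pos h y (rad_pos (M := M) (s + M.δ x y)).le
        refine Real.log_le_log (div_pos two_pos h4) ?_
        exact div_le_div_of_nonneg_left (by norm_num) h3 (W_le_W h x y s)
      · exact psi_nonneg h x hs'.le
    rw [e1]
    linarith
  have e : M.L w y - M.L w x
      = 16 * (∑ s ∈ range M.J, (2 * (s : ℝ) + 1) * (M.psi w y s - M.psi w x s)) / M.J ^ 2 := by
    unfold L E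
    rw [show (∑ s ∈ range M.J, (2 * (s : ℝ) + 1) * (M.psi w y s - M.psi w x s))
      = ∑ s ∈ range M.J, (2 * (s : ℝ) + 1) * M.psi w y s
        - ∑ s ∈ range M.J, (2 * (s : ℝ) + 1) * M.psi w x s from by
        rw [← sum_sub_distrib]; exact sum_congr rfl fun s _ => by ring]
    ring
  rw [e, div_le_iff₀ (by positivity)]
  calc 16 * (∑ s ∈ range M.J, (2 * (s : ℝ) + 1) * (M.psi w y s - M.psi w x s))
      ≤ 16 * (2 * M.δ x y * (M.J * M.Psi w y)) := by linarith
    _ = _ := by
        unfold d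
        field_simp
        ring

/-- `L ≤ 32 Ψ`. -/
theorem L_le (h : Pk M w) (y : Y) : M.L w y ≤ 32 * M.Psi w y := by
  have hJ := M.Jr
  unfold L E Psi
  have : ∑ s ∈ range M.J, (2 * (s : ℝ) + 1) * M.psi w y s
      ≤ 2 * M.J * ∑ s ∈ range M.J, M.psi w y s := by
    rw [mul_sum]
    refine sum_le_sum fun s hs => ?_
    have hs' := mem_range.1 hs
    have h1 : (s : ℝ) + 1 ≤ M.J := by exact_mod_cast hs'
    exact mul_le_mul_of_nonneg_right (by linarith) (psi_nonneg h y hs'.le)
  calc 16 * ((∑ s ∈ range M.J, (2 * (s : ℝ) + 1) * M.psi w y s) / M.J ^ 2)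
      ≤ 16 * ((2 * M.J * ∑ s ∈ range M.J, M.psi w y s) / M.J ^ 2) := by gcongr
    _ = _ := by
        field_simp
        ring

theorem L_nonneg (h : Pk M w) (y : Y) : 0 ≤ M.L w y :=
  mul_nonneg (by norm_num) (div_nonneg (sum_nonneg fun s hs =>
    mul_nonneg (by positivity) (psi_nonneg h y (mem_range.1 hs).le)) (by positivity))

/-! ### the light label law -/

theorem lam1_nonneg (h : Pk M w) (x : Y) (j : ℕ) (z : Y) : 0 ≤ M.lam1 w x j z := by
  unfold lam1
  split_ifs
  · exact div_nonneg (fl_nonneg h.w0 z) (W_pos h x (rad_pos (M := M) j).le).le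
  · exact le_rfl

theorem sum_lam1 (h : Pk M w) (x : Y) (j : ℕ) : ∑ z, M.lam1 w x j z = 1 := by
  have h0 := W_pos h x (rad_pos (M := M) j).le
  have : ∑ z, M.lam1 w x j z
      = (∑ z, if M.d x z ≤ M.rad j then fl w z else 0) / M.W w x (M.rad j) := by
    rw [sum_div]
    refine sum_congr rfl fun z _ => ?_
    unfold lam1
    split_ifs
    · rfl
    · rw [zero_div]
  rw [this]
  exact div_self h0.ne'

/-- `l¹` distance of two normalised restrictions. -/
theorem sum_abs_le {a b : Y → ℝ} (ha : ∀ z, 0 ≤ a z) (hb : ∀ z, 0 ≤ b z) (hsa : ∑ z, a z = 1)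
    (hsb : ∑ z, b z = 1) {c : ℝ} {g : Y → ℝ} (hga : ∀ z, g z ≤ a z) (hgb : ∀ z, g z ≤ b z)
    (hg : 1 - c ≤ ∑ z, g z) : ∑ z, |a z - b z| ≤ 2 * c := by
  have h1 : ∀ z, |a z - b z| ≤ a z + b z - 2 * g z := by
    intro z
    have := hga z
    have := hgb z
    exact abs_le.2 ⟨by linarith, by linarith⟩
  calc ∑ z, |a z - b z| ≤ ∑ z, (a z + b z - 2 * g z) := sum_le_sum fun z _ => h1 z
    _ = 1 + 1 - 2 * ∑ z, g z := by
        rw [sum_sub_distrib, sum_add_distrib, hsa, hsb, mul_sum]
    _ ≤ 2 * c := by linarith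

/-- one radius: `½ Σ |λ_x - λ_y| ≤ ψ_y(t) - ψ_y(t + 2l)` at radius number `t + l`. -/
theorem lam1_le (h : Pk M w) (x y : Y) {t : ℕ} (ht : t + M.δ x y < M.J) :
    ∑ z, |M.lam1 w x (t + M.δ x y) z - M.lam1 w y (t + M.δ x y) z|
      ≤ 2 * (hh M w y t - hh M w y (t + 2 * M.δ x y)) := by
  set l := M.δ x y with hl
  set j := t + l with hj
  have hl' : M.δ y x = l := by rw [M.symm]
  have hWx := W_pos h x (rad_pos (M := M) j).le
  have hWy := W_pos h y (rad_pos (M := M) j).le
  have hW0 := W_pos h y (rad_pos (M := M) t).le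
  set mx := max (M.W w x (M.rad j)) (M.W w y (M.rad j)) with hmx
  have hmx0 : 0 < mx := lt_max_of_lt_left hWx
  -- the common part: the ball `B(y, rad t)`
  have hin : ∀ z, M.d y z ≤ M.rad t → M.d x z ≤ M.rad j ∧ M.d y z ≤ M.rad j := by
    intro z hz
    constructor
    · have h1 := M.d_tri x y z
      have h2 := rad_add (M := M) t x y
      rw [← hl] at h2
      rw [hj, ← h2]
      linarith
    · exact hz.trans (rad_mono (by omega))
  have hc : M.W w y (M.rad t) / mx ≤ ∑ z, if M.d y z ≤ M.rad t then fl w z / mx else 0 := by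
    unfold W bm
    rw [sum_div]
    refine sum_le_sum fun z _ => ?_
    split_ifs
    · exact le_rfl
    · rw [zero_div]
  have h2 := sum_abs_le (lam1_nonneg h x j) (lam1_nonneg h y j) (sum_lam1 h x j) (sum_lam1 h y j)
    (c := 1 - M.W w y (M.rad t) / mx)
    (g := fun z => if M.d y z ≤ M.rad t then fl w z / mx else 0) ?_ ?_ (by linarith)
  · refine h2.trans ?_
    refine mul_le_mul_of_nonneg_left ?_ (by norm_num)
    -- `1 - W/mx ≤ log (mx / W)`
    have e1 : 1 - M.W w y (M.rad t) / mx ≤ Real.log (mx / M.W w y (M.rad t)) := by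
      have := Real.one_sub_inv_le_log_of_pos (div_pos hmx0 hW0)
      rwa [inv_div] at this
    refine e1.trans ?_
    have ht' : t < M.J := by omega
    have e2 : hh M w y t = M.psi w y t := if_pos ht'
    rw [e2]
    unfold hh
    split_ifs with h3
    · have hmle : mx ≤ M.W w y (M.rad (t + 2 * l)) := by
        refine max_le ?_ (W_mono h y (rad_mono (by omega)))
        have := W_le_W h x y j
        rw [← hl] at this
        have e : j + l = t + 2 * l := by omega
        rwa [e] at this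
      have hW2 := W_pos h y (rad_pos (M := M) (t + 2 * l)).le
      unfold psi
      rw [← Real.log_div (div_pos two_pos hW0).ne' (div_pos two_pos hW2).ne']
      refine Real.log_le_log (div_pos hmx0 hW0) ?_
      rw [div_div_div_eq, div_le_div_iff₀ hW0 (by positivity)]
      nlinarith
    · rw [sub_zero]
      unfold psi
      refine Real.log_le_log (div_pos hmx0 hW0) ?_
      gcongr
      exact max_le (W_le_two h x (rad_le_one ht.le)) (W_le_two h y (rad_le_one ht.le))
  · intro z
    unfold lam1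
    split_ifs with h4 h5 h5
    · exact div_le_div_of_nonneg_left (fl_nonneg h.w0 z) hWx (le_max_left _ _)
    · exact absurd (hin z h4).1 h5
    · exact div_nonneg (fl_nonneg h.w0 z) hWx.le
    · exact le_rfl
  · intro z
    unfold lam1
    split_ifs with h4 h5 h5
    · exact div_le_div_of_nonneg_left (fl_nonneg h.w0 z) hWy (le_max_right _ _)
    · exact absurd (hin z h4).2 h5
    · exact div_nonneg (fl_nonneg h.w0 z) hWy.le
    · exact le_rfl

theorem lam1_le_two (h : Pk M w) (x y : Y) (j : ℕ) :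
    ∑ z, |M.lam1 w x j z - M.lam1 w y j z| ≤ 2 := by
  have := sum_abs_le (lam1_nonneg h x j) (lam1_nonneg h y j) (sum_lam1 h x j) (sum_lam1 h y j)
    (c := 1) (g := fun _ => 0) (lam1_nonneg h x j) (lam1_nonneg h y j) (by simp)
  linarith

/-- **(C2)** `Σ |λ_x - λ_y| ≤ 24 d Ψ y + 8 d²`. -/
theorem lam_sub_le (h : Pk M w) (x y : Y) (hl : M.δ x y ≤ M.J) :
    ∑ z, |M.lam w x z - M.lam w y z| ≤ 24 * M.d x y * M.Psi w y + 8 * M.d x y ^ 2 := by
  have hJ := M.Jr
  set l := M.δ x y with hlδ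
  set c : ℕ → ℝ := fun j => (∑ z, |M.lam1 w x j z - M.lam1 w y j z|) / 2 with hc
  have hsum := Mh.shift_two M.J l hl (hh M w y) c (hh_nonneg h y)
    (fun s => by
      have := lam1_le_two h x y s
      simp only [hc]
      linarith)
    (fun t ht => by
      have := lam1_le h x y (t := t) (by omega)
      simp only [hc]
      linarith)
  have h1 : ∑ z, |M.lam w x z - M.lam w y z|
      ≤ 2 * (∑ s ∈ range M.J, (2 * (s : ℝ) + 1) * c s) / M.J ^ 2 := by
    have e : ∀ z, |M.lam w x z - M.lam w y z|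
        ≤ (∑ s ∈ range M.J, (2 * (s : ℝ) + 1) * |M.lam1 w x s z - M.lam1 w y s z|) / M.J ^ 2 := by
      intro z
      unfold lam E
      rw [← sub_div, abs_div, abs_of_pos (show (0 : ℝ) < M.J ^ 2 by positivity),
        ← sum_sub_distrib]
      gcongr
      refine (abs_sum_le_sum_abs _ _).trans (sum_le_sum fun s _ => ?_)
      rw [← mul_sub, abs_mul, abs_of_nonneg (by positivity)]
    refine (sum_le_sum fun z _ => e z).trans ?_
    rw [← sum_div, sum_comm]
    refine div_le_div_of_nonneg_right ?_ (by positivity)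
    rw [mul_sum]
    refine sum_le_sum fun s _ => ?_
    rw [← mul_sum]
    simp only [hc]
    linarith
  refine h1.trans ?_
  have h2 := sum_hh_le h y l
  have hl0 : (0 : ℝ) ≤ l := Nat.cast_nonneg l
  rw [div_le_iff₀ (by positivity)]
  calc 2 * (∑ s ∈ range M.J, (2 * (s : ℝ) + 1) * c s)
      ≤ 2 * ((l : ℝ) ^ 2 + 6 * l * (M.J * M.Psi w y)) := by nlinarith
    _ = _ := by
        unfold d
        rw [← hlδ]
        field_simp
        ring

theorem lam_nonneg (h : Pk M w) (x z : Y) : 0 ≤ M.lam w x z :=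
  div_nonneg (sum_nonneg fun s _ => mul_nonneg (by positivity) (lam1_nonneg h x s z)) (by positivity)

theorem sum_odd (n : ℕ) : ∑ s ∈ range n, (2 * (s : ℝ) + 1) = (n : ℝ) ^ 2 := by
  induction n with
  | zero => simp
  | succ n ih =>
    rw [sum_range_succ, ih]
    push_cast
    ring

theorem sum_lam (h : Pk M w) (x : Y) : ∑ z, M.lam w x z = 1 := by
  have hJ := M.Jr
  unfold lam E
  rw [← sum_div, sum_comm]
  have : ∀ s ∈ range M.J, ∑ z, (2 * (s : ℝ) + 1) * M.lam1 w x s z = 2 * (s : ℝ) + 1 := by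
    intro s _
    rw [← mul_sum, sum_lam1 h, mul_one]
  rw [sum_congr rfl this, sum_odd]
  exact div_self (by positivity)

end W

end C
end IM

end Crest.Agent.R314.G1
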