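import Crest.Agent.R314.G1_A2
import Crest.Agent.R314.G1_C1
import Crest.Agent.R314.G1_R

/-!
R314, module G (GEO1), block G1_C, part 2: the slope of the whole potential `U` plus the label law
in terms of `K := rf (u y) Ψ y`, and the bound of `K` by the growth functional with cut-off.
Author: helper291.
-/

set_option autoImplicit false
set_option linter.unusedSectionVars false

namespace Crest.Agent.R314.G1

open Finset

variable {Y : Type*} [Fintype Y] [DecidableEq Y] (M : IM Y)

namespace IM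
namespace C

variable {M}

/-- Lipschitz bound for the timer term. -/
theorem bt_lip {S : St Y} (h : Ok M S) (x y : Y) : M.bt S y ≤ M.bt S x + M.d x y := by
  have hd := M.d_nonneg x y
  by_cases hy : ∃ p ∈ S.P, M.d y p < 4
  · obtain ⟨p, hp, hdp⟩ := hy
    rw [M.bt_eq h.sep40 hp (by linarith)]
    have h1 : S.β p * cf (M.d x p) ≤ M.bt S x :=
      single_le_sum (f := fun p => S.β p * cf (M.d x p))
        (fun q _ => mul_nonneg (h.β0 q) (cf_nonneg _)) hp
    have h2 := cf_lip (M.d y p) (M.d x p)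
    have h3 : |M.d y p - M.d x p| ≤ M.d x y := by
      rw [abs_le]
      have e1 := M.d_tri y x p
      have e2 := M.d_tri x y p
      rw [M.d_symm y x] at e1
      constructor <;> linarith
    have h4 := h.β0 p
    have h5 := h.β1 p
    nlinarith [abs_nonneg (M.d y p - M.d x p)]
  · push Not at hy
    rw [M.bt_eq_zero hy]
    have := M.bt_nonneg h.β0 x
    linarith

theorem δ_le_J {x y : Y} (h : M.d x y ≤ 1 / 2) : M.δ x y ≤ M.J := by
  have hJ := M.Jr
  rw [d_eq, div_le_iff₀ (by positivity)] at h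
  have : (M.δ x y : ℝ) ≤ M.J := by linarith
  exact_mod_cast this

/-- **slope in terms of `rf(u y) Ψ y`.** -/
theorem slope_of {S : St Y} (h : Ok M S) {x y : Y} (hxy : M.d x y ≤ 1 / 64) :
    M.U S y - M.U S x + M.nrm S x S y
      ≤ M.d x y * (1400 + 2200 * (rf (M.u S.P y) * M.Psi S.w y)) := by
  have hd := M.d_nonneg x y
  have hp := h.pk
  set δ := M.d x y with hδ
  set ux := M.u S.P x
  set uy := M.u S.P y
  have hu : |uy - ux| ≤ δ := by
    rw [hδ, M.d_symm]
    exact M.abs_u_sub S.P y x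
  have hux : 0 ≤ ux := M.u_nonneg S.P x
  have huy : 0 ≤ uy := M.u_nonneg S.P y
  have hΨ := Psi_nonneg hp y
  have hq := qf_lip huy hux
  have hb := bt_lip h x y
  have hL := L_sub_le hp x y
  have hL32 := L_le hp y
  have hLx := L_nonneg hp x
  have hLy := L_nonneg hp y
  have hr := rf_lip uy ux
  have r0 := rf_nonneg uy
  have r1 := rf_le_one uy
  have r0' := rf_nonneg ux
  -- `ζ L`
  have hz : zf uy * M.L S.w y - zf ux * M.L S.w x
      ≤ rf uy * (64 * δ * M.Psi S.w y) + 64 * δ * (rf uy * (32 * M.Psi S.w y)) := by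
    have e1 : zf uy ≤ rf uy := by unfold zf; nlinarith
    have e2 : 0 ≤ zf uy := zf_nonneg uy
    have e3 : 0 ≤ zf ux := zf_nonneg ux
    have hB : 0 ≤ 64 * δ * (rf uy * (32 * M.Psi S.w y)) := by positivity
    have hC : 0 ≤ 64 * δ * M.Psi S.w y := by positivity
    have hD : zf uy * (64 * δ * M.Psi S.w y) ≤ rf uy * (64 * δ * M.Psi S.w y) :=
      mul_le_mul_of_nonneg_right e1 hC
    by_cases hle : zf uy ≤ zf ux
    · have e4 : zf uy * (M.L S.w y - M.L S.w x) ≤ zf uy * (64 * δ * M.Psi S.w y) :=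
        mul_le_mul_of_nonneg_left hL e2
      have e5 : 0 ≤ (zf ux - zf uy) * M.L S.w x := mul_nonneg (by linarith) hLx
      nlinarith
    · push Not at hle
      have e4 : zf ux * (M.L S.w y - M.L S.w x) ≤ zf uy * (64 * δ * M.Psi S.w y) :=
        (mul_le_mul_of_nonneg_left hL e3).trans (mul_le_mul_of_nonneg_right hle.le hC)
      -- `ζ y - ζ x ≤ 64 δ r y`
      have e5 : zf uy - zf ux ≤ 64 * δ * rf uy := by
        have hrr : rf ux ≤ rf uy := by
          by_contra hcon
          push Not at hcon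
          unfold zf at hle
          nlinarith
        have e6 : rf uy - rf ux ≤ 32 * δ := by linarith
        have e7 : 0 ≤ rf uy - rf ux := by linarith
        unfold zf
        nlinarith
      have e6 : (zf uy - zf ux) * M.L S.w y ≤ (64 * δ * rf uy) * (32 * M.Psi S.w y) := by
        have e7 : 0 ≤ 64 * δ * rf uy := by positivity
        exact mul_le_mul e5 hL32 hLy e7
      nlinarith
  have hn : M.nrm S x S y ≤ 16 * δ + rf uy * (24 * δ * M.Psi S.w y) + 8 * δ ^ 2 := by
    have e1 := M.nrm_le (S := S) (S' := S) h.w0 h.w0 x y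
    have e2 := lam_sub_le hp x y (δ_le_J (by linarith))
    have e3 := tf_lip ux uy
    rw [abs_sub_comm ux uy] at e3
    have e4 : min (tf ux) (tf uy) ≤ rf uy := by
      refine (min_le_right _ _).trans ((tf_le_zf uy).trans ?_)
      unfold zf
      nlinarith
    have e5 : 0 ≤ min (tf ux) (tf uy) := le_min (tf_nonneg _) (tf_nonneg _)
    have e6 : min (tf ux) (tf uy) * ∑ z, |M.lam S.w x z - M.lam S.w y z|
        ≤ rf uy * (24 * δ * M.Psi S.w y + 8 * δ ^ 2) :=
      mul_le_mul e4 e2 (sum_nonneg fun _ _ => abs_nonneg _) r0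
    have e7 : rf uy * (8 * δ ^ 2) ≤ 8 * δ ^ 2 := by nlinarith [sq_nonneg δ]
    nlinarith
  have hδ2 : 8 * δ ^ 2 ≤ δ := by nlinarith
  have : M.U S y - M.U S x = 20 * (qf uy - qf ux) + 90 * (M.bt S y - M.bt S x)
      + (zf uy * M.L S.w y - zf ux * M.L S.w x) := by
    unfold U
    ring
  have hK : 0 ≤ δ * (rf uy * M.Psi S.w y) := by positivity
  rw [this]
  nlinarith

/-- **size in terms of `rf(u y) Ψ y`.** -/
theorem U_le_of {S : St Y} (h : Ok M S) (y : Y) :
    M.U S y ≤ 110 + 32 * (rf (M.u S.P y) * M.Psi S.w y) := by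
  have hp := h.pk
  have h1 := qf_le_one (M.u S.P y)
  have h2 := M.bt_le_one h y
  have h3 := L_le hp y
  have hΨ := Psi_nonneg hp y
  have r0 := rf_nonneg (M.u S.P y)
  have r1 := rf_le_one (M.u S.P y)
  have e1 : zf (M.u S.P y) * M.L S.w y ≤ rf (M.u S.P y) * (32 * M.Psi S.w y) := by
    have e1 : zf (M.u S.P y) ≤ rf (M.u S.P y) := by unfold zf; nlinarith
    exact mul_le_mul e1 h3 (L_nonneg hp y) r0
  unfold U
  nlinarith

/-! ### growth -/

/-- `ν = ζ m` -/
noncomputable def nu (M : IM Y) (P : Finset Y) (m : Y → ℝ) (z : Y) : ℝ := zf (M.u P z) * m z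

/-- the conclusion of (L1): growth of `W` at `y`. -/
def Grow (M : IM Y) (c : ℝ) (P : Finset Y) (w m : Y → ℝ) (y : Y) : Prop :=
  ∀ i < M.J, c * (((i : ℝ) + 1) / M.J) ^ 2 * M.bm (nu M P m) y (((i / 2 : ℕ) : ℝ) / (2 * M.J))
    ≤ M.W w y (M.rad i) * M.bm (nu M P m) y 3

theorem bm_floor (m : Y → ℝ) (y : Y) {r : ℝ} (hr : 0 ≤ r) :
    M.bm m y r = M.bm m y ((⌊2 * M.J * r⌋₊ : ℝ) / (2 * M.J)) := by
  have hJ := M.Jr
  unfold bm
  refine sum_congr rfl fun z _ => ?_
  have : M.d y z ≤ r ↔ M.d y z ≤ (⌊2 * M.J * r⌋₊ : ℝ) / (2 * M.J) := by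
    rw [d_eq, div_le_div_iff_of_pos_right (by positivity), div_le_iff₀ (by positivity)]
    rw [Nat.cast_le, Nat.le_floor_iff (by positivity)]
    rw [mul_comm r]
  simp only [this]

theorem bm_max (m : Y → ℝ) (y : Y) {r : ℝ} (hr : 0 ≤ r) {s : ℕ} (hs : ⌊2 * M.J * r⌋₊ ≤ s) :
    M.bm m y (max ((s : ℝ) / (2 * M.J)) r) = M.bm m y ((s : ℝ) / (2 * M.J)) := by
  have hJ := M.Jr
  rcases le_total r ((s : ℝ) / (2 * M.J)) with h | h
  · rw [max_eq_left h]
  · rw [max_eq_right h, bm_floor m y hr]
    have h1 : s ≤ ⌊2 * M.J * r⌋₊ := by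
      rw [Nat.le_floor_iff (by positivity)]
      rw [div_le_iff₀ (by positivity)] at h
      linarith
    rw [le_antisymm hs h1]

/-- the profile `g s = log (m(B(y,60)) / m(B(y, max (s/2J) r)))` -/
noncomputable def gg (M : IM Y) (m : Y → ℝ) (y : Y) (r : ℝ) (s : ℕ) : ℝ :=
  Real.log (M.bm m y 60 / M.bm m y (max ((s : ℝ) / (2 * M.J)) r))

section
variable {m : Y → ℝ} (hm : ∀ x, 0 ≤ m x) {y : Y} {r : ℝ} (hr : 0 ≤ r) (hpos : 0 < M.bm m y r)
include hm hr hpos

theorem bm_max_pos (s : ℕ) : 0 < M.bm m y (max ((s : ℝ) / (2 * M.J)) r) :=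
  hpos.trans_le (bm_mono hm y (le_max_right _ _))

theorem gg_anti : Antitone (gg M m y r) := by
  intro s t hst
  have h1 := bm_max_pos hm hr hpos (M := M) s
  have h2 := bm_max_pos hm hr hpos (M := M) t
  have hJ := M.Jr
  have h3 : M.bm m y (max ((s : ℝ) / (2 * M.J)) r) ≤ M.bm m y (max ((t : ℝ) / (2 * M.J)) r) := by
    refine bm_mono hm y (max_le_max ?_ le_rfl)
    gcongr
  unfold gg
  by_cases h60 : M.bm m y 60 = 0
  · rw [h60, zero_div, zero_div]
  · have h60' : 0 < M.bm m y 60 := lt_of_le_of_ne (bm_nonneg hm y 60) (Ne.symm h60)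
    refine Real.log_le_log (div_pos h60' h2) ?_
    exact div_le_div_of_nonneg_left h60'.le h1 h3

theorem gg_nonneg (hr1 : r ≤ 60) {s : ℕ} (hs : s ≤ 2 * M.J) : 0 ≤ gg M m y r s := by
  have h1 := bm_max_pos hm hr hpos (M := M) s
  have hJ := M.Jr
  refine Real.log_nonneg ?_
  rw [le_div_iff₀ h1, one_mul]
  refine bm_mono hm y (max_le ?_ hr1)
  rw [div_le_iff₀ (by positivity)]
  have : (s : ℝ) ≤ 2 * M.J := by exact_mod_cast hs
  linarith

theorem sum_gg : ∑ s ∈ range (2 * M.J), gg M m y r s = 2 * M.J * M.GamR m y r := by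
  have hJ := M.Jr
  unfold GamR gg
  field_simp

theorem sum_gg_le (hr1 : r ≤ 60) {n : ℕ} (hn : n ≤ 2 * M.J) :
    ∑ s ∈ range n, gg M m y r s ≤ 2 * M.J * M.GamR m y r := by
  rw [← sum_gg hm hr hpos]
  exact sum_le_sum_of_subset_of_nonneg (range_subset_range.2 hn) fun s hs _ =>
    gg_nonneg hm hr hpos hr1 (mem_range.1 hs).le

theorem GamR_nonneg' (hr1 : r ≤ 60) : 0 ≤ M.GamR m y r := by
  have h0 := sum_gg_le hm hr hpos hr1 (M := M) (n := 0) (Nat.zero_le _)
  have hJ := M.Jr
  rw [range_zero, sum_empty] at h0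
  by_contra hneg
  push Not at hneg
  nlinarith

theorem mul_gg_le (hr1 : r ≤ 60) {s : ℕ} (hs : s < 2 * M.J) :
    ((s : ℝ) + 1) * gg M m y r s ≤ 2 * M.J * M.GamR m y r := by
  refine le_trans ?_ (sum_gg_le hm hr hpos hr1 (n := s + 1) hs)
  have : ∀ t ∈ range (s + 1), gg M m y r s ≤ gg M m y r t := fun t ht =>
    gg_anti hm hr hpos (Nat.lt_succ_iff.1 (mem_range.1 ht))
  have h2 := card_nsmul_le_sum _ _ _ this
  rw [card_range, nsmul_eq_mul] at h2
  push_cast at h2
  exact h2

end

/-- `ν(B(y, r')) ≥ (rf²/4) m(B(y, r'))` for `r' ≤ rf(u y)/64`. -/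
theorem nu_ge {m : Y → ℝ} (hm : ∀ x, 0 ≤ m x) (P : Finset Y) (y : Y) {r' : ℝ}
    (h : r' ≤ rf (M.u P y) / 64) :
    rf (M.u P y) ^ 2 / 4 * M.bm m y r' ≤ M.bm (nu M P m) y r' := by
  unfold bm
  rw [mul_sum]
  refine sum_le_sum fun z _ => ?_
  split_ifs with hz
  · unfold nu zf
    have h1 := rf_lip (M.u P y) (M.u P z)
    have h2 := M.abs_u_sub P y z
    have h3 : rf (M.u P y) / 2 ≤ rf (M.u P z) := by linarith
    have h4 := rf_nonneg (M.u P y)
    have h5 := hm z
    have h6 : rf (M.u P y) ^ 2 / 4 ≤ rf (M.u P z) ^ 2 := by nlinarith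
    exact mul_le_mul_of_nonneg_right h6 h5
  · rw [mul_zero]

theorem sum_log_le (n : ℕ) (hn : 0 < n) :
    ∑ i ∈ range n, Real.log ((n : ℝ) / (i + 1)) ≤ n := by
  have h1 : ∀ k : ℕ, ∏ i ∈ range k, ((n : ℝ) / (i + 1)) = (n : ℝ) ^ k / k.factorial := by
    intro k
    induction k with
    | zero => simp
    | succ k ih =>
      rw [prod_range_succ, ih, Nat.factorial_succ]
      push_cast
      have : (k.factorial : ℝ) ≠ 0 := by positivity
      have : (k : ℝ) + 1 ≠ 0 := by positivity
      field_simp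
      ring
  have h2 : ∑ i ∈ range n, Real.log ((n : ℝ) / (i + 1))
      = Real.log (∏ i ∈ range n, ((n : ℝ) / (i + 1))) := by
    rw [Real.log_prod]
    intro i _
    positivity
  rw [h2, h1]
  have h3 := Real.pow_div_factorial_le_exp (n : ℝ) (Nat.cast_nonneg n) n
  have h4 : (0 : ℝ) < (n : ℝ) ^ n / n.factorial := by positivity
  calc Real.log ((n : ℝ) ^ n / n.factorial) ≤ Real.log (Real.exp n) := Real.log_le_log h4 h3
    _ = n := Real.log_exp _

/-- `W` after the operation at `y` itself. -/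
theorem W_op_ge {w : Y → ℝ} (hw : ∀ x, 0 ≤ w x) {a : ℝ} (ha0 : 0 ≤ a) (ha : a ≤ 1 / 2) (y x₀ : Y)
    (ρ : ℝ) : M.W w y ρ / 2 ≤ M.W (M.op w x₀ a) y ρ := by
  unfold W bm
  rw [sum_div]
  refine sum_le_sum fun z _ => ?_
  split_ifs with hz
  · have h1 : w z / 2 ≤ M.op w x₀ a z := by
      have := hw z
      unfold op
      split_ifs <;> nlinarith
    have h2 : (0 : ℝ) ≤ 1 / Fintype.card Y := by positivity
    unfold fl
    linarith
  · simp

theorem W_op_ge' {w : Y → ℝ} (hw : ∀ x, 0 ≤ w x) {a : ℝ} (ha0 : 0 ≤ a) (ha : a ≤ 1 / 2) (y : Y)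
    {ρ : ℝ} (hρ : 0 ≤ ρ) : a ≤ M.W (M.op w y a) y ρ := by
  have h0 : ∀ z, 0 ≤ M.op w y a z := by
    intro z
    have := hw z
    unfold op
    split_ifs <;> nlinarith
  refine le_trans ?_ (le_bm (fl_nonneg h0) y y (by rw [M.d_self]; exact hρ))
  have := hw y
  have h2 : (0 : ℝ) ≤ 1 / Fintype.card Y := by positivity
  unfold fl op
  rw [if_pos rfl]
  split_ifs <;> nlinarith

/-- **(C3)** the growth bound with cut-off: `rf(u y) Ψ'(y) ≤ 7 + log (2/c) + 68 Γ^r + 64 r log (2/a)`,
`Ψ'` after `Op(y, a)`. -/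
theorem rf_Psi_le {S : St Y} (h : Ok M S) {m : Y → ℝ} (hm : ∀ x, 0 ≤ m x) {y : Y} {r : ℝ}
    (hr : 0 ≤ r) (hr1 : r ≤ 60) (hpos : 0 < M.bm m y r) {c : ℝ} (hc : 0 < c) (hc1 : c ≤ 1)
    (hg : Grow M c S.P S.w m y) {a : ℝ} (ha0 : 0 ≤ a) (ha : a ≤ 1 / 2) (har : r = 0 ∨ 0 < a) :
    rf (M.u S.P y) * M.Psi (M.op S.w y a) y
      ≤ 7 + Real.log (2 / c) + 68 * M.GamR m y r + 64 * r * Real.log (2 / a) := by
  have hJ := M.Jr
  have hJ1 : 1 ≤ M.J := M.J_pos
  set R := rf (M.u S.P y) with hR
  have hR0 : 0 ≤ R := rf_nonneg _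
  have hR1 : R ≤ 1 := rf_le_one _
  have hΓ := GamR_nonneg' hm hr hpos hr1
  set w' := M.op S.w y a with hw'
  have hla : 0 ≤ r * Real.log (2 / a) := by
    rcases har with h0 | h0
    · rw [h0, zero_mul]
    · exact mul_nonneg hr (Real.log_nonneg (by rw [le_div_iff₀ h0]; linarith))
  have hlc : 0 ≤ Real.log (2 / c) := Real.log_nonneg (by rw [le_div_iff₀ hc]; linarith)
  set r0 : ℕ := ⌊2 * M.J * r⌋₊ with hr0
  have hr0le : (r0 : ℝ) ≤ 2 * M.J * r := Nat.floor_le (by positivity)
  -- pointwise bound of `ψ'` by `log (2/a)` when `0 < a`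
  have hψa : ∀ i, 0 < a → M.psi w' y i ≤ Real.log (2 / a) := by
    intro i h0
    have h1 := W_op_ge' (M := M) h.w0 ha0 ha y (M.rad_nonneg i)
    refine Real.log_le_log (div_pos two_pos (h0.trans_le h1)) ?_
    exact div_le_div_of_nonneg_left (by norm_num) h0 h1
  rcases hR0.eq_or_lt with hRz | hRpos
  · rw [← hRz, zero_mul]
    nlinarith
  set s0 : ℕ := ⌊M.J * R / 32⌋₊ with hs0
  by_cases hcase : s0 < r0
  · -- the cut-off is larger than the zone
    have h1 : R < 64 * r := by
      have e1 : M.J * R / 32 < r0 := (Nat.floor_lt (by positivity)).1 hcase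
      have e2 : M.J * R / 32 < 2 * M.J * r := lt_of_lt_of_le e1 hr0le
      have e3 : M.J * (R / 32) < M.J * (2 * r) := by linarith
      have e4 := lt_of_mul_lt_mul_left e3 hJ.le
      linarith
    have hrpos : 0 < r := by linarith
    have hapos : 0 < a := har.resolve_left hrpos.ne'
    have h2 : M.Psi w' y ≤ Real.log (2 / a) := by
      unfold Psi
      rw [div_le_iff₀ hJ]
      have := sum_le_card_nsmul (range M.J) (M.psi w' y) (Real.log (2 / a))
        (fun i _ => hψa i hapos)
      rw [card_range, nsmul_eq_mul] at this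
      linarith
    have hl : 0 ≤ Real.log (2 / a) := Real.log_nonneg (by rw [le_div_iff₀ hapos]; linarith)
    have h3 : R * M.Psi w' y ≤ 64 * r * Real.log (2 / a) :=
      (mul_le_mul_of_nonneg_left h2 hR0).trans (mul_le_mul_of_nonneg_right h1.le hl)
    nlinarith
  · push Not at hcase
    -- main case
    have hs0le : (s0 : ℝ) ≤ M.J * R / 32 := Nat.floor_le (by positivity)
    have hs0J : s0 < 2 * M.J := by
      have e1 : (s0 : ℝ) < 2 * M.J := by nlinarith
      exact_mod_cast e1
    have hs0ge : M.J * R / 32 < s0 + 1 := Nat.lt_floor_add_one _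
    set g := gg M m y r with hgdef
    have hgnn : ∀ s, s ≤ 2 * M.J → 0 ≤ g s := fun s hs => gg_nonneg hm hr hpos hr1 hs
    set A := Real.log 2 + Real.log (2 / c) + Real.log (4 / R ^ 2) with hA
    have hR2 : 0 < R ^ 2 := by positivity
    have hl4 : 0 ≤ Real.log (4 / R ^ 2) :=
      Real.log_nonneg (by rw [le_div_iff₀ hR2]; nlinarith)
    have hA0 : 0 ≤ A := by
      have := Real.log_pos (show (1 : ℝ) < 2 by norm_num)
      positivity
    -- pointwise bound above the cut-off
    have hψ : ∀ i < M.J, r0 ≤ i / 2 →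
        M.psi w' y i ≤ A + 2 * Real.log ((M.J : ℝ) / (i + 1)) + g (i / 2) + g s0 := by
      intro i hi hri
      set s := i / 2 with hs
      set s1 := min s s0 with hs1
      have hs1r : r0 ≤ s1 := le_min hri hcase
      have hWpos := W_pos h.pk y (M.rad_nonneg i)
      have hW'pos : 0 < M.W w' y (M.rad i) :=
        lt_of_lt_of_le (by positivity) (W_op_ge h.w0 ha0 ha y y (M.rad i))
      have e1 : M.psi w' y i ≤ M.psi S.w y i + Real.log 2 := by
        unfold psi
        rw [← Real.log_mul (by positivity) (by norm_num)]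
        refine Real.log_le_log (by positivity) ?_
        rw [div_mul_eq_mul_div, div_le_div_iff₀ hW'pos hWpos]
        have := W_op_ge h.w0 ha0 ha y y (M.rad i) (M := M)
        rw [← hw'] at this
        linarith
      -- masses
      have hbs1 : M.bm m y (max ((s1 : ℝ) / (2 * M.J)) r) = M.bm m y ((s1 : ℝ) / (2 * M.J)) :=
        bm_max m y hr hs1r
      have hp1 : 0 < M.bm m y ((s1 : ℝ) / (2 * M.J)) := by
        rw [← hbs1]; exact bm_max_pos hm hr hpos s1
      have hνn : ∀ x, 0 ≤ nu M S.P m x := fun x => mul_nonneg (zf_nonneg _) (hm x)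
      have hν1 : R ^ 2 / 4 * M.bm m y ((s1 : ℝ) / (2 * M.J))
          ≤ M.bm (nu M S.P m) y ((s : ℝ) / (2 * M.J)) := by
        refine (nu_ge hm S.P y ?_).trans (bm_mono hνn y ?_)
        · have : (s1 : ℝ) ≤ s0 := by exact_mod_cast min_le_right s s0
          rw [div_le_iff₀ (by positivity)]
          rw [← hR]
          nlinarith
        · have : (s1 : ℝ) ≤ s := by exact_mod_cast min_le_left s s0
          gcongr
      have hν3 : M.bm (nu M S.P m) y 3 ≤ M.bm m y 60 := by
        refine le_trans (bm_mono hνn y (by norm_num : (3 : ℝ) ≤ 60)) ?_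
        refine M.bm_mono_m (fun x => ?_) y 60
        unfold nu
        have := zf_le_one (M.u S.P x)
        have := hm x
        nlinarith
      have h60 : 0 < M.bm m y 60 := hpos.trans_le (bm_mono hm y hr1)
      -- growth
      have e2 := hg i hi
      rw [← hs] at e2
      have hi1 : (0 : ℝ) < (i : ℝ) + 1 := by positivity
      have hb1 := M.bm m y 60
      have e3 : c * (((i : ℝ) + 1) / M.J) ^ 2 * (R ^ 2 / 4 * M.bm m y ((s1 : ℝ) / (2 * M.J)))
          ≤ M.W S.w y (M.rad i) * M.bm m y 60 := by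
        refine le_trans ?_ (e2.trans (mul_le_mul_of_nonneg_left hν3 hWpos.le))
        exact mul_le_mul_of_nonneg_left hν1 (by positivity)
      have e4 : M.psi S.w y i ≤ Real.log (2 / c) + 2 * Real.log ((M.J : ℝ) / (i + 1))
          + Real.log (4 / R ^ 2) + Real.log (M.bm m y 60 / M.bm m y ((s1 : ℝ) / (2 * M.J))) := by
        rw [← Real.log_rpow (by positivity), ← Real.log_mul (by positivity) (by positivity),
          ← Real.log_mul (by positivity) (by positivity),
          ← Real.log_mul (by positivity) (by positivity)]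
        unfold psi
        refine Real.log_le_log (by positivity) ?_
        rw [div_le_iff₀ hWpos]
        have e5 : 2 / c * ((M.J : ℝ) / (i + 1)) ^ (2 : ℝ) * (4 / R ^ 2)
            * (M.bm m y 60 / M.bm m y ((s1 : ℝ) / (2 * M.J))) * M.W S.w y (M.rad i)
            = 2 * (M.W S.w y (M.rad i) * M.bm m y 60)
              / (c * (((i : ℝ) + 1) / M.J) ^ 2 * (R ^ 2 / 4 * M.bm m y ((s1 : ℝ) / (2 * M.J)))) := by
          rw [Real.rpow_two]
          field_simp
        rw [e5, le_div_iff₀ (by positivity)]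
        linarith
      -- `g s1 ≤ g s + g s0`
      have e6 : Real.log (M.bm m y 60 / M.bm m y ((s1 : ℝ) / (2 * M.J))) ≤ g s + g s0 := by
        have : Real.log (M.bm m y 60 / M.bm m y ((s1 : ℝ) / (2 * M.J))) = g s1 := by
          rw [hgdef]
          unfold gg
          rw [hbs1]
        rw [this]
        rcases le_total s s0 with hle | hle
        · rw [hs1, min_eq_left hle]
          have := hgnn s0 hs0J.le
          linarith
        · rw [hs1, min_eq_right hle]
          have := hgnn s (by omega)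
          linarith
      rw [hA]
      linarith
    -- sum
    have hsplit : ∀ i ∈ range M.J, M.psi w' y i ≤
        (A + 2 * Real.log ((M.J : ℝ) / (i + 1)) + g (i / 2) + g s0)
          + (if i / 2 < r0 then Real.log (2 / a) else 0) := by
      intro i hi
      have hi' := mem_range.1 hi
      have n1 : 0 ≤ Real.log ((M.J : ℝ) / (i + 1)) := by
        refine Real.log_nonneg ?_
        rw [le_div_iff₀ (by positivity)]
        have : (i : ℝ) + 1 ≤ M.J := by exact_mod_cast hi'
        linarith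
      split_ifs with h1
      · have hapos : 0 < a := by
          refine har.resolve_left fun h0 => ?_
          have : r0 = 0 := by rw [hr0, h0, mul_zero, Nat.floor_zero]
          omega
        have n2 := hgnn (i / 2) (by omega)
        have n3 := hgnn s0 hs0J.le
        have := hψa i hapos
        linarith
      · have := hψ i hi' (by omega)
        linarith
    have hsum := sum_le_sum hsplit
    rw [sum_add_distrib, sum_add_distrib, sum_add_distrib, sum_add_distrib, sum_const,
      sum_const, card_range, ← mul_sum, ← sum_filter, sum_const] at hsum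
    simp only [nsmul_eq_mul] at hsum
    have hlog := sum_log_le M.J M.J_pos
    -- `Σ g(i/2) ≤ 2 Σ g`
    have hhalf : ∑ i ∈ range M.J, g (i / 2) ≤ 4 * M.J * M.GamR m y r := by
      have e1 : ∀ n : ℕ, ∑ i ∈ range (2 * n), g (i / 2) = 2 * ∑ s ∈ range n, g s := by
        intro n
        induction n with
        | zero => simp
        | succ n ih =>
          rw [show 2 * (n + 1) = 2 * n + 1 + 1 by ring, sum_range_succ, sum_range_succ, ih,
            sum_range_succ]
          have e1 : 2 * n / 2 = n := by omega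
          have e2 : (2 * n + 1) / 2 = n := by omega
          rw [e1, e2]
          ring
      have e2 : ∑ i ∈ range M.J, g (i / 2) ≤ ∑ i ∈ range (2 * M.J), g (i / 2) := by
        refine sum_le_sum_of_subset_of_nonneg (range_subset_range.2 (by omega)) fun i hi _ => ?_
        exact hgnn _ (by have := mem_range.1 hi; omega)
      rw [e1] at e2
      have e3 := sum_gg_le hm hr hpos hr1 (M := M) (n := M.J) (by omega)
      linarith
    have hmul := mul_gg_le hm hr hpos hr1 (M := M) hs0J
    have hgs0 := hgnn s0 hs0J.le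
    -- count of small `i`
    have hcount : ((filter (fun i => i / 2 < r0) (range M.J)).card : ℝ) ≤ 4 * M.J * r := by
      have e1 : (filter (fun i => i / 2 < r0) (range M.J)).card ≤ 2 * r0 := by
        have : filter (fun i => i / 2 < r0) (range M.J) ⊆ range (2 * r0) := by
          intro i hi
          rw [mem_filter] at hi
          rw [mem_range]
          omega
        have := card_le_card this
        rwa [card_range] at this
      have e2 : ((filter (fun i => i / 2 < r0) (range M.J)).card : ℝ) ≤ 2 * r0 := by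
        exact_mod_cast e1
      linarith
    have hcl : ((filter (fun i => i / 2 < r0) (range M.J)).card : ℝ) * Real.log (2 / a)
        ≤ 4 * M.J * r * Real.log (2 / a) := by
      rcases har with h0 | h0
      · have e0 : r0 = 0 := by rw [hr0, h0, mul_zero, Nat.floor_zero]
        have : filter (fun i => i / 2 < r0) (range M.J) = ∅ := by
          rw [filter_eq_empty_iff]
          intro i _
          omega
        rw [this, h0]
        simp
      · have hl : 0 ≤ Real.log (2 / a) := Real.log_nonneg (by rw [le_div_iff₀ h0]; linarith)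
        exact mul_le_mul_of_nonneg_right hcount hl
    -- assemble
    have hΨ : M.Psi w' y * M.J = ∑ i ∈ range M.J, M.psi w' y i := by
      unfold Psi
      field_simp
    have hΨ2 : M.Psi w' y * M.J ≤ M.J * A + 2 * M.J + 4 * M.J * M.GamR m y r + M.J * g s0
        + 4 * M.J * r * Real.log (2 / a) := by
      rw [hΨ]
      linarith
    have hΨ3 : M.Psi w' y ≤ A + 2 + 4 * M.GamR m y r + g s0 + 4 * r * Real.log (2 / a) := by
      have : M.Psi w' y * M.J
          ≤ (A + 2 + 4 * M.GamR m y r + g s0 + 4 * r * Real.log (2 / a)) * M.J := by linarith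
      exact le_of_mul_le_mul_right this hJ
    have hRg : R * g s0 ≤ 64 * M.GamR m y r := by
      have e1 : M.J * (R * g s0) ≤ M.J * (64 * M.GamR m y r) := by
        have : M.J * R * g s0 ≤ 32 * ((s0 : ℝ) + 1) * g s0 := by
          refine mul_le_mul_of_nonneg_right ?_ hgs0
          linarith
        nlinarith
      exact le_of_mul_le_mul_left e1 hJ
    -- `R log (4/R²) ≤ 4`
    have hRl : R * Real.log (4 / R ^ 2) ≤ 4 := by
      have e1 : Real.log (4 / R ^ 2) = 2 * Real.log (2 / R) := by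
        rw [show (4 : ℝ) / R ^ 2 = (2 / R) ^ 2 by ring, Real.log_pow]
        norm_num
      have e2 := Real.log_le_sub_one_of_pos (show 0 < 2 / R by positivity)
      have e3 : R * Real.log (2 / R) ≤ R * (2 / R - 1) := mul_le_mul_of_nonneg_left e2 hR0
      have e4 : R * (2 / R - 1) = 2 - R := by field_simp
      rw [e1]
      nlinarith
    have hln2 : Real.log 2 ≤ 1 := by
      have := Real.log_two_lt_d9
      linarith
    have hln2' : 0 ≤ Real.log 2 := by positivity
    calc R * M.Psi w' y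
        ≤ R * (A + 2 + 4 * M.GamR m y r + g s0 + 4 * r * Real.log (2 / a)) :=
          mul_le_mul_of_nonneg_left hΨ3 hR0
      _ = R * Real.log 2 + R * Real.log (2 / c) + R * Real.log (4 / R ^ 2) + R * 2
          + R * (4 * M.GamR m y r) + R * g s0 + R * (4 * (r * Real.log (2 / a))) := by
          rw [hA]
          ring
      _ ≤ 1 + Real.log (2 / c) + 4 + 2 + 4 * M.GamR m y r + 64 * M.GamR m y r
          + 4 * (r * Real.log (2 / a)) := by
          have k1 : R * Real.log 2 ≤ 1 := by nlinarith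
          have k2 : R * Real.log (2 / c) ≤ Real.log (2 / c) := by nlinarith
          have k3 : R * (4 * M.GamR m y r) ≤ 4 * M.GamR m y r := by nlinarith
          have k4 : R * (4 * (r * Real.log (2 / a))) ≤ 4 * (r * Real.log (2 / a)) := by nlinarith
          linarith
      _ ≤ _ := by nlinarith

/-- **(C4)** non-trivial points have growth bounded below. -/
theorem GamR_ge_of_nontrivial {m : Y → ℝ} (hm : ∀ x, 0 ≤ m x) {y : Y} {r : ℝ} (hr : 0 ≤ r)
    (hr1 : r ≤ 1 / 1024) (hpos : 0 < M.bm m y r)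
    (hnt : (1 + 1 / 1000) * M.bm m y (1 / 1024) < M.bm m y 60) :
    1 / 1100000 ≤ M.GamR m y r := by
  have hJ := M.Jr
  set n : ℕ := ⌊2 * M.J * (1 / 1024 : ℝ)⌋₊ with hn
  have hnle : (n : ℝ) ≤ 2 * M.J * (1 / 1024) := Nat.floor_le (by positivity)
  have hnge : 2 * M.J * (1 / 1024 : ℝ) < n + 1 := Nat.lt_floor_add_one _
  have hn2 : n < 2 * M.J := by
    have : (n : ℝ) < 2 * M.J := by nlinarith
    exact_mod_cast this
  have h1 := mul_gg_le hm hr hpos (by linarith) (M := M) hn2
  have hmx : max ((n : ℝ) / (2 * M.J)) r ≤ 1 / 1024 := by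
    refine max_le ?_ hr1
    rw [div_le_iff₀ (by positivity)]
    linarith
  have hp := bm_max_pos hm hr hpos (M := M) n
  have h2 : (0.00099 : ℝ) ≤ gg M m y r n := by
    unfold gg
    have e1 : 1 + 1 / 1000 ≤ M.bm m y 60 / M.bm m y (max ((n : ℝ) / (2 * M.J)) r) := by
      rw [le_div_iff₀ hp]
      have := bm_mono hm y hmx (M := M)
      nlinarith
    have e2 : Real.log (1 + 1 / 1000) ≤ Real.log (M.bm m y 60 / M.bm m y (max ((n : ℝ) / (2 * M.J)) r)) :=
      Real.log_le_log (by norm_num) e1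
    have e3 := Real.one_sub_inv_le_log_of_pos (show (0 : ℝ) < 1 + 1 / 1000 by norm_num)
    norm_num at e3 ⊢
    norm_num at e2
    linarith
  have h3 : 2 * M.J * (1 / 1024 : ℝ) * 0.00099 ≤ 2 * M.J * M.GamR m y r := by
    refine le_trans ?_ h1
    exact mul_le_mul hnge.le h2 (by norm_num) (by positivity)
  have h4 : 2 * (M.J : ℝ) * (1 / 1024 * 0.00099) ≤ 2 * M.J * M.GamR m y r := by linarith
  have h5 := le_of_mul_le_mul_left h4 (by positivity)
  norm_num at h5 ⊢
  linarith

end C
end IM

end Crest.Agent.R314.G1
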