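import Crest.Agent.R314.Gs4

/-!
R314, module G3, part 5: summation over the scales with a lower cut-off radius.
Author: helper529.
-/

set_option autoImplicit false

namespace Crest.Agent.R314.Gs

open Finset MeasureTheory

section Mono

variable {G : ℝ → ℝ} {g0 g1 : ℝ}

/-- For fixed `s` the sum over the scales telescopes (abstract form). -/
theorem sum_fixed_mono (hG : MonotoneOn G (Set.Ici 0)) (h0 : ∀ r, 0 ≤ r → g0 ≤ G r)
    (h1 : ∀ r, 0 ≤ r → G r ≤ g1) {R₀ : ℝ} (hR₀ : 0 < R₀) {A : ℕ} {B : ℝ} (hB : 1 ≤ B) {a : ℝ}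
    (ha : 0 ≤ a) (haB : a ≤ B ^ A) {s : ℝ} (j : ℕ) (hs : (B ^ j)⁻¹ ≤ s) (I : ℕ) :
    ∑ i ∈ range I, (G (a * (B ^ i * R₀)) - G (s * (B ^ i * R₀))) ≤ (A + j) * (g1 - g0) := by
  set M : ℕ → ℝ := fun n => if n = 0 then Real.exp g0 else
    if n ≤ I + A then Real.exp (G (B ^ (n - 1) * R₀)) else Real.exp g1 with hM
  have hB0 : (0 : ℝ) < B := by linarith
  have hn0 : ∀ n : ℕ, (0 : ℝ) ≤ B ^ n * R₀ := fun n => by positivity
  have hpr : Profile M (I + A + 1) := by
    refine ⟨by simp only [hM, if_true]; positivity, ?_, ?_⟩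
    · apply monotone_nat_of_le_succ
      intro n
      simp only [hM]
      by_cases hn : n = 0
      · subst hn
        rw [if_pos rfl, if_neg (by omega)]
        split_ifs with h2
        · exact Real.exp_le_exp.2 (h0 _ (hn0 _))
        · exact Real.exp_le_exp.2 ((h0 0 le_rfl).trans (h1 0 le_rfl))
      · rw [if_neg hn, if_neg (Nat.succ_ne_zero n)]
        split_ifs with h2 h3
        · apply Real.exp_le_exp.2
          apply hG (hn0 _) (hn0 _)
          have : B ^ (n - 1) ≤ B ^ (n + 1 - 1) := pow_le_pow_right₀ hB (by omega)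
          gcongr
        · exact Real.exp_le_exp.2 (h1 _ (hn0 _))
        · omega
        · exact le_rfl
    · intro i hi
      simp only [hM]
      rw [if_neg (by omega), if_neg (by omega), if_neg (by omega), if_neg (by omega)]
  have hQ : M (I + A + 1) = Real.exp g1 := by
    simp only [hM]; rw [if_neg (by omega), if_neg (by omega)]
  have hM0 : M 0 = Real.exp g0 := by simp [hM]
  have hw := hpr.sum_window (I + 1) A j
  rw [hQ, hM0, ← Real.exp_sub, Real.log_exp] at hw
  refine le_trans ?_ hw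
  rw [sum_range_succ' (fun n => Real.log (M (n + A) / M (n - j)))]
  have hlast : 0 ≤ Real.log (M (0 + A) / M (0 - j)) :=
    Real.log_nonneg ((one_le_div (hpr.pos' _)).2 (hpr.mono (by omega)))
  refine le_trans ?_ (le_add_of_nonneg_right hlast)
  apply sum_le_sum
  intro i hi
  rw [mem_range] at hi
  have e0 := hpr.pos' (i + 1 + A)
  have e1 := hpr.pos' (i + 1 - j)
  rw [Real.log_div e0.ne' e1.ne']
  apply sub_le_sub
  · have : M (i + 1 + A) = Real.exp (G (B ^ (i + A) * R₀)) := by
      simp only [hM]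
      rw [if_neg (by omega), if_pos (by omega)]
      congr 4
      omega
    rw [this, Real.log_exp]
    apply hG (mul_nonneg ha (hn0 i)) (hn0 _)
    calc a * (B ^ i * R₀) ≤ B ^ A * (B ^ i * R₀) := by gcongr
      _ = _ := by rw [pow_add]; ring
  · have hs0 : 0 ≤ s := le_trans (by positivity) hs
    by_cases hij : i + 1 ≤ j
    · have : M (i + 1 - j) = Real.exp g0 := by
        have : i + 1 - j = 0 := by omega
        rw [this, hM0]
      rw [this, Real.log_exp]
      exact h0 _ (mul_nonneg hs0 (hn0 i))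
    · have : M (i + 1 - j) = Real.exp (G (B ^ (i - j) * R₀)) := by
        simp only [hM]
        rw [if_neg (by omega), if_pos (by omega)]
        congr 4
        omega
      rw [this, Real.log_exp]
      apply hG (hn0 _) (mul_nonneg hs0 (hn0 i))
      have h2 : B ^ (i - j) = (B ^ j)⁻¹ * B ^ i := by
        rw [pow_sub₀ B hB0.ne' (by omega)]
        ring
      rw [h2]
      calc (B ^ j)⁻¹ * B ^ i * R₀ = (B ^ j)⁻¹ * (B ^ i * R₀) := by ring
        _ ≤ s * (B ^ i * R₀) := by gcongr

theorem intervalIntegrable_mono (hG : MonotoneOn G (Set.Ici 0)) {R : ℝ} (hR : 0 ≤ R) {a b : ℝ}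
    (ha : 0 ≤ a) (hb : 0 ≤ b) : IntervalIntegrable (fun s => G (s * R)) volume a b := by
  apply MonotoneOn.intervalIntegrable
  intro s hs t ht hst
  have h0 : 0 ≤ s := by
    rcases Set.mem_uIcc.1 hs with h | h
    · exact ha.trans h.1
    · exact hb.trans h.1
  have ht0 : 0 ≤ t := h0.trans hst
  exact hG (mul_nonneg h0 hR) (mul_nonneg ht0 hR) (mul_le_mul_of_nonneg_right hst hR)

/-- **Summation over the scales** `R_i = B ^ i * R₀`, abstract form. -/
theorem sum_mono_le (hG : MonotoneOn G (Set.Ici 0)) (h0 : ∀ r, 0 ≤ r → g0 ≤ G r)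
    (h1 : ∀ r, 0 ≤ r → G r ≤ g1) {R₀ : ℝ} (hR₀ : 0 < R₀) {A : ℕ} {B : ℝ} (hB : 1 < B) {a : ℝ}
    (ha : 0 ≤ a) (haB : a ≤ B ^ A) (I : ℕ) :
    ∑ i ∈ range I, ∫ s in (0 : ℝ)..1, (G (a * (B ^ i * R₀)) - G (s * (B ^ i * R₀))) ≤
      (A + 1 + 1 / Real.log B) * (g1 - g0) := by
  have hlB : 0 < Real.log B := Real.log_pos hB
  have hB0 : (0 : ℝ) < B := by linarith
  set L : ℝ := g1 - g0 with hL
  have hL0 : 0 ≤ L := sub_nonneg.2 ((h0 0 le_rfl).trans (h1 0 le_rfl))
  have hint : ∀ i ∈ range I, IntervalIntegrable (fun s : ℝ => G (a * (B ^ i * R₀)) -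
      G (s * (B ^ i * R₀))) volume 0 1 := fun i _ =>
    intervalIntegrable_const.sub
      (intervalIntegrable_mono hG (by positivity) le_rfl zero_le_one)
  rw [← intervalIntegral.integral_finsetSum hint]
  have hlog : IntervalIntegrable (fun s : ℝ => Real.log s) volume 0 1 :=
    intervalIntegral.intervalIntegrable_log'
  have hmaj : IntervalIntegrable (fun s : ℝ => (A + 1 - Real.log s / Real.log B) * L) volume 0 1 :=
    (intervalIntegrable_const.sub (hlog.div_const _)).mul_const _
  have hsum : IntervalIntegrable (fun s : ℝ => ∑ i ∈ range I,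
      (G (a * (B ^ i * R₀)) - G (s * (B ^ i * R₀)))) volume 0 1 := by
    have e : (fun s : ℝ => ∑ i ∈ range I, (G (a * (B ^ i * R₀)) - G (s * (B ^ i * R₀)))) =
        ∑ i ∈ range I, fun s : ℝ => (G (a * (B ^ i * R₀)) - G (s * (B ^ i * R₀))) := by
      funext s
      rw [Finset.sum_apply]
    rw [e]
    exact IntervalIntegrable.sum (range I) hint
  have hle : (∫ s in (0 : ℝ)..1, ∑ i ∈ range I,
      (G (a * (B ^ i * R₀)) - G (s * (B ^ i * R₀)))) ≤
      ∫ s in (0 : ℝ)..1, (A + 1 - Real.log s / Real.log B) * L := by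
    apply intervalIntegral.integral_mono_on_of_le_Ioo zero_le_one hsum hmaj
    intro s hs
    set j : ℕ := ⌈-Real.log s / Real.log B⌉₊ with hj
    have hls : 0 ≤ -Real.log s := by
      have := Real.log_nonpos hs.1.le hs.2.le
      linarith
    have h1' : (B ^ j)⁻¹ ≤ s := by
      have h2 : -Real.log s / Real.log B ≤ j := Nat.le_ceil _
      rw [div_le_iff₀ hlB] at h2
      rw [← Real.log_le_log_iff (by positivity) hs.1, Real.log_inv, Real.log_pow]
      linarith
    have h2 : (j : ℝ) ≤ 1 - Real.log s / Real.log B := by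
      have := (Nat.ceil_lt_add_one (a := -Real.log s / Real.log B) (by positivity)).le
      have e : -Real.log s / Real.log B = - (Real.log s / Real.log B) := by ring
      rw [← hj, e] at this
      linarith
    refine (sum_fixed_mono hG h0 h1 hR₀ hB.le ha haB j h1' I).trans ?_
    rw [← hL]
    apply mul_le_mul_of_nonneg_right _ hL0
    linarith
  refine hle.trans (le_of_eq ?_)
  rw [intervalIntegral.integral_mul_const]
  congr 1
  rw [intervalIntegral.integral_sub intervalIntegrable_const (hlog.div_const _),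
    intervalIntegral.integral_const, intervalIntegral.integral_div, integral_log]
  simp
  ring

end Mono

section Cut

variable {Y : Type*} [Fintype Y] {d : Y → Y → ℝ} {m : Y → ℝ} {y : Y}

/-- the growth functional at scale `R` with lower cut-off radius `r1` -/
noncomputable def GamR (d : Y → Y → ℝ) (m : Y → ℝ) (y : Y) (A R r1 : ℝ) : ℝ :=
  ∫ s in (0 : ℝ)..1, (Real.log (bm d m y (A * R)) - Real.log (bm d m y (max (s * R) r1)))

theorem bm_scale {R : ℝ} (hR : 0 < R) (s : ℝ) :
    bm (fun x z => d x z / R) m y s = bm d m y (s * R) := by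
  unfold bm
  congr 1
  ext x
  simp only [mem_filter, mem_univ, true_and]
  rw [div_le_iff₀ hR]

theorem GamR_scale {R : ℝ} (hR : 0 < R) (A r : ℝ) :
    GamR (fun x z => d x z / R) m y A 1 r = GamR d m y A R (r * R) := by
  unfold GamR
  congr 1
  funext s
  rw [bm_scale hR, bm_scale hR, mul_one, mul_one, max_mul_of_nonneg _ _ hR.le]

theorem GamR_nonneg (hm : ∀ x, 0 ≤ m x) {r1 : ℝ} (hp : 0 < bm d m y r1) {A R : ℝ} (hA : 1 ≤ A)
    (hR : 0 ≤ R) (hr : r1 ≤ R) : 0 ≤ GamR d m y A R r1 := by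
  apply intervalIntegral.integral_nonneg zero_le_one
  intro s hs
  have : Real.log (bm d m y (max (s * R) r1)) ≤ Real.log (bm d m y (A * R)) := by
    apply Real.log_le_log (hp.trans_le (bm_mono hm (le_max_right _ _)))
    apply bm_mono hm
    apply max_le
    · exact mul_le_mul_of_nonneg_right (hs.2.trans hA) hR
    · nlinarith
  linarith

/-- **Summation over the scales with a cut-off.** -/
theorem sum_GamR_le (hm : ∀ x, 0 ≤ m x) {r1 : ℝ} (hp : 0 < bm d m y r1) {R₀ : ℝ} (hR₀ : 0 < R₀)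
    {A : ℕ} {B : ℝ} (hB : 1 < B) {a : ℝ} (ha : 1 ≤ a) (haB : a ≤ B ^ A) (I : ℕ) :
    ∑ i ∈ (range I).filter (fun i => r1 ≤ B ^ i * R₀), GamR d m y a (B ^ i * R₀) r1 ≤
      (A + 1 + 1 / Real.log B) * Real.log ((∑ x, m x) / bm d m y r1) := by
  set G : ℝ → ℝ := fun r => Real.log (bm d m y (max r r1)) with hGdef
  have hpos : ∀ r, 0 < bm d m y (max r r1) := fun r => hp.trans_le (bm_mono hm (le_max_right _ _))
  have hmono : Monotone G := fun r r' h =>
    Real.log_le_log (hpos r) (bm_mono hm (max_le_max_right _ h))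
  have hSpos : 0 < ∑ x, m x := hp.trans_le (bm_le hm _)
  have hkey := sum_mono_le (G := G) (g0 := Real.log (bm d m y r1)) (g1 := Real.log (∑ x, m x))
    (hmono.monotoneOn _)
    (fun r _ => Real.log_le_log hp (bm_mono hm (le_max_right _ _)))
    (fun r _ => Real.log_le_log (hpos r) (bm_le hm _)) hR₀ hB (by linarith) haB I
  rw [← Real.log_div hSpos.ne' hp.ne'] at hkey
  refine le_trans ?_ hkey
  calc ∑ i ∈ (range I).filter (fun i => r1 ≤ B ^ i * R₀), GamR d m y a (B ^ i * R₀) r1
      = ∑ i ∈ (range I).filter (fun i => r1 ≤ B ^ i * R₀),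
          ∫ s in (0 : ℝ)..1, (G (a * (B ^ i * R₀)) - G (s * (B ^ i * R₀))) := by
        apply sum_congr rfl
        intro i hi
        rw [mem_filter] at hi
        unfold GamR
        congr 1
        funext s
        simp only [hGdef]
        congr 3
        symm
        apply max_eq_left
        have : 0 < B ^ i * R₀ := by positivity
        nlinarith [hi.2]
    _ ≤ _ := by
        apply sum_le_sum_of_subset_of_nonneg (filter_subset _ _)
        intro i _ _
        apply intervalIntegral.integral_nonneg zero_le_one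
        intro s hs
        have h1 : (0 : ℝ) ≤ B ^ i * R₀ := by positivity
        have := hmono (mul_le_mul_of_nonneg_right (hs.2.trans ha) h1)
        linarith

end Cut

/-- geometric sum over the large scales -/
theorem sum_scales_ge {B R₀ x : ℝ} (hB : 1 < B) (hR₀ : 0 < R₀) (_hx : 0 ≤ x) (I : ℕ) :
    ∑ i ∈ (range I).filter (fun i => x ≤ B ^ i * R₀), x / (B ^ i * R₀) ≤ B / (B - 1) := by
  have hB0 : (0 : ℝ) < B := by linarith
  have hB1 : 0 < B - 1 := by linarith
  have hBB : (0 : ℝ) ≤ B / (B - 1) := by positivity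
  set F := (range I).filter (fun i => x ≤ B ^ i * R₀) with hF
  rcases F.eq_empty_or_nonempty with he | hne
  · rw [he]; simpa using hBB
  · set i₀ := F.min' hne with hi₀
    have hmem : i₀ ∈ F := F.min'_mem hne
    have hx0 : x ≤ B ^ i₀ * R₀ := (mem_filter.1 hmem).2
    have hi₀I : i₀ < I := mem_range.1 (mem_filter.1 hmem).1
    have h1 : ∀ i ∈ F, x / (B ^ i * R₀) ≤ (B⁻¹) ^ (i - i₀) := by
      intro i hi
      have hle : i₀ ≤ i := F.min'_le i hi
      rw [div_le_iff₀ (by positivity), inv_pow]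
      have : B ^ i = B ^ (i - i₀) * B ^ i₀ := by rw [← pow_add]; congr 1; omega
      rw [this]
      have e : (B ^ (i - i₀))⁻¹ * (B ^ (i - i₀) * B ^ i₀ * R₀) = B ^ i₀ * R₀ := by
        field_simp
      rw [e]
      exact hx0
    calc ∑ i ∈ F, x / (B ^ i * R₀) ≤ ∑ i ∈ F, (B⁻¹) ^ (i - i₀) := sum_le_sum h1
      _ ≤ ∑ i ∈ Ico i₀ I, (B⁻¹) ^ (i - i₀) := by
          apply sum_le_sum_of_subset_of_nonneg
          · intro i hi
            rw [mem_Ico]
            exact ⟨F.min'_le i hi, mem_range.1 (mem_filter.1 hi).1⟩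
          · intro i _ _
            positivity
      _ = ∑ j ∈ range (I - i₀), (B⁻¹) ^ j := by
          rw [sum_Ico_eq_sum_range]
          apply sum_congr rfl
          intro j _
          congr 1
          omega
      _ ≤ (1 - B⁻¹)⁻¹ := by
          have hlt : B⁻¹ < 1 := inv_lt_one_of_one_lt₀ hB
          have hb0 : (0 : ℝ) ≤ B⁻¹ := by positivity
          rw [← tsum_geometric_of_lt_one hb0 hlt]
          exact (summable_geometric_of_lt_one hb0 hlt).sum_le_tsum _ fun j _ => by positivity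
      _ = B / (B - 1) := by
          field_simp

/-- `∑ R_i min 1 ((r1/R_i)^2) ≤ C r1` -/
theorem sum_price_cut {B R₀ r1 : ℝ} (hB : 1 < B) (hR₀ : 0 < R₀) (hr : 0 ≤ r1) (I : ℕ) :
    ∑ i ∈ range I, B ^ i * R₀ * min 1 ((r1 / (B ^ i * R₀)) ^ 2) ≤ 2 * (B / (B - 1)) * r1 := by
  have hB0 : (0 : ℝ) < B := by linarith
  have hB1 : 0 < B - 1 := by linarith
  rw [← sum_filter_add_sum_filter_not (range I) (fun i => B ^ i * R₀ < r1)]
  have h1 : ∑ i ∈ (range I).filter (fun i => B ^ i * R₀ < r1),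
      B ^ i * R₀ * min 1 ((r1 / (B ^ i * R₀)) ^ 2) ≤ B / (B - 1) * r1 := by
    refine le_trans (sum_le_sum fun i _ => ?_) (sum_scales_lt hB hR₀ hr I)
    have : 0 < B ^ i * R₀ := by positivity
    calc B ^ i * R₀ * min 1 ((r1 / (B ^ i * R₀)) ^ 2) ≤ B ^ i * R₀ * 1 := by
          gcongr; exact min_le_left _ _
      _ = _ := mul_one _
  have h2 : ∑ i ∈ (range I).filter (fun i => ¬ B ^ i * R₀ < r1),
      B ^ i * R₀ * min 1 ((r1 / (B ^ i * R₀)) ^ 2) ≤ B / (B - 1) * r1 := by
    have h3 := sum_scales_ge hB hR₀ hr I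
    calc ∑ i ∈ (range I).filter (fun i => ¬ B ^ i * R₀ < r1),
          B ^ i * R₀ * min 1 ((r1 / (B ^ i * R₀)) ^ 2)
        ≤ ∑ i ∈ (range I).filter (fun i => r1 ≤ B ^ i * R₀), r1 / (B ^ i * R₀) * r1 := by
          simp only [not_lt]
          apply sum_le_sum
          intro i _
          have hp : 0 < B ^ i * R₀ := by positivity
          calc B ^ i * R₀ * min 1 ((r1 / (B ^ i * R₀)) ^ 2)
              ≤ B ^ i * R₀ * (r1 / (B ^ i * R₀)) ^ 2 := by
                gcongr; exact min_le_right _ _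
            _ = r1 / (B ^ i * R₀) * r1 := by field_simp
      _ = (∑ i ∈ (range I).filter (fun i => r1 ≤ B ^ i * R₀), r1 / (B ^ i * R₀)) * r1 := by
          rw [sum_mul]
      _ ≤ B / (B - 1) * r1 := by gcongr
  linarith

/-- square-root version of the geometric sum over the large scales -/
theorem sum_sqrt_scales_ge {B R₀ x : ℝ} (hB : 1 < B) (hR₀ : 0 < R₀) (hx : 0 ≤ x) (I : ℕ) :
    ∑ i ∈ (range I).filter (fun i => x ≤ B ^ i * R₀), Real.sqrt (x / (B ^ i * R₀)) ≤
      Real.sqrt B / (Real.sqrt B - 1) := by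
  have hB0 : (0 : ℝ) < B := by linarith
  have hsB : 1 < Real.sqrt B := by
    rw [show (1 : ℝ) = Real.sqrt 1 by simp]
    exact Real.sqrt_lt_sqrt zero_le_one hB
  have key := sum_scales_ge hsB (Real.sqrt_pos.2 hR₀) (Real.sqrt_nonneg x) I
  have e : ∀ i : ℕ, Real.sqrt B ^ i * Real.sqrt R₀ = Real.sqrt (B ^ i * R₀) := by
    intro i
    induction i with
    | zero => simp
    | succ i ih =>
      rw [pow_succ, pow_succ, mul_right_comm, ih, ← Real.sqrt_mul (by positivity)]
      congr 1
      ring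
  simp only [e] at key
  have hfil : (range I).filter (fun i => Real.sqrt x ≤ Real.sqrt (B ^ i * R₀)) =
      (range I).filter (fun i => x ≤ B ^ i * R₀) := by
    apply filter_congr
    intro i _
    exact Real.sqrt_le_sqrt_iff (by positivity)
  rw [hfil] at key
  refine le_trans (le_of_eq ?_) key
  apply sum_congr rfl
  intro i _
  rw [Real.sqrt_div hx]

theorem mul_log_inv_le {r : ℝ} (hr : 0 ≤ r) : r * Real.log (1 / r) ≤ 2 * Real.sqrt r := by
  rcases hr.eq_or_lt with h | h
  · rw [← h]; simp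
  · have hs : 0 < Real.sqrt r := Real.sqrt_pos.2 h
    have h1 : Real.log (1 / Real.sqrt r) ≤ 1 / Real.sqrt r - 1 :=
      Real.log_le_sub_one_of_pos (by positivity)
    have h2 : Real.log (1 / r) = 2 * Real.log (1 / Real.sqrt r) := by
      rw [one_div, one_div, Real.log_inv, Real.log_inv, Real.log_sqrt h.le]
      ring
    have h3 : r = Real.sqrt r * Real.sqrt r := (Real.mul_self_sqrt h.le).symm
    rw [h2]
    calc r * (2 * Real.log (1 / Real.sqrt r)) ≤ r * (2 * (1 / Real.sqrt r - 1)) := by gcongr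
      _ ≤ r * (2 * (1 / Real.sqrt r)) := by
          gcongr
          linarith
      _ = 2 * Real.sqrt r := by
          nth_rewrite 1 [h3]
          field_simp

/-- `∑ r_i log (2/a_i) ≤ C (1 + log (8k))` over the large scales, `a_i = r_i² / (4k)`. -/
theorem sum_floor_le {B R₀ r1 k : ℝ} (hB : 1 < B) (hR₀ : 0 < R₀) (hr : 0 ≤ r1) (hk : 1 ≤ k)
    (I : ℕ) :
    ∑ i ∈ (range I).filter (fun i => r1 ≤ B ^ i * R₀), (r1 / (B ^ i * R₀)) *
        Real.log (2 / (1 / (4 * k) * min 1 ((r1 / (B ^ i * R₀)) ^ 2))) ≤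
      B / (B - 1) * Real.log (8 * k) + 4 * (Real.sqrt B / (Real.sqrt B - 1)) := by
  have hlog : 0 ≤ Real.log (8 * k) := Real.log_nonneg (by linarith)
  have h1 : ∀ i ∈ (range I).filter (fun i => r1 ≤ B ^ i * R₀), (r1 / (B ^ i * R₀)) *
        Real.log (2 / (1 / (4 * k) * min 1 ((r1 / (B ^ i * R₀)) ^ 2))) ≤
      r1 / (B ^ i * R₀) * Real.log (8 * k) + 4 * Real.sqrt (r1 / (B ^ i * R₀)) := by
    intro i hi
    have hp : 0 < B ^ i * R₀ := by positivity
    set t := r1 / (B ^ i * R₀) with ht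
    have ht0 : 0 ≤ t := by positivity
    have ht1 : t ≤ 1 := by
      rw [ht, div_le_one hp]
      exact (mem_filter.1 hi).2
    rcases ht0.eq_or_lt with h | h
    · rw [← h]; simp
    · have hmin : min 1 (t ^ 2) = t ^ 2 := min_eq_right (by nlinarith)
      have e : (2 : ℝ) / (1 / (4 * k) * min 1 (t ^ 2)) = 8 * k * (1 / t) ^ 2 := by
        rw [hmin]
        field_simp
        ring
      rw [e, Real.log_mul (by positivity) (by positivity), Real.log_pow]
      have := mul_log_inv_le ht0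
      push_cast
      nlinarith
  refine (sum_le_sum h1).trans ?_
  rw [sum_add_distrib, ← sum_mul, ← mul_sum]
  gcongr
  · exact sum_scales_ge hB hR₀ hr I
  · exact sum_sqrt_scales_ge hB hR₀ hr I

end Crest.Agent.R314.Gs
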