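import Crest.Agent.R314.G1_F
import Crest.Agent.R314.Gs5

/-!
R314, module G, part F2: the discrete growth functional (with cut-off) of `IM.ofDist` is at most
twice the continuous one.  Author: helper334.
-/

set_option autoImplicit false
set_option linter.unusedSectionVars false

namespace Crest.Agent.R314.G1

open Finset MeasureTheory

/-- Left-endpoint sums against the integral of a nonnegative function: the cell `s ≥ 1` is compared
with the cell before it, the cell `0` with itself. -/
theorem disc_le_integral {f : ℝ → ℝ} {T : ℕ → ℝ} {n : ℕ} (hn : 0 < n)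
    (hf : IntervalIntegrable f volume 0 1) (hf0 : ∀ t ∈ Set.Icc (0 : ℝ) 1, 0 ≤ f t)
    (h0 : ∀ t : ℝ, 0 < t → t < 1 / (n : ℝ) → T 0 ≤ f t)
    (hT : ∀ s : ℕ, s + 1 < n → ∀ t : ℝ, (s : ℝ) / n < t → t < ((s : ℝ) + 1) / n → T (s + 1) ≤ f t) :
    (∑ s ∈ range n, T s) / n ≤ 2 * ∫ t in (0 : ℝ)..1, f t := by
  have hnr : (0 : ℝ) < n := by exact_mod_cast hn
  obtain ⟨n', rfl⟩ : ∃ n', n = n' + 1 := ⟨n - 1, by omega⟩
  set n := n' + 1 with hndef
  -- cells
  set a : ℕ → ℝ := fun s => (s : ℝ) / n with ha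
  have ha0 : a 0 = 0 := by simp [ha]
  have han : a n = 1 := by simp only [ha]; exact div_self hnr.ne'
  have hmono : Monotone a := by
    intro s t hst
    simp only [ha]
    gcongr
  have ha01 : ∀ s ≤ n, a s ∈ Set.Icc (0 : ℝ) 1 := by
    intro s hs
    refine ⟨by simp only [ha]; positivity, ?_⟩
    rw [← han]
    exact hmono hs
  have hsub : ∀ s < n, IntervalIntegrable f volume (a s) (a (s + 1)) := by
    intro s hs
    apply hf.mono_set
    rw [Set.uIcc_of_le zero_le_one, Set.uIcc_of_le (hmono (Nat.le_succ s))]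
    intro t ht
    exact ⟨(ha01 s hs.le).1.trans ht.1, ht.2.trans (ha01 (s + 1) hs).2⟩
  have hlen : ∀ s : ℕ, a (s + 1) - a s = 1 / n := by
    intro s
    simp only [ha]
    push_cast
    field_simp
    ring
  have hcell : ∀ s < n, ∀ c : ℝ, (∀ t, a s < t → t < a (s + 1) → c ≤ f t) →
      c / n ≤ ∫ t in (a s)..(a (s + 1)), f t := by
    intro s hs c hc
    have h1 : ∫ _ in (a s)..(a (s + 1)), c = c / n := by
      rw [intervalIntegral.integral_const, hlen, smul_eq_mul]
      ring
    rw [← h1]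
    apply intervalIntegral.integral_mono_on_of_le_Ioo (hmono (Nat.le_succ s))
      intervalIntegrable_const (hsub s hs)
    intro t ht
    exact hc t ht.1 ht.2
  have hnn : ∀ s < n, 0 ≤ ∫ t in (a s)..(a (s + 1)), f t := by
    intro s hs
    apply intervalIntegral.integral_nonneg (hmono (Nat.le_succ s))
    intro t ht
    exact hf0 t ⟨(ha01 s hs.le).1.trans ht.1, ht.2.trans (ha01 (s + 1) hs).2⟩
  have hsum : ∑ s ∈ range n, ∫ t in (a s)..(a (s + 1)), f t = ∫ t in (0 : ℝ)..1, f t := by
    rw [intervalIntegral.sum_integral_adjacent_intervals hsub, ha0, han]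
  have hsum' : ∑ s ∈ range n', ∫ t in (a s)..(a (s + 1)), f t ≤ ∫ t in (0 : ℝ)..1, f t := by
    rw [← hsum, hndef, sum_range_succ]
    have := hnn n' (by omega)
    linarith
  have hzero : T 0 / n ≤ ∫ t in (0 : ℝ)..1, f t := by
    have h1 : T 0 / n ≤ ∫ t in (a 0)..(a (0 + 1)), f t := by
      apply hcell 0 hn
      intro t ht1 ht2
      apply h0 t
      · rwa [ha0] at ht1
      · simpa [ha] using ht2
    refine h1.trans ?_
    rw [← hsum]
    exact single_le_sum (f := fun s => ∫ t in (a s)..(a (s + 1)), f t)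
      (fun s hs => hnn s (mem_range.1 hs)) (mem_range.2 hn)
  have hrest : (∑ s ∈ range n', T (s + 1)) / n ≤ ∫ t in (0 : ℝ)..1, f t := by
    refine le_trans ?_ hsum'
    rw [sum_div]
    apply sum_le_sum
    intro s hs
    rw [mem_range] at hs
    apply hcell s (by omega)
    intro t ht1 ht2
    apply hT s (by omega) t
    · simpa [ha] using ht1
    · simpa [ha] using ht2
  rw [hndef, sum_range_succ', add_div]
  rw [← hndef]
  linarith

variable {X : Type*} [MetricSpace X] [Fintype X] [DecidableEq X]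

section

variable {R : ℝ} {J : ℕ} (hR : 0 < R) (hJ : 0 < J)

/-- masses of balls of grid radii -/
theorem bm_ofDist (m : X → ℝ) (y : X) (s : ℕ) :
    (IM.ofDist R J hR hJ).bm m y ((s : ℝ) / (2 * J)) =
      Gs.bm dist m y ((s : ℝ) / (2 * J) * R) := by
  unfold IM.bm Gs.bm
  rw [sum_filter]
  apply sum_congr rfl
  intro x _
  have := IM.ofDist_le_iff hR hJ y x s
  rw [dist_comm y x] at this
  by_cases h : dist x y ≤ (s : ℝ) / (2 * J) * R
  · rw [if_pos h, if_pos (this.2 h)]
  · rw [if_neg h, if_neg (fun h' => h (this.1 h'))]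

theorem bm_ofDist_nat (m : X → ℝ) (y : X) (c : ℕ) :
    (IM.ofDist R J hR hJ).bm m y c = Gs.bm dist m y (c * R) := by
  have hJr : (0 : ℝ) < J := by exact_mod_cast hJ
  have h := bm_ofDist hR hJ m y (c * (2 * J))
  push_cast at h
  rw [mul_div_assoc, div_self (by positivity), mul_one] at h
  exact h

/-- **discrete to continuous**: cut-off index `ρ`, real cut-off `r₁ ≤ ρ R / (2J)`. -/
theorem GamR_le_GsGamR {m : X → ℝ} (hm : ∀ x, 0 ≤ m x) {y : X}
    (hfine : ∀ x z : X, x ≠ z → R ≤ 2 * J * dist x z) {ρ : ℕ} {r1 : ℝ} (hr1 : 0 ≤ r1)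
    (hρ : r1 ≤ (ρ : ℝ) / (2 * J) * R) (hρ60 : ρ ≤ 120 * J) (hpos : 0 < Gs.bm dist m y r1) :
    (IM.ofDist R J hR hJ).GamR m y ((ρ : ℝ) / (2 * J)) ≤ 2 * Gs.GamR dist m y 60 R r1 := by
  have hJr : (0 : ℝ) < J := by exact_mod_cast hJ
  set M := IM.ofDist (X := X) R J hR hJ with hM
  have hMJ : M.J = J := rfl
  have h60 : M.bm m y 60 = Gs.bm dist m y (60 * R) := by
    have := bm_ofDist_nat hR hJ m y 60
    exact_mod_cast this
  have hmono : Monotone (Gs.bm dist m y) := Gs.bm_mono hm
  have hposr : ∀ r, r1 ≤ r → 0 < Gs.bm dist m y r := fun r hr => hpos.trans_le (hmono hr)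
  have hlog : ∀ r r', r1 ≤ r → r ≤ r' →
      Real.log (Gs.bm dist m y r) ≤ Real.log (Gs.bm dist m y r') :=
    fun r r' h1 h2 => Real.log_le_log (hposr r h1) (hmono h2)
  -- the terms
  have hr60 : r1 ≤ 60 * R := by
    refine hρ.trans ?_
    apply mul_le_mul_of_nonneg_right _ hR.le
    rw [div_le_iff₀ (by positivity)]
    have : (ρ : ℝ) ≤ 120 * J := by exact_mod_cast hρ60
    linarith
  have hterm : ∀ s : ℕ, M.bm m y (max ((s : ℝ) / (2 * J)) ((ρ : ℝ) / (2 * J))) =
      Gs.bm dist m y (((max s ρ : ℕ) : ℝ) / (2 * J) * R) := by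
    intro s
    have h1 : max ((s : ℝ) / (2 * J)) ((ρ : ℝ) / (2 * J)) = ((max s ρ : ℕ) : ℝ) / (2 * J) := by
      rw [Nat.cast_max]
      exact (max_div_div_right (by positivity) _ _)
    rw [h1]
    exact bm_ofDist hR hJ m y _
  have hge : ∀ s : ℕ, r1 ≤ ((max s ρ : ℕ) : ℝ) / (2 * J) * R := by
    intro s
    refine hρ.trans ?_
    gcongr
    exact_mod_cast le_max_right s ρ
  have hT : ∀ s : ℕ, Real.log (M.bm m y 60 / M.bm m y (max ((s : ℝ) / (2 * M.J))
      ((ρ : ℝ) / (2 * J)))) = Real.log (Gs.bm dist m y (60 * R)) -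
        Real.log (Gs.bm dist m y (((max s ρ : ℕ) : ℝ) / (2 * J) * R)) := by
    intro s
    rw [hMJ, hterm, h60, Real.log_div (hposr _ hr60).ne' (hposr _ (hge s)).ne']
  have key := disc_le_integral (n := 2 * J) (by omega)
    (f := fun s => Real.log (Gs.bm dist m y (60 * R)) -
      Real.log (Gs.bm dist m y (max (s * R) r1)))
    (T := fun s : ℕ => Real.log (Gs.bm dist m y (60 * R)) -
        Real.log (Gs.bm dist m y (((max s ρ : ℕ) : ℝ) / (2 * J) * R))) ?_ ?_ ?_ ?_
  · unfold IM.GamR Gs.GamR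
    rw [hMJ]
    have e : ∑ s ∈ range (2 * J), Real.log (M.bm m y 60 / M.bm m y (max ((s : ℝ) / (2 * J))
        ((ρ : ℝ) / (2 * J)))) = ∑ s ∈ range (2 * J), (Real.log (Gs.bm dist m y (60 * R)) -
        Real.log (Gs.bm dist m y (((max s ρ : ℕ) : ℝ) / (2 * J) * R))) :=
      sum_congr rfl fun s _ => hT s
    rw [e]
    push_cast at key ⊢
    exact key
  · apply IntervalIntegrable.sub intervalIntegrable_const
    apply MonotoneOn.intervalIntegrable
    intro s _ t _ hst
    apply hlog _ _ (le_max_right _ _)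
    gcongr
  · intro t ht
    have := hlog (max (t * R) r1) (60 * R) (le_max_right _ _) (max_le (by
      apply mul_le_mul_of_nonneg_right _ hR.le
      linarith [ht.2]) hr60)
    linarith
  · intro t ht0 ht1
    have h1 : Real.log (Gs.bm dist m y (max (t * R) r1)) ≤
        Real.log (Gs.bm dist m y (((max 0 ρ : ℕ) : ℝ) / (2 * J) * R)) := by
      have htR : t * R ≤ 1 / (2 * J) * R := by
        have : t ≤ 1 / (2 * J) := by push_cast at ht1; exact ht1.le
        gcongr
      rcases Nat.eq_zero_or_pos ρ with h | h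
      · -- trivial balls
        subst h
        have hr10 : r1 = 0 := by
          apply le_antisymm _ hr1
          simpa using hρ
        subst hr10
        rw [max_eq_left (by positivity)]
        apply le_of_eq
        congr 1
        unfold Gs.bm
        apply sum_congr _ fun _ _ => rfl
        ext x
        simp only [mem_filter, mem_univ, true_and]
        constructor
        · intro h1
          by_cases hxy : y = x
          · subst hxy; simp
          · exfalso
            have h2 := hfine x y (Ne.symm hxy)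
            have h3 : t * R < 1 / (2 * J) * R := by
              have : t < 1 / (2 * J) := by push_cast at ht1; exact ht1
              gcongr
            have h4 : 1 / (2 * (J : ℝ)) * R ≤ dist x y := by
              rw [div_mul_eq_mul_div, one_mul, div_le_iff₀ (by positivity)]
              linarith
            linarith
        · intro h1
          have h2 : dist x y ≤ 0 := by simpa using h1
          exact h2.trans (by positivity)
      · apply hlog _ _ (le_max_right _ _)
        apply max_le _ (hge 0)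
        refine htR.trans ?_
        have h1 : (1 : ℝ) ≤ ((max 0 ρ : ℕ) : ℝ) := by
          have : 1 ≤ max 0 ρ := le_max_of_le_right h
          exact_mod_cast this
        gcongr
    linarith
  · intro s hs t ht0 ht1
    have h1 : Real.log (Gs.bm dist m y (max (t * R) r1)) ≤
        Real.log (Gs.bm dist m y (((max (s + 1) ρ : ℕ) : ℝ) / (2 * J) * R)) := by
      apply hlog _ _ (le_max_right _ _)
      apply max_le _ (hge (s + 1))
      push_cast at ht1
      have h2 : t ≤ ((s : ℝ) + 1) / (2 * J) := ht1.le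
      have h3 : ((s : ℝ) + 1) ≤ ((max (s + 1) ρ : ℕ) : ℝ) := by
        have : s + 1 ≤ max (s + 1) ρ := le_max_left _ _
        exact_mod_cast this
      calc t * R ≤ ((s : ℝ) + 1) / (2 * J) * R := by gcongr
        _ ≤ _ := by gcongr
    linarith

/-- the cut-off index of the real cut-off `r₁` -/
theorem exists_rho {r1 : ℝ} (hr1 : 0 ≤ r1) (h : r1 = 0 ∨ R ≤ 2 * J * r1) (hR : 0 < R)
    (hJ : 0 < J) : ∃ ρ : ℕ, r1 ≤ (ρ : ℝ) / (2 * J) * R ∧ (ρ : ℝ) / (2 * J) ≤ 2 * (r1 / R) := by
  have hJr : (0 : ℝ) < J := by exact_mod_cast hJ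
  refine ⟨⌈2 * (J : ℝ) * r1 / R⌉₊, ?_, ?_⟩
  · have h1 := Nat.le_ceil (2 * (J : ℝ) * r1 / R)
    rw [div_le_iff₀ hR] at h1
    rw [div_mul_eq_mul_div, le_div_iff₀ (by positivity)]
    linarith
  · rcases h with h | h
    · subst h; simp
    · have h1 : 1 ≤ 2 * (J : ℝ) * r1 / R := by
        rw [le_div_iff₀ hR]; linarith
      have h2 : ((⌈2 * (J : ℝ) * r1 / R⌉₊ : ℕ) : ℝ) ≤ 2 * J * r1 / R + 1 :=
        (Nat.ceil_lt_add_one (by linarith)).le
      rw [div_le_iff₀ (by positivity)]
      calc ((⌈2 * (J : ℝ) * r1 / R⌉₊ : ℕ) : ℝ) ≤ 2 * (2 * J * r1 / R) := by linarith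
        _ = 2 * (r1 / R) * (2 * J) := by field_simp

end

end Crest.Agent.R314.G1
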