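import Mathlib
import Crest.Agent.R314.G1_G2
import Crest.Agent.R314.G1_E

/-!
R314, module G (one scale): the final geometric statement `GEO1C` (helper435; claim 2 by helper197,
claim 1 by helper869, slopes by helper291 and helper334, operation facts by helper375).
-/

set_option autoImplicit false
set_option linter.unusedSectionVars false

namespace Crest.Agent.R314.G1

universe u

theorem claim2' : Claim2.{u} :=
  ⟨310, by norm_num, fun _ _ _ _ _ _ _ _ _ hm hS hr0 hr hp hpy =>
    Ec.claim2 hm hS hp hpy hr0 hr⟩

/-- **(GA)**, unconditional -/
theorem geo1C : GEO1C.{u} := geo1C_of claim2'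

end Crest.Agent.R314.G1
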