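import Mathlib
import Crest.Agent.R314.G1_G
import Crest.Agent.R314.GO3

/-!
R314: module G closed: `GOb`, hence `GOut 16` and `GOut 256`, unconditionally (helper435).
-/

set_option autoImplicit false

namespace Crest.Agent.R314.GO

universe u

theorem geo1C_thm : GEO1C.{u} := G1.geo1C

theorem gob_thm : GOb.{u} := gob_of_geo geo1C_thm

theorem gout16 : GOut.{u} 16 := gout_of_gob gob_thm

theorem gout256 : GOut.{u} 256 := by
  have h := GOut.pow.{u} (b := 16) (by norm_num) gout16 2 (by norm_num)
  norm_num at h
  exact h

end Crest.Agent.R314.GO
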