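import Crest.Agent.R314.G1_A2

/-!
R314, module G (one scale), part P: locality of the operations, the pointwise comparison
lemma (helper869; statement of helper435, post 8699).
-/

set_option autoImplicit false
set_option linter.unusedSectionVars false
set_option linter.unusedVariables false

namespace Crest.Agent.R314.G1

open Finset

variable {Y : Type*} [Fintype Y] [DecidableEq Y] (M : IM Y)

namespace IM

/-! ### locality -/

theorem p_W_congr {w w' : Y → ℝ} {x : Y} {r : ℝ} (h : ∀ z, M.d x z ≤ r → w z = w' z) :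
    M.W w x r = M.W w' x r := by
  unfold W bm
  refine Finset.sum_congr rfl fun z _ => ?_
  by_cases hz : M.d x z ≤ r
  · simp [hz, fl, h z hz]
  · simp [hz]

theorem p_psi_congr {w w' : Y → ℝ} {x : Y} (h : ∀ z, M.d x z ≤ 1 → w z = w' z) {i : ℕ}
    (hi : i ≤ M.J) : M.psi w x i = M.psi w' x i := by
  unfold psi
  rw [M.p_W_congr (fun z hz => h z (hz.trans (M.rad_le_one hi)))]

theorem p_L_congr {w w' : Y → ℝ} {x : Y} (h : ∀ z, M.d x z ≤ 1 → w z = w' z) :
    M.L w x = M.L w' x := by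
  unfold L
  rw [M.E_congr fun s hs => M.p_psi_congr h hs.le]

theorem p_lam_congr {w w' : Y → ℝ} {x : Y} (h : ∀ z, M.d x z ≤ 1 → w z = w' z) (z : Y) :
    M.lam w x z = M.lam w' x z := by
  unfold lam
  refine M.E_congr fun s hs => ?_
  have hr := M.rad_le_one hs.le
  unfold lam1
  rw [M.p_W_congr (fun z hz => h z (hz.trans hr))]
  by_cases hz : M.d x z ≤ M.rad s
  · simp [hz, fl, h z (hz.trans hr)]
  · simp [hz]

/-- far separated sets -/
def Far (A : Finset Y) : Prop := ∀ p ∈ A, ∀ q ∈ A, p ≠ q → 40 ≤ M.d p q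

variable {M}

theorem p_mop_eq_op {A : Finset Y} {a w : Y → ℝ} (hA : M.Far A) {q x z : Y} (hq : q ∈ A)
    (hx : M.d q x ≤ 3) (hz : M.d x z ≤ 1) : M.mop w A a z = M.op w q (a q) z := by
  have hqz : M.d q z ≤ 4 := by have := M.d_tri q x z; linarith
  have h1 : (∑ p ∈ A, if M.d p z ≤ 2 then a p else 0) = if M.d q z ≤ 2 then a q else 0 := by
    refine Finset.sum_eq_single_of_mem q hq fun p hp hpq => ?_
    have h40 := hA p hp q hq hpq
    have h3 := M.d_tri p z q
    rw [M.d_symm z q] at h3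
    rw [if_neg]; linarith
  have h2 : (if z ∈ A then a z else 0) = if z = q then a q else 0 := by
    by_cases hzq : z = q
    · subst hzq; simp [hq]
    · rw [if_neg hzq, if_neg]
      intro hzA
      have h40 := hA z hzA q hq hzq
      rw [M.d_symm z q] at h40
      linarith
  unfold mop op
  rw [h1, h2]
  split_ifs <;> ring

theorem p_mop_eq_self {A : Finset Y} {a w : Y → ℝ} {x z : Y}
    (hx : ∀ q ∈ A, 3 < M.d q x) (hz : M.d x z ≤ 1) : M.mop w A a z = w z := by
  have h1 : (∑ p ∈ A, if M.d p z ≤ 2 then a p else 0) = 0 := by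
    refine Finset.sum_eq_zero fun p hp => ?_
    have h3 := M.d_tri p z x
    rw [M.d_symm z x] at h3
    have := hx p hp
    rw [if_neg]; linarith
  have h2 : z ∉ A := by
    intro hzA
    have := hx z hzA
    rw [M.d_symm z x] at this
    linarith
  unfold mop
  rw [h1, if_neg h2]; ring

/-- the ball-mass of `mop` -/
theorem p_op_nonneg {w : Y → ℝ} (hw : ∀ z, 0 ≤ w z) {q : Y} {a : ℝ} (h0 : 0 ≤ a) (h1 : a ≤ 1)
    (z : Y) : 0 ≤ M.op w q a z := by
  unfold op
  have := hw z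
  split_ifs <;> nlinarith

theorem p_bm_congr {m m' : Y → ℝ} {x : Y} {r : ℝ} (h : ∀ z, M.d x z ≤ r → m z = m' z) :
    M.bm m x r = M.bm m' x r := by
  unfold bm
  refine Finset.sum_congr rfl fun z _ => ?_
  by_cases hz : M.d x z ≤ r
  · simp [hz, h z hz]
  · simp [hz]

theorem bm_op_le {w : Y → ℝ} (hw : ∀ z, 0 ≤ w z) {q : Y} {a : ℝ} (h0 : 0 ≤ a) (h1 : a ≤ 1)
    {y : Y} (hy : M.bm w y 1 ≤ 1) : M.bm (M.op w q a) y 1 ≤ 1 := by
  by_cases hq : M.d y q ≤ 1
  · -- the ball contains `q` and lies in `B(q,2)`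
    have h : M.bm (M.op w q a) y 1 = (1 - a) * M.bm w y 1 + a := by
      unfold bm op
      have : ∀ z, (if M.d y z ≤ 1 then
          ((if M.d q z ≤ 2 then (1 - a) * w z else w z) + if z = q then a else 0) else 0)
          = (1 - a) * (if M.d y z ≤ 1 then w z else 0) + if z = q then a else 0 := by
        intro z
        by_cases hz : M.d y z ≤ 1
        · have : M.d q z ≤ 2 := by
            have := M.d_tri q y z
            rw [M.d_symm q y] at this
            linarith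
          simp [hz, this]
        · have : z ≠ q := by rintro rfl; exact hz hq
          simp [hz, this]
      simp_rw [this]
      rw [Finset.sum_add_distrib, ← Finset.mul_sum]
      simp
    rw [h]
    nlinarith
  · have h : M.bm (M.op w q a) y 1 ≤ M.bm w y 1 := by
      unfold bm op
      refine Finset.sum_le_sum fun z _ => ?_
      by_cases hz : M.d y z ≤ 1
      · have : z ≠ q := by rintro rfl; exact hq hz
        have hwz := hw z
        simp only [hz, this, if_true, if_false, add_zero]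
        split_ifs <;> nlinarith
      · simp [hz]
    exact h.trans hy

theorem p_mop_nonneg {A : Finset Y} {a w : Y → ℝ} (hA : M.Far A) (hw : ∀ z, 0 ≤ w z)
    (h0 : ∀ q ∈ A, 0 ≤ a q) (h1 : ∀ q ∈ A, a q ≤ 1) (z : Y) : 0 ≤ M.mop w A a z := by
  by_cases h : ∃ q ∈ A, M.d q z ≤ 3
  · obtain ⟨q, hq, hqz⟩ := h
    rw [p_mop_eq_op hA hq hqz (by rw [M.d_self]; norm_num)]
    exact p_op_nonneg hw (h0 q hq) (h1 q hq) z
  · push Not at h
    rw [p_mop_eq_self h (by rw [M.d_self]; norm_num)]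
    exact hw z

theorem bm_mop_le {A : Finset Y} {a w : Y → ℝ} (hA : M.Far A) (hw : ∀ z, 0 ≤ w z)
    (h0 : ∀ q ∈ A, 0 ≤ a q) (h1 : ∀ q ∈ A, a q ≤ 1) (hp : ∀ y, M.bm w y 1 ≤ 1) (y : Y) :
    M.bm (M.mop w A a) y 1 ≤ 1 := by
  by_cases h : ∃ q ∈ A, M.d q y ≤ 3
  · obtain ⟨q, hq, hqz⟩ := h
    rw [p_bm_congr (m' := M.op w q (a q)) fun z hz => p_mop_eq_op hA hq hqz hz]
    exact bm_op_le hw (h0 q hq) (h1 q hq) (hp y)
  · push Not at h
    rw [p_bm_congr (m' := w) fun z hz => p_mop_eq_self h hz]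
    exact hp y

/-! ### the light potential after an operation -/

theorem fl_op_ge {w : Y → ℝ} (hw : ∀ z, 0 ≤ w z) {q : Y} {a : ℝ} (h0 : 0 ≤ a) (z : Y) :
    (1 - a) * fl w z ≤ fl (M.op w q a) z := by
  have h1 := hw z
  have h2 := card_pos z
  have h3 : 0 ≤ a * (1 / (Fintype.card Y : ℝ)) := by positivity
  have h4 : 0 ≤ a * w z := by positivity
  unfold fl op
  split_ifs <;> nlinarith

theorem W_op_ge {w : Y → ℝ} (hw : ∀ z, 0 ≤ w z) {q : Y} {a : ℝ} (h0 : 0 ≤ a) (x : Y) (r : ℝ) :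
    (1 - a) * M.W w x r ≤ M.W (M.op w q a) x r := by
  unfold W bm
  rw [mul_sum]
  refine sum_le_sum fun z _ => ?_
  split_ifs
  · exact fl_op_ge hw h0 z
  · simp

theorem W_op_ge' {w : Y → ℝ} (hw : ∀ z, 0 ≤ w z) {q : Y} {a : ℝ} (h0 : 0 ≤ a) (h1 : a ≤ 1)
    {x : Y} {r : ℝ} (hq : M.d x q ≤ r) : a ≤ M.W (M.op w q a) x r := by
  have h := M.le_bm (m := fl (M.op w q a)) (x := x) (z := q) (r := r)
    (fun z => (fl_pos (fun y => p_op_nonneg hw h0 h1 y) z).le) hq
  refine le_trans ?_ h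
  have h2 := card_pos q
  have h3 := hw q
  have h4 : 0 ≤ (1 - a) * w q := mul_nonneg (by linarith) h3
  have h5 : (0 : ℝ) ≤ 1 / (Fintype.card Y : ℝ) := by positivity
  unfold fl op
  rw [M.d_self]
  simp only [show (0 : ℝ) ≤ 2 by norm_num, if_true]
  linarith

/-- an operation costs at most `16 ln 2` -/
theorem L_op_le_add {w : Y → ℝ} (hw : ∀ z, 0 ≤ w z) {q : Y} {a : ℝ} (h0 : 0 ≤ a)
    (h1 : a ≤ 1 / 2) (x : Y) : M.L (M.op w q a) x ≤ M.L w x + 16 * Real.log 2 := by
  have h : M.E (M.psi (M.op w q a) x) ≤ M.E (fun s => M.psi w x s + Real.log 2) := by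
    refine M.E_mono fun s hs => ?_
    unfold psi
    have hW := M.W_pos hw x (M.rad_nonneg s)
    have hW' := M.W_pos (fun y => p_op_nonneg hw h0 (by linarith) y : ∀ y, 0 ≤ M.op w q a y) x
      (M.rad_nonneg s)
    have hge := W_op_ge (M := M) hw h0 x (M.rad s) (q := q) (a := a)
    rw [← Real.log_mul (by positivity) (by norm_num)]
    apply Real.log_le_log (by positivity)
    rw [div_mul_eq_mul_div, div_le_div_iff₀ hW' hW]
    nlinarith
  rw [E_add, E_const] at h
  unfold L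
  linarith

theorem L_op_le_log {w : Y → ℝ} (hw : ∀ z, 0 ≤ w z) {q : Y} {a : ℝ} (h0 : 0 < a)
    (h1 : a ≤ 1) {x : Y} (hx : M.d q x ≤ 1 / 2) :
    M.L (M.op w q a) x ≤ 16 * Real.log (2 / a) := by
  have h : M.E (M.psi (M.op w q a) x) ≤ M.E (fun _ => Real.log (2 / a)) := by
    refine M.E_mono fun s hs => ?_
    unfold psi
    have hW' := M.W_pos (fun y => p_op_nonneg hw h0.le h1 y : ∀ y, 0 ≤ M.op w q a y) x
      (M.rad_nonneg s)
    have hge := W_op_ge' hw h0.le h1 (q := q) (a := a) (x := x) (r := M.rad s)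
      (by rw [M.d_symm]; exact hx.trans (M.half_le_rad s))
    apply Real.log_le_log (by positivity)
    exact div_le_div_of_nonneg_left (by norm_num) h0 hge
  rw [E_const] at h
  unfold L
  linarith

theorem p_op_eq_self {w : Y → ℝ} {q x z : Y} {a : ℝ} (hx : 3 < M.d q x) (hz : M.d x z ≤ 1) :
    M.op w q a z = w z := by
  have h3 := M.d_tri q z x
  rw [M.d_symm z x] at h3
  have h4 : ¬ M.d q z ≤ 2 := by linarith
  have h5 : z ≠ q := by
    rintro rfl
    rw [M.d_self] at h4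
    exact h4 (by norm_num)
  unfold op
  rw [if_neg h4, if_neg h5, add_zero]

theorem L_op_far {w : Y → ℝ} {q x : Y} {a : ℝ} (hx : 3 < M.d q x) :
    M.L (M.op w q a) x = M.L w x :=
  M.p_L_congr fun _ hz => p_op_eq_self hx hz

theorem lam_op_far {w : Y → ℝ} {q x : Y} {a : ℝ} (hx : 3 < M.d q x) (z : Y) :
    M.lam (M.op w q a) x z = M.lam w x z :=
  M.p_lam_congr (fun _ hz => p_op_eq_self hx hz) z

theorem L_mop_near {A : Finset Y} {a w : Y → ℝ} (hA : M.Far A) {q x : Y} (hq : q ∈ A)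
    (hx : M.d q x ≤ 3) : M.L (M.mop w A a) x = M.L (M.op w q (a q)) x :=
  M.p_L_congr fun _ hz => p_mop_eq_op hA hq hx hz

theorem lam_mop_near {A : Finset Y} {a w : Y → ℝ} (hA : M.Far A) {q x : Y} (hq : q ∈ A)
    (hx : M.d q x ≤ 3) (z : Y) : M.lam (M.mop w A a) x z = M.lam (M.op w q (a q)) x z :=
  M.p_lam_congr (fun _ hz => p_mop_eq_op hA hq hx hz) z

theorem L_mop_far {A : Finset Y} {a w : Y → ℝ} {x : Y} (hx : ∀ q ∈ A, 3 < M.d q x) :
    M.L (M.mop w A a) x = M.L w x :=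
  M.p_L_congr fun _ hz => p_mop_eq_self hx hz

theorem lam_mop_far {A : Finset Y} {a w : Y → ℝ} {x : Y} (hx : ∀ q ∈ A, 3 < M.d q x) (z : Y) :
    M.lam (M.mop w A a) x z = M.lam w x z :=
  M.p_lam_congr (fun _ hz => p_mop_eq_self hx hz) z

/-! ### aliases (names of helper197's local copy) -/

alias L_congr_p := p_L_congr
alias W_congr_p := p_W_congr
alias bm_congr_p := p_bm_congr
alias lam_congr_p := p_lam_congr
alias mop_eq_op_p := p_mop_eq_op
alias mop_eq_self_p := p_mop_eq_self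
alias mop_nonneg_p := p_mop_nonneg
alias op_nonneg_p := p_op_nonneg

end IM

end Crest.Agent.R314.G1
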