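import Crest.Agent.R314.GOut
import Crest.Agent.R314.Mh4

/-!
R314, block GO, part 1: fractional labels of all histories and levels are turned into
deterministic labels (derandomisation by `Mh.exists_labels`).
-/

set_option autoImplicit false
set_option linter.unusedSectionVars false

namespace Crest.Agent.R314.GO

open Finset Crest.Agent.R314 Crest.Agent.R314.Tk Crest.Agent.R314.Bay Crest.LogicCS.KServer
open Crest.Agent.R314.Mh (IsPV)

universe u

variable {Y : Type u} {A : Type u} [Fintype A]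

/-- Fractional label cost. -/
noncomputable def fcost (L : ℕ) (R : ℕ → ℝ) (pi : List Y → ℕ → Y → A → ℝ)
    (h : List Y) (x : Y) (h' : List Y) (x' : Y) : ℝ :=
  ∑ l ∈ range L, R l * ∑ a, |pi h l x a - pi h' l x' a|

variable {k : ℕ} [NeZero k] [Fintype Y]

/-- Fractional label bill. -/
noncomputable def fbill (Q : Prior Y k) (L : ℕ) (R : ℕ → ℝ) (pi : List Y → ℕ → Y → A → ℝ)
    (h : List Y) : ℝ :=
  ∑ x, Q.mm h x * fcost L R pi h.dropLast x h x +
    ∑ i ∈ Q.I h, Q.p i * fcost L R pi h (Q.src i (h.length - 1)) h (Q.rq i (h.length - 1))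

section Kernel

variable (Q : Prior Y k) (L : ℕ) (R : ℕ → ℝ) (pi : List Y → ℕ → Y → A → ℝ)

/-- first member of the pair -/
def pA (z : List Y × ℕ × (Y ⊕ Q.ι)) : A → ℝ :=
  match z with
  | (h, l, Sum.inl x) => pi h.dropLast l x
  | (h, l, Sum.inr i) => pi h l (Q.src i (h.length - 1))

/-- second member of the pair -/
def pB (z : List Y × ℕ × (Y ⊕ Q.ι)) : A → ℝ :=
  match z with
  | (h, l, Sum.inl x) => pi h l x
  | (h, l, Sum.inr i) => pi h l (Q.rq i (h.length - 1))

open Classical in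
/-- weight of the pair -/
noncomputable def pC (z : List Y × ℕ × (Y ⊕ Q.ι)) : ℝ :=
  match z with
  | (h, l, Sum.inl x) => R l * Q.mm h x
  | (h, l, Sum.inr i) => if i ∈ Q.I h then R l * Q.p i else 0

theorem pC_nonneg (hR : ∀ l, 0 ≤ R l) (z : List Y × ℕ × (Y ⊕ Q.ι)) : 0 ≤ pC Q R z := by
  rcases z with ⟨h, l, x | i⟩
  · exact mul_nonneg (hR l) (Q.mm_nonneg h x)
  · simp only [pC]
    split_ifs
    · exact mul_nonneg (hR l) (Q.p_nonneg i)
    · exact le_rfl

theorem kernel_sum (K : (A → ℝ) → (A → ℝ) → ℝ) :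
    ∑ z ∈ Q.H ×ˢ range L ×ˢ (univ : Finset (Y ⊕ Q.ι)), pC Q R z * K (pA Q pi z) (pB Q pi z) =
      ∑ h ∈ Q.H, (∑ x, Q.mm h x * ∑ l ∈ range L, R l * K (pi h.dropLast l x) (pi h l x) +
        ∑ i ∈ Q.I h, Q.p i * ∑ l ∈ range L,
          R l * K (pi h l (Q.src i (h.length - 1))) (pi h l (Q.rq i (h.length - 1)))) := by
  classical
  rw [sum_product]
  apply sum_congr rfl
  intro h _
  rw [sum_product]
  simp only [Fintype.sum_sum_type, sum_add_distrib]
  congr 1
  · rw [sum_comm]
    apply sum_congr rfl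
    intro x _
    rw [mul_sum]
    apply sum_congr rfl
    intro l _
    simp only [pC, pA, pB]
    ring
  · rw [sum_comm]
    have : ∀ i : Q.ι, (∑ l ∈ range L, pC Q R (h, l, Sum.inr i) *
        K (pA Q pi (h, l, Sum.inr i)) (pB Q pi (h, l, Sum.inr i))) =
        if i ∈ Q.I h then Q.p i * ∑ l ∈ range L,
          R l * K (pi h l (Q.src i (h.length - 1))) (pi h l (Q.rq i (h.length - 1))) else 0 := by
      intro i
      split_ifs with hi
      · rw [mul_sum]
        apply sum_congr rfl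
        intro l _
        simp only [pC, pA, pB, hi, if_true]
        ring
      · apply sum_eq_zero
        intro l _
        simp only [pC, hi, if_false, zero_mul]
    rw [sum_congr rfl fun i _ => this i, sum_ite_mem, univ_inter]

end Kernel

/-- **Deterministic labels from fractional labels**, all histories and levels at once. -/
theorem exists_lam [Nonempty A] (Q : Prior Y k) (L : ℕ) (R : ℕ → ℝ) (hR : ∀ l, 0 ≤ R l)
    (pi : List Y → ℕ → Y → A → ℝ) (hpi : ∀ h l x, IsPV (pi h l x)) {ε : ℝ} (hε : 0 < ε) :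
    ∃ lam : List Y → ℕ → Y → A, (∀ h l x, 0 < pi h l x (lam h l x)) ∧
      ∑ h ∈ Q.H, gbill Q L R lam h ≤ ∑ h ∈ Q.H, fbill Q L R pi h + ε := by
  classical
  obtain ⟨lb, h1, h2⟩ := Mh.exists_labels (Q.H ×ˢ range L ×ˢ (univ : Finset (Y ⊕ Q.ι)))
    (pC Q R) (fun z _ => pC_nonneg Q R hR z) (pA Q pi) (pB Q pi)
    (fun z _ => by rcases z with ⟨h, l, x | i⟩ <;> exact hpi _ _ _)
    (fun z _ => by rcases z with ⟨h, l, x | i⟩ <;> exact hpi _ _ _) hε
  refine ⟨fun h l x => lb (pi h l x), fun h l x => h1 _ (hpi h l x), ?_⟩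
  have e1 := kernel_sum Q L R pi (fun a b => if lb a ≠ lb b then (1 : ℝ) else 0)
  have e2 := kernel_sum Q L R pi (fun a b => ∑ y, |a y - b y|)
  have e3 : ∑ h ∈ Q.H, gbill Q L R (fun h l x => lb (pi h l x)) h =
      ∑ z ∈ Q.H ×ˢ range L ×ˢ (univ : Finset (Y ⊕ Q.ι)),
        pC Q R z * (if lb (pA Q pi z) ≠ lb (pB Q pi z) then (1 : ℝ) else 0) := by
    rw [e1]
    apply sum_congr rfl
    intro h _
    unfold gbill lcost
    congr 1
    · apply sum_congr rfl; intro x _
      congr 1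
      apply sum_congr rfl; intro l _
      congr 1
      by_cases hh : lb (pi h.dropLast l x) = lb (pi h l x) <;> simp [hh]
    · apply sum_congr rfl; intro i _
      congr 1
      apply sum_congr rfl; intro l _
      congr 1
      by_cases hh : lb (pi h l (Q.src i (h.length - 1))) = lb (pi h l (Q.rq i (h.length - 1))) <;>
        simp [hh]
  have e4 : ∑ h ∈ Q.H, fbill Q L R pi h =
      ∑ z ∈ Q.H ×ˢ range L ×ˢ (univ : Finset (Y ⊕ Q.ι)),
        pC Q R z * ∑ y, |pA Q pi z y - pB Q pi z y| := by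
    rw [e2]
    rfl
  rw [e3, e4]
  exact h2

end Crest.Agent.R314.GO
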