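import Crest.Agent.R314.GOut
import Crest.Agent.R314.G1_F

/-!
R314, block GO, part a: supports of the fractional labels, (G1), choice of the scales, and
`GOb → GOut 16` (`GOb` = output of helper723's part b).
-/

set_option autoImplicit false
set_option linter.unusedSectionVars false

namespace Crest.Agent.R314.GO

open Finset Crest.Agent.R314 Crest.Agent.R314.Tk Crest.Agent.R314.Bay Crest.LogicCS.KServer
open Crest.Agent.R314.G1 (St IM Ok)

universe u

section Support

variable {Y : Type u} [Fintype Y] [DecidableEq Y] (M : IM Y)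

theorem exists_main_of_none {S : St Y} {x : Y} (h : 0 < M.lab S x none) :
    ∃ p ∈ S.P, M.d x p < 1 / 4 := by
  simp only [G1.IM.lab] at h
  have h1 : M.u S.P x < 1 / 4 := by
    by_contra hcon
    push Not at hcon
    rw [G1.tf_eq_one hcon] at h
    linarith
  rcases M.u_cases S.P x with h2 | ⟨p, hp, h2⟩
  · rw [h2] at h1; norm_num at h1
  · exact ⟨p, hp, by rw [← h2]; exact h1⟩

theorem d_le_of_some {S : St Y} {x z : Y} (h : 0 < M.lab S x (some z)) : M.d x z ≤ 1 := by
  simp only [G1.IM.lab] at h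
  apply M.lam_supp (w := S.w)
  intro h0
  rw [h0, mul_zero] at h
  exact lt_irrefl _ h

/-- Equal labels of points which are not too far apart: the points are close. -/
theorem supp_near {S : St Y} (hS : Ok M S) {x x' : Y} (hd : M.d x x' ≤ 39) {o : Option Y}
    (h : 0 < M.lab S x o) (h' : 0 < M.lab S x' o) : M.d x x' ≤ 2 := by
  cases o with
  | none =>
    obtain ⟨p, hp, hxp⟩ := exists_main_of_none M h
    obtain ⟨p', hp', hxp'⟩ := exists_main_of_none M h'
    have h1 : p = p' := by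
      by_contra hne
      have h2 := hS.sep40 p hp p' hp' hne
      have h3 := M.d_tri p x p'
      have h4 := M.d_tri x x' p'
      rw [M.d_symm p x] at h3
      linarith
    subst h1
    have h3 := M.d_tri x p x'
    rw [M.d_symm p x'] at h3
    linarith
  | some z =>
    have h1 := d_le_of_some M h
    have h2 := d_le_of_some M h'
    have h3 := M.d_tri x z x'
    rw [M.d_symm z x'] at h3
    linarith

end Support

section Chain

variable {Y : Type u} [MetricSpace Y] [Fintype Y] [DecidableEq Y]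

/-- The integer metric of the level `i`. -/
noncomputable abbrev Mi (R0 : ℝ) (J : ℕ) (hR0 : 0 < R0) (hJ : 0 < J) (i : ℕ) : IM Y :=
  G1.IM.ofDist (R0 * 16 ^ i) J (by positivity) hJ

theorem Mi_le {R0 : ℝ} {J : ℕ} (hR0 : 0 < R0) (hJ : 0 < J) (i : ℕ) {x y : Y} (n : ℕ)
    (h : dist x y ≤ n * (R0 * 16 ^ i)) : (Mi R0 J hR0 hJ i).d x y ≤ n := by
  have hJr : (0 : ℝ) < J := by exact_mod_cast hJ
  have e : ((n * (2 * J) : ℕ) : ℝ) / (2 * J) = n := by
    push_cast
    field_simp
  have := (G1.IM.ofDist_le_iff (R := R0 * 16 ^ i) (by positivity) hJ x y (n * (2 * J))).2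
    (by rw [e]; exact h)
  rwa [e] at this

theorem dist_le_Mi {R0 : ℝ} {J : ℕ} (hR0 : 0 < R0) (hJ : 0 < J) (i : ℕ) {x y : Y} (n : ℕ)
    (h : (Mi R0 J hR0 hJ i).d x y ≤ n) : dist x y ≤ n * (R0 * 16 ^ i) := by
  have h1 := G1.IM.dist_le_ofDist (R := R0 * 16 ^ i) (by positivity) hJ x y
  have h2 : 0 < R0 * 16 ^ i := by positivity
  calc dist x y ≤ R0 * 16 ^ i * (Mi R0 J hR0 hJ i).d x y := h1
    _ ≤ R0 * 16 ^ i * n := mul_le_mul_of_nonneg_left h h2.le
    _ = _ := by ring

/-- **(G1)**: labels of positive probability which agree on all levels `≥ l` force distance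
`≤ 2 R_l`. -/
theorem chain_near {R0 : ℝ} {J : ℕ} (hR0 : 0 < R0) (hJ : 0 < J) {L : ℕ}
    (hdiam : ∀ x y : Y, dist x y ≤ R0 * 16 ^ L) (st : ℕ → St Y)
    (hst : ∀ i, i < L → Ok (Mi R0 J hR0 hJ i) (st i)) (lam : ℕ → Y → Option Y)
    (hlam : ∀ i, i < L → ∀ x, 0 < (Mi R0 J hR0 hJ i).lab (st i) x (lam i x)) {x x' : Y} {l : ℕ}
    (hl : l < L) (heq : ∀ l', l ≤ l' → l' < L → lam l' x = lam l' x') :
    dist x x' ≤ 2 * (R0 * 16 ^ l) := by
  -- downward induction
  have key : ∀ n, ∀ l, l + n + 1 = L → (∀ l', l ≤ l' → l' < L → lam l' x = lam l' x') →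
      dist x x' ≤ 2 * (R0 * 16 ^ l) := by
    intro n
    induction n with
    | zero =>
      intro l hl heq
      have hlL : l < L := by omega
      have h1 : dist x x' ≤ (39 : ℕ) * (R0 * 16 ^ l) := by
        refine (hdiam x x').trans ?_
        have : L = l + 1 := by omega
        rw [this, pow_succ]
        have h2 : 0 < R0 * 16 ^ l := by positivity
        push_cast
        nlinarith
      have h2 := Mi_le hR0 hJ l 39 h1
      have h3 := hlam l hlL x
      have h4 := hlam l hlL x'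
      rw [← heq l le_rfl hlL] at h4
      have h5 := supp_near (Mi R0 J hR0 hJ l) (hst l hlL) (by exact_mod_cast h2) h3 h4
      have h6 := dist_le_Mi hR0 hJ l 2 (x := x) (y := x') (by exact_mod_cast h5)
      exact_mod_cast h6
    | succ n ih =>
      intro l hl heq
      have hlL : l < L := by omega
      have h0 := ih (l + 1) (by omega) fun l' h1 h2 => heq l' (by omega) h2
      have h1 : dist x x' ≤ (39 : ℕ) * (R0 * 16 ^ l) := by
        refine h0.trans ?_
        rw [pow_succ]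
        have h2 : 0 < R0 * 16 ^ l := by positivity
        push_cast
        nlinarith
      have h2 := Mi_le hR0 hJ l 39 h1
      have h3 := hlam l hlL x
      have h4 := hlam l hlL x'
      rw [← heq l le_rfl hlL] at h4
      have h5 := supp_near (Mi R0 J hR0 hJ l) (hst l hlL) (by exact_mod_cast h2) h3 h4
      have h6 := dist_le_Mi hR0 hJ l 2 (x := x) (y := x') (by exact_mod_cast h5)
      exact_mod_cast h6
  exact key (L - l - 1) l (by omega) heq

/-- Choice of the scales. -/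
theorem exists_scales (Y : Type u) [MetricSpace Y] [Fintype Y] :
    ∃ (L : ℕ) (R0 : ℝ) (J : ℕ), 0 < R0 ∧ 0 < J ∧ (∀ x y : Y, x ≠ y → 2 * R0 < dist x y) ∧
      (∀ x y : Y, dist x y ≤ R0 * 16 ^ L) ∧
      (∀ i, i ≤ L → ∀ x y : Y, x ≠ y → R0 * 16 ^ i ≤ 2 * J * dist x y) := by
  classical
  obtain ⟨e, he, hmin⟩ : ∃ e : ℝ, 0 < e ∧ ∀ x y : Y, x ≠ y → 2 * e < dist x y := by
    by_cases hne : ((univ : Finset (Y × Y)).filter fun q => q.1 ≠ q.2).Nonempty
    · obtain ⟨q, hq, hq2⟩ := exists_min_image _ (fun q : Y × Y => dist q.1 q.2) hne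
      rw [mem_filter] at hq
      have hpos := dist_pos.2 hq.2
      refine ⟨dist q.1 q.2 / 4, by linarith, fun x y hxy => ?_⟩
      have := hq2 (x, y) (mem_filter.2 ⟨mem_univ _, hxy⟩)
      simp only at this
      linarith
    · rw [not_nonempty_iff_eq_empty] at hne
      refine ⟨1, one_pos, fun x y hxy => ?_⟩
      have : (x, y) ∈ ((univ : Finset (Y × Y)).filter fun q => q.1 ≠ q.2) :=
        mem_filter.2 ⟨mem_univ _, hxy⟩
      rw [hne] at this
      exact absurd this (notMem_empty _)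
  obtain ⟨D, hD⟩ : ∃ D : ℝ, ∀ x y : Y, dist x y ≤ D := by
    refine ⟨∑ q : Y × Y, dist q.1 q.2, fun x y => ?_⟩
    exact single_le_sum (f := fun q : Y × Y => dist q.1 q.2) (fun q _ => dist_nonneg)
      (mem_univ (x, y))
  obtain ⟨L, hL⟩ := pow_unbounded_of_one_lt (D / e) (by norm_num : (1 : ℝ) < 16)
  obtain ⟨J0, hJ0, hJ⟩ := G1.IM.exists_grid (X := Y) (e * 16 ^ L)
  refine ⟨L, e, J0, he, hJ0, hmin, ?_, ?_⟩
  · intro x y
    rw [div_lt_iff₀ he] at hL
    have := hD x y
    linarith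
  · intro i hi x y hxy
    refine le_trans ?_ (hJ J0 le_rfl x y hxy)
    exact mul_le_mul_of_nonneg_left (pow_le_pow_right₀ (by norm_num) hi) he.le

end Chain

/-- Output of part b (helper723): games on all levels, summed over levels and histories, with
deterministic labels of positive probability. -/
def GOb : Prop :=
  ∃ C : ℝ, 0 ≤ C ∧ ∀ (k : ℕ) [NeZero k], 2 ≤ k → ∀ (Y : Type u) [MetricSpace Y] [Fintype Y]
    [DecidableEq Y] (R0 : ℝ) (J L : ℕ) (hR0 : 0 < R0) (hJ : 0 < J),
    (∀ i, i ≤ L → ∀ x y : Y, x ≠ y → R0 * 16 ^ i ≤ 2 * J * dist x y) →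
    ∃ B' : ℝ, 0 ≤ B' ∧ ∀ Q : Prior Y k, ∃ (st : List Y → ℕ → St Y)
      (lam : List Y → ℕ → Y → Option Y),
      (∀ h i, i < L → Ok (Mi R0 J hR0 hJ i) (st h i)) ∧
      (∀ h i, i < L → ∀ x, 0 < (Mi R0 J hR0 hJ i).lab (st h i) x (lam h i x)) ∧
      ∑ h ∈ Q.H, gbill Q L (fun l => R0 * 16 ^ l) lam h ≤
        C * Real.log (k + 1) * Q.opt + B' * ∑ i, Q.p i

theorem gout_of_gob (h : GOb.{u}) : GOut.{u} 16 := by
  classical
  obtain ⟨C, hC, h⟩ := h
  refine ⟨C, hC, ?_⟩
  intro k _ hk Y _ _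
  obtain ⟨L, R0, J, hR0, hJ, hsep, hdiam, hgrid⟩ := exists_scales Y
  obtain ⟨B', hB', h⟩ := h k hk Y R0 J L hR0 hJ hgrid
  have e16 : (((16 : ℕ) : ℝ)) = 16 := by norm_num
  refine ⟨L, R0, B', hR0, hB', hsep, by rw [e16]; exact hdiam, ?_⟩
  intro Q
  obtain ⟨st, lam, h1, h2, h3⟩ := h Q
  refine ⟨Option Y, inferInstance, lam, ?_, ?_⟩
  · intro hh l hl x x' heq
    rw [e16]
    exact chain_near hR0 hJ hdiam (st hh) (h1 hh) (lam hh) (h2 hh) hl heq
  · rw [e16]
    exact h3

end Crest.Agent.R314.GO
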