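import Crest.Agent.R314.Gs5

/-!
R314, module G3, part 6: total increment of one flow over all the scales, with the cut-off radius
`r1`.  Author: helper529.
-/

set_option autoImplicit false

namespace Crest.Agent.R314.Gs

open Finset

/-- `r_i * log (2 / a_i)` at scale `R`, `r = r1 / R`, `a = min 1 (r ^ 2) / (4 k)` -/
noncomputable def flr (k r1 R : ℝ) : ℝ :=
  (r1 / R) * Real.log (2 / (1 / (4 * k) * min 1 ((r1 / R) ^ 2)))

theorem flr_nonneg {k r1 R : ℝ} (hk : 1 ≤ k) (hr : 0 ≤ r1) (hR : 0 < R) : 0 ≤ flr k r1 R := by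
  unfold flr
  have ht : 0 ≤ r1 / R := by positivity
  rcases ht.eq_or_lt with h | h
  · rw [← h]; simp
  · apply mul_nonneg ht
    apply Real.log_nonneg
    have hm : 0 < min 1 ((r1 / R) ^ 2) := lt_min one_pos (by positivity)
    rw [le_div_iff₀ (by positivity), one_mul]
    have h1 : 1 / (4 * k) ≤ 1 := by
      rw [div_le_one (by positivity)]; linarith
    have h2 : min 1 ((r1 / R) ^ 2) ≤ 1 := min_le_left _ _
    have h3 : 1 / (4 * k) * min 1 ((r1 / R) ^ 2) ≤ 1 * 1 := by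
      gcongr
    linarith

theorem one_lt_sqrt {B : ℝ} (hB : 1 < B) : 1 < Real.sqrt B := by
  rw [show (1 : ℝ) = Real.sqrt 1 by simp]
  exact Real.sqrt_lt_sqrt zero_le_one hB

/-- **Total increment of a flow of length `dd` over all the scales, with cut-off.** -/
theorem sum_inc_cut {B R₀ r1 dd k K κ C S : ℝ} (hB : 1 < B) (hR₀ : 0 < R₀) (hdd : 0 ≤ dd)
    (hr : 0 ≤ r1) (hk : 1 ≤ k) (hK : 1 ≤ K) (hκ : 0 ≤ κ) (hC : 0 ≤ C) {I : ℕ} {Γ inc : ℕ → ℝ}
    (hΓ : ∀ i < I, K * r1 ≤ B ^ i * R₀ → 0 ≤ Γ i)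
    (hS : ∑ i ∈ (range I).filter (fun i => K * r1 ≤ B ^ i * R₀), Γ i ≤ S)
    (hbig : ∀ i < I, K * r1 ≤ B ^ i * R₀ → inc i ≤
      C * (dd / (B ^ i * R₀)) * (Γ i + r1 / (B ^ i * R₀) + flr k r1 (B ^ i * R₀)) +
      if B ^ i * R₀ < κ * dd then C * (1 + Γ i + flr k r1 (B ^ i * R₀)) else 0)
    (hsmall : ∀ i < I, B ^ i * R₀ < K * r1 → inc i ≤ C * (1 + Real.log (8 * k))) :
    ∑ i ∈ range I, B ^ i * R₀ * inc i ≤
      C * dd * ((1 + κ) * (S + B / (B - 1) + (B / (B - 1) * Real.log (8 * k) +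
        4 * (Real.sqrt B / (Real.sqrt B - 1)))) + κ * (B / (B - 1))) +
      C * (1 + Real.log (8 * k)) * (B / (B - 1) * (K * r1)) := by
  have hB0 : (0 : ℝ) < B := by linarith
  have hB1 : 0 < B - 1 := by linarith
  have hlog : 0 ≤ Real.log (8 * k) := Real.log_nonneg (by linarith)
  have hRi : ∀ i : ℕ, 0 < B ^ i * R₀ := fun i => by positivity
  set bb : ℝ := B / (B - 1) with hbb
  have hbb0 : 0 ≤ bb := by positivity
  set F := (range I).filter (fun i => K * r1 ≤ B ^ i * R₀) with hF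
  set sb : ℝ := Real.sqrt B / (Real.sqrt B - 1) with hsb
  have hsb0 : 0 ≤ sb := by
    have := one_lt_sqrt hB
    exact div_nonneg (by linarith) (by linarith)
  -- the set of big levels is contained in the levels with `r1 ≤ R_i`
  have hsub : F ⊆ (range I).filter (fun i => r1 ≤ B ^ i * R₀) := by
    intro i hi
    rw [hF, mem_filter] at hi
    rw [mem_filter]
    exact ⟨hi.1, by nlinarith [hi.2]⟩
  have hrho : ∑ i ∈ F, r1 / (B ^ i * R₀) ≤ bb :=
    (sum_le_sum_of_subset_of_nonneg hsub fun i _ _ => div_nonneg hr (hRi i).le).trans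
      (sum_scales_ge hB hR₀ hr I)
  have hflr : ∑ i ∈ F, flr k r1 (B ^ i * R₀) ≤ bb * Real.log (8 * k) + 4 * sb :=
    (sum_le_sum_of_subset_of_nonneg hsub fun i _ _ => flr_nonneg hk hr (hRi i)).trans
      (sum_floor_le hB hR₀ hr hk I)
  have hF0 : 0 ≤ ∑ i ∈ F, Γ i := sum_nonneg fun i hi => by
    rw [hF, mem_filter, mem_range] at hi
    exact hΓ i hi.1 hi.2
  -- big levels
  have hbigsum : ∑ i ∈ F, B ^ i * R₀ * inc i ≤
      C * dd * ((1 + κ) * (S + bb + (bb * Real.log (8 * k) + 4 * sb)) + κ * bb) := by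
    have h1 : ∀ i ∈ F, B ^ i * R₀ * inc i ≤
        C * dd * ((1 + κ) * (Γ i + r1 / (B ^ i * R₀) + flr k r1 (B ^ i * R₀))) +
          C * (if B ^ i * R₀ < κ * dd then B ^ i * R₀ else 0) := by
      intro i hi
      rw [hF, mem_filter, mem_range] at hi
      have hR := hRi i
      have hG := hΓ i hi.1 hi.2
      have hfl := flr_nonneg hk hr hR
      have hρ : 0 ≤ r1 / (B ^ i * R₀) := div_nonneg hr hR.le
      calc B ^ i * R₀ * inc i ≤ B ^ i * R₀ * (C * (dd / (B ^ i * R₀)) *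
            (Γ i + r1 / (B ^ i * R₀) + flr k r1 (B ^ i * R₀)) +
            if B ^ i * R₀ < κ * dd then C * (1 + Γ i + flr k r1 (B ^ i * R₀)) else 0) :=
            mul_le_mul_of_nonneg_left (hbig i hi.1 hi.2) hR.le
        _ = C * dd * (Γ i + r1 / (B ^ i * R₀) + flr k r1 (B ^ i * R₀)) +
            (if B ^ i * R₀ < κ * dd then
              B ^ i * R₀ * (C * (1 + Γ i + flr k r1 (B ^ i * R₀))) else 0) := by
            rw [mul_add]
            congr 1
            · generalize Γ i + r1 / (B ^ i * R₀) + flr k r1 (B ^ i * R₀) = X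
              field_simp
            · split_ifs
              · rfl
              · simp
        _ ≤ C * dd * (Γ i + r1 / (B ^ i * R₀) + flr k r1 (B ^ i * R₀)) +
            (C * dd * (κ * (Γ i + r1 / (B ^ i * R₀) + flr k r1 (B ^ i * R₀))) +
              C * (if B ^ i * R₀ < κ * dd then B ^ i * R₀ else 0)) := by
            gcongr
            split_ifs with h
            · have h2 : B ^ i * R₀ * (C * (Γ i + flr k r1 (B ^ i * R₀))) ≤
                  κ * dd * (C * (Γ i + flr k r1 (B ^ i * R₀))) := by gcongr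
              have h3 : 0 ≤ C * dd * (κ * (r1 / (B ^ i * R₀))) := by positivity
              nlinarith
            · have : 0 ≤ C * dd * (κ * (Γ i + r1 / (B ^ i * R₀) + flr k r1 (B ^ i * R₀))) := by
                positivity
              linarith
        _ = _ := by ring
    refine (sum_le_sum h1).trans ?_
    rw [sum_add_distrib, ← mul_sum, ← mul_sum, ← mul_sum, sum_add_distrib, sum_add_distrib]
    have h4 : ∑ i ∈ F, (if B ^ i * R₀ < κ * dd then B ^ i * R₀ else 0) ≤ bb * (κ * dd) := by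
      calc ∑ i ∈ F, (if B ^ i * R₀ < κ * dd then B ^ i * R₀ else 0)
          ≤ ∑ i ∈ range I, (if B ^ i * R₀ < κ * dd then B ^ i * R₀ else 0) := by
            apply sum_le_sum_of_subset_of_nonneg (filter_subset _ _)
            intro i _ _
            split_ifs
            · exact (hRi i).le
            · exact le_rfl
        _ = ∑ i ∈ (range I).filter (fun i => B ^ i * R₀ < κ * dd), B ^ i * R₀ := by
            rw [sum_filter]
        _ ≤ _ := sum_scales_lt hB hR₀ (by positivity) I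
    calc _ ≤ C * dd * ((1 + κ) * (S + bb + (bb * Real.log (8 * k) + 4 * sb))) +
          C * (bb * (κ * dd)) := by gcongr
      _ = _ := by ring
  -- small levels
  have hsmallsum : ∑ i ∈ (range I).filter (fun i => ¬ K * r1 ≤ B ^ i * R₀), B ^ i * R₀ * inc i ≤
      C * (1 + Real.log (8 * k)) * (bb * (K * r1)) := by
    calc ∑ i ∈ (range I).filter (fun i => ¬ K * r1 ≤ B ^ i * R₀), B ^ i * R₀ * inc i
        ≤ ∑ i ∈ (range I).filter (fun i => B ^ i * R₀ < K * r1),
            C * (1 + Real.log (8 * k)) * (B ^ i * R₀) := by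
          simp only [not_le]
          apply sum_le_sum
          intro i hi
          rw [mem_filter, mem_range] at hi
          have := mul_le_mul_of_nonneg_left (hsmall i hi.1 hi.2) (hRi i).le
          linarith
      _ = C * (1 + Real.log (8 * k)) *
            ∑ i ∈ (range I).filter (fun i => B ^ i * R₀ < K * r1), B ^ i * R₀ := by
          rw [mul_sum]
      _ ≤ _ := by
          gcongr
          exact sum_scales_lt hB hR₀ (by positivity) I
  rw [← sum_filter_add_sum_filter_not (range I) (fun i => K * r1 ≤ B ^ i * R₀)]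
  exact add_le_add hbigsum hsmallsum

/-- Corollary: the bound `C' (dd + r1) (1 + log (8k))`. -/
theorem sum_inc_cut' {B R₀ r1 dd k K κ C C1 : ℝ} (hB : 1 < B) (hR₀ : 0 < R₀) (hdd : 0 ≤ dd)
    (hr : 0 ≤ r1) (hk : 1 ≤ k) (hK : 1 ≤ K) (hκ : 0 ≤ κ) (hC : 0 ≤ C) (hC1 : 0 ≤ C1) {I : ℕ}
    {Γ inc : ℕ → ℝ}
    (hΓ : ∀ i < I, K * r1 ≤ B ^ i * R₀ → 0 ≤ Γ i)
    (hS : ∑ i ∈ (range I).filter (fun i => K * r1 ≤ B ^ i * R₀), Γ i ≤ C1 * Real.log (8 * k))
    (hbig : ∀ i < I, K * r1 ≤ B ^ i * R₀ → inc i ≤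
      C * (dd / (B ^ i * R₀)) * (Γ i + r1 / (B ^ i * R₀) + flr k r1 (B ^ i * R₀)) +
      if B ^ i * R₀ < κ * dd then C * (1 + Γ i + flr k r1 (B ^ i * R₀)) else 0)
    (hsmall : ∀ i < I, B ^ i * R₀ < K * r1 → inc i ≤ C * (1 + Real.log (8 * k))) :
    ∑ i ∈ range I, B ^ i * R₀ * inc i ≤
      C * ((1 + κ) * (C1 + 2 * (B / (B - 1)) + 4 * (Real.sqrt B / (Real.sqrt B - 1))) +
        (κ + K) * (B / (B - 1))) * (dd + r1) * (1 + Real.log (8 * k)) := by
  have hlog : 0 ≤ Real.log (8 * k) := Real.log_nonneg (by linarith)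
  have hB0 : (0 : ℝ) < B := by linarith
  have hB1 : 0 < B - 1 := by linarith
  refine (sum_inc_cut hB hR₀ hdd hr hk hK hκ hC hΓ hS hbig hsmall).trans ?_
  set l := Real.log (8 * k) with hl
  set bb : ℝ := B / (B - 1) with hbb
  have hbb0 : 0 ≤ bb := by positivity
  set sb : ℝ := Real.sqrt B / (Real.sqrt B - 1) with hsb
  have hsb0 : 0 ≤ sb := by
    have := one_lt_sqrt hB
    exact div_nonneg (by linarith) (by linarith)
  have hK0 : 0 ≤ K := by linarith
  have e1 : C * dd * ((1 + κ) * (C1 * l + bb + (bb * l + 4 * sb)) + κ * bb) ≤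
      C * dd * ((1 + κ) * ((C1 + 2 * bb + 4 * sb) * (1 + l)) + κ * bb * (1 + l)) := by
    have t1 : C1 * l + bb + (bb * l + 4 * sb) ≤ (C1 + 2 * bb + 4 * sb) * (1 + l) := by
      nlinarith [mul_nonneg hbb0 hlog, mul_nonneg hsb0 hlog, mul_nonneg hC1 hlog]
    have t2 : κ * bb ≤ κ * bb * (1 + l) := by nlinarith [mul_nonneg (mul_nonneg hκ hbb0) hlog]
    exact mul_le_mul_of_nonneg_left (add_le_add (mul_le_mul_of_nonneg_left t1 (by linarith)) t2)
      (by positivity)
  have e2 : C * dd * ((1 + κ) * ((C1 + 2 * bb + 4 * sb) * (1 + l)) + κ * bb * (1 + l)) =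
      C * ((1 + κ) * (C1 + 2 * bb + 4 * sb) + κ * bb) * (1 + l) * dd := by ring
  have e3 : C * (1 + l) * (bb * (K * r1)) = C * (K * bb) * (1 + l) * r1 := by ring
  have e4 : C * ((1 + κ) * (C1 + 2 * bb + 4 * sb) + κ * bb) * (1 + l) * dd ≤
      C * ((1 + κ) * (C1 + 2 * bb + 4 * sb) + (κ + K) * bb) * (1 + l) * dd := by
    gcongr
    linarith
  have e5 : C * (K * bb) * (1 + l) * r1 ≤
      C * ((1 + κ) * (C1 + 2 * bb + 4 * sb) + (κ + K) * bb) * (1 + l) * r1 := by
    gcongr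
    have : 0 ≤ (1 + κ) * (C1 + 2 * bb + 4 * sb) + κ * bb := by positivity
    linarith
  calc _ ≤ C * ((1 + κ) * (C1 + 2 * bb + 4 * sb) + (κ + K) * bb) * (1 + l) * dd +
        C * ((1 + κ) * (C1 + 2 * bb + 4 * sb) + (κ + K) * bb) * (1 + l) * r1 := by
        rw [e3]
        exact add_le_add ((e1.trans_eq e2).trans e4) e5
    _ = _ := by ring

end Crest.Agent.R314.Gs
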