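import Crest.Agent.R314.Bay5
import Crest.Agent.R314.GO1
import Crest.Agent.R314.GOa1
import Crest.Agent.R314.G1_G0
import Crest.Agent.R314.G1_F2
import Crest.Agent.R314.Gs6

/-!
R314, block GO, part b (helper723): the game of module G on every level, cut-off radius,
summation over the levels: `GEO1C → GOb`.
-/

set_option autoImplicit false
set_option linter.unusedSectionVars false

namespace Crest.Agent.R314.GO

open Finset Crest.Agent.R314 Crest.Agent.R314.Tk Crest.Agent.R314.Bay Crest.LogicCS.KServer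
open Crest.Agent.R314.G1 (St IM Ok)

universe u

/-- The slope statement of module G (helper435's (GA)). -/
def GEO1C : Prop :=
  ∃ CG : ℝ, 0 ≤ CG ∧ ∀ (Y : Type u) [Fintype Y] [DecidableEq Y] (M : IM Y) (m : Y → ℝ) (S : St Y)
    (y x : Y) (r a : ℝ), (∀ x, 0 ≤ m x) → M.Stable m S → 0 ≤ r → r ≤ 1 / 1024 →
    0 < M.bm m y r → 0 ≤ a → a ≤ 1 / 2 → (0 < a ∨ r = 0) →
    M.U ⟨S.P, S.β, M.op S.w y a⟩ y - M.U ⟨S.P, S.β, M.op S.w y a⟩ x +
        M.nrm ⟨S.P, S.β, M.op S.w y a⟩ y ⟨S.P, S.β, M.op S.w y a⟩ x ≤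
      CG * (M.d x y * (M.GamR m y r + r + r * Real.log (2 / a))) +
        (if 1 / 64 < M.d x y then CG * (1 + M.GamR m y r + r * Real.log (2 / a)) else 0)

section Game

variable {Y : Type u} [Fintype Y] [DecidableEq Y]

/-- The game of one level. -/
noncomputable def lg (M : IM Y) : RGame.{u, u, u} Y (Option Y) where
  S := {S : St Y // Ok M S}
  S0 := ⟨IM.St0, M.ok_St0⟩
  U S x := M.U S.1 x
  U_nonneg S x := M.U_nonneg S.2 x
  π S x := M.lab S.1 x
  π_pv S x := ⟨M.lab_nonneg S.2.w0 x, M.sum_lab S.2.w0 x⟩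
  Stk m S := M.Stable m S.1
  exists_stk m hm σ := by
    obtain ⟨S, h1, h2⟩ := M.exists_stable hm σ.2
    exact ⟨⟨S, h1.1⟩, h1, h2⟩

/-- The operation at `y`. -/
noncomputable def opS (M : IM Y) (y : Y) {a : ℝ} (ha0 : 0 ≤ a) (ha1 : a ≤ 1 / 2)
    (S : (lg M).S) : (lg M).S :=
  ⟨⟨S.1.P, S.1.β, M.op S.1.w y a⟩, M.op_Ok S.2 ha0 (by linarith) y⟩

theorem opS_price (M : IM Y) (y : Y) {a : ℝ} (ha0 : 0 ≤ a) (ha1 : a ≤ 1 / 2) (S : (lg M).S)
    {m : Y → ℝ} (hm : ∀ x, 0 ≤ m x) :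
    (lg M).Phi m (opS M y ha0 ha1 S) + (lg M).Rel m S (opS M y ha0 ha1 S) ≤
      (lg M).Phi m S + 34 * a * ∑ x, m x := by
  have h := M.geo_D_op_le hm S.2 ha0 ha1 y
  have e : (lg M).Phi m (opS M y ha0 ha1 S) + (lg M).Rel m S (opS M y ha0 ha1 S) -
      (lg M).Phi m S = M.D m S.1 ⟨S.1.P, S.1.β, M.op S.1.w y a⟩ := by
    unfold RGame.Phi RGame.Rel IM.D
    rw [← sum_add_distrib, ← sum_sub_distrib]
    apply sum_congr rfl
    intro x _
    change m x * M.U ⟨S.1.P, S.1.β, M.op S.1.w y a⟩ x + m x * M.nrm S.1 x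
      ⟨S.1.P, S.1.β, M.op S.1.w y a⟩ x - m x * M.U S.1 x = _
    ring
  linarith

end Game

section Slope

variable {Y : Type u} [MetricSpace Y] [Fintype Y] [DecidableEq Y]

/-- The weight of the operation. -/
noncomputable def aa (k : ℕ) (r1 R : ℝ) : ℝ := 1 / (4 * (k : ℝ)) * min 1 ((r1 / R) ^ 2)

theorem aa_nonneg (k : ℕ) (r1 R : ℝ) : 0 ≤ aa k r1 R := by
  unfold aa
  have : 0 ≤ min 1 ((r1 / R) ^ 2) := le_min zero_le_one (sq_nonneg _)
  positivity

theorem aa_le {k : ℕ} (hk : 1 ≤ k) (r1 R : ℝ) : aa k r1 R ≤ 1 / 2 := by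
  unfold aa
  have h1 : 0 ≤ min 1 ((r1 / R) ^ 2) := le_min zero_le_one (sq_nonneg _)
  have h2 : min 1 ((r1 / R) ^ 2) ≤ 1 := min_le_left _ _
  have hk' : (1 : ℝ) ≤ k := by exact_mod_cast hk
  have h3 : 1 / (4 * (k : ℝ)) ≤ 1 / 4 := by
    apply div_le_div_of_nonneg_left <;> linarith
  nlinarith

theorem aa_pos {k : ℕ} (hk : 1 ≤ k) {r1 R : ℝ} (hr : 0 < r1) (hR : 0 < R) : 0 < aa k r1 R := by
  unfold aa
  have hk' : (1 : ℝ) ≤ k := by exact_mod_cast hk
  have : 0 < min 1 ((r1 / R) ^ 2) := lt_min one_pos (by positivity)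
  positivity

variable {R : ℝ} {J : ℕ} (hR : 0 < R) (hJ : 0 < J)

/-- Slope on one level, small cut-off radius. -/
theorem slope_big {CG : ℝ} (hCG : 0 ≤ CG) {m : Y → ℝ} (hm : ∀ x, 0 ≤ m x) {S : St Y} {y x : Y}
    (hG : ∀ (r a : ℝ), 0 ≤ r → r ≤ 1 / 1024 →
      0 < (IM.ofDist R J hR hJ).bm m y r → 0 ≤ a → a ≤ 1 / 2 → (0 < a ∨ r = 0) →
      (IM.ofDist R J hR hJ).U ⟨S.P, S.β, (IM.ofDist R J hR hJ).op S.w y a⟩ y -
        (IM.ofDist R J hR hJ).U ⟨S.P, S.β, (IM.ofDist R J hR hJ).op S.w y a⟩ x +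
        (IM.ofDist R J hR hJ).nrm ⟨S.P, S.β, (IM.ofDist R J hR hJ).op S.w y a⟩ y
          ⟨S.P, S.β, (IM.ofDist R J hR hJ).op S.w y a⟩ x ≤
      CG * ((IM.ofDist R J hR hJ).d x y *
          ((IM.ofDist R J hR hJ).GamR m y r + r + r * Real.log (2 / a))) +
        (if 1 / 64 < (IM.ofDist R J hR hJ).d x y then
          CG * (1 + (IM.ofDist R J hR hJ).GamR m y r + r * Real.log (2 / a)) else 0))
    (hfine : ∀ x z : Y, x ≠ z → R ≤ 2 * J * dist x z) {r1 : ℝ} (hr1 : 0 ≤ r1)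
    (hatt : r1 = 0 ∨ R ≤ 2 * J * r1) (hpos : 0 < Gs.bm dist m y r1) {k : ℕ} (hk : 1 ≤ k)
    (hK : 2048 * r1 ≤ R) :
    (IM.ofDist R J hR hJ).U ⟨S.P, S.β, (IM.ofDist R J hR hJ).op S.w y (aa k r1 R)⟩ y -
      (IM.ofDist R J hR hJ).U ⟨S.P, S.β, (IM.ofDist R J hR hJ).op S.w y (aa k r1 R)⟩ x +
      (IM.ofDist R J hR hJ).nrm ⟨S.P, S.β, (IM.ofDist R J hR hJ).op S.w y (aa k r1 R)⟩ y
        ⟨S.P, S.β, (IM.ofDist R J hR hJ).op S.w y (aa k r1 R)⟩ x ≤
      4 * CG * (dist x y / R) * (Gs.GamR dist m y 60 R r1 + r1 / R + Gs.flr k r1 R) +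
        if R < 128 * dist x y then 4 * CG * (1 + Gs.GamR dist m y 60 R r1 + Gs.flr k r1 R)
          else 0 := by
  have hJr : (0 : ℝ) < J := by exact_mod_cast hJ
  have hkr : (1 : ℝ) ≤ k := by exact_mod_cast hk
  obtain ⟨ρ, hρ1, hρ2⟩ := G1.exists_rho hr1 hatt hR hJ
  set M := IM.ofDist (X := Y) R J hR hJ with hM
  set a := aa k r1 R with ha
  set r : ℝ := (ρ : ℝ) / (2 * J) with hr
  have hr0 : 0 ≤ r := by rw [hr]; positivity
  have hrR : r1 / R ≤ 1 / 2048 := by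
    rw [div_le_div_iff₀ hR (by norm_num)]; linarith
  have hr1024 : r ≤ 1 / 1024 := by
    refine hρ2.trans ?_
    linarith
  have hbm : M.bm m y r = Gs.bm dist m y (r * R) := G1.bm_ofDist hR hJ m y ρ
  have hbpos : 0 < M.bm m y r := by
    rw [hbm]
    exact hpos.trans_le (Gs.bm_mono hm hρ1)
  have hcase : 0 < a ∨ r = 0 := by
    rcases hr1.eq_or_lt with h | h
    · right
      rw [← h, zero_div, mul_zero] at hρ2
      exact le_antisymm hρ2 hr0
    · left
      exact aa_pos hk h hR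
  have hρ60 : ρ ≤ 120 * J := by
    have h1 : (ρ : ℝ) ≤ 1 / 1024 * (2 * J) := by
      rw [hr, div_le_iff₀ (by positivity)] at hr1024
      exact hr1024
    have h2 : (ρ : ℝ) ≤ ((120 * J : ℕ) : ℝ) := by push_cast; linarith
    exact_mod_cast h2
  have hGam : M.GamR m y r ≤ 2 * Gs.GamR dist m y 60 R r1 :=
    G1.GamR_le_GsGamR hR hJ hm hfine hr1 hρ1 hρ60 hpos
  have hGam0 : 0 ≤ Gs.GamR dist m y 60 R r1 :=
    Gs.GamR_nonneg hm hpos (by norm_num) hR.le (by nlinarith)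
  have hflr : r * Real.log (2 / a) ≤ 2 * Gs.flr k r1 R := by
    have h1 : 0 ≤ Real.log (2 / a) := by
      rcases hcase with h | h
      · apply Real.log_nonneg
        rw [le_div_iff₀ h]
        have := aa_le hk r1 R
        linarith
      · have h2 : r1 / R ≤ 0 := by
          rw [h] at hρ1
          rw [zero_mul] at hρ1
          have : r1 = 0 := le_antisymm hρ1 hr1
          rw [this, zero_div]
        have h3 : r1 / R = 0 := le_antisymm h2 (by positivity)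
        have h4 : a = 0 := by
          rw [ha]
          unfold aa
          rw [h3]
          simp
        rw [h4]
        simp
    unfold Gs.flr
    have h2 : Real.log (2 / (1 / (4 * (k : ℝ)) * min 1 ((r1 / R) ^ 2))) = Real.log (2 / a) := rfl
    rw [h2]
    calc r * Real.log (2 / a) ≤ 2 * (r1 / R) * Real.log (2 / a) := by gcongr
      _ = _ := by ring
  have hflr0 : 0 ≤ Gs.flr k r1 R := Gs.flr_nonneg hkr hr1 hR
  have hd2 : M.d x y ≤ 2 * (dist x y / R) := by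
    have := IM.ofDist_le_two hR hJ hfine x y
    rw [← mul_div_assoc, le_div_iff₀ hR]
    linarith
  have hd0 := M.d_nonneg x y
  have h0 : 0 ≤ dist x y / R := by positivity
  refine (hG r a hr0 hr1024 hbpos (aa_nonneg _ _ _) (aa_le hk _ _) hcase).trans ?_
  apply add_le_add
  · have h1 : M.GamR m y r + r + r * Real.log (2 / a) ≤
        2 * (Gs.GamR dist m y 60 R r1 + r1 / R + Gs.flr k r1 R) := by linarith
    calc CG * (M.d x y * (M.GamR m y r + r + r * Real.log (2 / a)))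
        ≤ CG * (M.d x y * (2 * (Gs.GamR dist m y 60 R r1 + r1 / R + Gs.flr k r1 R))) := by
          gcongr
      _ ≤ CG * (2 * (dist x y / R) *
          (2 * (Gs.GamR dist m y 60 R r1 + r1 / R + Gs.flr k r1 R))) := by
          gcongr
      _ = _ := by ring
  · by_cases h1 : 1 / 64 < M.d x y
    · rw [if_pos h1]
      have h2 : R < 128 * dist x y := by
        have h3 : 1 / 64 < 2 * (dist x y / R) := h1.trans_le hd2
        rw [← mul_div_assoc, div_lt_div_iff₀ (by norm_num) hR] at h3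
        linarith
      rw [if_pos h2]
      have h3 : 1 + M.GamR m y r + r * Real.log (2 / a) ≤
          2 * (1 + Gs.GamR dist m y 60 R r1 + Gs.flr k r1 R) := by linarith
      calc CG * (1 + M.GamR m y r + r * Real.log (2 / a))
          ≤ CG * (2 * (1 + Gs.GamR dist m y 60 R r1 + Gs.flr k r1 R)) := by gcongr
        _ ≤ _ := by
            have : 0 ≤ CG * (1 + Gs.GamR dist m y 60 R r1 + Gs.flr k r1 R) := by positivity
            linarith
    · rw [if_neg h1]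
      split_ifs
      · positivity
      · exact le_rfl

/-- Slope on one level, large cut-off radius. -/
theorem slope_small (M : IM Y) {S : St Y} (hS : Ok M S) {k : ℕ} (hk : 1 ≤ k) {r1 R' : ℝ}
    (hR' : 0 < R') (hK : R' < 2048 * r1) (y x : Y) :
    M.U ⟨S.P, S.β, M.op S.w y (aa k r1 R')⟩ y - M.U ⟨S.P, S.β, M.op S.w y (aa k r1 R')⟩ x +
      M.nrm ⟨S.P, S.β, M.op S.w y (aa k r1 R')⟩ y ⟨S.P, S.β, M.op S.w y (aa k r1 R')⟩ x ≤
      400 * (1 + Real.log (8 * k)) := by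
  have hkr : (1 : ℝ) ≤ k := by exact_mod_cast hk
  have hr1 : 0 < r1 := by nlinarith
  have ha := aa_pos hk hr1 hR'
  refine (M.geo_crude hS ha (aa_le hk _ _) y x).trans ?_
  have h1 : 1 / (4 * (k : ℝ)) * (1 / 2048) ^ 2 ≤ aa k r1 R' := by
    unfold aa
    apply mul_le_mul_of_nonneg_left _ (by positivity)
    apply le_min (by norm_num)
    apply pow_le_pow_left₀ (by norm_num)
    rw [div_le_div_iff₀ (by norm_num) hR']
    linarith
  have h2 : 2 / aa k r1 R' ≤ 8 * k * 2048 ^ 2 := by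
    rw [div_le_iff₀ ha]
    calc (2 : ℝ) = 8 * k * 2048 ^ 2 * (1 / (4 * (k : ℝ)) * (1 / 2048) ^ 2) := by
          field_simp
          norm_num
      _ ≤ _ := by gcongr
  have h4 : Real.log ((2048 : ℝ) ^ 2) ≤ 16 := by
    have e : (2048 : ℝ) ^ 2 = 2 ^ 22 := by norm_num
    rw [e, Real.log_pow]
    have := Real.log_two_lt_d9
    push_cast
    linarith
  have h3 : Real.log (2 / aa k r1 R') ≤ Real.log (8 * k) + 16 := by
    have h6 : Real.log (8 * k * 2048 ^ 2) = Real.log (8 * k) + Real.log ((2048 : ℝ) ^ 2) :=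
      Real.log_mul (by positivity) (by norm_num)
    have h7 := Real.log_le_log (by positivity) h2
    rw [h6] at h7
    exact h7.trans (add_le_add le_rfl h4)
  have h5 : 0 ≤ Real.log (8 * (k : ℝ)) := Real.log_nonneg (by linarith)
  generalize Real.log (2 / aa k r1 R') = u at h3 ⊢
  generalize Real.log (8 * (k : ℝ)) = v at h3 h5 ⊢
  linarith

end Slope

end Crest.Agent.R314.GO
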