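import Crest.Agent.R314.Bay2

/-!
R314: the interface between module G (geometry) and module T (tree side).

`GOut b` : for the level ratio `b` there are deterministic, history-dependent labels of all points on
all levels with total comparator bill `≤ C log (k+1) * OPT + B'`.

Order of one step (`h` nonempty, `h.dropLast` = history before the last request `r`):
 * relabelling `lam h.dropLast → lam h`, billed with the masses `Q.mm h` (before the flow);
 * the flow `src → r` of the comparator server, billed with the NEW labels `lam h`.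
-/

set_option autoImplicit false

namespace Crest.Agent.R314.GO

open Finset Crest.Agent.R314 Crest.Agent.R314.Tk Crest.Agent.R314.Bay Crest.LogicCS.KServer

universe u

section Defs

variable {Y : Type u} {Lab : Type u}

open Classical in
/-- Label cost between `(h, x)` and `(h', x')` on all levels `l < L` (weights `R l`). -/
noncomputable def lcost (L : ℕ) (R : ℕ → ℝ) (lam : List Y → ℕ → Y → Lab)
    (h : List Y) (x : Y) (h' : List Y) (x' : Y) : ℝ :=
  ∑ l ∈ range L, R l * (if lam h l x = lam h' l x' then 0 else 1)

variable {k : ℕ} [NeZero k] [Fintype Y]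

/-- Label bill at the nonempty history `h`. -/
noncomputable def gbill (Q : Prior Y k) (L : ℕ) (R : ℕ → ℝ) (lam : List Y → ℕ → Y → Lab)
    (h : List Y) : ℝ :=
  ∑ x, Q.mm h x * lcost L R lam h.dropLast x h x +
    ∑ i ∈ Q.I h, Q.p i * lcost L R lam h (Q.src i (h.length - 1)) h (Q.rq i (h.length - 1))

end Defs

/-- **Output of module G** for level ratio `b`. Level `l < L` has scale `R0 * b ^ l`; level `0`
separates points, `R0 * b ^ L` bounds the diameter. -/
def GOut (b : ℕ) : Prop :=
  ∃ C : ℝ, 0 ≤ C ∧ ∀ (k : ℕ) [NeZero k], 2 ≤ k → ∀ (Y : Type u) [MetricSpace Y] [Fintype Y],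
    ∃ (L : ℕ) (R0 B' : ℝ), 0 < R0 ∧ 0 ≤ B' ∧
      (∀ x y : Y, x ≠ y → 2 * R0 < dist x y) ∧ (∀ x y : Y, dist x y ≤ R0 * (b : ℝ) ^ L) ∧
      ∀ Q : Prior Y k, ∃ (Lab : Type u) (_ : Fintype Lab) (lam : List Y → ℕ → Y → Lab),
          (∀ (h : List Y) (l : ℕ), l < L → ∀ x x' : Y,
            (∀ l', l ≤ l' → l' < L → lam h l' x = lam h l' x') →
              dist x x' ≤ 2 * (R0 * (b : ℝ) ^ l)) ∧
          ∑ h ∈ Q.H, gbill Q L (fun l => R0 * (b : ℝ) ^ l) lam h ≤
            C * Real.log (k + 1) * Q.opt + B' * ∑ i, Q.p i

/-- Grouping of levels. -/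
theorem GOut.pow {b : ℕ} (hb : 1 ≤ b) (h : GOut.{u} b) (q : ℕ) (hq : 1 ≤ q) : GOut.{u} (b ^ q) := by
  obtain ⟨C, hC, h⟩ := h
  refine ⟨C, hC, ?_⟩
  intro k _ hk Y _ _
  obtain ⟨L, R0, B', hR0, hB', hsep, hdiam, h⟩ := h k hk Y
  have hbr : (1 : ℝ) ≤ b := by exact_mod_cast hb
  refine ⟨L, R0, B', hR0, hB', hsep, ?_, ?_⟩
  · intro x y
    refine (hdiam x y).trans ?_
    push_cast
    rw [← pow_mul]
    exact mul_le_mul_of_nonneg_left (pow_le_pow_right₀ hbr (Nat.le_mul_of_pos_left L hq)) hR0.le
  intro Q
  obtain ⟨Lab, hLab, lam, h1, h2⟩ := h Q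
  -- grouped labels: tuple of the labels of the levels `q l .. q l + q - 1` (if `< L`)
  classical
  refine ⟨Fin q → Option Lab, inferInstance, fun hh l x a =>
    if q * l + a.1 < L then some (lam hh (q * l + a.1) x) else none, ?_, ?_⟩
  · intro hh l hl x x' heq
    by_cases hqL : q * l < L
    · have := h1 hh (q * l) hqL x x' ?_
      · push_cast
        rw [← pow_mul]
        exact this
      intro l' hl' hl'L
      have e1 : q * (l' / q) + l' % q = l' := Nat.div_add_mod l' q
      have e2 : l' / q < L := lt_of_le_of_lt (Nat.div_le_self _ _) hl'L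
      have e3 : l ≤ l' / q := (Nat.le_div_iff_mul_le (by omega)).2 (by rw [mul_comm]; exact hl')
      have := congrFun (heq (l' / q) e3 e2) ⟨l' % q, Nat.mod_lt _ (by omega)⟩
      simp only [e1, hl'L, if_true] at this
      exact Option.some.inj this
    · refine (hdiam x x').trans ?_
      push_cast
      rw [← pow_mul]
      have : R0 * (b : ℝ) ^ L ≤ R0 * (b : ℝ) ^ (q * l) :=
        mul_le_mul_of_nonneg_left (pow_le_pow_right₀ hbr (by omega)) hR0.le
      have h3 : 0 ≤ R0 * (b : ℝ) ^ (q * l) := by positivity
      linarith
  · refine le_trans (sum_le_sum fun hh _ => ?_) h2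
    have key : ∀ (g g' : List Y) (x x' : Y),
        lcost L (fun l => R0 * ((b ^ q : ℕ) : ℝ) ^ l) (fun hh l x (a : Fin q) =>
          if q * l + a.1 < L then some (lam hh (q * l + a.1) x) else none) g x g' x' ≤
        lcost L (fun l => R0 * (b : ℝ) ^ l) lam g x g' x' := by
      intro g g' x x'
      unfold lcost
      -- each differing group has a differing level inside
      set F : ℕ → ℝ := fun l => R0 * (b : ℝ) ^ l * (if lam g l x = lam g' l x' then 0 else 1) with hF
      have hF0 : ∀ l, 0 ≤ F l := by
        intro l
        simp only [hF]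
        split_ifs <;> positivity
      have hle : ∀ l ∈ range L, R0 * ((b ^ q : ℕ) : ℝ) ^ l *
          (if (fun (a : Fin q) => if q * l + a.1 < L then some (lam g (q * l + a.1) x) else none) =
            (fun (a : Fin q) => if q * l + a.1 < L then some (lam g' (q * l + a.1) x') else none)
            then 0 else 1) ≤ ∑ l' ∈ (range L).filter (fun l' => l' / q = l), F l' := by
        intro l _
        split_ifs with hc
        · rw [mul_zero]
          exact sum_nonneg fun l' _ => hF0 l'
        · rw [mul_one]
          have : ∃ a : Fin q, ¬ ((if q * l + a.1 < L then some (lam g (q * l + a.1) x) else none) =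
              (if q * l + a.1 < L then some (lam g' (q * l + a.1) x') else none)) := by
            by_contra hcon
            push Not at hcon
            exact hc (funext hcon)
          obtain ⟨a, ha⟩ := this
          by_cases haL : q * l + a.1 < L
          · simp only [haL, if_true] at ha
            have ha' : ¬ lam g (q * l + a.1) x = lam g' (q * l + a.1) x' := fun e => ha (by rw [e])
            have hmem : q * l + a.1 ∈ (range L).filter (fun l' => l' / q = l) := by
              rw [mem_filter, mem_range]
              refine ⟨haL, ?_⟩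
              rw [Nat.mul_add_div (by omega), Nat.div_eq_of_lt a.2, add_zero]
            refine le_trans ?_ (single_le_sum (fun l' _ => hF0 l') hmem)
            simp only [hF, if_neg ha', mul_one]
            push_cast
            rw [← pow_mul]
            exact mul_le_mul_of_nonneg_left (pow_le_pow_right₀ hbr (by omega)) hR0.le
          · simp only [haL, if_false, not_true] at ha
      have := sum_fiberwise_of_maps_to (s := range L) (t := range L) (g := fun l' => l' / q)
        (fun l' hl' => mem_range.2 (lt_of_le_of_lt (Nat.div_le_self _ _) (mem_range.1 hl'))) F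
      rw [← this]
      refine sum_le_sum fun l hl => le_trans (le_of_eq ?_) (hle l hl)
      simp only []
      congr 1
      split_ifs <;> rfl
    unfold gbill
    apply add_le_add
    · exact sum_le_sum fun x _ => mul_le_mul_of_nonneg_left (key _ _ _ _) (Q.mm_nonneg _ _)
    · exact sum_le_sum fun i _ => mul_le_mul_of_nonneg_left (key _ _ _ _) (Q.p_nonneg _)

end Crest.Agent.R314.GO
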