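import Mathlib

/-!
R314, module G3 (summation over levels), part 1: pure real analysis of a nondecreasing sequence.
Author: helper529.

`g i` is the logarithmic increment `ln (M (i+1) / M i)` of the mass profile `M i = m (B (y, 2^i))`.
-/

set_option autoImplicit false

namespace Crest.Agent.R314.Gs

open Finset

/-! ### The counting (rising sun) lemma -/

/-- **Counting lemma.**  If from every `n ∈ S` some window `[n, n + j]` carries `≥ c (j + 1)` of the
total of `g ≥ 0`, then `c |S| ≤ ∑ g`. -/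
theorem count_le {g : ℕ → ℝ} (hg : ∀ i, 0 ≤ g i) {c : ℝ} (hc : 0 ≤ c) (Q : ℕ) :
    ∀ (S : Finset ℕ), (∀ n ∈ S, ∃ j, n + j < Q ∧ c * (j + 1) ≤ ∑ i ∈ Ico n (n + j + 1), g i) →
      c * S.card ≤ ∑ i ∈ range Q, g i := by
  -- stronger statement: for sets inside `[a, Q)`
  have key : ∀ (N a : ℕ) (S : Finset ℕ), S.card ≤ N → (∀ n ∈ S, a ≤ n) →
      (∀ n ∈ S, ∃ j, n + j < Q ∧ c * (j + 1) ≤ ∑ i ∈ Ico n (n + j + 1), g i) →
      c * S.card ≤ ∑ i ∈ Ico a Q, g i := by
    intro N
    induction N with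
    | zero =>
      intro a S hS _ _
      have : S = ∅ := card_eq_zero.1 (Nat.le_zero.1 hS)
      subst this
      simp only [card_empty, Nat.cast_zero, mul_zero]
      exact sum_nonneg fun i _ => hg i
    | succ N ih =>
      intro a S hS ha h
      rcases S.eq_empty_or_nonempty with rfl | hne
      · simp only [card_empty, Nat.cast_zero, mul_zero]
        exact sum_nonneg fun i _ => hg i
      set n := S.min' hne with hn
      have hnS : n ∈ S := S.min'_mem hne
      obtain ⟨j, hjQ, hj⟩ := h n hnS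
      set S' := S.filter (fun x => n + j + 1 ≤ x) with hS'
      have hcard : S.card ≤ S'.card + (j + 1) := by
        have h1 : S ⊆ S' ∪ Ico n (n + j + 1) := by
          intro x hx
          by_cases hx' : n + j + 1 ≤ x
          · exact mem_union_left _ (mem_filter.2 ⟨hx, hx'⟩)
          · exact mem_union_right _ (mem_Ico.2 ⟨S.min'_le x hx, by omega⟩)
        have h2 := (card_le_card h1).trans (card_union_le _ _)
        simpa [Nat.card_Ico, add_assoc] using h2
      have hlt : S'.card < S.card := by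
        apply card_lt_card
        refine (ssubset_iff_of_subset (filter_subset _ _)).2 ⟨n, hnS, ?_⟩
        intro hmem
        have := (mem_filter.1 hmem).2
        omega
      have h3 := ih (n + j + 1) S' (by omega) (fun x hx => (mem_filter.1 hx).2)
        (fun x hx => h x (mem_filter.1 hx).1)
      have h4 : (S.card : ℝ) ≤ S'.card + (j + 1) := by exact_mod_cast hcard
      have h5 : ∑ i ∈ Ico n (n + j + 1), g i + ∑ i ∈ Ico (n + j + 1) Q, g i =
          ∑ i ∈ Ico n Q, g i := sum_Ico_consecutive g (by omega) (by omega)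
      have h6 : ∑ i ∈ Ico n Q, g i ≤ ∑ i ∈ Ico a Q, g i :=
        sum_le_sum_of_subset_of_nonneg (Ico_subset_Ico (ha n hnS) le_rfl) fun i _ _ => hg i
      calc c * S.card ≤ c * (S'.card + (j + 1)) := by gcongr
        _ = c * S'.card + c * (j + 1) := by ring
        _ ≤ ∑ i ∈ Ico (n + j + 1) Q, g i + ∑ i ∈ Ico n (n + j + 1), g i := add_le_add h3 hj
        _ ≤ _ := by linarith
  intro S h
  have := key S.card 0 S le_rfl (fun _ _ => Nat.zero_le _) h
  rwa [Nat.Ico_zero_eq_range] at this

/-! ### Shifted sums -/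

/-- forward windows -/
theorem sum_shift_right {g : ℕ → ℝ} (hg : ∀ i, 0 ≤ g i) {Q : ℕ} (h0 : ∀ i, Q ≤ i → g i = 0)
    (P j : ℕ) : ∑ n ∈ range P, g (n + j) ≤ ∑ i ∈ range Q, g i := by
  have h1 : ∑ n ∈ range P, g (n + j) = ∑ i ∈ Ico j (P + j), g i := by
    rw [range_eq_Ico, sum_Ico_add' g 0 P j]
    simp
  rw [h1]
  have h2 : ∑ i ∈ Ico j (P + j), g i = ∑ i ∈ (Ico j (P + j)).filter (fun i => i < Q), g i := by
    rw [sum_filter]
    apply sum_congr rfl
    intro i _
    split_ifs with h
    · rfl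
    · exact h0 i (by omega)
  rw [h2]
  apply sum_le_sum_of_subset_of_nonneg
  · intro i hi
    exact mem_range.2 (mem_filter.1 hi).2
  · intro i _ _
    exact hg i

/-- backward windows (only `j < n` counts) -/
theorem sum_shift_left {g : ℕ → ℝ} (hg : ∀ i, 0 ≤ g i) {Q : ℕ} (h0 : ∀ i, Q ≤ i → g i = 0)
    (P j : ℕ) : ∑ n ∈ range P, (if j < n then g (n - j - 1) else 0) ≤ ∑ i ∈ range Q, g i := by
  have h1 : ∑ n ∈ range P, (if j < n then g (n - j - 1) else 0) =
      ∑ n ∈ (range P).filter (fun n => j < n), g (n - j - 1) := by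
    rw [sum_filter]
  rw [h1]
  have h2 : ∑ n ∈ (range P).filter (fun n => j < n), g (n - j - 1) =
      ∑ i ∈ ((range P).filter (fun n => j < n)).image (fun n => n - j - 1), g i := by
    rw [sum_image]
    intro a ha b hb hab
    simp only [coe_filter, mem_range, Set.mem_ofPred_eq] at ha hb
    simp only at hab
    omega
  rw [h2]
  have h3 : ∑ i ∈ ((range P).filter (fun n => j < n)).image (fun n => n - j - 1), g i =
      ∑ i ∈ (((range P).filter (fun n => j < n)).image (fun n => n - j - 1)).filter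
        (fun i => i < Q), g i := by
    rw [sum_filter]
    apply sum_congr rfl
    intro i _
    split_ifs with h
    · rfl
    · exact h0 i (by omega)
  rw [h3]
  apply sum_le_sum_of_subset_of_nonneg
  · intro i hi
    exact mem_range.2 (mem_filter.1 hi).2
  · intro i _ _
    exact hg i

/-- weighted forward sums -/
theorem sum_sum_shift_right {g a : ℕ → ℝ} (hg : ∀ i, 0 ≤ g i) (ha : ∀ j, 0 ≤ a j) {Q : ℕ}
    (h0 : ∀ i, Q ≤ i → g i = 0) (P J : ℕ) :
    ∑ n ∈ range P, ∑ j ∈ range J, a j * g (n + j) ≤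
      (∑ j ∈ range J, a j) * ∑ i ∈ range Q, g i := by
  rw [sum_comm, sum_mul]
  apply sum_le_sum
  intro j _
  rw [← mul_sum]
  exact mul_le_mul_of_nonneg_left (sum_shift_right hg h0 P j) (ha j)

/-- weighted backward sums -/
theorem sum_sum_shift_left {g a : ℕ → ℝ} (hg : ∀ i, 0 ≤ g i) (ha : ∀ j, 0 ≤ a j) {Q : ℕ}
    (h0 : ∀ i, Q ≤ i → g i = 0) (P J : ℕ) :
    ∑ n ∈ range P, ∑ j ∈ range J, a j * (if j < n then g (n - j - 1) else 0) ≤
      (∑ j ∈ range J, a j) * ∑ i ∈ range Q, g i := by
  rw [sum_comm, sum_mul]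
  apply sum_le_sum
  intro j _
  rw [← mul_sum]
  exact mul_le_mul_of_nonneg_left (sum_shift_left hg h0 P j) (ha j)

end Crest.Agent.R314.Gs
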