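import Crest.Agent.R314.Gs1

/-!
R314, module G3 (summation over levels), part 2: mass profiles.  Author: helper529.

`M i` = mass of the ball of radius `2^i r₁` about the requested point (`0 < M 0`, monotone, constant
from `Q` on), `lg M i = log (M (i+1) / M i)`.
-/

set_option autoImplicit false

namespace Crest.Agent.R314.Gs

open Finset

/-- a mass profile -/
structure Profile (M : ℕ → ℝ) (Q : ℕ) : Prop where
  pos : 0 < M 0
  mono : Monotone M
  const : ∀ i, Q ≤ i → M i = M Q

/-- logarithmic increments -/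
noncomputable def lg (M : ℕ → ℝ) (i : ℕ) : ℝ := Real.log (M (i + 1) / M i)

variable {M : ℕ → ℝ} {Q : ℕ}

namespace Profile

theorem pos' (h : Profile M Q) (i : ℕ) : 0 < M i := h.pos.trans_le (h.mono (Nat.zero_le i))

theorem le_total (h : Profile M Q) (i : ℕ) : M i ≤ M Q := by
  rcases Nat.le_total i Q with hi | hi
  · exact h.mono hi
  · exact (h.const i hi).le

theorem lg_nonneg (h : Profile M Q) (i : ℕ) : 0 ≤ lg M i :=
  Real.log_nonneg ((one_le_div (h.pos' i)).2 (h.mono (Nat.le_succ i)))

theorem lg_zero (h : Profile M Q) (i : ℕ) (hi : Q ≤ i) : lg M i = 0 := by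
  rw [lg, h.const i hi, h.const (i + 1) (by omega), div_self (h.pos' Q).ne', Real.log_one]

/-- telescoping -/
theorem sum_lg (h : Profile M Q) {a b : ℕ} (hab : a ≤ b) :
    ∑ i ∈ Ico a b, lg M i = Real.log (M b / M a) := by
  induction b, hab using Nat.le_induction with
  | base => simp [div_self (h.pos' a).ne']
  | succ b hb ih =>
    rw [sum_Ico_succ_top hb, ih, lg, ← Real.log_mul (div_pos (h.pos' _) (h.pos' _)).ne'
      (div_pos (h.pos' _) (h.pos' _)).ne']
    congr 1
    have := (h.pos' a).ne'
    have := (h.pos' b).ne'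
    field_simp

theorem sum_lg_total (h : Profile M Q) : ∑ i ∈ range Q, lg M i = Real.log (M Q / M 0) := by
  rw [range_eq_Ico, h.sum_lg (Nat.zero_le Q)]

theorem log_total_nonneg (h : Profile M Q) : 0 ≤ Real.log (M Q / M 0) :=
  Real.log_nonneg ((one_le_div h.pos).2 (h.mono (Nat.zero_le Q)))

/-- increments are controlled by logarithmic increments -/
theorem sub_le (h : Profile M Q) (i : ℕ) : M (i + 1) - M i ≤ M (i + 1) * lg M i := by
  have h1 := h.pos' i
  have h2 := h.pos' (i + 1)
  have h3 := Real.one_sub_inv_le_log_of_pos (div_pos h2 h1)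
  rw [inv_div] at h3
  unfold lg
  calc M (i + 1) - M i = M (i + 1) * (1 - M i / M (i + 1)) := by field_simp
    _ ≤ _ := by gcongr

/-! ### windows -/

/-- windows `[n - j, n + A)` -/
theorem sum_window (h : Profile M Q) (P A j : ℕ) :
    ∑ n ∈ range P, Real.log (M (n + A) / M (n - j)) ≤ (A + j) * Real.log (M Q / M 0) := by
  have h1 : ∀ n, Real.log (M (n + A) / M (n - j)) ≤
      ∑ i ∈ range A, lg M (n + i) + ∑ i ∈ range j, (if i < n then lg M (n - i - 1) else 0) := by
    intro n
    rw [← h.sum_lg (a := n - j) (b := n + A) (by omega)]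
    rw [← sum_Ico_consecutive _ (show n - j ≤ n by omega) (show n ≤ n + A by omega)]
    rw [add_comm]
    apply add_le_add
    · rw [sum_Ico_eq_sum_range]
      simp
    · rw [sum_Ico_eq_sum_range]
      have h2 : n - (n - j) = min j n := by omega
      rw [h2, ← sum_filter]
      have h3 : (range j).filter (fun i => i < n) = range (min j n) := by
        ext x; simp
      rw [h3, ← sum_range_reflect]
      apply le_of_eq
      apply sum_congr rfl
      intro i hi
      rw [mem_range] at hi
      congr 1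
      omega
  refine (sum_le_sum fun n _ => h1 n).trans ?_
  rw [sum_add_distrib, ← h.sum_lg_total]
  have e1 : ∑ n ∈ range P, ∑ i ∈ range A, lg M (n + i) ≤ A * ∑ i ∈ range Q, lg M i := by
    have := sum_sum_shift_right (g := lg M) (a := fun _ => (1 : ℝ)) h.lg_nonneg
      (fun _ => zero_le_one) h.lg_zero P A
    simpa using this
  have e2 : ∑ n ∈ range P, ∑ i ∈ range j, (if i < n then lg M (n - i - 1) else 0) ≤
      j * ∑ i ∈ range Q, lg M i := by
    have := sum_sum_shift_left (g := lg M) (a := fun _ => (1 : ℝ)) h.lg_nonneg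
      (fun _ => zero_le_one) h.lg_zero P j
    simpa using this
  linarith

/-- **near part** (non-trivial slopes): geometric kernel, windows `[n - j, n + A)` -/
theorem near (h : Profile M Q) {a : ℕ → ℝ} (ha : ∀ j, 0 ≤ a j) (P A J : ℕ) :
    ∑ n ∈ range P, ∑ j ∈ range J, a j * Real.log (M (n + A) / M (n - j)) ≤
      (∑ j ∈ range J, a j * (A + j)) * Real.log (M Q / M 0) := by
  rw [sum_comm, sum_mul]
  apply sum_le_sum
  intro j _
  rw [← mul_sum, mul_assoc]
  exact mul_le_mul_of_nonneg_left (h.sum_window P A j) (ha j)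

/-- **near part, trivial levels**: `avg_core d` -/
theorem near_avg (h : Profile M Q) {a : ℕ → ℝ} (ha : ∀ j, 0 ≤ a j) (P J : ℕ) :
    ∑ n ∈ range P, (∑ j ∈ range J, a j * (M (n - j) - M (n - j - 1))) / M n ≤
      (∑ j ∈ range J, a j) * Real.log (M Q / M 0) := by
  rw [← h.sum_lg_total]
  refine le_trans ?_ (sum_sum_shift_left h.lg_nonneg ha h.lg_zero P J)
  apply sum_le_sum
  intro n _
  rw [sum_div]
  apply sum_le_sum
  intro j _
  rw [mul_div_assoc]
  apply mul_le_mul_of_nonneg_left _ (ha j)
  have hn := h.pos' n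
  split_ifs with hj
  · rw [div_le_iff₀ hn]
    have h1 := h.sub_le (n - j - 1)
    have h2 : n - j - 1 + 1 = n - j := by omega
    rw [h2] at h1
    have h3 : M (n - j) ≤ M n := h.mono (by omega)
    have h4 := h.lg_nonneg (n - j - 1)
    nlinarith
  · have : n - j - 1 = n - j := by omega
    rw [this, sub_self, zero_div]

/-- **tail part, trivial levels**: far mass with a summable kernel. `c j` is the growth allowed at
distance `j`. -/
theorem tail (h : Profile M Q) {a c : ℕ → ℝ} (ha : ∀ j, 0 ≤ a j) (hc : ∀ j, 0 ≤ c j)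
    (S : Finset ℕ) (hS : ∀ n ∈ S, ∀ j, M (n + j + 1) ≤ c j * M n) {P : ℕ} (hSP : ∀ n ∈ S, n < P)
    (J : ℕ) :
    ∑ n ∈ S, (∑ j ∈ range J, a j * (M (n + j + 1) - M (n + j))) / M n ≤
      (∑ j ∈ range J, a j * c j) * Real.log (M Q / M 0) := by
  rw [← h.sum_lg_total]
  have hSub : S ⊆ range P := fun n hn => mem_range.2 (hSP n hn)
  have h1 : ∑ n ∈ S, (∑ j ∈ range J, a j * (M (n + j + 1) - M (n + j))) / M n ≤
      ∑ n ∈ S, ∑ j ∈ range J, a j * c j * lg M (n + j) := by
    apply sum_le_sum
    intro n hn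
    rw [sum_div]
    apply sum_le_sum
    intro j _
    rw [mul_div_assoc, mul_assoc]
    apply mul_le_mul_of_nonneg_left _ (ha j)
    rw [div_le_iff₀ (h.pos' n)]
    have e1 := h.sub_le (n + j)
    have e2 := hS n hn j
    have e3 := h.lg_nonneg (n + j)
    nlinarith
  refine h1.trans (le_trans ?_ (sum_sum_shift_right (a := fun j => a j * c j) h.lg_nonneg
    (fun j => mul_nonneg (ha j) (hc j)) h.lg_zero P J))
  apply sum_le_sum_of_subset_of_nonneg hSub
  intro n _ _
  apply sum_nonneg
  intro j _
  exact mul_nonneg (mul_nonneg (ha j) (hc j)) (h.lg_nonneg _)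

/-- **counting lemma**: the number of levels from which the profile grows by `≥ exp (c (j+1))` over
some window of length `j + 1` is `≤ (1/c) log (M Q / M 0)`. -/
theorem count (h : Profile M Q) {c : ℝ} (hc : 0 < c) (S : Finset ℕ)
    (hS : ∀ n ∈ S, ∃ j : ℕ, c * (j + 1) ≤ Real.log (M (n + j + 1) / M n)) :
    (S.card : ℝ) ≤ Real.log (M Q / M 0) / c := by
  rw [le_div_iff₀ hc, mul_comm]
  -- windows may stick out of `[0, Q)`: enlarge `Q`
  choose! j hj using hS
  set Q' : ℕ := Q + 1 + ∑ n ∈ S, (n + j n) with hQ'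
  have h1 : ∀ n ∈ S, n + j n < Q' := by
    intro n hn
    have := single_le_sum (f := fun n => n + j n) (fun _ _ => Nat.zero_le _) hn
    omega
  have h2 := count_le (g := lg M) h.lg_nonneg hc.le Q' S (fun n hn => ⟨j n, h1 n hn, by
    rw [h.sum_lg (by omega)]
    exact hj n hn⟩)
  refine h2.trans ?_
  rw [← h.sum_lg_total]
  have h3 : ∑ i ∈ range Q', lg M i = ∑ i ∈ range Q, lg M i := by
    symm
    apply sum_subset (range_subset_range.2 (by omega))
    intro i _ hi
    rw [mem_range, not_lt] at hi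
    exact h.lg_zero i hi
  rw [h3]

end Profile

end Crest.Agent.R314.Gs
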