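import Crest.Agent.R314.Gs2

/-!
R314, module G3, part 3: summation over the scales `R_i = 16 ^ i * R₀` of
`Γ_R(y) = ∫₀¹ log (m(B(y, 60 R)) / m(B(y, s R))) ds`.  Author: helper529.
-/

set_option autoImplicit false

namespace Crest.Agent.R314.Gs

open Finset MeasureTheory

variable {Y : Type*} [Fintype Y]

/-- mass of the closed ball of radius `r` about `y` for the distance function `d` -/
noncomputable def bm (d : Y → Y → ℝ) (m : Y → ℝ) (y : Y) (r : ℝ) : ℝ :=
  ∑ x ∈ univ.filter (fun x => d x y ≤ r), m x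

variable {d : Y → Y → ℝ} {m : Y → ℝ} {y : Y}

theorem bm_mono (hm : ∀ x, 0 ≤ m x) : Monotone (bm d m y) := by
  intro r r' h
  apply sum_le_sum_of_subset_of_nonneg
  · intro x hx
    rw [mem_filter] at hx ⊢
    exact ⟨hx.1, hx.2.trans h⟩
  · intro x _ _
    exact hm x

theorem bm_le (hm : ∀ x, 0 ≤ m x) (r : ℝ) : bm d m y r ≤ ∑ x, m x :=
  sum_le_sum_of_subset_of_nonneg (filter_subset _ _) fun x _ _ => hm x

theorem bm_nonneg (hm : ∀ x, 0 ≤ m x) (r : ℝ) : 0 ≤ bm d m y r := sum_nonneg fun x _ => hm x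

theorem le_bm (hm : ∀ x, 0 ≤ m x) {r : ℝ} (hr : d y y ≤ r) : m y ≤ bm d m y r :=
  single_le_sum (f := m) (fun x _ => hm x) (mem_filter.2 ⟨mem_univ y, hr⟩)

/-- the growth functional at scale `R` -/
noncomputable def Gam (d : Y → Y → ℝ) (m : Y → ℝ) (y : Y) (A R : ℝ) : ℝ :=
  ∫ s in (0 : ℝ)..1, (Real.log (bm d m y (A * R)) - Real.log (bm d m y (s * R)))

section

variable (hm : ∀ x, 0 ≤ m x) (hy : 0 < m y) (hd : d y y = 0)

include hm hy hd

theorem bm_pos {r : ℝ} (hr : 0 ≤ r) : 0 < bm d m y r := hy.trans_le (le_bm hm (by rw [hd]; exact hr))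

theorem log_bm_mono {r r' : ℝ} (hr : 0 ≤ r) (h : r ≤ r') :
    Real.log (bm d m y r) ≤ Real.log (bm d m y r') :=
  Real.log_le_log (bm_pos hm hy hd hr) (bm_mono hm h)

theorem log_bm_le {r : ℝ} (hr : 0 ≤ r) : Real.log (bm d m y r) ≤ Real.log (∑ x, m x) :=
  Real.log_le_log (bm_pos hm hy hd hr) (bm_le hm r)

theorem le_log_bm {r : ℝ} (hr : 0 ≤ r) : Real.log (m y) ≤ Real.log (bm d m y r) :=
  Real.log_le_log hy (le_bm hm (by rw [hd]; exact hr))

theorem intervalIntegrable_log_bm {R : ℝ} (hR : 0 ≤ R) {a b : ℝ} (ha : 0 ≤ a) (hb : 0 ≤ b) :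
    IntervalIntegrable (fun s => Real.log (bm d m y (s * R))) volume a b := by
  apply MonotoneOn.intervalIntegrable
  intro s hs t ht hst
  have h0 : 0 ≤ s := by
    rcases Set.mem_uIcc.1 hs with h | h
    · exact ha.trans h.1
    · exact hb.trans h.1
  exact log_bm_mono hm hy hd (mul_nonneg h0 hR) (mul_le_mul_of_nonneg_right hst hR)

theorem Gam_nonneg {A R : ℝ} (hA : 1 ≤ A) (hR : 0 ≤ R) : 0 ≤ Gam d m y A R := by
  apply intervalIntegral.integral_nonneg zero_le_one
  intro s hs
  have := log_bm_mono hm hy hd (r := s * R) (r' := A * R) (mul_nonneg hs.1 hR)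
    (mul_le_mul_of_nonneg_right (hs.2.trans hA) hR)
  linarith

/-- For fixed `s` the sum over the scales telescopes. -/
theorem sum_fixed {R₀ : ℝ} (hR₀ : 0 < R₀) {A : ℕ} {B : ℝ} (hB : 1 ≤ B) {a : ℝ} (ha : 0 ≤ a)
    (haB : a ≤ B ^ A) {s : ℝ} (j : ℕ) (hs : (B ^ j)⁻¹ ≤ s) (I : ℕ) :
    ∑ i ∈ range I, (Real.log (bm d m y (a * (B ^ i * R₀))) -
      Real.log (bm d m y (s * (B ^ i * R₀)))) ≤ (A + j) * Real.log ((∑ x, m x) / m y) := by
  -- the profile
  set M : ℕ → ℝ := fun n => if n = 0 then m y else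
    if n ≤ I + A then bm d m y (B ^ (n - 1) * R₀) else ∑ x, m x with hM
  have hB0 : (0 : ℝ) < B := by linarith
  have hpr : Profile M (I + A + 1) := by
    refine ⟨by simp only [hM, if_true]; exact hy, ?_, ?_⟩
    · apply monotone_nat_of_le_succ
      intro n
      simp only [hM]
      by_cases h0 : n = 0
      · subst h0
        rw [if_pos rfl, if_neg (by omega)]
        split_ifs with h2
        · exact le_bm hm (by rw [hd]; positivity)
        · exact single_le_sum (f := m) (fun x _ => hm x) (mem_univ y)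
      · rw [if_neg h0, if_neg (Nat.succ_ne_zero n)]
        split_ifs with h1 h2
        · apply bm_mono hm
          have : B ^ (n - 1) ≤ B ^ (n + 1 - 1) := pow_le_pow_right₀ hB (by omega)
          gcongr
        · exact bm_le hm _
        · omega
        · exact le_rfl
    · intro i hi
      simp only [hM]
      rw [if_neg (by omega), if_neg (by omega), if_neg (by omega), if_neg (by omega)]
  have hQ : M (I + A + 1) = ∑ x, m x := by
    simp only [hM]; rw [if_neg (by omega), if_neg (by omega)]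
  have h0 : M 0 = m y := by simp [hM]
  have h1 := hpr.sum_window (I + 1) A j
  rw [hQ, h0] at h1
  refine le_trans ?_ h1
  rw [sum_range_succ' (fun n => Real.log (M (n + A) / M (n - j)))]
  have hlast : 0 ≤ Real.log (M (0 + A) / M (0 - j)) :=
    Real.log_nonneg ((one_le_div (hpr.pos' _)).2 (hpr.mono (by omega)))
  refine le_trans ?_ (le_add_of_nonneg_right hlast)
  apply sum_le_sum
  intro i hi
  rw [mem_range] at hi
  have e0 := hpr.pos' (i + 1 + A)
  have e1 := hpr.pos' (i + 1 - j)
  rw [Real.log_div e0.ne' e1.ne']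
  have hBi : 0 ≤ B ^ i * R₀ := by positivity
  apply sub_le_sub
  · -- upper end
    have : M (i + 1 + A) = bm d m y (B ^ (i + A) * R₀) := by
      simp only [hM]
      rw [if_neg (by omega), if_pos (by omega)]
      congr 3
      omega
    rw [this]
    apply log_bm_mono hm hy hd (mul_nonneg ha hBi)
    calc a * (B ^ i * R₀) ≤ B ^ A * (B ^ i * R₀) := by gcongr
      _ = _ := by rw [pow_add]; ring
  · -- lower end
    have hs0 : 0 ≤ s := le_trans (by positivity) hs
    by_cases hij : i + 1 ≤ j
    · have : M (i + 1 - j) = m y := by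
        have : i + 1 - j = 0 := by omega
        rw [this, h0]
      rw [this]
      exact le_log_bm hm hy hd (mul_nonneg hs0 hBi)
    · have : M (i + 1 - j) = bm d m y (B ^ (i - j) * R₀) := by
        simp only [hM]
        rw [if_neg (by omega), if_pos (by omega)]
        congr 3
        omega
      rw [this]
      apply log_bm_mono hm hy hd (by positivity)
      have h2 : B ^ (i - j) = (B ^ j)⁻¹ * B ^ i := by
        rw [pow_sub₀ B hB0.ne' (by omega)]
        ring
      rw [h2]
      calc (B ^ j)⁻¹ * B ^ i * R₀ = (B ^ j)⁻¹ * (B ^ i * R₀) := by ring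
        _ ≤ s * (B ^ i * R₀) := by gcongr

/-- **Summation over the scales** `R_i = B ^ i * R₀`. -/
theorem sum_Gam_le {R₀ : ℝ} (hR₀ : 0 < R₀) {A : ℕ} {B : ℝ} (hB : 1 < B) {a : ℝ} (ha : 0 ≤ a)
    (haB : a ≤ B ^ A) (I : ℕ) :
    ∑ i ∈ range I, Gam d m y a (B ^ i * R₀) ≤
      (A + 1 + 1 / Real.log B) * Real.log ((∑ x, m x) / m y) := by
  have hlB : 0 < Real.log B := Real.log_pos hB
  have hB0 : (0 : ℝ) < B := by linarith
  set L : ℝ := Real.log ((∑ x, m x) / m y) with hL
  have hL0 : 0 ≤ L := Real.log_nonneg ((one_le_div hy).2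
    (single_le_sum (f := m) (fun x _ => hm x) (mem_univ y)))
  have hint : ∀ i ∈ range I, IntervalIntegrable (fun s : ℝ => Real.log (bm d m y (a * (B ^ i * R₀))) -
      Real.log (bm d m y (s * (B ^ i * R₀)))) volume 0 1 := fun i _ =>
    intervalIntegrable_const.sub
      (intervalIntegrable_log_bm hm hy hd (by positivity) le_rfl zero_le_one)
  unfold Gam
  rw [← intervalIntegral.integral_finsetSum hint]
  have hlog : IntervalIntegrable (fun s : ℝ => Real.log s) volume 0 1 :=
    intervalIntegral.intervalIntegrable_log'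
  have hmaj : IntervalIntegrable (fun s : ℝ => (A + 1 - Real.log s / Real.log B) * L) volume 0 1 :=
    (intervalIntegrable_const.sub (hlog.div_const _)).mul_const _
  have hsum : IntervalIntegrable (fun s : ℝ => ∑ i ∈ range I,
      (Real.log (bm d m y (a * (B ^ i * R₀))) - Real.log (bm d m y (s * (B ^ i * R₀)))))
      volume 0 1 := by
    have e : (fun s : ℝ => ∑ i ∈ range I, (Real.log (bm d m y (a * (B ^ i * R₀))) -
        Real.log (bm d m y (s * (B ^ i * R₀))))) = ∑ i ∈ range I, fun s : ℝ =>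
        (Real.log (bm d m y (a * (B ^ i * R₀))) - Real.log (bm d m y (s * (B ^ i * R₀)))) := by
      funext s
      rw [Finset.sum_apply]
    rw [e]
    exact IntervalIntegrable.sum (range I) hint
  have hle : (∫ s in (0 : ℝ)..1, ∑ i ∈ range I,
      (Real.log (bm d m y (a * (B ^ i * R₀))) - Real.log (bm d m y (s * (B ^ i * R₀))))) ≤
      ∫ s in (0 : ℝ)..1, (A + 1 - Real.log s / Real.log B) * L := by
    apply intervalIntegral.integral_mono_on_of_le_Ioo zero_le_one hsum hmaj
    intro s hs
    set j : ℕ := ⌈-Real.log s / Real.log B⌉₊ with hj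
    have hls : 0 ≤ -Real.log s := by
      have := Real.log_nonpos hs.1.le hs.2.le
      linarith
    have h1 : (B ^ j)⁻¹ ≤ s := by
      have h2 : -Real.log s / Real.log B ≤ j := Nat.le_ceil _
      rw [div_le_iff₀ hlB] at h2
      rw [← Real.log_le_log_iff (by positivity) hs.1, Real.log_inv, Real.log_pow]
      linarith
    have h2 : (j : ℝ) ≤ 1 - Real.log s / Real.log B := by
      have := (Nat.ceil_lt_add_one (a := -Real.log s / Real.log B) (by positivity)).le
      have e : -Real.log s / Real.log B = - (Real.log s / Real.log B) := by ring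
      rw [← hj, e] at this
      linarith
    refine (sum_fixed hm hy hd hR₀ hB.le ha haB j h1 I).trans ?_
    rw [← hL]
    apply mul_le_mul_of_nonneg_right _ hL0
    linarith
  refine hle.trans (le_of_eq ?_)
  rw [intervalIntegral.integral_mul_const]
  congr 1
  rw [intervalIntegral.integral_sub intervalIntegrable_const (hlog.div_const _),
    intervalIntegral.integral_const, intervalIntegral.integral_div, integral_log]
  simp
  ring

end

end Crest.Agent.R314.Gs
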