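import Crest.Agent.R314.Gs3

/-!
R314, module G3, part 4: the total increment of one flow over all the scales.  Author: helper529.
-/

set_option autoImplicit false

namespace Crest.Agent.R314.Gs

open Finset

/-- the scales below `x` have total size `≤ B / (B - 1) * x` -/
theorem sum_scales_lt {B R₀ x : ℝ} (hB : 1 < B) (hR₀ : 0 < R₀) (hx : 0 ≤ x) (I : ℕ) :
    ∑ i ∈ (range I).filter (fun i => B ^ i * R₀ < x), B ^ i * R₀ ≤ B / (B - 1) * x := by
  have hB0 : (0 : ℝ) < B := by linarith
  have hB1 : 0 < B - 1 := by linarith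
  have h0 : 0 ≤ B / (B - 1) * x := by positivity
  induction I with
  | zero => simpa using h0
  | succ I ih =>
    rw [range_add_one, filter_insert]
    split_ifs with h
    · -- all the smaller ones are `< x` too
      rw [sum_insert (by simp)]
      have h1 : ∑ i ∈ (range I).filter (fun i => B ^ i * R₀ < x), B ^ i * R₀ ≤
          ∑ i ∈ range I, B ^ i * R₀ :=
        sum_le_sum_of_subset_of_nonneg (filter_subset _ _) fun i _ _ => by positivity
      have h2 : ∑ i ∈ range I, B ^ i * R₀ = (B ^ I - 1) / (B - 1) * R₀ := by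
        rw [← sum_mul, geom_sum_eq hB.ne']
      have h3 : (B ^ I - 1) / (B - 1) * R₀ ≤ B ^ I * R₀ / (B - 1) := by
        rw [div_mul_eq_mul_div]
        gcongr
        linarith
      have h4 : B ^ I * R₀ + B ^ I * R₀ / (B - 1) = B / (B - 1) * (B ^ I * R₀) := by
        field_simp
        ring
      calc _ ≤ B ^ I * R₀ + B ^ I * R₀ / (B - 1) := by linarith
        _ = B / (B - 1) * (B ^ I * R₀) := h4
        _ ≤ _ := by gcongr
    · exact ih

/-- **Total increment of a flow of length `dd` over all the scales**, from the one-scale bounds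
`inc i ≤ C (dd / R_i) Γ_i` and `inc i ≤ C (dd / R_i) Γ_i + C (1 + Γ_i)` when `κ dd > R_i`. -/
theorem sum_increment_le {B R₀ dd κ C S : ℝ} (hB : 1 < B) (hR₀ : 0 < R₀) (hdd : 0 ≤ dd)
    (hκ : 0 ≤ κ) (hC : 0 ≤ C) {I : ℕ} {Γ inc : ℕ → ℝ} (hΓ : ∀ i, 0 ≤ Γ i)
    (hS : ∑ i ∈ range I, Γ i ≤ S)
    (hinc : ∀ i ∈ range I, inc i ≤ C * (dd / (B ^ i * R₀)) * Γ i +
      if B ^ i * R₀ < κ * dd then C * (1 + Γ i) else 0) :
    ∑ i ∈ range I, B ^ i * R₀ * inc i ≤ C * dd * (S + κ * S + κ * (B / (B - 1))) := by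
  have hB0 : (0 : ℝ) < B := by linarith
  have hS0 : 0 ≤ ∑ i ∈ range I, Γ i := sum_nonneg fun i _ => hΓ i
  have h1 : ∀ i ∈ range I, B ^ i * R₀ * inc i ≤ C * dd * Γ i +
      (C * (κ * dd) * Γ i + C * (if B ^ i * R₀ < κ * dd then B ^ i * R₀ else 0)) := by
    intro i hi
    have hR : 0 < B ^ i * R₀ := by positivity
    have hG := hΓ i
    calc B ^ i * R₀ * inc i ≤ B ^ i * R₀ * (C * (dd / (B ^ i * R₀)) * Γ i +
          if B ^ i * R₀ < κ * dd then C * (1 + Γ i) else 0) :=
          mul_le_mul_of_nonneg_left (hinc i hi) hR.le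
      _ = C * dd * Γ i + (if B ^ i * R₀ < κ * dd then B ^ i * R₀ * (C * (1 + Γ i)) else 0) := by
          rw [mul_add]
          congr 1
          · field_simp
          · split_ifs
            · rfl
            · simp
      _ ≤ _ := by
          gcongr
          split_ifs with h
          · have : B ^ i * R₀ * (C * Γ i) ≤ κ * dd * (C * Γ i) := by gcongr
            nlinarith
          · positivity
  refine (sum_le_sum h1).trans ?_
  rw [sum_add_distrib, sum_add_distrib, ← mul_sum, ← mul_sum, ← mul_sum, ← sum_filter]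
  have h2 := sum_scales_lt hB hR₀ (x := κ * dd) (by positivity) I
  have h3 : C * dd * ∑ i ∈ range I, Γ i ≤ C * dd * S := by gcongr
  have h4 : C * (κ * dd) * ∑ i ∈ range I, Γ i ≤ C * (κ * dd) * S := by gcongr
  have h5 : C * ∑ i ∈ (range I).filter (fun i => B ^ i * R₀ < κ * dd), B ^ i * R₀ ≤
      C * (B / (B - 1) * (κ * dd)) := by gcongr
  calc _ ≤ C * dd * S + (C * (κ * dd) * S + C * (B / (B - 1) * (κ * dd))) := by linarith
    _ = _ := by ring

end Crest.Agent.R314.Gs
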