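import Mathlib
import Crest.Agent.R314.Tok8

/-!
R314, block PH (physical accounting), part 1: the chain structure of the node sets, hypothesis (H3)
of Theorem A, and the bound of one physical move.
-/

set_option autoImplicit false
set_option linter.unusedSectionVars false

namespace Crest.Agent.R314.Ph

open Finset Function Crest.Agent.R314.Tk

variable {k : ℕ} {V : Type*} [DecidableEq V]

/-- The node sets `E (inr t)` are chains for the parent map `par` (`none` is the root). -/
structure Chain (E : Tok k → Finset V) (w : V → ℝ) (par : V → Option V) : Prop where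
  inl : ∀ i, E (Sum.inl i) = ∅
  pos : ∀ v, 0 < w v
  par_mem : ∀ t v u, v ∈ E (Sum.inr t) → par v = some u → u ∈ E (Sum.inr t)
  inj : ∀ t v v', v ∈ E (Sum.inr t) → v' ∈ E (Sum.inr t) → par v = par v' → v = v'
  w_par : ∀ v u, par v = some u → 8 * w v ≤ w u

namespace Chain

variable {E : Tok k → Finset V} {w : V → ℝ} {par : V → Option V}

/-- The canonical `In` predicate: the request is in the parent of `v`. -/
def InP (E : Tok k → Finset V) (par : V → Option V) (v : V) (t : ℕ) : Prop :=
  ∀ u, par v = some u → u ∈ E (Sum.inr t)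

theorem inP_of_mem (h : Chain E w par) {t : ℕ} {v : V} (hv : v ∈ E (Sum.inr t)) :
    InP E par v t := fun u hu => h.par_mem t v u hv hu

open Classical in
/-- Hypothesis (H3) of Theorem A. -/
theorem H3 (h : Chain E w par) (D : V → ℕ) (s t : ℕ) :
    ∑ v ∈ (E (Sum.inr s)).filter (fun v => t < D v ∧ ¬ InP E par v t), w v ≤
      1 / 8 * ∑ v ∈ E (Sum.inr s) \ E (Sum.inr t), w v := by
  have hex : ∀ v ∈ (E (Sum.inr s)).filter (fun v => t < D v ∧ ¬ InP E par v t),
      ∃ u, par v = some u ∧ u ∈ E (Sum.inr s) \ E (Sum.inr t) := by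
    intro v hv
    rw [mem_filter] at hv
    obtain ⟨hv1, -, hv2⟩ := hv
    unfold InP at hv2
    push Not at hv2
    obtain ⟨u, hu, hu'⟩ := hv2
    exact ⟨u, hu, mem_sdiff.2 ⟨h.par_mem s v u hv1 hu, hu'⟩⟩
  rcases (E (Sum.inr s)).eq_empty_or_nonempty with he | ⟨v0, -⟩
  · simp [he]
  let f : V → V := fun v => (par v).getD v0
  have hf : ∀ v u, par v = some u → f v = u := fun v u hu => by simp [f, hu]
  calc ∑ v ∈ (E (Sum.inr s)).filter (fun v => t < D v ∧ ¬ InP E par v t), w v
      ≤ ∑ v ∈ (E (Sum.inr s)).filter (fun v => t < D v ∧ ¬ InP E par v t), 1 / 8 * w (f v) := by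
        apply sum_le_sum
        intro v hv
        obtain ⟨u, hu, -⟩ := hex v hv
        rw [hf v u hu]
        have := h.w_par v u hu
        linarith
    _ = 1 / 8 * ∑ u ∈ ((E (Sum.inr s)).filter (fun v => t < D v ∧ ¬ InP E par v t)).image f,
          w u := by
        rw [sum_image, mul_sum]
        intro v hv v' hv' hvv
        obtain ⟨u, hu, -⟩ := hex v hv
        obtain ⟨u', hu', -⟩ := hex v' hv'
        have h1 : u = u' := by rw [← hf v u hu, ← hf v' u' hu']; exact hvv
        have m1 := (mem_filter.1 (Finset.mem_coe.1 hv)).1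
        have m2 := (mem_filter.1 (Finset.mem_coe.1 hv')).1
        exact h.inj s v v' m1 m2 (by rw [hu, hu', h1])
    _ ≤ 1 / 8 * ∑ v ∈ E (Sum.inr s) \ E (Sum.inr t), w v := by
        apply mul_le_mul_of_nonneg_left _ (by norm_num)
        apply sum_le_sum_of_subset_of_nonneg
        · intro u hu
          obtain ⟨v, hv, hvu⟩ := mem_image.1 hu
          obtain ⟨u', hu', hm⟩ := hex v hv
          rw [← hvu, hf v u' hu']
          exact hm
        · intro v _ _
          exact (h.pos v).le

/-- The deepest common node of two tokens (`none` = root). -/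
theorem exists_deep (h : Chain E w par) (s t : ℕ) :
    ∃ U : Option V, (∀ u, U = some u → u ∈ E (Sum.inr s) ∧ u ∈ E (Sum.inr t)) ∧
      ∀ v, v ∈ E (Sum.inr s) → v ∈ E (Sum.inr t) → par v ≠ U := by
  rcases (E (Sum.inr s) ∩ E (Sum.inr t)).eq_empty_or_nonempty with he | hne
  · refine ⟨none, by simp, ?_⟩
    intro v hv hv' _
    have : v ∈ E (Sum.inr s) ∩ E (Sum.inr t) := mem_inter.2 ⟨hv, hv'⟩
    rw [he] at this
    simp at this
  · obtain ⟨u, hu, hmin⟩ := exists_min_image _ w hne
    rw [mem_inter] at hu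
    refine ⟨some u, ?_, ?_⟩
    · intro u' hu'
      rw [← Option.some.inj hu']
      exact hu
    · intro v hv hv' hp
      have h1 := h.w_par v u hp
      have h2 := hmin v (mem_inter.2 ⟨hv, hv'⟩)
      have h3 := h.pos v
      linarith

variable {X : Type*} [PseudoMetricSpace X]

/-- One physical move between two request tokens. -/
theorem move_le (h : Chain E w par) {L : Tok k → X} {ctr : Option V → ℕ → X} {C1 : ℝ}
    (hC1 : 0 ≤ C1) {s t : ℕ} (hst : s ≤ t)
    (hprox : ∀ r, r = s ∨ r = t → ∀ U : Option V, (∀ u, U = some u → u ∈ E (Sum.inr r)) →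
      dist (L (Sum.inr r)) (ctr U r) ≤ C1 * ∑ v ∈ (E (Sum.inr r)).filter (fun v => par v = U), w v) :
    ∃ U : Option V, (∀ u, U = some u → u ∈ E (Sum.inr s) ∧ u ∈ E (Sum.inr t)) ∧
      dist (L (Sum.inr s)) (L (Sum.inr t)) ≤
        C1 * ∑ v ∈ E (Sum.inr s) \ E (Sum.inr t), w v +
        C1 * ∑ v ∈ E (Sum.inr t) \ E (Sum.inr s), w v +
        ∑ u ∈ Ico s t, dist (ctr U u) (ctr U (u + 1)) := by
  obtain ⟨U, hU, hU2⟩ := h.exists_deep s t
  refine ⟨U, hU, ?_⟩
  have h1 := hprox s (Or.inl rfl) U (fun u hu => (hU u hu).1)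
  have h2 := hprox t (Or.inr rfl) U (fun u hu => (hU u hu).2)
  have h3 : ∑ v ∈ (E (Sum.inr s)).filter (fun v => par v = U), w v ≤
      ∑ v ∈ E (Sum.inr s) \ E (Sum.inr t), w v := by
    apply sum_le_sum_of_subset_of_nonneg
    · intro v hv
      rw [mem_filter] at hv
      exact mem_sdiff.2 ⟨hv.1, fun hv' => hU2 v hv.1 hv' hv.2⟩
    · intro v _ _; exact (h.pos v).le
  have h4 : ∑ v ∈ (E (Sum.inr t)).filter (fun v => par v = U), w v ≤
      ∑ v ∈ E (Sum.inr t) \ E (Sum.inr s), w v := by
    apply sum_le_sum_of_subset_of_nonneg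
    · intro v hv
      rw [mem_filter] at hv
      exact mem_sdiff.2 ⟨hv.1, fun hv' => hU2 v hv' hv.1 hv.2⟩
    · intro v _ _; exact (h.pos v).le
  have h5 := dist_le_Ico_sum_dist (fun u => ctr U u) hst
  have h6 := mul_le_mul_of_nonneg_left h3 hC1
  have h7 := mul_le_mul_of_nonneg_left h4 hC1
  have h8 : dist (L (Sum.inr s)) (L (Sum.inr t)) ≤
      dist (L (Sum.inr s)) (ctr U s) + dist (ctr U s) (ctr U t) + dist (ctr U t) (L (Sum.inr t)) := by
    exact dist_triangle4 _ _ _ _
  rw [dist_comm (ctr U t)] at h8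
  linarith

end Chain

end Crest.Agent.R314.Ph
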