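import Mathlib
import Crest.Agent.R314.Ph1

/-!
R314, block PH (physical accounting), part 2: the physical cost of a server sequence is bounded by
its entering and leaving weights plus the travel of the root centre.
-/

set_option autoImplicit false
set_option linter.unusedSectionVars false

namespace Crest.Agent.R314.Ph

open Finset Function Crest.Agent.R314.Tk

variable {k : ℕ}

/-- The sum over the moves of server `i` of `∑ u ∈ Ico s t, δ u` (`s` the time of the token left)
is at most `∑ u < (last move of i), δ u`. -/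
theorem sum_intervals_le (j : ℕ → Fin k) (i : Fin k) (δ : ℕ → ℝ) (hδ : ∀ u, 0 ≤ δ u)
    (P : ℕ → Prop) [DecidablePred P] (T : ℕ) :
    ∑ t ∈ range T, (if j t = i ∧ P t then
      (match cpos j t i with
        | Sum.inl _ => 0
        | Sum.inr s => ∑ u ∈ Ico s t, δ u) else 0) ≤
      (match cpos j T i with
        | Sum.inl _ => 0
        | Sum.inr s => ∑ u ∈ range s, δ u) := by
  induction T with
  | zero => simp [cpos]
  | succ T ih =>
    rw [sum_range_succ]
    by_cases hj : j T = i
    · have h1 : cpos j (T + 1) i = Sum.inr T := by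
        rw [cpos, hj, update_self]
      rw [h1]
      simp only [hj, true_and]
      rcases cpos_tok j T i with ⟨a, ha⟩ | ⟨s, hs, hs'⟩
      · rw [ha] at ih ⊢
        simp only at ih ⊢
        have h2 : 0 ≤ ∑ u ∈ range T, δ u := sum_nonneg fun u _ => hδ u
        split_ifs <;> linarith
      · rw [hs'] at ih ⊢
        simp only at ih ⊢
        have h2 : ∑ u ∈ range T, δ u = ∑ u ∈ range s, δ u + ∑ u ∈ Ico s T, δ u :=
          (sum_range_add_sum_Ico δ hs.le).symm
        have h3 : 0 ≤ ∑ u ∈ Ico s T, δ u := sum_nonneg fun u _ => hδ u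
        split_ifs <;> linarith
    · have h1 : cpos j (T + 1) i = cpos j T i := by
        rw [cpos, update_of_ne (fun h => hj h.symm)]
      rw [h1, if_neg (fun h => hj h.1), add_zero]
      exact ih

variable {V : Type*} [DecidableEq V]

/-- Number of entries of server `i` into `v` before step `T`. -/
noncomputable def enI (E : Tok k → Finset V) (j : ℕ → Fin k) (i : Fin k) (v : V) (T : ℕ) : ℝ :=
  ∑ t ∈ range T, if j t = i ∧ v ∈ E (Sum.inr t) ∧ v ∉ E (cpos j t i) then 1 else 0

theorem enI_nonneg (E : Tok k → Finset V) (j : ℕ → Fin k) (i : Fin k) (v : V) (T : ℕ) :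
    0 ≤ enI E j i v T := sum_nonneg fun t _ => by split_ifs <;> norm_num

theorem enI_mono (E : Tok k → Finset V) (j : ℕ → Fin k) (i : Fin k) (v : V) {T T' : ℕ}
    (h : T ≤ T') : enI E j i v T ≤ enI E j i v T' := by
  unfold enI
  apply sum_le_sum_of_subset_of_nonneg
  · intro t ht; rw [mem_range] at ht ⊢; omega
  · intro t _ _; split_ifs <;> norm_num

/-- If server `i` has a token in `v`, then it has entered `v`. -/
theorem one_le_enI {E : Tok k → Finset V} (hE : ∀ i, E (Sum.inl i) = ∅) (j : ℕ → Fin k)
    (i : Fin k) (v : V) (T : ℕ) (h : v ∈ E (cpos j T i)) : 1 ≤ enI E j i v T := by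
  induction T with
  | zero => simp [cpos, hE] at h
  | succ T ih =>
    by_cases hv : v ∈ E (cpos j T i)
    · exact (ih hv).trans (enI_mono E j i v (Nat.le_succ T))
    · by_cases hj : j T = i
      · have h1 : cpos j (T + 1) i = Sum.inr T := by rw [cpos, hj, update_self]
        rw [h1] at h
        unfold enI
        rw [sum_range_succ, if_pos ⟨hj, h, hv⟩]
        have := enI_nonneg E j i v T
        unfold enI at this
        linarith
      · have h1 : cpos j (T + 1) i = cpos j T i := by
          rw [cpos, update_of_ne (fun h => hj h.symm)]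
        rw [h1] at h
        exact absurd h hv

/-- Entering weight of a path of tokens. -/
noncomputable def enW (E : Tok k → Finset V) (w : V → ℝ) (a : ℕ → Tok k) (T : ℕ) : ℝ :=
  ∑ t ∈ range T, ∑ v ∈ E (Sum.inr t) \ E (a t), w v

/-- Leaving weight of a path of tokens. -/
noncomputable def exW (E : Tok k → Finset V) (w : V → ℝ) (a : ℕ → Tok k) (T : ℕ) : ℝ :=
  ∑ t ∈ range T, ∑ v ∈ E (a t) \ E (Sum.inr t), w v

theorem sum_enI [Fintype V] (E : Tok k → Finset V) (w : V → ℝ) (j : ℕ → Fin k) (T : ℕ) :
    ∑ i, ∑ v, w v * enI E j i v T = enW E w (fun t => cpos j t (j t)) T := by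
  have h1 : ∀ i v, w v * enI E j i v T = ∑ t ∈ range T,
      if j t = i then (if v ∈ E (Sum.inr t) ∧ v ∉ E (cpos j t i) then w v else 0) else 0 := by
    intro i v
    unfold enI
    rw [mul_sum]
    apply sum_congr rfl
    intro t _
    by_cases h1 : j t = i <;> by_cases h2 : v ∈ E (Sum.inr t) ∧ v ∉ E (cpos j t i) <;>
      simp [h1, h2]
  simp_rw [h1]
  have h2 : ∀ i, ∑ v, ∑ t ∈ range T, (if j t = i then
      (if v ∈ E (Sum.inr t) ∧ v ∉ E (cpos j t i) then w v else 0) else 0) =
      ∑ t ∈ range T, if j t = i then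
        ∑ v ∈ E (Sum.inr t) \ E (cpos j t i), w v else 0 := by
    intro i
    rw [sum_comm]
    apply sum_congr rfl
    intro t _
    by_cases h : j t = i
    · simp only [h, if_true]
      rw [← sum_filter]
      apply sum_congr _ (fun _ _ => rfl)
      ext v
      simp [mem_sdiff]
    · simp [h]
  simp_rw [h2]
  rw [sum_comm]
  unfold enW
  apply sum_congr rfl
  intro t _
  rw [sum_ite_eq univ (j t)]
  simp

/-- Number of moves from initial tokens. -/
theorem sum_inl_le (j : ℕ → Fin k) (T : ℕ) :
    ∑ t ∈ range T, (match cpos j t (j t) with | Sum.inl _ => (1 : ℝ) | Sum.inr _ => 0) ≤ (k : ℝ) := by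
  have h : ∀ i : Fin k, ∀ T, ∑ t ∈ range T, (if j t = i then
      (match cpos j t i with | Sum.inl _ => (1 : ℝ) | Sum.inr _ => 0) else 0) +
      (match cpos j T i with | Sum.inl _ => (1 : ℝ) | Sum.inr _ => 0) ≤ 1 := by
    intro i T
    induction T with
    | zero => simp [cpos]
    | succ T ih =>
      rw [sum_range_succ]
      by_cases hj : j T = i
      · have h1 : cpos j (T + 1) i = Sum.inr T := by rw [cpos, hj, update_self]
        rw [h1]
        simp only [hj, if_true]
        linarith
      · have h1 : cpos j (T + 1) i = cpos j T i := by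
          rw [cpos, update_of_ne (fun h => hj h.symm)]
        rw [h1, if_neg hj, add_zero]
        exact ih
  have h2 : ∑ t ∈ range T, (match cpos j t (j t) with | Sum.inl _ => (1 : ℝ) | Sum.inr _ => 0) =
      ∑ i, ∑ t ∈ range T, (if j t = i then
      (match cpos j t i with | Sum.inl _ => (1 : ℝ) | Sum.inr _ => 0) else 0) := by
    rw [sum_comm]
    apply sum_congr rfl
    intro t _
    rw [sum_ite_eq univ (j t)]
    simp
  rw [h2]
  calc _ ≤ ∑ _i : Fin k, (1 : ℝ) := by
        apply sum_le_sum
        intro i _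
        have h3 := h i T
        have h4 : (0 : ℝ) ≤ (match cpos j T i with | Sum.inl _ => (1 : ℝ) | Sum.inr _ => 0) := by
          split <;> norm_num
        linarith
    _ = k := by simp

open Classical in
/-- **Physical accounting**, general form: the bound of one move is a hypothesis. -/
theorem phys_le_of_move [Fintype V] {X : Type*} [PseudoMetricSpace X] {E : Tok k → Finset V}
    {w : V → ℝ} (hinl : ∀ i, E (Sum.inl i) = ∅) (hpos : ∀ v, 0 < w v) {B D : V → ℕ}
    (life : ∀ t v, v ∈ E (Sum.inr t) → B v ≤ t ∧ t < D v)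
    {L : Tok k → X} {ctr : Option V → ℕ → X} {C1 C2 Dm : ℝ} {T : ℕ} (hC1 : 0 ≤ C1) (hDm : 0 ≤ Dm)
    (hmove : ∀ s t, s ≤ t → t < T → ∃ U : Option V,
      (∀ u, U = some u → u ∈ E (Sum.inr s) ∧ u ∈ E (Sum.inr t)) ∧
      dist (L (Sum.inr s)) (L (Sum.inr t)) ≤
        C1 * ∑ v ∈ E (Sum.inr s) \ E (Sum.inr t), w v +
        C1 * ∑ v ∈ E (Sum.inr t) \ E (Sum.inr s), w v +
        ∑ u ∈ Ico s t, dist (ctr U u) (ctr U (u + 1)))
    (htrav : ∀ v, ∑ u ∈ (range (T - 1)).filter (fun u => B v ≤ u ∧ u + 1 < D v),
      dist (ctr (some v) u) (ctr (some v) (u + 1)) ≤ C2 * w v)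
    (hdm : ∀ i, ∀ t < T, dist (L (Sum.inl i)) (L (Sum.inr t)) ≤ Dm) (j : ℕ → Fin k) :
    ∑ t ∈ range T, dist (L (cpos j t (j t))) (L (Sum.inr t)) ≤
      C1 * (enW E w (fun t => cpos j t (j t)) T + exW E w (fun t => cpos j t (j t)) T) +
      C2 * enW E w (fun t => cpos j t (j t)) T +
      k * (Dm + ∑ u ∈ range (T - 1), dist (ctr none u) (ctr none (u + 1))) := by
  -- choose the deepest common node for every pair of times
  have hdeep : ∀ s t : ℕ, ∃ U : Option V, s ≤ t → t < T →
      (∀ u, U = some u → u ∈ E (Sum.inr s) ∧ u ∈ E (Sum.inr t)) ∧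
      dist (L (Sum.inr s)) (L (Sum.inr t)) ≤
        C1 * ∑ v ∈ E (Sum.inr s) \ E (Sum.inr t), w v +
        C1 * ∑ v ∈ E (Sum.inr t) \ E (Sum.inr s), w v +
        ∑ u ∈ Ico s t, dist (ctr U u) (ctr U (u + 1)) := by
    intro s t
    by_cases hst : s ≤ t ∧ t < T
    · obtain ⟨U, h1, h2⟩ := hmove s t hst.1 hst.2
      exact ⟨U, fun _ _ => ⟨h1, h2⟩⟩
    · exact ⟨none, fun h1 h2 => absurd ⟨h1, h2⟩ hst⟩
  choose Ud hUd using hdeep
  -- the travel functions
  let δ : Option V → ℕ → ℝ := fun U u =>
    match U with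
    | none => if u < T - 1 then dist (ctr none u) (ctr none (u + 1)) else 0
    | some v => if u < T - 1 ∧ B v ≤ u ∧ u + 1 < D v then
        dist (ctr (some v) u) (ctr (some v) (u + 1)) else 0
  have hδ0 : ∀ U u, 0 ≤ δ U u := by
    intro U u
    simp only [δ]
    split
    · split_ifs
      · exact dist_nonneg
      · exact le_rfl
    · split_ifs
      · exact dist_nonneg
      · exact le_rfl
  -- the travel term of step t
  let τ : ℕ → Option V → ℝ := fun t U =>
    match cpos j t (j t) with
    | Sum.inl _ => 0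
    | Sum.inr s => if Ud s t = U then ∑ u ∈ Ico s t, δ U u else 0
  have hstep : ∀ t ∈ range T, dist (L (cpos j t (j t))) (L (Sum.inr t)) ≤
      C1 * (∑ v ∈ E (Sum.inr t) \ E (cpos j t (j t)), w v +
        ∑ v ∈ E (cpos j t (j t)) \ E (Sum.inr t), w v) +
      Dm * (match cpos j t (j t) with | Sum.inl _ => (1 : ℝ) | Sum.inr _ => 0) +
      ∑ U : Option V, τ t U := by
    intro t ht
    rw [mem_range] at ht
    rcases cpos_tok j t (j t) with ⟨i, hi⟩ | ⟨s, hs, hs'⟩
    · simp only [τ, hi]
      have h1 := hdm i t ht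
      have h2 : 0 ≤ ∑ v ∈ E (Sum.inr t) \ E (Sum.inl i), w v := sum_nonneg fun v _ => (hpos v).le
      have h3 : 0 ≤ ∑ v ∈ E (Sum.inl i) \ E (Sum.inr t), w v := sum_nonneg fun v _ => (hpos v).le
      have h4 : (0 : ℝ) ≤ C1 * (∑ v ∈ E (Sum.inr t) \ E (Sum.inl i), w v +
        ∑ v ∈ E (Sum.inl i) \ E (Sum.inr t), w v) := mul_nonneg hC1 (add_nonneg h2 h3)
      simp only [sum_const_zero, mul_one]
      linarith
    · simp only [τ, hs']
      obtain ⟨hU, hd⟩ := hUd s t hs.le ht
      rw [sum_ite_eq univ (Ud s t)]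
      simp only [mem_univ, if_true, mul_zero, add_zero]
      have h5 : ∑ u ∈ Ico s t, dist (ctr (Ud s t) u) (ctr (Ud s t) (u + 1)) =
          ∑ u ∈ Ico s t, δ (Ud s t) u := by
        apply sum_congr rfl
        intro u hu
        rw [mem_Ico] at hu
        cases hU' : Ud s t with
        | none =>
          simp only [δ]
          rw [if_pos (by omega)]
        | some v =>
          simp only [δ]
          have hm := hU v hU'
          have l1 := life s v hm.1
          have l2 := life t v hm.2
          rw [if_pos (by refine ⟨?_, ?_, ?_⟩ <;> omega)]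
      rw [h5] at hd
      linarith
  refine (sum_le_sum hstep).trans ?_
  rw [sum_add_distrib, sum_add_distrib, ← mul_sum, ← mul_sum, sum_add_distrib]
  have e1 : ∑ t ∈ range T, ∑ v ∈ E (Sum.inr t) \ E (cpos j t (j t)), w v =
      enW E w (fun t => cpos j t (j t)) T := rfl
  have e2 : ∑ t ∈ range T, ∑ v ∈ E (cpos j t (j t)) \ E (Sum.inr t), w v =
      exW E w (fun t => cpos j t (j t)) T := rfl
  rw [e1, e2]
  -- initial tokens
  have hk : (0 : ℝ) ≤ k := Nat.cast_nonneg k
  -- total travel
  have hU : ∀ (i : Fin k) (U : Option V), ∑ t ∈ range T,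
      (if j t = i then τ t U else 0) ≤
      (match U with
        | none => ∑ u ∈ range (T - 1), dist (ctr none u) (ctr none (u + 1))
        | some v => C2 * w v * enI E j i v T) := by
    intro i U
    have hle : ∑ t ∈ range T, (if j t = i then τ t U else 0) ≤
        ∑ u ∈ range (T - 1), δ U u := by
      have h1 := sum_intervals_le j i (δ U) (hδ0 U)
        (fun t => match cpos j t i with | Sum.inl _ => False | Sum.inr s => Ud s t = U) T
      have h2 : ∑ t ∈ range T, (if j t = i then τ t U else 0) =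
          ∑ t ∈ range T, (if j t = i ∧
            (match cpos j t i with | Sum.inl _ => False | Sum.inr s => Ud s t = U) then
            (match cpos j t i with
              | Sum.inl _ => 0
              | Sum.inr s => ∑ u ∈ Ico s t, δ U u) else 0) := by
        apply sum_congr rfl
        intro t _
        by_cases hj : j t = i
        · rw [if_pos hj]
          simp only [τ]
          rw [hj]
          rcases cpos_tok j t i with ⟨a, ha⟩ | ⟨s, hs, hs'⟩
          · simp [ha]
          · simp only [hs', true_and]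
        · rw [if_neg hj, if_neg (fun h => hj h.1)]
      rw [h2]
      refine h1.trans ?_
      rcases cpos_tok j T i with ⟨a, ha⟩ | ⟨s, hs, hs'⟩
      · rw [ha]; exact sum_nonneg fun u _ => hδ0 U u
      · rw [hs']
        apply sum_le_sum_of_subset_of_nonneg
        · intro u hu; rw [mem_range] at hu ⊢; omega
        · intro u _ _; exact hδ0 U u
    cases U with
    | none =>
      simp only
      refine hle.trans (le_of_eq ?_)
      apply sum_congr rfl
      intro u hu
      simp only [δ]
      rw [if_pos (mem_range.1 hu)]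
    | some v =>
      simp only
      by_cases hin : ∃ t < T, j t = i ∧ τ t (some v) ≠ 0
      · obtain ⟨t, ht, hj, hτ⟩ := hin
        simp only [τ] at hτ
        rw [hj] at hτ
        rcases cpos_tok j t i with ⟨a, ha⟩ | ⟨s, hs, hs'⟩
        · rw [ha] at hτ; exact absurd rfl hτ
        · rw [hs'] at hτ
          simp only [ne_eq, ite_eq_right_iff, Classical.not_imp] at hτ
          have hm := (hUd s t hs.le ht).1 v hτ.1
          have hen : 1 ≤ enI E j i v T := by
            have := one_le_enI hinl j i v t (by rw [hs']; exact hm.1)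
            exact this.trans (enI_mono E j i v ht.le)
          have h1 : ∑ u ∈ range (T - 1), δ (some v) u ≤ C2 * w v := by
            refine le_trans (le_of_eq ?_) (htrav v)
            rw [sum_filter]
            apply sum_congr rfl
            intro u hu
            have hu' := mem_range.1 hu
            simp only [δ]
            by_cases hb : B v ≤ u ∧ u + 1 < D v
            · rw [if_pos hb, if_pos ⟨hu', hb⟩]
            · rw [if_neg hb, if_neg (fun h => hb h.2)]
          have h2 : 0 ≤ C2 * w v := le_trans (sum_nonneg fun u _ => hδ0 (some v) u) h1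
          calc _ ≤ C2 * w v := hle.trans h1
            _ = C2 * w v * 1 := (mul_one _).symm
            _ ≤ _ := mul_le_mul_of_nonneg_left hen h2
      · push Not at hin
        have h1 : ∑ t ∈ range T, (if j t = i then τ t (some v) else 0) = 0 := by
          apply sum_eq_zero
          intro t ht
          split_ifs with hj
          · exact hin t (mem_range.1 ht) hj
          · rfl
        rw [h1]
        have h2 : 0 ≤ C2 * w v := le_trans (sum_nonneg fun u _ => dist_nonneg) (htrav v)
        exact mul_nonneg h2 (enI_nonneg E j i v T)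
  have hτsum : ∑ t ∈ range T, ∑ U : Option V, τ t U ≤
      C2 * enW E w (fun t => cpos j t (j t)) T +
      k * ∑ u ∈ range (T - 1), dist (ctr none u) (ctr none (u + 1)) := by
    have h1 : ∑ t ∈ range T, ∑ U : Option V, τ t U =
        ∑ i, ∑ U : Option V, ∑ t ∈ range T, (if j t = i then τ t U else 0) := by
      have h2 : ∀ i, ∑ U : Option V, ∑ t ∈ range T, (if j t = i then τ t U else 0) =
          ∑ t ∈ range T, if j t = i then ∑ U : Option V, τ t U else 0 := by
        intro i
        rw [sum_comm]
        apply sum_congr rfl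
        intro t _
        by_cases hj : j t = i
        · simp [hj]
        · simp [hj]
      simp_rw [h2]
      conv_rhs => rw [sum_comm]
      apply sum_congr rfl
      intro t _
      rw [sum_ite_eq univ (j t)]
      simp
    rw [h1, ← sum_enI E w j T, mul_sum]
    have h3 : ∀ i, ∑ U : Option V, ∑ t ∈ range T, (if j t = i then τ t U else 0) ≤
        ∑ u ∈ range (T - 1), dist (ctr none u) (ctr none (u + 1)) +
        C2 * ∑ v, w v * enI E j i v T := by
      intro i
      rw [Fintype.sum_option]
      have h4 := hU i none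
      simp only at h4
      have h5 : ∑ v : V, ∑ t ∈ range T, (if j t = i then τ t (some v) else 0) ≤
          C2 * ∑ v, w v * enI E j i v T := by
        rw [mul_sum]
        apply sum_le_sum
        intro v _
        have := hU i (some v)
        simp only at this
        linarith
      linarith
    refine (sum_le_sum fun i _ => h3 i).trans ?_
    rw [sum_add_distrib, sum_const, card_univ, Fintype.card_fin, nsmul_eq_mul]
    linarith
  have h6 := mul_le_mul_of_nonneg_left (sum_inl_le j T) hDm
  linarith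

open Classical in
/-- **Physical accounting**, version with a static parent map. -/
theorem phys_le [Fintype V] {X : Type*} [PseudoMetricSpace X] {E : Tok k → Finset V}
    {w : V → ℝ} {par : V → Option V} (h : Chain E w par) {B D : V → ℕ}
    (life : ∀ t v, v ∈ E (Sum.inr t) → B v ≤ t ∧ t < D v)
    {L : Tok k → X} {ctr : Option V → ℕ → X} {C1 C2 Dm : ℝ} {T : ℕ} (hC1 : 0 ≤ C1) (hDm : 0 ≤ Dm)
    (hprox : ∀ t < T, ∀ U : Option V, (∀ u, U = some u → u ∈ E (Sum.inr t)) →
      dist (L (Sum.inr t)) (ctr U t) ≤ C1 * ∑ v ∈ (E (Sum.inr t)).filter (fun v => par v = U), w v)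
    (htrav : ∀ v, ∑ u ∈ (range (T - 1)).filter (fun u => B v ≤ u ∧ u + 1 < D v),
      dist (ctr (some v) u) (ctr (some v) (u + 1)) ≤ C2 * w v)
    (hdm : ∀ i, ∀ t < T, dist (L (Sum.inl i)) (L (Sum.inr t)) ≤ Dm) (j : ℕ → Fin k) :
    ∑ t ∈ range T, dist (L (cpos j t (j t))) (L (Sum.inr t)) ≤
      C1 * (enW E w (fun t => cpos j t (j t)) T + exW E w (fun t => cpos j t (j t)) T) +
      C2 * enW E w (fun t => cpos j t (j t)) T +
      k * (Dm + ∑ u ∈ range (T - 1), dist (ctr none u) (ctr none (u + 1))) :=
  phys_le_of_move h.inl h.pos life hC1 hDm (fun s t hst ht => h.move_le hC1 hst (by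
    rintro r (rfl | rfl)
    · exact hprox _ (by omega)
    · exact hprox _ ht)) htrav hdm j

/-- `v` is strictly below the (optional) node `U`. -/
def Below (w : V → ℝ) (U : Option V) (v : V) : Prop := ∀ u, U = some u → w v < w u

open Classical in
/-- One physical move, version without parent map: all nodes of smaller weight are below. -/
theorem move_le_below {X : Type*} [PseudoMetricSpace X] {E : Tok k → Finset V} {w : V → ℝ}
    (hpos : ∀ v, 0 < w v) {L : Tok k → X} {ctr : Option V → ℕ → X} {C1 : ℝ} (hC1 : 0 ≤ C1)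
    {s t : ℕ} (hst : s ≤ t)
    (hprox : ∀ r, r = s ∨ r = t → ∀ U : Option V, (∀ u, U = some u → u ∈ E (Sum.inr r)) →
      dist (L (Sum.inr r)) (ctr U r) ≤
        C1 * ∑ v ∈ (E (Sum.inr r)).filter (fun v => Below w U v), w v) :
    ∃ U : Option V, (∀ u, U = some u → u ∈ E (Sum.inr s) ∧ u ∈ E (Sum.inr t)) ∧
      dist (L (Sum.inr s)) (L (Sum.inr t)) ≤
        C1 * ∑ v ∈ E (Sum.inr s) \ E (Sum.inr t), w v +
        C1 * ∑ v ∈ E (Sum.inr t) \ E (Sum.inr s), w v +
        ∑ u ∈ Ico s t, dist (ctr U u) (ctr U (u + 1)) := by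
  have hdeep : ∃ U : Option V, (∀ u, U = some u → u ∈ E (Sum.inr s) ∧ u ∈ E (Sum.inr t)) ∧
      ∀ v, v ∈ E (Sum.inr s) → v ∈ E (Sum.inr t) → ¬ Below w U v := by
    rcases (E (Sum.inr s) ∩ E (Sum.inr t)).eq_empty_or_nonempty with he | hne
    · refine ⟨none, by simp, ?_⟩
      intro v hv hv' _
      have : v ∈ E (Sum.inr s) ∩ E (Sum.inr t) := mem_inter.2 ⟨hv, hv'⟩
      rw [he] at this
      simp at this
    · obtain ⟨u, hu, hmin⟩ := exists_min_image _ w hne
      rw [mem_inter] at hu
      refine ⟨some u, ?_, ?_⟩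
      · intro u' hu'
        rw [← Option.some.inj hu']
        exact hu
      · intro v hv hv' hb
        have h1 := hb u rfl
        have h2 := hmin v (mem_inter.2 ⟨hv, hv'⟩)
        linarith
  obtain ⟨U, hU, hU2⟩ := hdeep
  refine ⟨U, hU, ?_⟩
  have h1 := hprox s (Or.inl rfl) U (fun u hu => (hU u hu).1)
  have h2 := hprox t (Or.inr rfl) U (fun u hu => (hU u hu).2)
  have h3 : ∑ v ∈ (E (Sum.inr s)).filter (fun v => Below w U v), w v ≤
      ∑ v ∈ E (Sum.inr s) \ E (Sum.inr t), w v := by
    apply sum_le_sum_of_subset_of_nonneg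
    · intro v hv
      rw [mem_filter] at hv
      exact mem_sdiff.2 ⟨hv.1, fun hv' => hU2 v hv.1 hv' hv.2⟩
    · intro v _ _; exact (hpos v).le
  have h4 : ∑ v ∈ (E (Sum.inr t)).filter (fun v => Below w U v), w v ≤
      ∑ v ∈ E (Sum.inr t) \ E (Sum.inr s), w v := by
    apply sum_le_sum_of_subset_of_nonneg
    · intro v hv
      rw [mem_filter] at hv
      exact mem_sdiff.2 ⟨hv.1, fun hv' => hU2 v hv' hv.1 hv.2⟩
    · intro v _ _; exact (hpos v).le
  have h5 := dist_le_Ico_sum_dist (fun u => ctr U u) hst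
  have h6 := mul_le_mul_of_nonneg_left h3 hC1
  have h7 := mul_le_mul_of_nonneg_left h4 hC1
  have h8 : dist (L (Sum.inr s)) (L (Sum.inr t)) ≤
      dist (L (Sum.inr s)) (ctr U s) + dist (ctr U s) (ctr U t) +
        dist (ctr U t) (L (Sum.inr t)) := dist_triangle4 _ _ _ _
  rw [dist_comm (ctr U t)] at h8
  linarith

open Classical in
/-- **Physical accounting**, version without parent map. -/
theorem phys_le_below [Fintype V] {X : Type*} [PseudoMetricSpace X] {E : Tok k → Finset V}
    {w : V → ℝ} (hinl : ∀ i, E (Sum.inl i) = ∅) (hpos : ∀ v, 0 < w v) {B D : V → ℕ}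
    (life : ∀ t v, v ∈ E (Sum.inr t) → B v ≤ t ∧ t < D v)
    {L : Tok k → X} {ctr : Option V → ℕ → X} {C1 C2 Dm : ℝ} {T : ℕ} (hC1 : 0 ≤ C1) (hDm : 0 ≤ Dm)
    (hprox : ∀ t < T, ∀ U : Option V, (∀ u, U = some u → u ∈ E (Sum.inr t)) →
      dist (L (Sum.inr t)) (ctr U t) ≤
        C1 * ∑ v ∈ (E (Sum.inr t)).filter (fun v => Below w U v), w v)
    (htrav : ∀ v, ∑ u ∈ (range (T - 1)).filter (fun u => B v ≤ u ∧ u + 1 < D v),
      dist (ctr (some v) u) (ctr (some v) (u + 1)) ≤ C2 * w v)
    (hdm : ∀ i, ∀ t < T, dist (L (Sum.inl i)) (L (Sum.inr t)) ≤ Dm) (j : ℕ → Fin k) :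
    ∑ t ∈ range T, dist (L (cpos j t (j t))) (L (Sum.inr t)) ≤
      C1 * (enW E w (fun t => cpos j t (j t)) T + exW E w (fun t => cpos j t (j t)) T) +
      C2 * enW E w (fun t => cpos j t (j t)) T +
      k * (Dm + ∑ u ∈ range (T - 1), dist (ctr none u) (ctr none (u + 1))) :=
  phys_le_of_move hinl hpos life hC1 hDm (fun s t hst ht => move_le_below hpos hC1 hst (by
    rintro r (rfl | rfl)
    · exact hprox _ (by omega)
    · exact hprox _ ht)) htrav hdm j

end Crest.Agent.R314.Ph
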