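import Mathlib
import Crest.Agent.R314.Ph2

/-!
R314, block PH (physical accounting), part 3: the expected physical cost of the algorithm of
Theorem A, and the resulting Bayes bound for one finite prior.
-/

set_option autoImplicit false
set_option linter.unusedSectionVars false

namespace Crest.Agent.R314.Ph

open Finset Function Crest.LogicCS.KServer Crest.Agent.R314.Tk

variable {k : ℕ} [NeZero k] {V : Type*} [Fintype V] [DecidableEq V]

theorem EnW_eq_enW (F : FData k V) (a : ℕ → Tok k) (T : ℕ) : F.EnW a T = enW F.E F.w a T := rfl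

theorem ExW_eq_exW (F : FData k V) (a : ℕ → Tok k) (T : ℕ) : F.ExW a T = exW F.E F.w a T := rfl

theorem X_eq (F : FData k V) (K : ℕ) (n : V → ℕ) :
    F.X K n = fun t => cpos (srv (F.mm K n)) t (srv (F.mm K n) t) := by
  funext t
  unfold FData.X
  rw [pos_eq_cpos]

variable {Y : Type*} [MetricSpace Y]

open Classical in
/-- The physical data for one request list: centres, proximity, travel. -/
structure PhData (F : FData k V) (par : V → Option V) (L : Tok k → Y) (ctr : Option V → ℕ → Y)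
    (C1 C2 Dm : ℝ) (T : ℕ) : Prop where
  chain : Chain F.E F.w par
  C1_nonneg : 0 ≤ C1
  C2_nonneg : 0 ≤ C2
  Dm_nonneg : 0 ≤ Dm
  prox : ∀ t < T, ∀ U : Option V, (∀ u, U = some u → u ∈ F.E (Sum.inr t)) →
      dist (L (Sum.inr t)) (ctr U t) ≤
        C1 * ∑ v ∈ (F.E (Sum.inr t)).filter (fun v => par v = U), F.w v
  trav : ∀ v, ∑ u ∈ (range (T - 1)).filter (fun u => F.B v ≤ u ∧ u + 1 < F.D v),
      dist (ctr (some v) u) (ctr (some v) (u + 1)) ≤ C2 * F.w v
  dm : ∀ i, ∀ t < T, dist (L (Sum.inl i)) (L (Sum.inr t)) ≤ Dm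
  inp : ∀ v t, Chain.InP F.E par v t → F.In v t

/-- Travel of the root centre. -/
noncomputable def rootTravel (ctr : Option V → ℕ → Y) (T : ℕ) : ℝ :=
  ∑ u ∈ range (T - 1), dist (ctr none u) (ctr none (u + 1))

theorem EE_phys_le {F : FData k V} {par : V → Option V} {s : Fin k → Y} {σ : List Y}
    {ctr : Option V → ℕ → Y} {C1 C2 Dm : ℝ}
    (h : PhData F par (loc s σ) ctr C1 C2 Dm σ.length) {K : ℕ} (hK : 0 < K) :
    F.EE K (fun n => phys s σ (F.X K n) σ.length) ≤
      (2 * C1 + C2) * F.EE K (fun n => F.EnW (F.X K n) σ.length) +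
        k * (Dm + rootTravel ctr σ.length) := by
  have h1 : ∀ n, phys s σ (F.X K n) σ.length ≤
      (2 * C1 + C2) * F.EnW (F.X K n) σ.length + k * (Dm + rootTravel ctr σ.length) := by
    intro n
    have h2 := phys_le h.chain F.life h.C1_nonneg h.Dm_nonneg h.prox h.trav h.dm
      (srv (F.mm K n))
    rw [← X_eq, ← EnW_eq_enW, ← ExW_eq_exW] at h2
    have h3 := F.ExW_le_EnW K n σ.length
    have h4 := mul_le_mul_of_nonneg_left h3 h.C1_nonneg
    have h5 : phys s σ (F.X K n) σ.length = ∑ t ∈ range σ.length,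
        dist (loc s σ (cpos (srv (F.mm K n)) t (srv (F.mm K n) t))) (loc s σ (Sum.inr t)) := by
      unfold phys
      rw [X_eq]
    rw [h5]
    unfold rootTravel
    linarith
  calc _ ≤ F.EE K (fun n => (2 * C1 + C2) * F.EnW (F.X K n) σ.length +
        k * (Dm + rootTravel ctr σ.length)) := F.EE_mono hK fun n _ => h1 n
    _ = _ := by rw [F.EE_add, F.EE_mul, F.EE_const hK]

open Classical in
/-- Theorem A plus physical accounting for one request list. -/
theorem EE_phys_le_cstep {F : FData k V} {par : V → Option V} {s : Fin k → Y} {σ : List Y}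
    {ctr : Option V → ℕ → Y} {C1 C2 Dm Lam β : ℝ}
    (h : PhData F par (loc s σ) ctr C1 C2 Dm σ.length) {K : ℕ} (hK : 0 < K)
    (hK2 : ∀ v, F.η v ≤ K) (hLam : 0 ≤ Lam) (hβ : 0 ≤ β)
    (H1 : ∀ t < σ.length, ∑ v ∈ F.E (Sum.inr t), F.η v ≤ Lam)
    (H2 : ∀ t < σ.length, ∑ v ∈ univ.filter (fun v => F.B v ≤ t ∧ t < F.D v ∧ F.In v t),
      Real.exp (-F.η v / 2) ≤ β) (j : ℕ → Fin k) :
    F.EE K (fun n => phys s σ (F.X K n) σ.length) ≤
      (2 * C1 + C2) * ((8 * Lam + 16 * β) * ∑ t ∈ range σ.length, F.cstep (cpos j t (j t)) t +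
        FData.err F.w F.η σ.length k K) + k * (Dm + rootTravel ctr σ.length) := by
  have H3 : ∀ t < σ.length, ∀ s < t,
      ∑ v ∈ (F.E (Sum.inr s)).filter (fun v => t < F.D v ∧ ¬ F.In v t), F.w v ≤
      1 / 8 * ∑ v ∈ F.E (Sum.inr s) \ F.E (Sum.inr t), F.w v := by
    intro t _ s' _
    refine le_trans ?_ (h.chain.H3 F.D s' t)
    apply sum_le_sum_of_subset_of_nonneg
    · intro v hv
      rw [mem_filter] at hv ⊢
      exact ⟨hv.1, hv.2.1, fun hi => hv.2.2 (h.inp v t hi)⟩
    · intro v _ _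
      exact (F.w_pos v).le
  have h1 := F.thmA hK hK2 hLam hβ H1 H2 H3 j
  have h2 := EE_phys_le h hK
  have h3 : 0 ≤ 2 * C1 + C2 := by
    have := h.C1_nonneg
    have := h.C2_nonneg
    linarith
  have h4 := mul_le_mul_of_nonneg_left h1 h3
  linarith

theorem err_mono (w η : V → ℝ) (hw : ∀ v, 0 ≤ w v) (hη : ∀ v, 0 ≤ η v) {T T' : ℕ} (hT : T ≤ T')
    (k K : ℕ) : FData.err w η T k K ≤ FData.err w η T' k K := by
  unfold FData.err
  apply mul_le_mul_of_nonneg_left _ (by norm_num)
  apply sum_le_sum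
  intro v _
  apply mul_le_mul_of_nonneg_left _ (hw v)
  have h1 : (T : ℝ) ≤ T' := by exact_mod_cast hT
  have h2 : 0 ≤ (2 * η v + 3) / (K : ℝ) := by
    have := hη v
    positivity
  have h3 : (0 : ℝ) ≤ k + 1 := by positivity
  gcongr

open Classical in
/-- **Assembly for one finite prior.** `J i` is the server sequence of the comparator `q i`. -/
theorem bayes_of_system {F : List Y → FData k V} {w η : V → ℝ} (hA : Adapted F w η)
    {s : Fin k → Y} {par : V → Option V} {ctr : List Y → Option V → ℕ → Y}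
    {C1 C2 Dm Lam β : ℝ} (hLam : 0 ≤ Lam) (hβ : 0 ≤ β)
    {ι : Type} [Fintype ι] (p : ι → ℝ) (hp : ∀ i, 0 ≤ p i) (hp1 : ∑ i, p i = 1)
    (q : ι → List (Y × Fin k))
    (h : ∀ i, PhData (F ((q i).map Prod.fst)) par (loc s ((q i).map Prod.fst))
      (ctr ((q i).map Prod.fst)) C1 C2 Dm (q i).length)
    (H1 : ∀ i, ∀ t < (q i).length,
      ∑ v ∈ (F ((q i).map Prod.fst)).E (Sum.inr t), η v ≤ Lam)
    (H2 : ∀ i, ∀ t < (q i).length, ∑ v ∈ univ.filter (fun v =>
      (F ((q i).map Prod.fst)).B v ≤ t ∧ t < (F ((q i).map Prod.fst)).D v ∧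
        (F ((q i).map Prod.fst)).In v t), Real.exp (-η v / 2) ≤ β) :
    ∃ d : DPol Y k, ∑ i, p i * dcost d s ((q i).map Prod.fst) ≤
      (2 * C1 + C2) * (8 * Lam + 16 * β) * ∑ i, p i * ∑ t ∈ range (q i).length,
        (F ((q i).map Prod.fst)).cstep (cpos (srvs (q i)) t (srvs (q i) t)) t +
      k * ∑ i, p i * rootTravel (ctr ((q i).map Prod.fst)) (q i).length + (k * Dm + 1) := by
  set T : ℕ := univ.sup fun i => (q i).length with hTdef
  have hT : ∀ i, (q i).length ≤ T := fun i => le_sup (f := fun i => (q i).length) (mem_univ i)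
  rcases isEmpty_or_nonempty ι with hι | ⟨⟨i0⟩⟩
  · exfalso
    rw [univ_eq_empty, sum_empty] at hp1
    exact zero_ne_one hp1
  have hη8 : ∀ v, 8 ≤ η v := fun v => by
    rw [← hA.η_eq ((q i0).map Prod.fst)]; exact (F _).η_ge v
  have hw0 : ∀ v, 0 ≤ w v := fun v => by
    rw [← hA.w_eq ((q i0).map Prod.fst)]; exact ((F _).w_pos v).le
  have hC : 0 ≤ 2 * C1 + C2 := by
    have := (h i0).C1_nonneg
    have := (h i0).C2_nonneg
    linarith
  obtain ⟨K, hK, hKη, herr⟩ := err_small w η T k (ε := 1 / (2 * C1 + C2 + 1)) (by positivity)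
  obtain ⟨d, hd⟩ := exists_dpol hA hK hη8 s p q
  refine ⟨d, hd.trans ?_⟩
  have hi : ∀ i, (F ((q i).map Prod.fst)).EE K (fun n =>
        phys s ((q i).map Prod.fst) ((F ((q i).map Prod.fst)).X K n) (q i).length) ≤
      (2 * C1 + C2) * (8 * Lam + 16 * β) * ∑ t ∈ range (q i).length,
        (F ((q i).map Prod.fst)).cstep (cpos (srvs (q i)) t (srvs (q i) t)) t +
      k * rootTravel (ctr ((q i).map Prod.fst)) (q i).length + (k * Dm + 1) := by
    intro i
    have hl : ((q i).map Prod.fst).length = (q i).length := List.length_map _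
    have h1 := EE_phys_le_cstep (σ := (q i).map Prod.fst) (s := s) (Lam := Lam) (β := β)
      (by rw [hl]; exact h i) hK (by rw [hA.η_eq]; exact hKη) hLam hβ
      (by rw [hA.η_eq, hl]; exact H1 i) (by rw [hA.η_eq, hl]; exact H2 i) (srvs (q i))
    rw [hl, hA.w_eq, hA.η_eq] at h1
    have h2 := err_mono w η hw0 (fun v => by linarith [hη8 v]) (hT i) k K
    have h3 : (2 * C1 + C2) * FData.err w η (q i).length k K ≤ 1 := by
      calc (2 * C1 + C2) * FData.err w η (q i).length k K ≤
          (2 * C1 + C2) * (1 / (2 * C1 + C2 + 1)) :=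
            mul_le_mul_of_nonneg_left (h2.trans herr) hC
        _ ≤ 1 := by
          rw [mul_one_div, div_le_one (by positivity)]
          linarith
    linarith
  calc _ ≤ ∑ i, p i * ((2 * C1 + C2) * (8 * Lam + 16 * β) * ∑ t ∈ range (q i).length,
        (F ((q i).map Prod.fst)).cstep (cpos (srvs (q i)) t (srvs (q i) t)) t +
      k * rootTravel (ctr ((q i).map Prod.fst)) (q i).length + (k * Dm + 1)) :=
        sum_le_sum fun i _ => mul_le_mul_of_nonneg_left (hi i) (hp i)
    _ = _ := by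
      have e : ∀ (a b c : ℝ) (x y : ι → ℝ), ∑ i, p i * (a * x i + b * y i + c) =
          a * ∑ i, p i * x i + b * ∑ i, p i * y i + c := by
        intro a b c x y
        calc ∑ i, p i * (a * x i + b * y i + c) =
            ∑ i, (a * (p i * x i) + b * (p i * y i) + c * p i) :=
              sum_congr rfl fun i _ => by ring
          _ = _ := by
            rw [sum_add_distrib, sum_add_distrib, ← mul_sum, ← mul_sum, ← mul_sum, hp1, mul_one]
      exact e _ _ _ _ _

end Crest.Agent.R314.Ph
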